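import Crest.Agent.R240.Defs

/-! Block A1: test functions and the recursive Sobolev norms `hs` (all by induction on `n`, generalising the function). -/

set_option autoImplicit false
set_option maxSynthPendingDepth 3
set_option linter.unusedSectionVars false
set_option linter.unusedVariables false
open MeasureTheory Filter Set Metric
open scoped ENNReal NNReal Topology ContDiff InnerProductSpace InnerProduct

noncomputable section
namespace Crest.Agent.R240

variable {G G₁ G₂ H : Type*} [NormedAddCommGroup G] [NormedSpace ℝ G] [FiniteDimensional ℝ G]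
  [NormedAddCommGroup G₁] [NormedSpace ℝ G₁] [FiniteDimensional ℝ G₁] [NormedAddCommGroup G₂]
  [NormedSpace ℝ G₂] [FiniteDimensional ℝ G₂] [NormedAddCommGroup H] [NormedSpace ℝ H]
  [FiniteDimensional ℝ H]

theorem Tst.mono {ρ ρ' : ℝ} {u : E4 → G} (h : Tst ρ u) (hρ : ρ ≤ ρ') : Tst ρ' u := by
  exact ⟨h.1, fun z hz => h.2 z (hρ.trans_lt hz)⟩

theorem Tst.zero (ρ : ℝ) : Tst ρ (0 : E4 → G) := by
  exact ⟨contDiff_const, fun _ _ => rfl⟩

theorem Tst.add {ρ : ℝ} {u v : E4 → G} (hu : Tst ρ u) (hv : Tst ρ v) : Tst ρ (u + v) := by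
  exact ⟨hu.1.add hv.1, fun z hz => by simp [hu.2 z hz, hv.2 z hz]⟩

theorem Tst.sub {ρ : ℝ} {u v : E4 → G} (hu : Tst ρ u) (hv : Tst ρ v) : Tst ρ (u - v) := by
  exact ⟨hu.1.sub hv.1, fun z hz => by simp [hu.2 z hz, hv.2 z hz]⟩

theorem Tst.smul {ρ : ℝ} {u : E4 → G} (hu : Tst ρ u) (c : ℝ) : Tst ρ (c • u) := by
  exact ⟨hu.1.const_smul c, fun z hz => by simp [hu.2 z hz]⟩

theorem Tst.sum {ρ : ℝ} {κ : Type*} (s : Finset κ) {u : κ → E4 → G} (hu : ∀ i ∈ s, Tst ρ (u i)) :
    Tst ρ (∑ i ∈ s, u i) := by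
  classical
  induction s using Finset.induction_on with
  | empty => simpa using Tst.zero ρ
  | insert a s ha ih =>
    rw [Finset.sum_insert ha]
    exact (hu a (Finset.mem_insert_self _ _)).add (ih fun i hi => hu i (Finset.mem_insert_of_mem hi))

theorem Tst.clm {ρ : ℝ} {u : E4 → G₁} (hu : Tst ρ u) (B : G₁ →L[ℝ] G₂) : Tst ρ fun z => B (u z) := by
  exact ⟨B.contDiff.comp hu.1, fun z hz => by simp [hu.2 z hz]⟩

theorem Tst.hcs {ρ : ℝ} {u : E4 → G} (hu : Tst ρ u) : HasCompactSupport u := by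
  refine HasCompactSupport.intro (isCompact_closedBall (0 : E4) ρ) fun z hz => hu.2 z ?_
  simpa using hz

theorem a1_fderiv_apply {ρ : ℝ} {u : E4 → G} (hu : Tst ρ u) (a : E4) :
    Tst ρ fun z => fderiv ℝ u z a := by
  refine ⟨(hu.1.fderiv_right (m := ∞) (by norm_cast)).clm_apply contDiff_const, fun z hz => ?_⟩
  have h : u =ᶠ[𝓝 z] fun _ => 0 :=
    ((isOpen_lt continuous_const continuous_norm).eventually_mem hz).mono fun y hy => hu.2 y hy
  simp [h.fderiv_eq]

/-- The set `ρ < ‖z‖` is open, so the derivative vanishes there. -/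
theorem Tst.pd' {ρ : ℝ} {u : E4 → G} (hu : Tst ρ u) (μ : Fin 4) : Tst ρ (pd μ u) := by
  exact a1_fderiv_apply hu _

theorem Tst.fderiv_apply {ρ : ℝ} {u : E4 → G} (hu : Tst ρ u) (a : E4) : Tst ρ fun z => fderiv ℝ u z a := by
  exact a1_fderiv_apply hu a

theorem Tst.memLp {ρ : ℝ} {u : E4 → G} (hu : Tst ρ u) (p : ℝ≥0∞) : MemLp u p volume := by
  exact hu.1.continuous.memLp_of_hasCompactSupport hu.hcs

theorem Tst.integrable {ρ : ℝ} {u : E4 → G} (hu : Tst ρ u) : Integrable u volume := by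
  exact hu.1.continuous.integrable_of_hasCompactSupport hu.hcs

/-- A function which is smooth on `V` and vanishes outside a smaller ball is a test function. -/
theorem tst_of_contDiffOn {ρ : ℝ} {u : E4 → G} (hρ : ρ < 3) (hu : ContDiffOn ℝ ∞ u V)
    (h0 : ∀ z, ρ < ‖z‖ → u z = 0) : Tst ρ u := by
  refine ⟨contDiff_iff_contDiffAt.2 fun z => ?_, h0⟩
  by_cases hz : z ∈ V
  · exact hu.contDiffAt (isOpen_ball.mem_nhds hz)
  · have hz' : ρ < ‖z‖ := by
      have : ¬ ‖z‖ < 3 := by simpa [V] using hz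
      linarith [not_lt.1 this]
    have h : u =ᶠ[𝓝 z] fun _ => 0 :=
      ((isOpen_lt continuous_const continuous_norm).eventually_mem hz').mono fun y hy => h0 y hy
    exact contDiffAt_const.congr_of_eventuallyEq h

/-- `∫ ∂ u = 0` (`integral_fderiv_eq_zero`-type lemma / `integral_bilinear_hasLineDerivAt_right_eq_neg_left_of_integrable`). -/
theorem Tst.integral_fderiv {ρ : ℝ} {u : E4 → G} (hu : Tst ρ u) (a : E4) : ∫ z, fderiv ℝ u z a = 0 := by
  have h := integral_smul_fderiv_eq_neg_fderiv_smul_of_integrable (μ := (volume : Measure E4))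
    (f := fun _ : E4 => (1 : ℝ)) (g := u) (v := a) (by simp)
    (by simpa using (hu.fderiv_apply a).integrable) (by simpa using hu.integrable)
    (fun _ _ => differentiableAt_const _) fun x _ => (hu.1.differentiable (by simp)) x
  simpa using h

theorem sum_ee (a : E4) : ∑ μ : Fin 4, a μ • ee μ = a := by
  ext i
  simp [ee, Pi.single_apply]

theorem norm_ee (μ : Fin 4) : ‖ee μ‖ = 1 := by
  simp [ee]

theorem norm_le_sum_ee (B : E4 →L[ℝ] G) : ‖B‖ ≤ ∑ μ : Fin 4, ‖B (ee μ)‖ := by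
  refine B.opNorm_le_bound (Finset.sum_nonneg fun _ _ => norm_nonneg _) fun a => ?_
  conv_lhs => rw [← sum_ee a]
  rw [map_sum, Finset.sum_mul]
  refine (norm_sum_le _ _).trans (Finset.sum_le_sum fun μ _ => ?_)
  rw [map_smul, norm_smul, mul_comm]
  exact mul_le_mul_of_nonneg_left (PiLp.norm_apply_le a μ) (norm_nonneg _)

theorem pd_add {ρ : ℝ} {u v : E4 → G} (hu : Tst ρ u) (hv : Tst ρ v) (μ : Fin 4) :
    pd μ (u + v) = pd μ u + pd μ v := by
  funext z
  simp [pd, fderiv_add (hu.1.differentiable (by simp) z) (hv.1.differentiable (by simp) z)]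

theorem pd_smul {ρ : ℝ} {u : E4 → G} (hu : Tst ρ u) (c : ℝ) (μ : Fin 4) : pd μ (c • u) = c • pd μ u := by
  funext z
  simp [pd, fderiv_const_smul (hu.1.differentiable (by simp) z)]

theorem pd_comm {u : E4 → G} (hu : ContDiff ℝ ∞ u) (μ ν : Fin 4) : pd μ (pd ν u) = pd ν (pd μ u) := by
  funext z
  have h1 : DifferentiableAt ℝ (fderiv ℝ u) z :=
    (hu.fderiv_right (m := ∞) (by norm_cast)).differentiable (by simp) z
  have h2 : ∀ a b : E4, fderiv ℝ (fun y => fderiv ℝ u y a) z b = fderiv ℝ (fderiv ℝ u) z b a :=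
    fun a b => by rw [fderiv_clm_apply h1 (differentiableAt_const _)]; simp
  change fderiv ℝ (fun y => fderiv ℝ u y (ee ν)) z (ee μ) = fderiv ℝ (fun y => fderiv ℝ u y (ee μ)) z (ee ν)
  rw [h2, h2]
  exact (hu.contDiffAt.isSymmSndFDerivAt (by simp; norm_cast)).eq _ _

theorem hs_nonneg (n : ℕ) {ε : ℝ} (hε : 0 ≤ ε) (u : E4 → G) : 0 ≤ hs n ε u := by
  induction n generalizing u with
  | zero => exact lpNorm_nonneg
  | succ n ih => exact add_nonneg lpNorm_nonneg (mul_nonneg hε (Finset.sum_nonneg fun _ _ => ih _))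

theorem hs_zero_fun (n : ℕ) (ε : ℝ) : hs n ε (0 : E4 → G) = 0 := by
  induction n with
  | zero => simp [hs]
  | succ n ih =>
    have : ∀ μ, pd μ (0 : E4 → G) = 0 := fun μ => by funext z; simp [pd]
    simp [hs, this, ih]

theorem hs_add_le (n : ℕ) {ε ρ : ℝ} (hε : 0 ≤ ε) {u v : E4 → G} (hu : Tst ρ u) (hv : Tst ρ v) :
    hs n ε (u + v) ≤ hs n ε u + hs n ε v := by
  induction n generalizing u v with
  | zero => exact lpNorm_add_le (hu.memLp 2) (by norm_num)
  | succ n ih =>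
    simp only [hs, pd_add hu hv]
    have h1 := lpNorm_add_le (g := v) (hu.memLp 2) (by norm_num)
    have h2 := mul_le_mul_of_nonneg_left
      (Finset.sum_le_sum fun μ (_ : μ ∈ Finset.univ) => ih (hu.pd' μ) (hv.pd' μ)) hε
    rw [Finset.sum_add_distrib] at h2
    linarith

theorem hs_smul (n : ℕ) (ε : ℝ) {ρ : ℝ} {u : E4 → G} (hu : Tst ρ u) (c : ℝ) :
    hs n ε (c • u) = |c| * hs n ε u := by
  induction n generalizing u with
  | zero => simp [hs, lpNorm_const_smul]
  | succ n ih =>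
    simp only [hs, pd_smul hu, lpNorm_const_smul, fun μ => ih (hu.pd' μ), ← Finset.mul_sum,
      coe_nnnorm, Real.norm_eq_abs]
    ring

theorem hs_sub_le (n : ℕ) {ε ρ : ℝ} (hε : 0 ≤ ε) {u v : E4 → G} (hu : Tst ρ u) (hv : Tst ρ v) :
    hs n ε (u - v) ≤ hs n ε u + hs n ε v := by
  have h := hs_add_le n hε hu (hv.smul (-1))
  rw [hs_smul n ε hv] at h
  simpa [sub_eq_add_neg] using h

theorem hs_sum_le (n : ℕ) {ε ρ : ℝ} (hε : 0 ≤ ε) {κ : Type*} (s : Finset κ) {u : κ → E4 → G}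
    (hu : ∀ i ∈ s, Tst ρ (u i)) : hs n ε (∑ i ∈ s, u i) ≤ ∑ i ∈ s, hs n ε (u i) := by
  classical
  induction s using Finset.induction_on with
  | empty => simp [hs_zero_fun]
  | insert a s ha ih =>
    rw [Finset.sum_insert ha, Finset.sum_insert ha]
    have h := fun i hi => hu i (Finset.mem_insert_of_mem hi)
    exact (hs_add_le n hε (hu a (Finset.mem_insert_self _ _)) (Tst.sum s h)).trans
      (add_le_add le_rfl (ih h))

theorem hs_clm (n : ℕ) {ε ρ : ℝ} (hε : 0 ≤ ε) {u : E4 → G₁} (hu : Tst ρ u) (B : G₁ →L[ℝ] G₂) :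
    hs n ε (fun z => B (u z)) ≤ ‖B‖ * hs n ε u := by
  have h0 : ∀ {u : E4 → G₁}, Tst ρ u →
      lpNorm (fun z => B (u z)) 2 volume ≤ ‖B‖ * lpNorm u 2 volume := fun {u} hu => by
    have h1 := lpNorm_mono_real (f := fun z => B (u z)) (g := ‖B‖ • fun z => ‖u z‖)
      ((hu.memLp 2).norm.const_smul _) fun z => B.le_opNorm _
    rw [lpNorm_const_smul, lpNorm_norm (hu.memLp 2).1] at h1
    simpa using h1
  induction n generalizing u with
  | zero => exact h0 hu
  | succ n ih =>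
    have h1 : ∀ μ, pd μ (fun z => B (u z)) = fun z => B (pd μ u z) := fun μ => by
      funext z
      simp only [pd]
      exact congrArg (fun L : E4 →L[ℝ] G₂ => L (ee μ))
        (B.hasFDerivAt.comp z (hu.1.differentiable (by simp) z).hasFDerivAt).fderiv
    simp only [hs, h1]
    have h2 := mul_le_mul_of_nonneg_left
      (Finset.sum_le_sum fun μ (_ : μ ∈ Finset.univ) => ih (hu.pd' μ)) hε
    rw [← Finset.mul_sum] at h2
    nlinarith [h0 hu]

theorem hs_mono {n m : ℕ} (h : n ≤ m) {ε : ℝ} (hε : 0 ≤ ε) (u : E4 → G) : hs n ε u ≤ hs m ε u := by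
  induction n generalizing m u with
  | zero =>
    cases m with
    | zero => exact le_rfl
    | succ m => exact le_add_of_nonneg_right (mul_nonneg hε (Finset.sum_nonneg fun _ _ => hs_nonneg _ hε _))
  | succ n ih =>
    cases m with
    | zero => omega
    | succ m =>
      exact add_le_add le_rfl (mul_le_mul_of_nonneg_left
        (Finset.sum_le_sum fun μ _ => ih (by omega) _) hε)

theorem hs_pd_le (n : ℕ) {ε : ℝ} (hε : 0 ≤ ε) (u : E4 → G) (μ : Fin 4) :
    ε * hs n ε (pd μ u) ≤ hs (n + 1) ε u := by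
  refine le_trans ?_ (le_add_of_nonneg_left lpNorm_nonneg)
  exact mul_le_mul_of_nonneg_left (Finset.single_le_sum (f := fun μ => hs n ε (pd μ u))
    (fun _ _ => hs_nonneg _ hε _) (Finset.mem_univ μ)) hε

theorem hs_mono_eps (n : ℕ) {ε ε' : ℝ} (hε : 0 ≤ ε) (h : ε ≤ ε') (u : E4 → G) : hs n ε u ≤ hs n ε' u := by
  induction n generalizing u with
  | zero => exact le_rfl
  | succ n ih =>
    exact add_le_add le_rfl (mul_le_mul h (Finset.sum_le_sum fun μ _ => ih _)
      (Finset.sum_nonneg fun _ _ => hs_nonneg _ hε _) (hε.trans h))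

theorem hs_scale (n : ℕ) {ε : ℝ} (hε : 0 < ε) (h1 : ε ≤ 1) (u : E4 → G) :
    ε ^ n * hs n 1 u ≤ hs n ε u := by
  induction n generalizing u with
  | zero => simp [hs]
  | succ n ih =>
    simp only [hs, one_mul, mul_add]
    refine add_le_add (mul_le_of_le_one_left lpNorm_nonneg (pow_le_one₀ hε.le h1)) ?_
    rw [pow_succ', mul_assoc, Finset.mul_sum]
    exact mul_le_mul_of_nonneg_left (Finset.sum_le_sum fun μ _ => ih _) hε.le

theorem hs_split (n : ℕ) {δ : ℝ} (hδ : 0 ≤ δ) (u : E4 → G) :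
    hs n δ u ≤ ∑ j ∈ Finset.range (n + 1), δ ^ j * hs j 1 u := by
  induction n generalizing u with
  | zero => simp [hs]
  | succ n ih =>
    rw [Finset.sum_range_succ', pow_zero, one_mul, add_comm (∑ _ ∈ _, _), hs, hs]
    refine add_le_add le_rfl ?_
    refine (mul_le_mul_of_nonneg_left
      (Finset.sum_le_sum fun μ (_ : μ ∈ Finset.univ) => ih (pd μ u)) hδ).trans ?_
    rw [Finset.sum_comm, Finset.mul_sum]
    refine Finset.sum_le_sum fun j _ => ?_
    rw [← Finset.mul_sum, ← mul_assoc, ← pow_succ']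
    refine mul_le_mul_of_nonneg_left ?_ (by positivity)
    simp only [hs, one_mul]
    exact le_add_of_nonneg_left lpNorm_nonneg

theorem hs_tendsto (n : ℕ) (u : E4 → G) :
    Tendsto (fun ε => hs n ε u) (𝓝[>] 0) (𝓝 (lpNorm u 2 volume)) := by
  induction n generalizing u with
  | zero => exact tendsto_const_nhds
  | succ n ih =>
    have h0 : Tendsto (fun ε : ℝ => ε) (𝓝[>] 0) (𝓝 0) := tendsto_id.mono_left nhdsWithin_le_nhds
    have := (h0.mul (tendsto_finsetSum Finset.univ fun μ _ => ih (pd μ u))).const_add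
      (lpNorm u 2 volume)
    simpa [hs] using this

/-- Cauchy-Schwarz. -/
theorem integral_mul_le_lpNorm {X : Type*} [MeasurableSpace X] {ν : Measure X} {f g : X → ℝ}
    (hf : MemLp f 2 ν) (hg : MemLp g 2 ν) : ∫ x, |f x * g x| ∂ν ≤ lpNorm f 2 ν * lpNorm g 2 ν := by
  have h := integral_mul_norm_le_Lp_mul_Lq (μ := ν) (f := f) (g := g) Real.HolderConjugate.two_two
    (by simpa using hf) (by simpa using hg)
  rw [lpNorm_eq_integral_norm_rpow_toReal (by norm_num) (by norm_num) hf.1,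
    lpNorm_eq_integral_norm_rpow_toReal (by norm_num) (by norm_num) hg.1]
  simpa [abs_mul] using h

theorem lpNorm_sq {X : Type*} [MeasurableSpace X] {ν : Measure X} {f : X → G} (hf : MemLp f 2 ν) :
    lpNorm f 2 ν ^ 2 = ∫ x, ‖f x‖ ^ 2 ∂ν := by
  rw [lpNorm_eq_integral_norm_rpow_toReal (by norm_num) (by norm_num) hf.1]
  have h : 0 ≤ ∫ x, ‖f x‖ ^ 2 ∂ν := integral_nonneg fun _ => by positivity
  simp only [ENNReal.toReal_ofNat, Real.rpow_ofNat]
  exact Real.rpow_inv_natCast_pow h two_ne_zero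

end Crest.Agent.R240
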