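import Crest.Agent.R240.A6

/-! Block A10: coordinate calculus of forms. -/

set_option autoImplicit false
set_option maxSynthPendingDepth 3
set_option linter.unusedSectionVars false
set_option linter.unusedVariables false
open MeasureTheory Filter Set Metric
open scoped ENNReal NNReal Topology ContDiff InnerProductSpace InnerProduct

noncomputable section
namespace Crest.Agent.R240

variable {G G₁ G₂ H : Type*} [NormedAddCommGroup G] [NormedSpace ℝ G] [FiniteDimensional ℝ G]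
  [NormedAddCommGroup G₁] [NormedSpace ℝ G₁] [FiniteDimensional ℝ G₁] [NormedAddCommGroup G₂]
  [NormedSpace ℝ G₂] [FiniteDimensional ℝ G₂] [NormedAddCommGroup H] [NormedSpace ℝ H]
  [FiniteDimensional ℝ H]

theorem d1_apply (γ : E4 → E4 →L[ℝ] ℝ) (z a c : E4) : d1 γ z a c = fderiv ℝ γ z a c - fderiv ℝ γ z c a := by
  rfl

theorem a10a_sum : ∃ B : Fin 4 → (E4 →L[ℝ] ℝ) →L[ℝ] Bil E4, ∀ γ, d1 γ = ∑ μ, fun z => B μ (pd μ γ z) := by
  refine ⟨fun μ => ContinuousLinearMap.smulRightL ℝ E4 (E4 →L[ℝ] ℝ) (EuclideanSpace.proj μ) -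
    flp.comp (ContinuousLinearMap.smulRightL ℝ E4 (E4 →L[ℝ] ℝ) (EuclideanSpace.proj μ)), fun γ => ?_⟩
  have h : ∀ z a c, fderiv ℝ γ z a c = ∑ μ, a μ * pd μ γ z c := fun z a c => by
    conv_lhs => rw [← sum_ee a]
    simp [pd]
  ext z a c
  rw [d1_apply, h z a, h z c, ← Finset.sum_sub_distrib]
  simp

theorem Tst.d1' {ρ : ℝ} {γ : E4 → E4 →L[ℝ] ℝ} (h : Tst ρ γ) : Tst ρ (d1 γ) := by
  obtain ⟨B, hB⟩ := a10a_sum
  rw [hB]
  exact Tst.sum _ fun μ _ => (h.pd' μ).clm (B μ)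

theorem hs_d1 (n : ℕ) : ∃ C : ℝ, 0 ≤ C ∧ ∀ γ : E4 → E4 →L[ℝ] ℝ, Tst 3 γ → hs n 1 (d1 γ) ≤ C * hs (n + 1) 1 γ := by
  obtain ⟨B, hB⟩ := a10a_sum
  refine ⟨∑ μ, ‖B μ‖, Finset.sum_nonneg fun _ _ => norm_nonneg _, fun γ h => ?_⟩
  rw [hB, Finset.sum_mul]
  refine (hs_sum_le n zero_le_one _ fun μ _ => (h.pd' μ).clm (B μ)).trans (Finset.sum_le_sum fun μ _ => ?_)
  exact (hs_clm n zero_le_one (h.pd' μ) (B μ)).trans (mul_le_mul_of_nonneg_left
    ((one_mul _).ge.trans (hs_pd_le n zero_le_one γ μ)) (norm_nonneg _))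

/-- Symmetry of second derivatives. -/
theorem dcyc_d1 {γ : E4 → E4 →L[ℝ] ℝ} {z : E4} (h : ContDiffAt ℝ ∞ γ z) (a c e : E4) :
    dcyc (d1 γ) z a c e = 0 := by
  have h1 := ((h.fderiv_right (m := ∞) (by norm_cast)).differentiableAt (by simp)).hasFDerivAt
  have h2 : HasFDerivAt (d1 γ) _ z := h1.sub (flp.hasFDerivAt.comp z h1)
  have h3 := fun a c e => congrArg (· e) ((h.isSymmSndFDerivAt (by simp; norm_cast)).eq a c)
  simp only [dcyc, h2.fderiv, sub_apply, ContinuousLinearMap.comp_apply, flp_apply]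
  linarith [h3 a c e, h3 c e a, h3 e a c]

theorem d1_smul {f : E4 → ℝ} {γ : E4 → E4 →L[ℝ] ℝ} {z : E4} (hf : DifferentiableAt ℝ f z)
    (hγ : DifferentiableAt ℝ γ z) : d1 (fun w => f w • γ w) z = f z • d1 γ z + wd (fderiv ℝ f z) (γ z) := by
  ext a c
  rw [d1_apply, fderiv_fun_smul hf hγ]
  simp [d1_apply]
  ring

/-- Naturality of `d` on skew two-forms (product rule, symmetry of `D²τ`, skewness). -/
theorem dcyc_pb {τ : E4 → E4} {β : E4 → Bil E4} {z : E4} (hτ : ContDiffAt ℝ ∞ τ z)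
    (hβ : ContDiffAt ℝ ∞ β (τ z)) (hs : ∀ a c, β (τ z) a c = -β (τ z) c a) (a c e : E4) :
    dcyc (fun w => pb (fderiv ℝ τ w) (β (τ w))) z a c e =
      dcyc β (τ z) (fderiv ℝ τ z a) (fderiv ℝ τ z c) (fderiv ℝ τ z e) := by
  have h1 := ((hτ.fderiv_right (m := ∞) (by norm_cast)).differentiableAt (by simp)).hasFDerivAt
  have h2 := (hβ.differentiableAt (by simp)).hasFDerivAt.comp z (hτ.differentiableAt (by simp)).hasFDerivAt
  have h3 : HasFDerivAt (fun w => pb (fderiv ℝ τ w) (β (τ w))) _ z :=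
    (((ContinuousLinearMap.compL ℝ E4 E4 ℝ).flip.hasFDerivAt.comp z h1).clm_comp (h2.clm_comp h1) :)
  have h4 := (hτ.isSymmSndFDerivAt (by simp; norm_cast)).eq
  simp only [dcyc, h3.fderiv, add_apply, ContinuousLinearMap.comp_apply,
    ContinuousLinearMap.compL_apply, ContinuousLinearMap.flip_apply, Function.comp_apply]
  rw [h4 c a, h4 e a, h4 e c]
  linarith [hs (fderiv ℝ τ z c) (fderiv ℝ (fderiv ℝ τ) z a e), hs (fderiv ℝ τ z e) (fderiv ℝ (fderiv ℝ τ) z a c),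
    hs (fderiv ℝ τ z a) (fderiv ℝ (fderiv ℝ τ) z c e)]

theorem a10b_app {γ : E4 → E4 →L[ℝ] G} {z : E4} (h : DifferentiableAt ℝ γ z) (a v : E4) :
    fderiv ℝ (fun z => γ z v) z a = fderiv ℝ γ z a v := by
  rw [fderiv_clm_apply h (differentiableAt_const v)]
  simp

theorem a10b_app2 {β : E4 → Bil E4} {z : E4} (h : DifferentiableAt ℝ β z) (a c e : E4) :
    fderiv ℝ (fun z => β z c e) z a = fderiv ℝ β z a c e := by
  rw [a10b_app (h.clm_apply (differentiableAt_const c)), a10b_app h]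

/-- Stokes: `dγ ∧ β = d(γ ∧ β) + γ ∧ dβ`; write `wedge4 (d1 γ z) (β z)` as a sum of four coordinate derivatives of test
functions plus terms `γ z (ee μ) * dcyc β z ..`; `Tst.integral_fderiv`. -/
theorem stokes {γ : E4 → E4 →L[ℝ] ℝ} (hγ : Tst (5 / 2) γ) {β : E4 → Bil E4} (hβ : ContDiffOn ℝ ∞ β V)
    (hs : ∀ z ∈ V, ∀ a c, β z a c = -β z c a) (hc : ∀ z ∈ V, ∀ a c e, dcyc β z a c e = 0) :
    ∫ z, wedge4 (d1 γ z) (β z) = 0 := by
  have hV : IsOpen V := isOpen_ball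
  have hu : ∀ v c e, Tst (5 / 2) fun z => γ z v * β z c e := fun v c e =>
    tst_of_contDiffOn (by norm_num) ((hγ.1.contDiffOn.clm_apply contDiffOn_const).mul
      ((hβ.clm_apply contDiffOn_const).clm_apply contDiffOn_const)) fun z hz => by simp [hγ.2 z hz]
  have hd : ∀ v c e a, ∀ z ∈ V, fderiv ℝ (fun z => γ z v * β z c e) z a =
      fderiv ℝ γ z a v * β z c e + γ z v * fderiv ℝ β z a c e := fun v c e a z hz => by
    have h1 := hγ.1.differentiable (by simp) z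
    have h2 := (hβ.contDiffAt (hV.mem_nhds hz)).differentiableAt (by simp)
    rw [fderiv_fun_mul (h1.clm_apply (differentiableAt_const v))
      ((h2.clm_apply (differentiableAt_const c)).clm_apply (differentiableAt_const e))]
    simp only [add_apply, smul_apply, smul_eq_mul, a10b_app h1, a10b_app2 h2]
    ring
  have key : ∀ v a c e, ∃ F : E4 → ℝ, Integrable F ∧ ∫ z, F z = 0 ∧ ∀ z, F z =
      fderiv ℝ γ z a v * β z c e + fderiv ℝ γ z c v * β z e a + fderiv ℝ γ z e v * β z a c := fun v a c e => by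
    have i1 := ((hu v c e).fderiv_apply a).integrable
    have i2 := ((hu v e a).fderiv_apply c).integrable
    have i3 := ((hu v a c).fderiv_apply e).integrable
    refine ⟨_, (i1.add i2).add i3, ?_, fun z => ?_⟩
    · rw [integral_add' (i1.add i2) i3, integral_add' i1 i2, (hu v c e).integral_fderiv,
        (hu v e a).integral_fderiv, (hu v a c).integral_fderiv]
      simp
    · simp only [Pi.add_apply]
      by_cases hz : z ∈ V
      · have := hc z hz a c e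
        unfold dcyc at this
        rw [hd _ _ _ _ z hz, hd _ _ _ _ z hz, hd _ _ _ _ z hz]
        linear_combination γ z v * this
      · have hz' : (5 / 2 : ℝ) < ‖z‖ := by
          rw [V, mem_ball_zero_iff, not_lt] at hz
          linarith
        simp [((hu _ _ _).fderiv_apply _).2 z hz', (hγ.fderiv_apply _).2 z hz']
  obtain ⟨F0, i0, e0, f0⟩ := key (ee 0) (ee 1) (ee 2) (ee 3)
  obtain ⟨F1, i1, e1, f1⟩ := key (ee 1) (ee 0) (ee 2) (ee 3)
  obtain ⟨F2, i2, e2, f2⟩ := key (ee 2) (ee 0) (ee 1) (ee 3)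
  obtain ⟨F3, i3, e3, f3⟩ := key (ee 3) (ee 0) (ee 1) (ee 2)
  have e : (fun z => wedge4 (d1 γ z) (β z)) = F1 - F0 + (F3 - F2) := funext fun z => by
    simp only [Pi.add_apply, Pi.sub_apply, f0, f1, f2, f3, wedge4, d1_apply]
    by_cases hz : z ∈ V
    · rw [hs z hz (ee 3) (ee 1), hs z hz (ee 3) (ee 0), hs z hz (ee 2) (ee 0)]
      ring
    · have hz' : (5 / 2 : ℝ) < ‖z‖ := by
        rw [V, mem_ball_zero_iff, not_lt] at hz
        linarith
      simp [(hγ.fderiv_apply _).2 z hz']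
  rw [e, integral_add' (i1.sub i0) (i3.sub i2), integral_sub' i1 i0, integral_sub' i3 i2, e0, e1, e2, e3]
  simp

/-- A closed current applied to a closed kernel gives a closed form: `HB.contDiffOn` for the families `Ψ a b`;
`fderiv σ x a b c = fderiv (σ · b c) x a`. -/
theorem closed_of_kernel {n : ℕ} {T : (E4 → Bil E4) →ₗ[ℝ] ℝ} (hT : HB n T)
    (hc : ∀ γ, Tst 2 γ → T (d1 γ) = 0) {O : Set E4} (hO : IsOpen O) {Ψ : E4 → E4 → E4 × E4 → Bil E4}
    (hΨ : ∀ a b, Fam O (Ψ a b)) {σ : E4 → Bil E4} (hσ : ∀ x ∈ O, ∀ a b, σ x a b = T fun y => Ψ a b (x, y))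
    (hd : ∀ a b c, ∃ Γ : E4 × E4 → E4 →L[ℝ] ℝ, Fam O Γ ∧ ∀ x ∈ O, ∀ y,
      fderiv ℝ (Ψ b c) (x, y) (a, 0) + fderiv ℝ (Ψ c a) (x, y) (b, 0) + fderiv ℝ (Ψ a b) (x, y) (c, 0) =
        d1 (fun y' => Γ (x, y')) y) :
    ContDiffOn ℝ ∞ σ O ∧ ∀ x ∈ O, ∀ a b c, dcyc σ x a b c = 0 := by
  have hsm : ContDiffOn ℝ ∞ σ O := contDiffOn_clm_apply.2 fun a => contDiffOn_clm_apply.2 fun b =>
    (hT.contDiffOn hO (hΨ a b)).1.congr fun x hx => hσ x hx a b
  refine ⟨hsm, fun x hx a b c => ?_⟩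
  have hdf := (hsm.contDiffAt (hO.mem_nhds hx)).differentiableAt (by simp)
  have h1 : ∀ a b c, fderiv ℝ σ x a b c = T fun y => fderiv ℝ (Ψ b c) (x, y) (a, 0) := fun a b c => by
    rw [← a10b_app2 hdf, ← (hT.contDiffOn hO (hΨ b c)).2 x hx a]
    congr 1
    exact EventuallyEq.fderiv_eq (eventually_of_mem (hO.mem_nhds hx) fun x' hx' => hσ x' hx' b c)
  obtain ⟨Γ, hΓ, e⟩ := hd a b c
  rw [dcyc, h1, h1, h1, ← map_add, ← map_add, ← hc _ (hΓ.tst hO hx)]
  congr 1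
  exact funext fun y => e x hx y

end Crest.Agent.R240
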