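import Crest.Agent.R240.A8
import Crest.Agent.R240.A10

/-! Block A11: measure theory of balls, a pull-back computation, positive functionals. -/

set_option autoImplicit false
set_option maxSynthPendingDepth 3
set_option linter.unusedSectionVars false
set_option linter.unusedVariables false
open MeasureTheory Filter Set Metric
open scoped ENNReal NNReal Topology ContDiff InnerProductSpace InnerProduct

noncomputable section
namespace Crest.Agent.R240


section Meas
variable {X : Type*} [PseudoMetricSpace X] [SecondCountableTopology X] [MeasurableSpace X] [BorelSpace X]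
  {ν μ : Measure X} [IsFiniteMeasure ν] [IsFiniteMeasure μ]

/-- Fubini for `(x, y) ↦ indicator {dist ≤ r} (τ y)` on `μ.prod ν`. -/
theorem swap_ball {τ : X → ℝ} (hτ : Integrable τ ν) (r : ℝ) :
    Integrable (fun x => ∫ y in closedBall x r, τ y ∂ν) μ ∧
      Integrable (fun y => τ y * μ.real (closedBall y r)) ν ∧
      ∫ x, (∫ y in closedBall x r, τ y ∂ν) ∂μ = ∫ y, τ y * μ.real (closedBall y r) ∂ν := by
  have hi : Integrable (Function.uncurry fun x y => ({p : X × X | dist p.2 p.1 ≤ r}).indicator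
      (fun p => τ p.2) (x, y)) (μ.prod ν) := (hτ.comp_snd μ).indicator (a8b_set r)
  have e1 : ∀ x, ∫ y, ({p : X × X | dist p.2 p.1 ≤ r}).indicator (fun p => τ p.2) (x, y) ∂ν =
      ∫ y in closedBall x r, τ y ∂ν := fun x => by
    rw [← integral_indicator measurableSet_closedBall]; rfl
  have e2 : ∀ y, ∫ x, ({p : X × X | dist p.2 p.1 ≤ r}).indicator (fun p => τ p.2) (x, y) ∂μ =
      τ y * μ.real (closedBall y r) := fun y => by
    rw [mul_comm, ← smul_eq_mul, ← setIntegral_const, ← integral_indicator measurableSet_closedBall]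
    refine integral_congr_ae (Eventually.of_forall fun x => ?_)
    simp only [indicator, mem_ofPred_eq, mem_closedBall, dist_comm x y]
  have h1 := hi.integral_prod_left
  have h2 := hi.integral_prod_right
  have h3 := integral_integral_swap hi
  simp only [Function.uncurry_apply_pair, e1, e2] at h1 h2 h3
  exact ⟨h1, h2, h3⟩

/-- Cauchy-Schwarz against the indicator of the ball (`integral_mul_le_lpNorm`). -/
theorem avg_le {c : ℝ} (hc : 0 ≤ c) (hν : ∀ x r, 0 < r → ν (closedBall x r) ≤ ENNReal.ofReal (c * r ^ 4))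
    {τ : X → ℝ} (h0 : ∀ x, 0 ≤ τ x) (hτ : MemLp τ 2 ν) (x : X) {r : ℝ} (hr : 0 < r) :
    0 ≤ ∫ y in closedBall x r, τ y ∂ν ∧ ∫ y in closedBall x r, τ y ∂ν ≤ Real.sqrt c * r ^ 2 * lpNorm τ 2 ν := by
  refine ⟨integral_nonneg h0, ?_⟩
  obtain ⟨h1, h2⟩ := a8b_mem (μ := ν) (f := (closedBall x r).indicator fun _ => (1 : ℝ))
    (aestronglyMeasurable_const.indicator measurableSet_closedBall) (B := Real.sqrt c * r ^ 2) (by positivity) (by
      rw [mul_pow, Real.sq_sqrt hc, ← pow_mul]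
      refine le_trans (le_of_eq ?_) (hν x r hr)
      rw [← lintegral_indicator_one measurableSet_closedBall]
      refine lintegral_congr fun y => ?_
      by_cases h : y ∈ closedBall x r <;> simp [h])
  refine le_trans (le_of_eq ?_) ((integral_mul_le_lpNorm h1 hτ).trans
    (mul_le_mul_of_nonneg_right h2 lpNorm_nonneg))
  rw [← integral_indicator measurableSet_closedBall]
  refine integral_congr_ae (Eventually.of_forall fun y => ?_)
  by_cases h : y ∈ closedBall x r <;> simp [h, abs_of_nonneg (h0 y)]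

/-- For `y ∈ closedBall x R`: `μ (B (x, R)) ≤ μ (B (y, 2R))`; `swap_ball` with `τ y * μ (B (y, 2R))`, `cross_tendsto`. -/
theorem cross2_tendsto {c C₀ : ℝ} (hc : 0 ≤ c) (hC : 0 < C₀)
    (hν : ∀ x r, 0 < r → ν (closedBall x r) ≤ ENNReal.ofReal (c * r ^ 4))
    (hμ : ∀ x r, 0 < r → μ.real (closedBall x r) ≤ c * r ^ 2) {τ : X → ℝ} (h0 : ∀ x, 0 ≤ τ x) (hτ : MemLp τ 2 ν) :
    (∀ r, Integrable (fun x => μ.real (closedBall x r) * ∫ y in closedBall x r, τ y ∂ν) ν) ∧
      Tendsto (fun r => (r ^ 7)⁻¹ * ∫ x, μ.real (closedBall x (C₀ * r)) * (∫ y in closedBall x (C₀ * r), τ y ∂ν) ∂ν)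
        (𝓝[>] 0) (𝓝 0) := by
  have hi : Integrable τ ν := hτ.integrable one_le_two
  have hint : ∀ r, Integrable (fun x => μ.real (closedBall x r) * ∫ y in closedBall x r, τ y ∂ν) ν := fun r =>
    (swap_ball (μ := ν) hi r).1.bdd_mul (c := μ.real univ) (mm_eq ν μ r).1.aestronglyMeasurable
      (Eventually.of_forall fun x => by
        rw [Real.norm_of_nonneg measureReal_nonneg]; exact measureReal_mono (subset_univ _))
  refine ⟨hint, ?_⟩
  have ht := (cross_tendsto hc (C₀ := 2 * C₀) (by positivity) hν hμ h0 hτ).const_mul (c * C₀ ^ 4)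
  rw [mul_zero] at ht
  refine squeeze_zero' ?_ ?_ ht
  · filter_upwards [self_mem_nhdsWithin] with r (hr : 0 < r)
    exact mul_nonneg (by positivity)
      (integral_nonneg fun x => mul_nonneg measureReal_nonneg (integral_nonneg h0))
  filter_upwards [self_mem_nhdsWithin] with r (hr : 0 < r)
  have hσ : Integrable (fun y => τ y * μ.real (closedBall y (2 * C₀ * r))) ν := (swap_ball hi _).2.1
  obtain ⟨s1, s2, s3⟩ := swap_ball (μ := ν) hσ (C₀ * r)
  have h1 : ∫ x, μ.real (closedBall x (C₀ * r)) * (∫ y in closedBall x (C₀ * r), τ y ∂ν) ∂ν ≤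
      ∫ x, (∫ y in closedBall x (C₀ * r), τ y * μ.real (closedBall y (2 * C₀ * r)) ∂ν) ∂ν := by
    refine integral_mono (hint _) s1 fun x => ?_
    simp only
    rw [← integral_const_mul]
    refine setIntegral_mono_on (hi.const_mul _).integrableOn hσ.integrableOn measurableSet_closedBall
      fun y hy => ?_
    rw [mul_comm]
    refine mul_le_mul_of_nonneg_left (measureReal_mono (closedBall_subset_closedBall' ?_)) (h0 y)
    rw [mem_closedBall'] at hy
    linarith
  have h2 : ∫ y, τ y * μ.real (closedBall y (2 * C₀ * r)) * ν.real (closedBall y (C₀ * r)) ∂ν ≤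
      ∫ y, τ y * μ.real (closedBall y (2 * C₀ * r)) * (c * (C₀ * r) ^ 4) ∂ν :=
    integral_mono s2 (hσ.mul_const _) fun y =>
      mul_le_mul_of_nonneg_left (ENNReal.toReal_le_of_le_ofReal (by positivity) (hν y _ (by positivity)))
        (mul_nonneg (h0 y) measureReal_nonneg)
  rw [s3] at h1
  refine (mul_le_mul_of_nonneg_left (h1.trans h2) (by positivity)).trans_eq ?_
  rw [← integral_const_mul, ← integral_const_mul]
  refine integral_congr_ae (Eventually.of_forall fun y => ?_)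
  simp only
  field_simp

/-- `lpNorm_avg_le`, `integral_mul_le_lpNorm`: the expression is `O(r)`. -/
theorem cross3_tendsto {c C₀ : ℝ} (hc : 0 ≤ c) (hC : 0 < C₀)
    (hν : ∀ x r, 0 < r → ν (closedBall x r) ≤ ENNReal.ofReal (c * r ^ 4)) {τ : X → ℝ} (h0 : ∀ x, 0 ≤ τ x)
    (hτ : MemLp τ 2 ν) :
    (∀ r, 0 < r → Integrable (fun x => τ x * ∫ y in closedBall x r, τ y ∂ν) ν) ∧
      Tendsto (fun r => (r ^ 3)⁻¹ * ∫ x, τ x * (∫ y in closedBall x (C₀ * r), τ y ∂ν) ∂ν) (𝓝[>] 0) (𝓝 0) := by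
  have key : ∀ r, 0 < r → MemLp (fun x => ∫ y in closedBall x r, τ y ∂ν) 2 ν ∧
      lpNorm (fun x => ∫ y in closedBall x r, τ y ∂ν) 2 ν ≤ c * r ^ 4 * lpNorm τ 2 ν := fun r hr => by
    simpa only [abs_of_nonneg (h0 _)] using lpNorm_avg_le hc hr (fun x => hν x r hr) hτ
  refine ⟨fun r hr => hτ.integrable_mul (key r hr).1, ?_⟩
  have ht : Tendsto (fun r : ℝ => c * C₀ ^ 4 * lpNorm τ 2 ν ^ 2 * r) (𝓝[>] 0) (𝓝 (c * C₀ ^ 4 * lpNorm τ 2 ν ^ 2 * 0)) :=
    ((continuous_const.mul continuous_id).tendsto 0).mono_left nhdsWithin_le_nhds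
  rw [mul_zero] at ht
  refine squeeze_zero' ?_ ?_ ht
  · filter_upwards [self_mem_nhdsWithin] with r (hr : 0 < r)
    exact mul_nonneg (by positivity) (integral_nonneg fun x => mul_nonneg (h0 x) (integral_nonneg h0))
  filter_upwards [self_mem_nhdsWithin] with r (hr : 0 < r)
  obtain ⟨k1, k2⟩ := key (C₀ * r) (by positivity)
  have h1 := (integral_mul_le_lpNorm hτ k1).trans (mul_le_mul_of_nonneg_left k2 lpNorm_nonneg)
  have h2 : ∫ x, τ x * (∫ y in closedBall x (C₀ * r), τ y ∂ν) ∂ν =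
      ∫ x, |τ x * (∫ y in closedBall x (C₀ * r), τ y ∂ν)| ∂ν :=
    integral_congr_ae (Eventually.of_forall fun x =>
      (abs_of_nonneg (mul_nonneg (h0 x) (integral_nonneg h0))).symm)
  rw [h2]
  refine (mul_le_mul_of_nonneg_left h1 (by positivity)).trans_eq ?_
  field_simp

/-- Weighted mass of the `r`-neighbourhood of the diagonal. -/
def m2 (ϖ : Measure X) (g : X → ℝ) (r : ℝ) : ℝ :=
  ∫ p in {p : X × X | dist p.1 p.2 ≤ r}, g p.1 * g p.2 ∂(ϖ.prod ϖ)

theorem a11b_set (r : ℝ) : MeasurableSet {p : X × X | dist p.1 p.2 ≤ r} :=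
  (isClosed_le (by fun_prop) continuous_const).measurableSet

theorem a11b_dens {Y : Type*} [MeasurableSpace Y] (ϖ : Measure Y) {f : Y → ℝ} (hf : Measurable f) (h0 : ∀ x, 0 ≤ f x)
    {s : Set Y} (hs : MeasurableSet s) : (ϖ.withDensity fun x => ENNReal.ofReal (f x)).real s = ∫ x in s, f x ∂ϖ := by
  rw [measureReal_def, withDensity_apply _ hs,
    integral_eq_lintegral_of_nonneg_ae (Eventually.of_forall h0) hf.aestronglyMeasurable]

theorem m2_one (r : ℝ) : m2 μ (fun _ => 1) r = mm μ μ r := by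
  simp [m2, mm]

/-- Fubini, `lpNorm_avg_le`, `integral_mul_le_lpNorm`. -/
theorem m2_le {c : ℝ} (hc : 0 ≤ c) (hν : ∀ x r, 0 < r → ν (closedBall x r) ≤ ENNReal.ofReal (c * r ^ 4))
    {g : X → ℝ} (h0 : ∀ x, 0 ≤ g x) (hg : MemLp g 2 ν) {r : ℝ} (hr : 0 < r) :
    m2 ν g r ≤ c * r ^ 4 * lpNorm g 2 ν ^ 2 := by
  have hi : Integrable g ν := hg.integrable one_le_two
  obtain ⟨h1, h2⟩ := lpNorm_avg_le hc hr (fun x => hν x r hr) hg
  rw [m2, ← integral_indicator (a11b_set r), integral_prod _ ((hi.mul_prod hi).indicator (a11b_set r))]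
  calc _ = ∫ x, |g x * ∫ y in closedBall x r, |g y| ∂ν| ∂ν := by
        refine integral_congr_ae (Eventually.of_forall fun x => ?_)
        simp only [abs_of_nonneg (h0 _)]
        rw [abs_of_nonneg (mul_nonneg (h0 x) (integral_nonneg h0)), ← integral_const_mul,
          ← integral_indicator measurableSet_closedBall]
        simp only [indicator, mem_closedBall', mem_ofPred_eq]
    _ ≤ lpNorm g 2 ν * (c * r ^ 4 * lpNorm g 2 ν) :=
        (integral_mul_le_lpNorm hg h1).trans (mul_le_mul_of_nonneg_left h2 lpNorm_nonneg)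
    _ = _ := by ring

/-- `lpNorm_ball_le` on `E4` for the finite measure `ϖ' = (μ.withDensity (ofReal ∘ g)).map p`; `mm ϖ' ϖ' (2r) ≤ m2 μ g' (2 L r)`.
(Or directly by Tonelli as in `lpNorm_ball_le`.) -/
theorem lpNorm_push_le : ∃ C : ℝ, 0 ≤ C ∧ ∀ (ϖ : Measure X) [IsFiniteMeasure ϖ] (p : X → E4) (g g' : X → ℝ) (L B r : ℝ),
    0 < r → Measurable p → Measurable g → Measurable g' → (∀ x, 0 ≤ g x ∧ g x ≤ g' x ∧ g' x ≤ B) →
    (∀ x y, g x ≠ 0 → g y ≠ 0 → dist x y ≤ L * ‖p x - p y‖) → 0 ≤ L →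
    lpNorm (fun y => ∫ ξ in {ξ | ‖p ξ - y‖ ≤ r}, g ξ ∂ϖ) 2 volume ≤ C * r ^ 2 * Real.sqrt (m2 ϖ g' (2 * L * r)) := by
  obtain ⟨c, hc, hv⟩ := vol_ball_E4
  refine ⟨√c, Real.sqrt_nonneg _, fun ϖ _ p g g' L B r hr hp hg hg' hb hL h0 => ?_⟩
  have hi : ∀ f : X → ℝ, Measurable f → (∀ x, 0 ≤ f x ∧ f x ≤ B) → Integrable f ϖ := fun f hf h =>
    Integrable.of_bound hf.aestronglyMeasurable B (Eventually.of_forall fun x => (abs_of_nonneg (h x).1).trans_le (h x).2)
  have i1 := hi g' hg' fun x => ⟨(hb x).1.trans (hb x).2.1, (hb x).2.2⟩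
  have := isFiniteMeasure_withDensity_ofReal (hi g hg fun x => ⟨(hb x).1, (hb x).2.1.trans (hb x).2.2⟩).2
  have h1 := (lpNorm_ball_le hc hr (fun x => hv x r hr) ((ϖ.withDensity fun x => ENNReal.ofReal (g x)).map p)).2
  have hS := (hp.prodMap hp) (a11b_set (2 * r))
  simp only [map_measureReal_apply hp measurableSet_closedBall, a11b_dens ϖ hg (fun x => (hb x).1)
    (hp measurableSet_closedBall)] at h1
  simp only [Set.preimage, mem_closedBall_iff_norm] at h1
  refine h1.trans (mul_le_mul_of_nonneg_left (Real.sqrt_le_sqrt ?_) (by positivity))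
  rw [mm, Measure.map_prod_map _ _ hp hp, map_measureReal_apply (hp.prodMap hp) (a11b_set _),
    prod_withDensity hg.ennreal_ofReal hg.ennreal_ofReal]
  simp only [← ENNReal.ofReal_mul (hb _).1]
  rw [a11b_dens _ (by fun_prop) (fun q => mul_nonneg (hb q.1).1 (hb q.2).1) hS, m2, ← integral_indicator hS,
    ← integral_indicator (a11b_set _)]
  refine integral_mono_of_nonneg (Eventually.of_forall fun q => indicator_nonneg
    (fun q _ => mul_nonneg (hb q.1).1 (hb q.2).1) q) ((i1.mul_prod i1).indicator (a11b_set _))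
    (Eventually.of_forall fun q => indicator_le' (fun q hq => ?_) (fun q _ => ?_) q)
  · have h2 := mul_le_mul (hb q.1).2.1 (hb q.2).2.1 (hb q.2).1 ((hb q.1).1.trans (hb q.1).2.1)
    by_cases h3 : g q.1 * g q.2 = 0
    · exact h3.trans_le (indicator_nonneg (fun q _ => mul_nonneg ((hb q.1).1.trans (hb q.1).2.1)
        ((hb q.2).1.trans (hb q.2).2.1)) q)
    refine h2.trans_eq (indicator_of_mem ?_ fun q : X × X => g' q.1 * g' q.2).symm
    exact (hL _ _ (left_ne_zero_of_mul h3) (right_ne_zero_of_mul h3)).trans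
      ((mul_le_mul_of_nonneg_left ((dist_eq_norm _ _).symm.trans_le hq) h0).trans_eq (by ring))
  · exact indicator_nonneg (fun q _ => mul_nonneg ((hb q.1).1.trans (hb q.1).2.1)
      ((hb q.2).1.trans (hb q.2).2.1)) q

end Meas

/-- A continuous function is integrable for a finite measure concentrated on a compact set. -/
theorem integrable_of_ae_compact {Y G : Type*} [TopologicalSpace Y] [T2Space Y] [SecondCountableTopology Y]
    [MeasurableSpace Y] [BorelSpace Y] [NormedAddCommGroup G] {ϖ : Measure Y} [IsFiniteMeasure ϖ] {K : Set Y}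
    (hK : IsCompact K) (h : ∀ᵐ y ∂ϖ, y ∈ K) {f : Y → G} (hf : Continuous f) : Integrable f ϖ := by
  have h1 : IntegrableOn f K ϖ := hf.continuousOn.integrableOn_compact hK
  rwa [IntegrableOn, Measure.restrict_eq_self_of_ae_mem h] at h1

/-- `geometric_hahn_banach_open` for the open convex cone of positive functions and `W`; the functional vanishes on `W`, its negative is
positive; Riesz-Markov (`RealRMK.rieszMeasure`, `RealRMK.integral_rieszMeasure`, `CompactlySupportedContinuousMap.continuousMapEquiv`);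
normalise. -/
theorem exists_prob_annihilator {X : Type*} [MetricSpace X] [CompactSpace X] [MeasurableSpace X] [BorelSpace X]
    (W : Submodule ℝ C(X, ℝ)) (h : ∀ f ∈ W, ¬∀ x, 0 < f x) :
    ∃ μ : Measure X, IsProbabilityMeasure μ ∧ ∀ f ∈ W, ∫ x, f x ∂μ = 0 := by
  have hso : IsOpen {f : C(X, ℝ) | ∀ x, 0 < f x} := by
    have := ContinuousMap.isOpen_setOfPred_mapsTo (X := X) (Y := ℝ) isCompact_univ
      (isOpen_Ioi (a := (0 : ℝ)))
    convert this using 2 with f
    simp [MapsTo]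
  have hsc : Convex ℝ {f : C(X, ℝ) | ∀ x, 0 < f x} := by
    intro f hf g hg a b ha hb hab x
    have := (convex_Ioi (𝕜 := ℝ) (0 : ℝ)) (hf x) (hg x) ha hb hab
    simpa using this
  obtain ⟨l, u, h1, h2⟩ := geometric_hahn_banach_open hsc hso W.convex
    (Set.disjoint_left.2 fun f hf hW => h f hW hf)
  have hu : u ≤ 0 := by simpa using h2 0 W.zero_mem
  have hW : ∀ f ∈ W, l f = 0 := by
    intro f hf
    by_contra h0
    have := h2 (((u - 1) / l f) • f) (W.smul_mem _ hf)
    rw [map_smul, smul_eq_mul, div_mul_cancel₀ _ h0] at this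
    linarith
  have hone : l 1 < 0 := (h1 1 fun x => by simp).trans_le hu
  have hpos : ∀ f : C(X, ℝ), (∀ x, 0 ≤ f x) → l f ≤ 0 := by
    intro f hf
    by_contra h0
    push Not at h0
    have hε : 0 < l f / (-l 1) := div_pos h0 (by linarith)
    have := h1 (f + (l f / (-l 1)) • (1 : C(X, ℝ))) fun x => by
      have := hf x
      simp only [ContinuousMap.add_apply, ContinuousMap.smul_apply, ContinuousMap.one_apply,
        smul_eq_mul, mul_one]
      linarith
    rw [map_add, map_smul, smul_eq_mul, div_neg, neg_mul, div_mul_cancel₀ _ hone.ne] at this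
    linarith
  let L : CompactlySupportedContinuousMap X ℝ →ₗ[ℝ] ℝ :=
    { toFun := fun f => l f.toContinuousMap / l 1
      map_add' := fun f g => by
        rw [← add_div, ← map_add]; rfl
      map_smul' := fun c f => by
        rw [RingHom.id_apply, smul_eq_mul, ← mul_div_assoc, ← smul_eq_mul, ← map_smul]; rfl }
  let Λ : CompactlySupportedContinuousMap X ℝ →ₚ[ℝ] ℝ := PositiveLinearMap.mk₀ L fun f hf =>
    div_nonneg_of_nonpos (hpos _ fun x => hf x) hone.le
  have key : ∀ f : C(X, ℝ), ∫ x, f x ∂(RealRMK.rieszMeasure Λ) = l f / l 1 := fun f =>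
    RealRMK.integral_rieszMeasure Λ (CompactlySupportedContinuousMap.continuousMapEquiv f)
  refine ⟨RealRMK.rieszMeasure Λ, ?_, fun f hf => by rw [key, hW f hf, zero_div]⟩
  have := key 1
  rw [div_self hone.ne] at this
  simp only [ContinuousMap.one_apply, integral_const, smul_eq_mul, mul_one] at this
  exact isProbabilityMeasure_iff_real.2 this

theorem a11d_prod {H F : Type*} [NormedAddCommGroup H] [NormedSpace ℝ H] [NormedAddCommGroup F] [NormedSpace ℝ F]
    (w : Bil F) {a b : H → F} {a' b' : H →L[ℝ] F} {φ : H → ℝ} {p : H} (ha : HasFDerivAt a a' p)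
    (hb : HasFDerivAt b b' p) (hφ : DifferentiableAt ℝ φ p) (Y : H) :
    fderiv ℝ (fun q => φ q * w (a q) (b q)) p Y =
      fderiv ℝ φ p Y * w (a p) (b p) + φ p * (w (a' Y) (b p) + w (a p) (b' Y)) := by
  rw [(hφ.hasFDerivAt.fun_mul (w.hasFDerivAt_of_bilinear ha hb)).fderiv]
  simp
  ring

theorem a11d_snd {H F : Type*} [NormedAddCommGroup H] [NormedSpace ℝ H] [NormedAddCommGroup F] [NormedSpace ℝ F]
    {s : H → F} {p : H} (hs : ContDiffAt ℝ ∞ s p) (Y : H) :
    HasFDerivAt (fun q => fderiv ℝ s q Y) ((fderiv ℝ (fderiv ℝ s) p).flip Y) p := by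
  have h := ((hs.fderiv_right (m := 1) (WithTop.coe_le_coe.2 (le_top (a := (2 : ℕ∞))))).differentiableAt one_ne_zero).hasFDerivAt
  simpa using h.clm_apply (hasFDerivAt_const Y p)

/-- `d (s^* (φ w)) = s^* (dφ ∧ w)` for a constant skew form `w` (symmetry of second derivatives). -/
theorem d3_pull {H F : Type*} [NormedAddCommGroup H] [NormedSpace ℝ H] [NormedAddCommGroup F] [NormedSpace ℝ F]
    {w : Bil F} (hw : ∀ u v, w u v = -w v u) {s : H → F} {φ : H → ℝ} {p : H} (hs : ContDiffAt ℝ ∞ s p)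
    (hφ : DifferentiableAt ℝ φ p) (Y₀ Y₁ Y₂ : H) :
    fderiv ℝ (fun q => φ q * w (fderiv ℝ s q Y₁) (fderiv ℝ s q Y₂)) p Y₀ -
        fderiv ℝ (fun q => φ q * w (fderiv ℝ s q Y₀) (fderiv ℝ s q Y₂)) p Y₁ +
        fderiv ℝ (fun q => φ q * w (fderiv ℝ s q Y₀) (fderiv ℝ s q Y₁)) p Y₂ =
      fderiv ℝ φ p Y₀ * w (fderiv ℝ s p Y₁) (fderiv ℝ s p Y₂) -
        fderiv ℝ φ p Y₁ * w (fderiv ℝ s p Y₀) (fderiv ℝ s p Y₂) +
        fderiv ℝ φ p Y₂ * w (fderiv ℝ s p Y₀) (fderiv ℝ s p Y₁) := by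
  have sy := hs.isSymmSndFDerivAt (by simpa using WithTop.coe_le_coe.2 (le_top (a := (2 : ℕ∞))))
  simp only [a11d_prod w (a11d_snd hs _) (a11d_snd hs _) hφ, ContinuousLinearMap.flip_apply]
  rw [sy Y₁ Y₀, sy Y₂ Y₀, sy Y₂ Y₁, hw (fderiv ℝ s p Y₁) (fderiv ℝ (fderiv ℝ s) p Y₀ Y₂)]
  ring

/-- `d (φ w (s, ds)) = dφ ∧ w (s, ds) + 2 φ w (ds, ds)`. -/
theorem d2_pull {H F : Type*} [NormedAddCommGroup H] [NormedSpace ℝ H] [NormedAddCommGroup F] [NormedSpace ℝ F]
    {w : Bil F} (hw : ∀ u v, w u v = -w v u) {s : H → F} {φ : H → ℝ} {p : H} (hs : ContDiffAt ℝ ∞ s p)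
    (hφ : DifferentiableAt ℝ φ p) (Y₁ Y₂ : H) :
    fderiv ℝ (fun q => φ q * w (s q) (fderiv ℝ s q Y₂)) p Y₁ - fderiv ℝ (fun q => φ q * w (s q) (fderiv ℝ s q Y₁)) p Y₂ =
      fderiv ℝ φ p Y₁ * w (s p) (fderiv ℝ s p Y₂) - fderiv ℝ φ p Y₂ * w (s p) (fderiv ℝ s p Y₁) +
        2 * (φ p * w (fderiv ℝ s p Y₁) (fderiv ℝ s p Y₂)) := by
  have sy := hs.isSymmSndFDerivAt (by simpa using WithTop.coe_le_coe.2 (le_top (a := (2 : ℕ∞))))
  simp only [a11d_prod w (hs.differentiableAt (by simp)).hasFDerivAt (a11d_snd hs _) hφ,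
    ContinuousLinearMap.flip_apply]
  rw [sy Y₂ Y₁, hw (fderiv ℝ s p Y₂) (fderiv ℝ s p Y₁)]
  ring

end Crest.Agent.R240
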