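import Crest.Agent.R240.A1

/-! Block A2: sup bounds and smooth sums. -/

set_option autoImplicit false
set_option maxSynthPendingDepth 3
set_option linter.unusedSectionVars false
set_option linter.unusedVariables false
open MeasureTheory Filter Set Metric
open scoped ENNReal NNReal Topology ContDiff InnerProductSpace InnerProduct

noncomputable section
namespace Crest.Agent.R240

variable {G G₁ G₂ H : Type*} [NormedAddCommGroup G] [NormedSpace ℝ G] [FiniteDimensional ℝ G]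
  [NormedAddCommGroup G₁] [NormedSpace ℝ G₁] [FiniteDimensional ℝ G₁] [NormedAddCommGroup G₂]
  [NormedSpace ℝ G₂] [FiniteDimensional ℝ G₂] [NormedAddCommGroup H] [NormedSpace ℝ H]
  [FiniteDimensional ℝ H]

theorem a2_memLp_ind : MemLp ((closedBall (0 : E4) 3).indicator fun _ => (1 : ℝ)) 2 volume :=
  memLp_indicator_const _ measurableSet_closedBall _ (Or.inr measure_closedBall_lt_top.ne)

theorem a2_line {ρ : ℝ} {w : E4 → G} (hw : Tst ρ w) (μ : Fin 4) (x : Fin 4 → ℝ) :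
    ‖w (WithLp.toLp 2 x)‖ₑ ≤ ∫⁻ t, ‖pd μ w (WithLp.toLp 2 (Function.update x μ t))‖ₑ := by
  set c : ℝ → E4 := fun t => WithLp.toLp 2 (Function.update x μ 0) + t • ee μ with hc
  have he : ∀ t, WithLp.toLp 2 (Function.update x μ t) = c t := fun t => by
    ext i
    by_cases h : i = μ
    · subst h; simp [hc, ee]
    · simp [hc, ee, h]
  have hcd : ContDiff ℝ 1 c := contDiff_const.add (contDiff_id.smul contDiff_const)
  have hd : ∀ t, HasDerivAt c (ee μ) t := fun t => by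
    have := ((hasDerivAt_id t).smul_const (ee μ)).const_add
      (WithLp.toLp 2 (Function.update x μ 0) : E4)
    rwa [one_smul] at this
  have hs : HasCompactSupport (w ∘ c) := by
    refine HasCompactSupport.intro (isCompact_Icc (a := -ρ) (b := ρ)) fun t ht => hw.2 _ ?_
    have h1 : ‖c t μ‖ ≤ ‖c t‖ := PiLp.norm_apply_le _ _
    have h2 : c t μ = t := by rw [← he]; simp
    rw [h2, Real.norm_eq_abs] at h1
    exact (not_le.1 fun h => ht (abs_le.1 h)).trans_le h1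
  have h := HasCompactSupport.enorm_le_lintegral_Ici_deriv ((hw.1.of_le (by norm_cast)).comp hcd) hs (x μ)
  simp only [Function.comp_apply, ← he, Function.update_eq_self] at h
  refine h.trans ((setLIntegral_le_lintegral _ _).trans_eq (lintegral_congr fun t => ?_))
  rw [he, ((hw.1.differentiable (by simp) (c t)).hasFDerivAt.comp_hasDerivAt t (hd t)).deriv]
  rfl

theorem a2_step {ρ : ℝ} (D : (E4 → G) → E4 → G) (hD : ∀ w, Tst ρ w → Tst ρ (D w))
    {s : Finset (Fin 4)} {μ : Fin 4} (hμ : μ ∉ s)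
    (h : ∀ w : E4 → G, Tst ρ w → ∀ x : Fin 4 → ℝ, ‖w (WithLp.toLp 2 x)‖ₑ ≤
      lmarginal (fun _ => volume) s (fun y : Fin 4 → ℝ => ‖D w (WithLp.toLp 2 y)‖ₑ) x) :
    ∀ w : E4 → G, Tst ρ w → ∀ x : Fin 4 → ℝ, ‖w (WithLp.toLp 2 x)‖ₑ ≤ lmarginal (fun _ => volume)
      (insert μ s) (fun y : Fin 4 → ℝ => ‖(fun w => D (pd μ w)) w (WithLp.toLp 2 y)‖ₑ) x := by
  intro w hw x
  have hm : Measurable fun y : Fin 4 → ℝ => ‖D (pd μ w) (WithLp.toLp 2 y)‖ₑ :=
    ((hD _ (hw.pd' μ)).1.continuous.comp (PiLp.continuous_toLp 2 _)).enorm.measurable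
  rw [lmarginal_insert _ hm hμ]
  exact (a2_line hw μ x).trans (lintegral_mono fun t => h _ (hw.pd' μ) _)

/-- One-dimensional fundamental theorem of calculus four times: `u z = ∫_{w ≤ z} ∂₀∂₁∂₂∂₃ u`; one way is to
prove by induction `‖u z‖ ≤ ∫ t₀, ∫ t₁, ∫ t₂, ∫ t₃, ‖∂₀∂₁∂₂∂₃ u (t)‖` (`u z = ∫_{-∞}^0 ∂_μ u (z + t e_μ) dt`) and to
identify the iterated integral with the volume integral (`EuclideanSpace.volume_preserving_measurableEquiv`,
`integral_fintype_prod`/`MeasureTheory.lintegral` marginals `lmarginal`), then Cauchy-Schwarz on the ball.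
Alternative: Fourier inversion gives `sup_le_hs` directly, but `sup_le_mixed` is also needed. -/
theorem sup_le_mixed : ∃ C : ℝ, 0 ≤ C ∧ ∀ u : E4 → G, Tst 3 u → ∀ z,
    ‖u z‖ ≤ C * lpNorm (pd 0 (pd 1 (pd 2 (pd 3 u)))) 2 volume := by
  refine ⟨lpNorm ((closedBall (0 : E4) 3).indicator fun _ => (1 : ℝ)) 2 volume, lpNorm_nonneg,
    fun u hu z => ?_⟩
  have h0 : ∀ w : E4 → G, Tst 3 w → ∀ x : Fin 4 → ℝ, ‖w (WithLp.toLp 2 x)‖ₑ ≤
      lmarginal (fun _ => volume) ∅ (fun y : Fin 4 → ℝ => ‖id w (WithLp.toLp 2 y)‖ₑ) x :=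
    fun w _ x => by simp
  have h1 := a2_step id (fun _ h => h) (μ := 0) (by simp) h0
  have h2 := a2_step _ (fun _ h => h.pd' 0) (μ := 1) (by simp) h1
  have h3 := a2_step _ (fun _ h => (h.pd' 1).pd' 0) (μ := 2) (by simp) h2
  have h4 := a2_step _ (fun _ h => ((h.pd' 2).pd' 1).pd' 0) (μ := 3) (by simp) h3 u hu z.ofLp
  have hv : Tst 3 (pd 0 (pd 1 (pd 2 (pd 3 u)))) := (((hu.pd' 3).pd' 2).pd' 1).pd' 0
  have hU : insert (3 : Fin 4) (insert 2 (insert 1 (insert 0 (∅ : Finset (Fin 4))))) = Finset.univ := by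
    decide
  rw [hU, lmarginal_univ] at h4
  simp only [WithLp.toLp_ofLp] at h4
  set v := pd 0 (pd 1 (pd 2 (pd 3 u)))
  have h5 : ∫⁻ y : Fin 4 → ℝ, ‖v (WithLp.toLp 2 y)‖ₑ = ∫⁻ y, ‖v y‖ₑ :=
    (PiLp.volume_preserving_toLp (Fin 4)).lintegral_comp hv.1.continuous.enorm.measurable
  have h6 : ‖u z‖ₑ ≤ ∫⁻ y, ‖v y‖ₑ := h4.trans_eq h5
  rw [← ofReal_integral_norm_eq_lintegral_enorm hv.integrable, ← ofReal_norm,
    ENNReal.ofReal_le_ofReal_iff (integral_nonneg fun _ => norm_nonneg _)] at h6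
  have h7 := integral_mul_le_lpNorm a2_memLp_ind (hv.memLp 2).norm
  rw [lpNorm_norm (hv.memLp 2).1] at h7
  refine h6.trans (le_of_eq_of_le (integral_congr_ae (Eventually.of_forall fun y => ?_)) h7)
  by_cases hy : y ∈ closedBall (0 : E4) 3
  · simp [hy]
  · simp [hv.2 y (by simpa using hy)]

theorem sup_le_hs : ∃ C : ℝ, 0 ≤ C ∧ ∀ u : E4 → G, Tst 3 u → ∀ z, ‖u z‖ ≤ C * hs 4 1 u := by
  obtain ⟨C, hC, h⟩ := sup_le_mixed (G := G)
  refine ⟨C, hC, fun u hu z => (h u hu z).trans (mul_le_mul_of_nonneg_left ?_ hC)⟩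
  have h1 : ∀ n μ (w : E4 → G), hs n 1 (pd μ w) ≤ hs (n + 1) 1 w := fun n μ w => by
    simpa using hs_pd_le n zero_le_one w μ
  exact (h1 0 0 _).trans ((h1 1 1 _).trans ((h1 2 2 _).trans (h1 3 3 _)))

theorem a2_hs_pd {u : ℕ → E4 → G} (hs' : ∀ n, Summable fun i => hs n 1 (u i)) (μ : Fin 4) :
    ∀ n, Summable fun i => hs n 1 (pd μ (u i)) := fun n =>
  (hs' (n + 1)).of_nonneg_of_le (fun _ => hs_nonneg _ zero_le_one _) fun i => by
    simpa using hs_pd_le n zero_le_one (u i) μ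

theorem a2_summable {ρ : ℝ} (hρ : ρ ≤ 3) {u : ℕ → E4 → G} (hu : ∀ i, Tst ρ (u i))
    (hs' : ∀ n, Summable fun i => hs n 1 (u i)) (z : E4) : Summable fun i => u i z := by
  obtain ⟨C, -, h⟩ := sup_le_hs (G := G)
  have := FiniteDimensional.complete ℝ G
  exact ((hs' 4).mul_left C).of_norm_bounded fun i => h _ ((hu i).mono hρ) z

theorem a2_pd {ρ : ℝ} (hρ : ρ ≤ 3) {u : ℕ → E4 → G} (hu : ∀ i, Tst ρ (u i))
    (hs' : ∀ n, Summable fun i => hs n 1 (u i)) :
    Differentiable ℝ (fun z => ∑' i, u i z) ∧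
      ∀ μ, pd μ (fun z => ∑' i, u i z) = fun z => ∑' i, pd μ (u i) z := by
  obtain ⟨C, -, h⟩ := sup_le_hs (G := G)
  have := FiniteDimensional.complete ℝ G
  have h1 : Summable fun i => ∑ μ : Fin 4, C * hs 4 1 (pd μ (u i)) :=
    summable_sum fun μ _ => (a2_hs_pd hs' μ 4).mul_left C
  have h2 : ∀ i z, ‖fderiv ℝ (u i) z‖ ≤ ∑ μ : Fin 4, C * hs 4 1 (pd μ (u i)) := fun i z =>
    (norm_le_sum_ee _).trans (Finset.sum_le_sum fun μ _ => h _ (((hu i).pd' μ).mono hρ) z)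
  have hd : ∀ i, Differentiable ℝ (u i) := fun i => (hu i).1.differentiable (by simp)
  refine ⟨differentiable_tsum h1 (fun i z => (hd i z).hasFDerivAt) h2, fun μ => funext fun z => ?_⟩
  simp only [pd]
  rw [fderiv_tsum_apply h1 hd h2 (a2_summable hρ hu hs' 0)]
  exact (ContinuousLinearMap.apply ℝ G (ee μ)).map_tsum (h1.of_norm_bounded fun i => h2 i z)

theorem a2_contDiff {ρ : ℝ} (hρ : ρ ≤ 3) (k : ℕ) {u : ℕ → E4 → G} (hu : ∀ i, Tst ρ (u i))
    (hs' : ∀ n, Summable fun i => hs n 1 (u i)) : ContDiff ℝ k fun z => ∑' i, u i z := by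
  induction k generalizing u with
  | zero => simpa using (a2_pd hρ hu hs').1.continuous
  | succ k ih =>
    obtain ⟨h1, h2⟩ := a2_pd hρ hu hs'
    rw [Nat.cast_succ, contDiff_succ_iff_fderiv_apply]
    refine ⟨h1, by simp, fun y => ?_⟩
    have h3 : (fun x => fderiv ℝ (fun z => ∑' i, u i z) x y) =
        fun x => ∑ μ : Fin 4, y μ • pd μ (fun z => ∑' i, u i z) x := by
      funext x
      conv_lhs => rw [← sum_ee y]
      simp only [map_sum, map_smul, pd]
    rw [h3]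
    refine ContDiff.sum fun μ _ => ContDiff.const_smul _ ?_
    rw [h2]
    exact ih (fun i => (hu i).pd' μ) (a2_hs_pd hs' μ)

theorem a2_tst {ρ : ℝ} (hρ : ρ ≤ 3) {u : ℕ → E4 → G} (hu : ∀ i, Tst ρ (u i))
    (hs' : ∀ n, Summable fun i => hs n 1 (u i)) : Tst ρ fun z => ∑' i, u i z :=
  ⟨contDiff_infty.2 fun k => a2_contDiff hρ k hu hs', fun z hz => by simp [fun i => (hu i).2 z hz]⟩

theorem a2_l2 {ρ : ℝ} (hρ : ρ ≤ 3) {u : ℕ → E4 → G} (hu : ∀ i, Tst ρ (u i))
    (hs' : ∀ n, Summable fun i => hs n 1 (u i)) :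
    Tendsto (fun N => lpNorm ((fun z => ∑' i, u i z) - ∑ i ∈ Finset.range N, u i) 2 volume) atTop
      (𝓝 0) := by
  obtain ⟨C, -, h⟩ := sup_le_hs (G := G)
  have h1 := ((tendsto_sum_nat_add fun i => C * hs 4 1 (u i)).norm.mul_const
    (lpNorm ((closedBall (0 : E4) 3).indicator fun _ => (1 : ℝ)) 2 volume))
  rw [norm_zero, zero_mul] at h1
  refine squeeze_zero (fun _ => lpNorm_nonneg) (fun N => ?_) h1
  rw [← coe_nnnorm, ← lpNorm_const_smul]
  refine lpNorm_mono_real (a2_memLp_ind.const_smul _) fun z => ?_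
  simp only [Pi.sub_apply, Finset.sum_apply, Pi.smul_apply, smul_eq_mul]
  rw [← (a2_summable hρ hu hs' z).sum_add_tsum_nat_add N, add_sub_cancel_left]
  by_cases hz : z ∈ closedBall (0 : E4) 3
  · rw [indicator_of_mem hz, mul_one]
    exact tsum_of_norm_bounded ((summable_nat_add_iff N).2 ((hs' 4).mul_left C)).hasSum
      fun i => h _ ((hu _).mono hρ) z
  · simp [hz, fun i => ((hu i).mono hρ).2 z (by simpa using hz)]

/-- Induction on the order of differentiability over all such sequences: `hasFDerivAt_tsum`, `sup_le_hs`,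
`norm_le_sum_ee`, `contDiff_succ_iff_fderiv_apply`; `pd μ (∑' ..) = ∑' pd μ ..`.  For the last part:
the tail is again such a sum, `hs n 1 (tail) ≤ ∑' tail of hs` (induction on `n`; Fatou or
`lpNorm ≤ C · sup` on the ball: it is enough to bound `hs n 1 (tail) ≤ C ∑' tail of hs (n+4)`). -/
theorem tsum_tst {ρ : ℝ} (hρ : ρ ≤ 3) {u : ℕ → E4 → G} (hu : ∀ i, Tst ρ (u i))
    (hs' : ∀ n, Summable fun i => hs n 1 (u i)) :
    Tst ρ (fun z => ∑' i, u i z) ∧ (∀ z, Summable fun i => u i z) ∧ ∀ n,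
      Tendsto (fun N => hs n 1 ((fun z => ∑' i, u i z) - ∑ i ∈ Finset.range N, u i)) atTop (𝓝 0) := by
  have hT := a2_tst hρ hu hs'
  refine ⟨hT, fun z => a2_summable hρ hu hs' z, fun n => ?_⟩
  induction n generalizing u with
  | zero => exact a2_l2 hρ hu hs'
  | succ n ih =>
    have h1 : ∀ N μ, pd μ ((fun z => ∑' i, u i z) - ∑ i ∈ Finset.range N, u i) =
        (fun z => ∑' i, pd μ (u i) z) - ∑ i ∈ Finset.range N, pd μ (u i) := fun N μ => by
      rw [← (a2_pd hρ hu hs').2 μ]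
      funext z
      have hd := fun i => (hu i).1.differentiable (by simp) z
      simp only [pd, Pi.sub_apply, Finset.sum_apply]
      rw [fderiv_sub (hT.1.differentiable (by simp) z) (DifferentiableAt.sum fun i _ => hd i),
        fderiv_sum fun i _ => hd i]
      simp
    have h2 := (a2_l2 hρ hu hs').add (tendsto_finsetSum Finset.univ fun μ _ =>
      ih (fun i => (hu i).pd' μ) (a2_hs_pd hs' μ) (a2_tst hρ (fun i => (hu i).pd' μ) (a2_hs_pd hs' μ)))
    simpa [hs, h1] using h2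

end Crest.Agent.R240
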