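import Crest.Agent.R240.A1

/-! Block A3: multiplication and composition are bounded for `hs` (induction on `n`, generalising the coefficient). -/

set_option autoImplicit false
set_option maxSynthPendingDepth 3
set_option linter.unusedSectionVars false
set_option linter.unusedVariables false
open MeasureTheory Filter Set Metric
open scoped ENNReal NNReal Topology ContDiff InnerProductSpace InnerProduct

noncomputable section
namespace Crest.Agent.R240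

variable {G G₁ G₂ H : Type*} [NormedAddCommGroup G] [NormedSpace ℝ G] [FiniteDimensional ℝ G]
  [NormedAddCommGroup G₁] [NormedSpace ℝ G₁] [FiniteDimensional ℝ G₁] [NormedAddCommGroup G₂]
  [NormedSpace ℝ G₂] [FiniteDimensional ℝ G₂] [NormedAddCommGroup H] [NormedSpace ℝ H]
  [FiniteDimensional ℝ H]

theorem Tst.mul {ρ : ℝ} (hρ : ρ < 3) {a : E4 → G₁ →L[ℝ] G₂} (ha : ContDiffOn ℝ ∞ a V) {u : E4 → G₁}
    (hu : Tst ρ u) : Tst ρ fun z => a z (u z) := by
  exact tst_of_contDiffOn hρ (ha.clm_apply hu.1.contDiffOn) fun z hz => by simp [hu.2 z hz]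

theorem a3a_zero {a : E4 → G₁ →L[ℝ] G₂} (ha : ContDiffOn ℝ ∞ a V) :
    ∃ C : ℝ, 0 ≤ C ∧ ∀ u : E4 → G₁, Tst (5 / 2) u →
      lpNorm (fun z => a z (u z)) 2 volume ≤ C * lpNorm u 2 volume := by
  obtain ⟨C, hC⟩ := (isCompact_closedBall (0 : E4) (5 / 2)).exists_bound_of_continuousOn
    (ha.continuousOn.mono (closedBall_subset_ball (by norm_num)))
  refine ⟨|C|, abs_nonneg C, fun u hu => ?_⟩
  have h1 := lpNorm_mono_real (f := fun z => a z (u z)) (g := |C| • fun z => ‖u z‖)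
    ((hu.memLp 2).norm.const_smul _) fun z => by
      rcases le_or_gt ‖z‖ (5 / 2) with hz | hz
      · exact ((a z).le_opNorm _).trans (mul_le_mul_of_nonneg_right
          ((hC z (mem_closedBall_zero_iff.2 hz)).trans (le_abs_self C)) (norm_nonneg _))
      · simp [hu.2 z hz]
  rw [lpNorm_const_smul, lpNorm_norm (hu.memLp 2).1] at h1
  simpa using h1

theorem a3a_pd_sm {a : E4 → G} (ha : ContDiffOn ℝ ∞ a V) (μ : Fin 4) : ContDiffOn ℝ ∞ (pd μ a) V :=
  (ha.fderiv_of_isOpen isOpen_ball (by norm_cast)).clm_apply contDiffOn_const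

theorem a3a_pd {a : E4 → G₁ →L[ℝ] G₂} (ha : ContDiffOn ℝ ∞ a V) {u : E4 → G₁} (hu : Tst (5 / 2) u)
    (μ : Fin 4) :
    pd μ (fun z => a z (u z)) = (fun z => pd μ a z (u z)) + fun z => a z (pd μ u z) := by
  funext z
  rcases le_or_gt ‖z‖ (5 / 2) with hz | hz
  · have h1 : DifferentiableAt ℝ a z :=
      (ha.contDiffAt (isOpen_ball.mem_nhds (mem_ball_zero_iff.2 (by linarith)))).differentiableAt (by simp)
    simp [pd, fderiv_clm_apply h1 (hu.1.differentiable (by simp) z), add_comm]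
  · simp [((hu.mul (by norm_num) ha).pd' μ).2 z hz, hu.2 z hz, (hu.pd' μ).2 z hz]

/-- `pd μ (a u) = (pd μ a) u + a (pd μ u)` everywhere (off the support both sides vanish);
`a` is bounded on the compact `closedBall 0 (5/2) ⊆ V`. -/
theorem hs_mul (n : ℕ) {a : E4 → G₁ →L[ℝ] G₂} (ha : ContDiffOn ℝ ∞ a V) :
    ∃ C : ℝ, 0 ≤ C ∧ ∀ ε ∈ Icc (0 : ℝ) 1, ∀ u : E4 → G₁, Tst (5 / 2) u →
      hs n ε (fun z => a z (u z)) ≤ C * hs n ε u := by
  induction n generalizing a with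
  | zero =>
    obtain ⟨C, hC, h⟩ := a3a_zero ha
    exact ⟨C, hC, fun ε _ u hu => h u hu⟩
  | succ n ih =>
    obtain ⟨C₀, hC₀, h0⟩ := a3a_zero ha
    obtain ⟨C₁, hC₁, h1⟩ := ih ha
    choose D hD h2 using fun μ => ih (a3a_pd_sm ha μ)
    have hS : 0 ≤ ∑ μ, D μ := Finset.sum_nonneg fun μ _ => hD μ
    refine ⟨C₀ + C₁ + ∑ μ, D μ, by positivity, fun ε hε u hu => ?_⟩
    have h3 : ∀ μ, hs n ε (pd μ fun z => a z (u z)) ≤ D μ * hs n ε u + C₁ * hs n ε (pd μ u) :=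
      fun μ => by
        rw [a3a_pd ha hu]
        exact (hs_add_le n hε.1 (hu.mul (by norm_num) (a3a_pd_sm ha μ))
          ((hu.pd' μ).mul (by norm_num) ha)).trans (add_le_add (h2 μ ε hε u hu) (h1 ε hε _ (hu.pd' μ)))
    have h4 := mul_le_mul_of_nonneg_left
      (Finset.sum_le_sum fun μ (_ : μ ∈ Finset.univ) => h3 μ) hε.1
    rw [Finset.sum_add_distrib, ← Finset.sum_mul, ← Finset.mul_sum] at h4
    have h5 : ε * hs n ε u ≤ hs (n + 1) ε u :=
      (mul_le_of_le_one_left (hs_nonneg n hε.1 u) hε.2).trans (hs_mono n.le_succ hε.1 u)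
    have h6 := mul_le_mul_of_nonneg_left h5 hS
    have h7 : 0 ≤ ε * ∑ μ, hs n ε (pd μ u) :=
      mul_nonneg hε.1 (Finset.sum_nonneg fun _ _ => hs_nonneg _ hε.1 _)
    have h8 : 0 ≤ lpNorm u 2 volume := lpNorm_nonneg
    have h9 := h0 u hu
    simp only [hs] at h6 ⊢
    nlinarith [mul_nonneg hC₀ h7, mul_nonneg hC₁ h8]

theorem a3b_ev {K : Set E4} (hK : IsCompact K) {a : E4 → G} (h0 : ∀ z, z ∉ K → a z = 0) {z : E4}
    (hz : z ∉ K) : a =ᶠ[𝓝 z] fun _ => 0 :=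
  (hK.isClosed.isOpen_compl.eventually_mem hz).mono h0

theorem a3b_smooth {O K : Set E4} (hO : IsOpen O) (hK : IsCompact K) (hKO : K ⊆ O) {τ : E4 → E4}
    (hτ : ContDiffOn ℝ ∞ τ O) {a : E4 → G₁ →L[ℝ] G₂} (ha : ContDiffOn ℝ ∞ a O)
    (h0 : ∀ z, z ∉ K → a z = 0) {u : E4 → G₁} (hu : ContDiff ℝ ∞ u) :
    ContDiff ℝ ∞ fun z => a z (u (τ z)) := by
  refine contDiff_iff_contDiffAt.2 fun z => ?_
  by_cases hz : z ∈ O
  · exact (ha.contDiffAt (hO.mem_nhds hz)).clm_apply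
      (hu.contDiffAt.comp z (hτ.contDiffAt (hO.mem_nhds hz)))
  · exact contDiffAt_const.congr_of_eventuallyEq (a3b_ev hK (fun z hz => by simp [h0 z hz])
      fun h => hz (hKO h))

theorem a3b_zero {O K : Set E4} (hO : IsOpen O) (hK : IsCompact K) (hKO : K ⊆ O) {τ : E4 → E4}
    (hτ : ContDiffOn ℝ ∞ τ O) (hi : InjOn τ O) (hd : ∀ z ∈ O, (fderiv ℝ τ z).det ≠ 0)
    {a : E4 → G₁ →L[ℝ] G₂} (ha : ContDiffOn ℝ ∞ a O) (h0 : ∀ z, z ∉ K → a z = 0) :
    ∃ C : ℝ, 0 ≤ C ∧ ∀ u : E4 → G₁, Tst 3 u →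
      lpNorm (fun z => a z (u (τ z))) 2 volume ≤ C * lpNorm u 2 volume := by
  have hdc : ContinuousOn (fun z => |(fderiv ℝ τ z).det|) K :=
    (ContinuousLinearMap.continuous_det.comp_continuousOn
      ((hτ.continuousOn_fderiv_of_isOpen hO (by simp)).mono hKO)).abs
  obtain ⟨B, hB⟩ := hK.exists_bound_of_continuousOn (((ha.continuousOn.mono hKO).norm.pow 2).div hdc
    fun z hz => abs_ne_zero.2 (hd z (hKO hz)))
  refine ⟨√B, Real.sqrt_nonneg _, fun u hu => ?_⟩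
  have hc := (a3b_smooth hO hK hKO hτ ha h0 hu.1).continuous
  have hm : MemLp (fun z => a z (u (τ z))) 2 volume := hc.memLp_of_hasCompactSupport
    (HasCompactSupport.intro hK fun z hz => by simp [h0 z hz])
  have hu2 : Integrable (fun y => ‖u y‖ ^ 2) volume :=
    Continuous.integrable_of_hasCompactSupport (f := (fun x => ‖x‖ ^ 2) ∘ u)
      (hu.1.continuous.norm.pow 2) (hu.hcs.comp_left (by simp))
  refine abs_le_of_sq_le_sq' ?_ (mul_nonneg (Real.sqrt_nonneg _) lpNorm_nonneg) |>.2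
  rw [mul_pow, lpNorm_sq hm, lpNorm_sq (hu.memLp 2),
    ← setIntegral_eq_integral_of_forall_compl_eq_zero (s := K) (fun z hz => by simp [h0 z hz])]
  have h1 := integral_image_eq_integral_abs_det_fderiv_smul volume hK.measurableSet
    (fun z hz => ((hτ.contDiffAt (hO.mem_nhds (hKO hz))).differentiableAt
      (by simp)).hasFDerivAt.hasFDerivWithinAt) (hi.mono hKO) fun y => ‖u y‖ ^ 2
  refine le_trans ?_ (mul_le_mul_of_nonneg_left (setIntegral_le_integral (s := τ '' K) hu2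
    (Eventually.of_forall fun y => by positivity)) (sq_nonneg _))
  rw [h1, ← integral_const_mul]
  refine setIntegral_mono_on ((hc.norm.pow 2).continuousOn.integrableOn_compact hK)
    ((continuousOn_const.mul (hdc.smul (((hu.1.continuous.comp_continuousOn
      (hτ.continuousOn.mono hKO)).norm).pow 2))).integrableOn_compact hK) hK.measurableSet
    fun z hz => ?_
  have h2 := (le_abs_self _).trans (hB z hz)
  rw [Pi.div_apply, div_le_iff₀ (abs_pos.2 (hd z (hKO hz)))] at h2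
  have h3 := pow_le_pow_left₀ (norm_nonneg _) ((a z).le_opNorm (u (τ z))) 2
  have h4 : B ≤ √B ^ 2 := by rw [Real.sq_sqrt']; exact le_max_left _ _
  rw [smul_eq_mul, ← mul_assoc]
  refine h3.trans ?_
  rw [mul_pow]
  exact mul_le_mul_of_nonneg_right (h2.trans (mul_le_mul_of_nonneg_right h4 (abs_nonneg _)))
    (sq_nonneg _)

theorem a3b_pd {O K : Set E4} (hO : IsOpen O) (hK : IsCompact K) (hKO : K ⊆ O) {τ : E4 → E4}
    (hτ : ContDiffOn ℝ ∞ τ O) {a : E4 → G₁ →L[ℝ] G₂} (ha : ContDiffOn ℝ ∞ a O)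
    (h0 : ∀ z, z ∉ K → a z = 0) {u : E4 → G₁} (hu : ContDiff ℝ ∞ u) (μ : Fin 4) :
    pd μ (fun z => a z (u (τ z))) = (fun z => pd μ a z (u (τ z))) +
      ∑ ν, fun z => (fderiv ℝ τ z (ee μ) ν • a z) (pd ν u (τ z)) := by
  funext z
  rw [Pi.add_apply, Finset.sum_apply]
  by_cases hz : z ∈ O
  · have h1 := ((ha.contDiffAt (hO.mem_nhds hz)).differentiableAt (by simp)).hasFDerivAt.clm_apply
      ((hu.differentiable (by simp) (τ z)).hasFDerivAt.comp z
        ((hτ.contDiffAt (hO.mem_nhds hz)).differentiableAt (by simp)).hasFDerivAt)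
    have h2 : fderiv ℝ (fun z => a z (u (τ z))) z = _ := h1.fderiv
    have h3 : fderiv ℝ u (τ z) (fderiv ℝ τ z (ee μ)) =
        ∑ ν, fderiv ℝ τ z (ee μ) ν • fderiv ℝ u (τ z) (ee ν) := by
      conv_lhs => rw [← sum_ee (fderiv ℝ τ z (ee μ))]
      simp only [map_sum, map_smul]
    simp only [pd, h2]
    simp [h3, add_comm]
  · have hz' : z ∉ K := fun h => hz (hKO h)
    simp [pd, (a3b_ev hK h0 hz').fderiv_eq, h0 z hz',
      (a3b_ev (a := fun z => a z (u (τ z))) hK (fun z hz => by simp [h0 z hz]) hz').fderiv_eq]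

/-- `n = 0`: change of variables `lintegral_image_eq_lintegral_abs_det_fderiv_mul` on `K`, where `|det|` is bounded
below.  Step: `pd μ (a · u ∘ τ) = (pd μ a) u ∘ τ + ∑ ν, (fderiv τ z (ee μ) ν • a z) ((pd ν u) ∘ τ)`. -/
theorem hs_comp (n : ℕ) {O K : Set E4} (hO : IsOpen O) (hK : IsCompact K) (hKO : K ⊆ O) {τ : E4 → E4}
    (hτ : ContDiffOn ℝ ∞ τ O) (hi : InjOn τ O) (hd : ∀ z ∈ O, (fderiv ℝ τ z).det ≠ 0)
    {a : E4 → G₁ →L[ℝ] G₂} (ha : ContDiffOn ℝ ∞ a O) (h0 : ∀ z, z ∉ K → a z = 0) :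
    ∃ C : ℝ, 0 ≤ C ∧ ∀ u : E4 → G₁, Tst 3 u →
      ContDiff ℝ ∞ (fun z => a z (u (τ z))) ∧ hs n 1 (fun z => a z (u (τ z))) ≤ C * hs n 1 u := by
  obtain ⟨ρ, hρ⟩ := hK.isBounded.subset_closedBall 0
  have hT : ∀ {a : E4 → G₁ →L[ℝ] G₂}, ContDiffOn ℝ ∞ a O → (∀ z, z ∉ K → a z = 0) →
      ∀ {u : E4 → G₁}, Tst 3 u → Tst ρ fun z => a z (u (τ z)) := fun ha h0 u hu =>
    ⟨a3b_smooth hO hK hKO hτ ha h0 hu.1, fun z hz => by
      simp [h0 z fun h => hz.not_ge (mem_closedBall_zero_iff.1 (hρ h))]⟩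
  induction n generalizing a with
  | zero =>
    obtain ⟨C, hC, h⟩ := a3b_zero hO hK hKO hτ hi hd ha h0
    exact ⟨C, hC, fun u hu => ⟨(hT ha h0 hu).1, h u hu⟩⟩
  | succ n ih =>
    obtain ⟨C, hC, h⟩ := a3b_zero hO hK hKO hτ hi hd ha h0
    have ha1 : ∀ μ, ContDiffOn ℝ ∞ (pd μ a) O := fun μ =>
      (ha.fderiv_of_isOpen hO le_rfl).clm_apply contDiffOn_const
    have ha1' : ∀ μ z, z ∉ K → pd μ a z = 0 := fun μ z hz => by
      simp [pd, (a3b_ev hK h0 hz).fderiv_eq]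
    have ha2 : ∀ μ ν, ContDiffOn ℝ ∞ (fun z => fderiv ℝ τ z (ee μ) ν • a z) O := fun μ ν =>
      ((EuclideanSpace.proj ν : E4 →L[ℝ] ℝ).contDiff.comp_contDiffOn
        ((hτ.fderiv_of_isOpen hO le_rfl).clm_apply contDiffOn_const)).smul ha
    have ha2' : ∀ μ ν z, z ∉ K → fderiv ℝ τ z (ee μ) ν • a z = 0 := fun μ ν z hz => by
      simp [h0 z hz]
    choose C1 hC1 h1 using fun μ => ih (ha1 μ) (ha1' μ)
    choose C2 hC2 h2 using fun μ ν => ih (ha2 μ ν) (ha2' μ ν)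
    refine ⟨C + ∑ μ, (C1 μ + ∑ ν, C2 μ ν), add_nonneg hC (Finset.sum_nonneg fun μ _ =>
      add_nonneg (hC1 μ) (Finset.sum_nonneg fun ν _ => hC2 μ ν)), fun u hu =>
        ⟨(hT ha h0 hu).1, ?_⟩⟩
    rw [hs, one_mul, add_mul, Finset.sum_mul]
    refine add_le_add ((h u hu).trans (mul_le_mul_of_nonneg_left
      (hs_mono (Nat.zero_le (n + 1)) zero_le_one u) hC)) (Finset.sum_le_sum fun μ _ => ?_)
    rw [a3b_pd hO hK hKO hτ ha h0 hu.1, add_mul, Finset.sum_mul]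
    refine (hs_add_le n zero_le_one (hT (ha1 μ) (ha1' μ) hu)
      (Tst.sum _ fun ν _ => hT (ha2 μ ν) (ha2' μ ν) (hu.pd' ν))).trans (add_le_add
        ((h1 μ u hu).2.trans (mul_le_mul_of_nonneg_left (hs_mono n.le_succ zero_le_one u) (hC1 μ)))
        ((hs_sum_le n zero_le_one _ fun ν _ => hT (ha2 μ ν) (ha2' μ ν) (hu.pd' ν)).trans
          (Finset.sum_le_sum fun ν _ => (h2 μ ν _ (hu.pd' ν)).2.trans
            (mul_le_mul_of_nonneg_left ?_ (hC2 μ ν)))))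
    simpa using hs_pd_le n zero_le_one u ν

end Crest.Agent.R240
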