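import Crest.Agent.R240.Defs

/-! Block A5: abstract lemmas (Neumann series, delayed Gronwall, iteration) and the profile functions. -/

set_option autoImplicit false
set_option maxSynthPendingDepth 3
set_option linter.unusedSectionVars false
set_option linter.unusedVariables false
open MeasureTheory Filter Set Metric
open scoped ENNReal NNReal Topology ContDiff InnerProductSpace InnerProduct

noncomputable section
namespace Crest.Agent.R240


/-- `σ = ∑ (-K)^i τ`; `N (k + j) (K^(i+j) τ) ≤ C · 2^{-i} N k τ`, so all the series `∑ N s (K^i τ)` converge. -/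
theorem neumann {X : Type*} [AddCommGroup X] [Module ℝ X] (N : ℕ → X → ℝ) (k : ℕ)
    (h0 : ∀ s x, 0 ≤ N s x) (hadd : ∀ s x y, N s (x + y) ≤ N s x + N s y)
    (hneg : ∀ s x, N s (-x) = N s x) (hmono : ∀ s x, N s x ≤ N (s + 1) x)
    (hsep : ∀ x, N k x = 0 → x = 0)
    (hcomp : ∀ u : ℕ → X, (∀ s, Summable fun i => N s (u i)) →
      ∃ x, ∀ s, Tendsto (fun n => N s (x - ∑ i ∈ Finset.range n, u i)) atTop (𝓝 0))
    (K : X →ₗ[ℝ] X) (hK : ∀ x, N k (K x) ≤ 1 / 2 * N k x)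
    (hK' : ∀ s, ∃ C : ℝ, ∀ x, N (s + 1) (K x) ≤ C * N s x) (τ : X) :
    ∃ σ, σ + K σ = τ ∧ N k σ ≤ 2 * N k τ := by
  have hit : ∀ (s i : ℕ), N s (((-K) ^ (i + 1)) τ) = N s (K (((-K) ^ i) τ)) := fun s i => by
    rw [pow_succ', Module.End.mul_apply, LinearMap.neg_apply, hneg]
  have hA : ∀ i : ℕ, N k (((-K) ^ i) τ) ≤ (1 / 2) ^ i * N k τ := fun i => by
    induction i with
    | zero => simp
    | succ i ih =>
      rw [hit, pow_succ', mul_assoc]
      exact (hK _).trans (by linarith)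
  have hB : ∀ j : ℕ, Summable fun i : ℕ => N (k + j) (((-K) ^ i) τ) := fun j => by
    induction j with
    | zero => exact Summable.of_nonneg_of_le (fun i => h0 _ _) hA (summable_geometric_two.mul_right _)
    | succ j ih =>
      obtain ⟨C, hC⟩ := hK' (k + j)
      refine (summable_nat_add_iff 1).1 (Summable.of_nonneg_of_le (fun i => h0 _ _) (fun i => ?_) (ih.mul_left C))
      rw [hit]
      exact hC _
  obtain ⟨x, hx⟩ := hcomp (fun i => ((-K) ^ i) τ) fun s => Summable.of_nonneg_of_le (fun i => h0 _ _)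
    (fun i => monotone_nat_of_le_succ (fun s => hmono s (((-K) ^ i) τ)) (Nat.le_add_left s k)) (hB s)
  have tel : ∀ n : ℕ, ∑ i ∈ Finset.range n, ((-K) ^ i) τ + K (∑ i ∈ Finset.range n, ((-K) ^ i) τ) =
      τ - ((-K) ^ n) τ := fun n => by
    induction n with
    | zero => simp
    | succ n ih =>
      rw [Finset.sum_range_succ, map_add, pow_succ', Module.End.mul_apply, LinearMap.neg_apply,
        add_add_add_comm, ih]
      abel
  have e : x + K x = τ := by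
    refine sub_eq_zero.1 (hsep _ (le_antisymm ?_ (h0 _ _)))
    have hl := ((hx k).add ((hx k).const_mul (1 / 2))).add
      ((tendsto_pow_atTop_nhds_zero_of_lt_one (r := (1 / 2 : ℝ)) (by norm_num) (by norm_num)).mul_const (N k τ))
    refine ge_of_tendsto' (by simpa using hl) fun n => ?_
    set S := ∑ i ∈ Finset.range n, ((-K) ^ i) τ with hS
    have e1 : x + K x - τ = (x - S) + K (x - S) + -((-K) ^ n) τ := by
      have := tel n
      rw [← hS, eq_sub_iff_add_eq] at this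
      rw [map_sub]
      conv_lhs => rw [← this]
      abel
    have h1 := hadd k ((x - S) + K (x - S)) (-((-K) ^ n) τ)
    have h2 := hadd k (x - S) (K (x - S))
    have h3 := hK (x - S)
    have h4 := hA n
    rw [hneg, ← e1] at h1
    simp only [one_div, inv_pow] at *
    linarith
  refine ⟨x, e, ?_⟩
  have h1 := hadd k τ (-K x)
  rw [hneg, ← e, add_neg_cancel_right, e] at h1
  linarith [hK x]

theorem a5b_mvt {h h' : ℝ → ℝ} {r₀ a b : ℝ} (hd : ∀ r ∈ Ioo 0 r₀, HasDerivAt h (h' r) r) (ha : 0 < a) (hab : a < b)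
    (hb : b < r₀) : ∃ ξ ∈ Ioo a b, h b - h a = (b - a) * h' ξ := by
  obtain ⟨ξ, hξ, e⟩ := exists_hasDerivAt_eq_slope h h' hab
    (fun x hx => (hd x ⟨ha.trans_le hx.1, hx.2.trans_lt hb⟩).continuousAt.continuousWithinAt)
    fun x hx => hd x ⟨ha.trans hx.1, hx.2.trans hb⟩
  exact ⟨ξ, hξ, by rw [e, mul_div_cancel₀ _ (sub_pos.2 hab).ne']⟩

/-- Put `n r = m r / r²` and `Q r = sup_{t ≥ r} n t` (finite for `r > 0`).  For `r < r₁ < r₀`:
`h r ≤ h r₁ + (r₁ - r)(C·C²·Q + C)` by the mean value inequality, so `n (c r) ≲ h r₁ + r₁ C' Q (c r) + C`;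
choose `r₁` with `r₁ C' ≤ 1/2` and absorb. -/
theorem gronwall_delay {c C r₀ B : ℝ} (hc : 0 < c) (hc1 : c ≤ 1) (hC : 1 ≤ C) (hr : 0 < r₀) (hB : 0 ≤ B) :
    ∃ C' : ℝ, ∀ m h h' : ℝ → ℝ, Monotone m → (∀ r, 0 ≤ m r ∧ m r ≤ B) →
      (∀ r ∈ Ioo 0 r₀, HasDerivAt h (h' r) r ∧ c * m (c * r) / r ^ 2 ≤ h r ∧ h r ≤ C * m (C * r) / r ^ 2 ∧
        -(C * m (C * r) / r ^ 2) - C ≤ h' r) → ∀ r, 0 < r → m r ≤ C' * r ^ 2 := by
  have hC0 : 0 < C := by linarith
  obtain ⟨r₁, h1, h2, h3⟩ : ∃ r₁ : ℝ, 0 < r₁ ∧ r₁ < r₀ ∧ r₁ * C ^ 3 ≤ c ^ 3 / 2 :=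
    ⟨min (r₀ / 2) (c ^ 3 / 2 / C ^ 3), lt_min (by linarith) (by positivity),
      (min_le_left _ _).trans_lt (by linarith), (le_div_iff₀ (by positivity)).1 (min_le_right _ _)⟩
  set A := (C * B / r₁ ^ 2 + r₁ * C) / c ^ 3 with hA
  set D := B / (c * r₁) ^ 2 with hD
  have hA0 : 0 ≤ A := by positivity
  have hD0 : 0 ≤ D := by positivity
  refine ⟨2 * (A + D), fun m h h' _ hm hd ρ hρ => ?_⟩
  have hbd : BddAbove ((fun t => m t / t ^ 2) '' Ici ρ) := ⟨B / ρ ^ 2, by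
    rintro _ ⟨t, ht, rfl⟩
    exact div_le_div₀ hB (hm t).2 (by positivity) (pow_le_pow_left₀ hρ.le ht 2)⟩
  set Q := sSup ((fun t => m t / t ^ 2) '' Ici ρ) with hQ
  have hle : ∀ t, ρ ≤ t → m t / t ^ 2 ≤ Q := fun t ht => le_csSup hbd ⟨t, ht, rfl⟩
  have hQ0 : 0 ≤ Q := (div_nonneg (hm ρ).1 (sq_nonneg _)).trans (hle ρ le_rfl)
  have key : Q ≤ A + D + Q / 2 := by
    refine csSup_le ⟨_, ρ, self_mem_Ici, rfl⟩ ?_
    rintro _ ⟨t, ht, rfl⟩
    have ht0 : 0 < t := hρ.trans_le ht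
    show m t / t ^ 2 ≤ _
    rcases le_or_gt (c * r₁) t with h4 | h4
    · have : m t / t ^ 2 ≤ D := div_le_div₀ hB (hm t).2 (by positivity) (pow_le_pow_left₀ (by positivity) h4 2)
      linarith
    obtain ⟨r, rfl⟩ : ∃ r, t = c * r := ⟨t / c, by field_simp⟩
    have hr0 : 0 < r := (pos_iff_pos_of_mul_pos ht0).1 hc
    have hr1 : r < r₁ := lt_of_mul_lt_mul_left h4 hc.le
    obtain ⟨ξ, hξ, e⟩ := a5b_mvt (fun r hr => (hd r hr).1) hr0 hr1 h2
    have hξ0 : 0 < ξ := hr0.trans hξ.1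
    have b1 := (hd r ⟨hr0, hr1.trans h2⟩).2.1
    have b2 := (hd r₁ ⟨h1, h2⟩).2.2.1
    have b3 := (hd ξ ⟨hξ0, hξ.2.trans h2⟩).2.2.2
    have b4 : C * m (C * r₁) / r₁ ^ 2 ≤ C * B / r₁ ^ 2 := by
      gcongr; exact (hm _).2
    have b5 : C * m (C * ξ) / ξ ^ 2 ≤ C ^ 3 * Q := by
      have : ρ ≤ C * ξ := by
        have : ρ ≤ c * r := ht
        nlinarith [hξ.1]
      calc C * m (C * ξ) / ξ ^ 2 = C ^ 3 * (m (C * ξ) / (C * ξ) ^ 2) := by field_simp
        _ ≤ C ^ 3 * Q := mul_le_mul_of_nonneg_left (hle _ this) (by positivity)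
    have b6 : (r₁ - r) * -h' ξ ≤ r₁ * (C ^ 3 * Q + C) :=
      (mul_le_mul_of_nonneg_left (by linarith) (by linarith)).trans
        (mul_le_mul_of_nonneg_right (by linarith) (by positivity))
    have b7 : r₁ * C ^ 3 * Q ≤ c ^ 3 / 2 * Q := mul_le_mul_of_nonneg_right h3 hQ0
    have e2 : m (c * r) / (c * r) ^ 2 = c * m (c * r) / r ^ 2 / c ^ 3 := by field_simp
    have e3 : A + Q / 2 = (C * B / r₁ ^ 2 + r₁ * C + c ^ 3 / 2 * Q) / c ^ 3 := by rw [hA]; field_simp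
    have : c * m (c * r) / r ^ 2 / c ^ 3 ≤ A + Q / 2 := by
      rw [e3]
      exact div_le_div_of_nonneg_right (by linarith) (by positivity)
    linarith
  have := hle ρ le_rfl
  rw [div_le_iff₀ (by positivity)] at this
  exact this.trans (mul_le_mul_of_nonneg_right (by linarith) (sq_nonneg _))

/-- Iterate `i` times from the a priori bound at scale `ε / K^i` and let `i → ∞`. -/
theorem iter_scale (Q : ℝ → ℝ → Prop) (hcl : ∀ ε c, (∀ c', c < c' → Q ε c') → Q ε c)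
    (hmono : ∀ ε c c', c ≤ c' → Q ε c → Q ε c') {n : ℕ} (hn : 1 ≤ n) {K B D ε₀ : ℝ} (hK : 2 ≤ K) (hB : 0 ≤ B)
    (hD : 0 ≤ D) (p : ℝ → ℝ) (hp0 : ∀ ε, 0 ≤ p ε) (hp : ∀ ε ∈ Ioo 0 ε₀, p (ε / K) ≤ K * p ε)
    (h0 : ∀ ε ∈ Ioo 0 ε₀, Q ε (B / ε ^ n))
    (hstep : ∀ ε ∈ Ioo 0 ε₀, ∀ c, 0 ≤ c → Q (ε / K) c → Q ε (D * p ε + c / (2 * K ^ n))) :
    ∀ ε ∈ Ioo 0 ε₀, Q ε (2 * D * p ε) := by
  have hK0 : 0 < K := by linarith
  have hKn : K ≤ K ^ n := le_self_pow₀ (by linarith) (by omega)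
  have key : ∀ i : ℕ, ∀ ε ∈ Ioo 0 ε₀, Q ε (2 * D * p ε + B / ε ^ n * (1 / 2) ^ i) := fun i => by
    induction i with
    | zero =>
      intro ε hε
      refine hmono _ _ _ ?_ (h0 ε hε)
      have := mul_nonneg hD (hp0 ε)
      rw [pow_zero, mul_one]
      linarith
    | succ i ih =>
      intro ε hε
      have hε0 := hε.1
      have hε' : ε / K ∈ Ioo 0 ε₀ := ⟨by positivity, (div_le_self hε0.le (by linarith)).trans_lt hε.2⟩
      have hpK := hp0 (ε / K)
      refine hmono _ _ _ ?_ (hstep ε hε _ (by positivity) (ih _ hε'))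
      have e : (2 * D * p (ε / K) + B / (ε / K) ^ n * (1 / 2) ^ i) / (2 * K ^ n) =
          D * (p (ε / K) / K ^ n) + B / ε ^ n * (1 / 2) ^ (i + 1) := by
        rw [div_pow]
        field_simp
        ring
      have h1 : p (ε / K) / K ^ n ≤ p ε := by
        rw [div_le_iff₀ (by positivity)]
        nlinarith [hp ε hε, mul_le_mul_of_nonneg_left hKn (hp0 ε)]
      have := mul_le_mul_of_nonneg_left h1 hD
      rw [e]
      linarith
  intro ε hε
  refine hcl _ _ fun c' hc' => ?_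
  have hl := (((tendsto_pow_atTop_nhds_zero_of_lt_one (r := (1 / 2 : ℝ)) (by norm_num)
    (by norm_num)).const_mul (B / ε ^ n)).const_add (2 * D * p ε))
  obtain ⟨i, hi⟩ := (hl.eventually (gt_mem_nhds (by simpa using hc'))).exists
  exact hmono _ _ _ hi.le (key i ε hε)

/-- `r ↦ h r + C r` is monotone and bounded below on `(0, r₀)`. -/
theorem exists_limit_of_deriv {h h' : ℝ → ℝ} {C r₀ : ℝ} (hr : 0 < r₀)
    (hd : ∀ r ∈ Ioo 0 r₀, HasDerivAt h (h' r) r ∧ 0 ≤ h r ∧ -C ≤ h' r) :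
    ∃ l, 0 ≤ l ∧ Tendsto h (𝓝[>] 0) (𝓝 l) := by
  have hm : MonotoneOn (fun r => h r + C * r) (Ioo 0 r₀) := fun a ha b hb hab => by
    rcases hab.eq_or_lt with rfl | hab
    · exact le_rfl
    obtain ⟨ξ, hξ, e⟩ := a5b_mvt (fun r hr => (hd r hr).1) ha.1 hab hb.2
    have := (hd ξ ⟨ha.1.trans hξ.1, hξ.2.trans hb.2⟩).2.2
    show h a + C * a ≤ h b + C * b
    nlinarith
  have hb : BddBelow ((fun r => h r + C * r) '' Ioo 0 r₀) := ⟨-(|C| * r₀), by
    rintro _ ⟨r, hr, rfl⟩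
    have := (hd r hr).2.1
    show _ ≤ h r + C * r
    nlinarith [neg_abs_le C, abs_nonneg C, hr.1, hr.2]⟩
  have h1 := hm.tendsto_nhdsWithin_Ioo_right (nonempty_Ioo.2 hr) hb
  have h2 : Tendsto (fun r : ℝ => C * r) (𝓝[>] 0) (𝓝 (C * 0)) :=
    ((continuous_const.mul continuous_id).tendsto 0).mono_left nhdsWithin_le_nhds
  have h3 := h1.sub h2
  simp only [add_sub_cancel_right] at h3
  exact ⟨_, ge_of_tendsto h3 (mem_of_superset (Ioo_mem_nhdsGT hr) fun r hr => (hd r hr).2.1), h3⟩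

/-- Mean value theorem on `[r, 2r]`: `h (2r) - h r = r h' (r*)`. -/
theorem exists_seq_small {h h' γ : ℝ → ℝ} {C r₀ l : ℝ} (hr : 0 < r₀)
    (hd : ∀ r ∈ Ioo 0 r₀, HasDerivAt h (h' r) r ∧ 0 ≤ γ r ∧ γ r - C * r ≤ r * h' r)
    (hl : Tendsto h (𝓝[>] 0) (𝓝 l)) :
    ∃ r : ℕ → ℝ, Tendsto r atTop (𝓝[>] 0) ∧ Tendsto (fun j => γ (r j)) atTop (𝓝 0) := by
  set a : ℕ → ℝ := fun j => r₀ / 3 * (1 / ((j : ℝ) + 1)) with ha
  have ha0 : ∀ j, 0 < a j := fun j => by positivity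
  have ha1 : ∀ j, 2 * a j < r₀ := fun j => by
    have : 1 / ((j : ℝ) + 1) ≤ 1 := div_le_one_of_le₀ (by simp) (by positivity)
    simp only [ha]
    nlinarith
  have t1 : Tendsto a atTop (𝓝 0) := by
    have := (tendsto_one_div_add_atTop_nhds_zero_nat (𝕜 := ℝ)).const_mul (r₀ / 3)
    rwa [mul_zero] at this
  have t2 : Tendsto (fun j => 2 * a j) atTop (𝓝 0) := by simpa using t1.const_mul 2
  choose ξ hξ e using fun j => a5b_mvt (fun r hr => (hd r hr).1) (ha0 j) (by linarith [ha0 j]) (ha1 j)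
  have hmem : ∀ j, ξ j ∈ Ioo 0 r₀ := fun j => ⟨(ha0 j).trans (hξ j).1, (hξ j).2.trans (ha1 j)⟩
  have u1 := hl.comp (tendsto_nhdsWithin_iff.2 ⟨t1, Eventually.of_forall ha0⟩)
  have u2 := hl.comp (tendsto_nhdsWithin_iff.2 ⟨t2, Eventually.of_forall fun j => mul_pos two_pos (ha0 j)⟩)
  have u3 := (t2.const_mul |C|).add ((u2.sub u1).abs.const_mul 2)
  simp only [mul_zero, sub_self, abs_zero, add_zero, Function.comp] at u3
  refine ⟨ξ, tendsto_nhdsWithin_iff.2 ⟨squeeze_zero (fun j => (hmem j).1.le) (fun j => (hξ j).2.le) t2,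
    Eventually.of_forall fun j => (hmem j).1⟩, squeeze_zero (fun j => (hd _ (hmem j)).2.1) (fun j => ?_) u3⟩
  have b1 := (hd _ (hmem j)).2.2
  have b2 : C * ξ j ≤ |C| * (2 * a j) := mul_le_mul (le_abs_self _) (hξ j).2.le (hmem j).1.le (abs_nonneg _)
  have b3 : ξ j * h' (ξ j) ≤ 2 * a j * |h' (ξ j)| :=
    (mul_le_mul_of_nonneg_left (le_abs_self _) (hmem j).1.le).trans
      (mul_le_mul_of_nonneg_right (hξ j).2.le (abs_nonneg _))
  rw [e j, abs_mul, show 2 * a j - a j = a j by ring, abs_of_pos (ha0 j)]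
  linarith

/-- `f₀ = c · (ContDiffBump 0, rIn = 1/2, rOut = 1)`, `f₁ t = (1/2) ∫_t^1 f₀`. -/
theorem exists_prof : ∃ f, Prof f := by
  let b : ContDiffBump (0 : ℝ) := ⟨1 / 2, 1, by norm_num, by norm_num⟩
  have hb0 : ∀ t, 1 ≤ t → b t = 0 := fun t ht =>
    b.zero_of_le_dist (by rw [dist_zero_right]; exact ht.trans (le_abs_self t))
  have hb1 : ∀ t ∈ Icc (0 : ℝ) (1 / 2), b t = 1 := fun t ht =>
    b.one_of_mem_closedBall (by rw [mem_closedBall_zero_iff, Real.norm_of_nonneg ht.1]; exact ht.2)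
  have hI : 0 < ∫ z : E4, b (‖z‖ ^ 2) := by
    refine Continuous.integral_pos_of_hasCompactSupport_nonneg_nonzero (x := 0)
      (b.continuous.comp (by fun_prop)) ?_ (fun _ => b.nonneg) (by simp [hb1 0])
    refine HasCompactSupport.intro (isCompact_closedBall 0 1) fun z hz => hb0 _ ?_
    rw [mem_closedBall_zero_iff, not_le] at hz
    exact one_le_pow₀ hz.le
  set I := ∫ z : E4, b (‖z‖ ^ 2) with hId
  have hc : Continuous fun t => I⁻¹ * b t := continuous_const.mul b.continuous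
  have hs : ContDiff ℝ ∞ fun t => I⁻¹ * b t := contDiff_const.mul b.contDiff
  have h0 : ∀ t, 0 ≤ I⁻¹ * b t := fun t => mul_nonneg (inv_nonneg.2 hI.le) b.nonneg
  have hd : ∀ t, HasDerivAt (fun t => (∫ s in t..1, I⁻¹ * b s) / 2) (-(I⁻¹ * b t) / 2) t := fun t => by
    simp only [intervalIntegral.integral_symm 1]
    exact (hc.integral_hasStrictDerivAt 1 t).hasDerivAt.neg.div_const 2
  have hz : ∀ t, 1 ≤ t → (∫ s in t..1, I⁻¹ * b s) / 2 = 0 := fun t ht => by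
    rw [intervalIntegral.integral_congr (g := fun _ => 0) fun s hs => by
      rw [uIcc_of_ge ht] at hs
      simp [hb0 s hs.1]]
    simp
  refine ⟨(fun t => I⁻¹ * b t, fun t => (∫ s in t..1, I⁻¹ * b s) / 2), hs, ?_, h0, fun t => ?_,
    fun t ht => ⟨by simp [hb0 t ht], hz t ht⟩, hd, ⟨I⁻¹ / 8, by positivity, fun t ht => ⟨?_, ?_⟩⟩,
    ⟨I⁻¹ + ∫ s, I⁻¹ * b s, fun t => ⟨?_, ?_⟩⟩, ?_⟩
  · refine contDiff_infty_iff_deriv.2 ⟨fun t => (hd t).differentiableAt, ?_⟩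
    rw [funext fun t => (hd t).deriv]
    exact hs.neg.div_const 2
  · rcases le_total t 1 with h | h
    · exact div_nonneg (intervalIntegral.integral_nonneg h fun s _ => h0 s) zero_le_two
    · exact (hz t h).ge
  · simp only [hb1 t ⟨ht.1, ht.2.trans (by norm_num)⟩]
    linarith [inv_pos.2 hI]
  · have h1 := intervalIntegral.integral_mono_interval (f := fun s => I⁻¹ * b s) (μ := volume) ht.2
      (show (1 / 4 : ℝ) ≤ 1 / 2 by norm_num) (show (1 / 2 : ℝ) ≤ 1 by norm_num) (Eventually.of_forall h0)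
      (hc.intervalIntegrable _ _)
    rw [intervalIntegral.integral_congr (g := fun _ => I⁻¹) fun s hs => by
      rw [uIcc_of_le (by norm_num)] at hs
      simp [hb1 s ⟨le_trans (by norm_num) hs.1, hs.2⟩], intervalIntegral.integral_const, smul_eq_mul] at h1
    simp only
    linarith
  · exact (mul_le_of_le_one_right (inv_nonneg.2 hI.le) b.le_one).trans (le_add_of_nonneg_right (integral_nonneg h0))
  · have h1 : 0 ≤ ∫ s, I⁻¹ * b s := integral_nonneg h0
    have h2 := inv_pos.2 hI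
    rcases le_total t 1 with h | h
    · have h3 := setIntegral_le_integral (s := Ioc t 1) (μ := volume) (b.integrable.const_mul I⁻¹) (Eventually.of_forall h0)
      simp only [intervalIntegral.integral_of_le h]
      linarith
    · exact (hz t h).trans_le (by linarith)
  · simp only [integral_const_mul]
    exact inv_mul_cancel₀ hI.ne'

theorem prof : Prof (f0, f1) := Classical.epsilon_spec exists_prof

/-- Linear change of variables (`MeasureTheory.integral_comp_smul`, `Measure.addHaar` image of a linear equivalence,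
translation invariance). -/
theorem integral_f0 {g gi : E4 →L[ℝ] E4} (h : ∀ a, g (gi a) = a) (hd : 0 < g.det) {δ : ℝ} (hδ : 0 < δ) (y : E4) :
    ∫ x : E4, (δ ^ 4)⁻¹ * (g.det * f0 (‖g (y - x)‖ ^ 2 / δ ^ 2)) = 1 := by
  obtain ⟨hs, -, -, -, -, -, -, -, h1⟩ := prof
  have hT : LinearMap.det (δ⁻¹ • (g : E4 →ₗ[ℝ] E4)) = (δ ^ 4)⁻¹ * g.det := by
    rw [LinearMap.det_smul, finrank_euclideanSpace_fin, inv_pow]
  have hp : 0 < (δ ^ 4)⁻¹ * g.det := by positivity
  have hc : Continuous fun z : E4 => f0 (‖z‖ ^ 2) := hs.continuous.comp (by fun_prop)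
  have h2 := integral_map (μ := volume) (φ := δ⁻¹ • (g : E4 →ₗ[ℝ] E4))
    (LinearMap.continuous_of_finiteDimensional _).aemeasurable hc.aestronglyMeasurable
  rw [Measure.map_linearMap_addHaar_eq_smul_addHaar _ (hT ▸ hp.ne'), integral_smul_measure, hT,
    ENNReal.toReal_ofReal (abs_nonneg _), abs_of_pos (inv_pos.2 hp), show ∫ z : E4, f0 (‖z‖ ^ 2) = 1 from h1,
    smul_eq_mul, mul_one] at h2
  rw [integral_sub_left_eq_self (fun x : E4 => (δ ^ 4)⁻¹ * (g.det * f0 (‖g x‖ ^ 2 / δ ^ 2))) volume y]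
  simp only [← mul_assoc]
  rw [integral_const_mul, ← mul_inv_cancel₀ hp.ne', h2]
  congr 2
  funext x
  simp only [LinearMap.smul_apply, norm_smul, mul_pow, Real.norm_eq_abs, sq_abs, inv_pow, div_eq_inv_mul]
  rfl

end Crest.Agent.R240
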