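import Crest.Agent.R240.A8

/-! Block A9: approximate identities. -/

set_option autoImplicit false
set_option maxSynthPendingDepth 3
set_option linter.unusedSectionVars false
set_option linter.unusedVariables false
open MeasureTheory Filter Set Metric
open scoped ENNReal NNReal Topology ContDiff InnerProductSpace InnerProduct

noncomputable section
namespace Crest.Agent.R240

variable {G G₁ G₂ H : Type*} [NormedAddCommGroup G] [NormedSpace ℝ G] [FiniteDimensional ℝ G]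
  [NormedAddCommGroup G₁] [NormedSpace ℝ G₁] [FiniteDimensional ℝ G₁] [NormedAddCommGroup G₂]
  [NormedSpace ℝ G₂] [FiniteDimensional ℝ G₂] [NormedAddCommGroup H] [NormedSpace ℝ H]
  [FiniteDimensional ℝ H]

/-- The defect of the approximate identity. -/
def Df (π : E4 → G →L[ℝ] G) (k : KF (G →L[ℝ] G)) (δ : ℝ) (u : E4 → G) : E4 → G :=
  (fun y => π y (u y)) - KO k δ u

theorem a9a_int {k : E4 × E4 → G₁ →L[ℝ] G₂} (hk : ContDiffOn ℝ ∞ k (V ×ˢ V)) {u : E4 → G₁} (hu : Tst 2 u) {y : E4}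
    (hy : y ∈ V) (c : ℝ) : Integrable fun x => c • k (x, y) (u x) := by
  have h1 : ContDiffOn ℝ ∞ (fun x => k (x, y)) V :=
    hk.comp (contDiff_id.prodMk contDiff_const).contDiffOn fun x hx => ⟨hx, hy⟩
  exact ((Tst.mul (by norm_num) h1 hu).smul c).integrable

/-- `Df u = - KD (k₀ • π) u - δ • KO (δ⁻¹ • (k - k₀ • π)) u`; `KD_hs`, `KO_hs`, `hs_mul`. -/
theorem Df_hs (n : ℕ) {C₀ : ℝ} (hC : 0 ≤ C₀) {π : E4 → G →L[ℝ] G} (hπ : ContDiffOn ℝ ∞ π V)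
    {k : KF (G →L[ℝ] G)} (h : Bd k) (hs' : Sup C₀ k) {k₀ : KF ℝ} (h₀ : Bd k₀) (hs₀ : Sup C₀ k₀)
    (hs2 : ∀ᶠ δ in 𝓝[>] (0 : ℝ), ∀ p : E4 × E4, ‖p.2‖ < 5 / 2 → C₀ * δ < ‖p.1 - p.2‖ → k₀ δ p = 0)
    (h1 : ∀ᶠ δ in 𝓝[>] (0 : ℝ), ∀ y : E4, ‖y‖ < 5 / 2 → ∫ x, (δ ^ 4)⁻¹ * k₀ δ (x, y) = 1)
    (hd : Bd fun δ p => δ⁻¹ • (k δ p - k₀ δ p • π p.2)) :
    ∃ C : ℝ, 0 ≤ C ∧ ∀ᶠ δ in 𝓝[>] (0 : ℝ), ∀ (u : E4 → G) (ρ : ℝ), 0 ≤ ρ → ρ ≤ 2 → Tst ρ u →
      Tst (ρ + C₀ * δ) (Df π k δ u) ∧ hs n 1 (Df π k δ u) ≤ C * hs n 1 u ∧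
        hs n 1 (Df π k δ u) ≤ C * δ * hs (n + 1) 1 u := by
  set k1 : KF (G →L[ℝ] G) := fun δ p => k₀ δ p • π p.2 with hk1
  set k2 : KF (G →L[ℝ] G) := fun δ p => δ⁻¹ • (k δ p - k₀ δ p • π p.2) with hk2
  have b1 : Bd k1 := h₀.smul (bd_const (D := fun p : E4 × E4 => π p.2)
    (hπ.comp contDiff_snd.contDiffOn fun p hp => hp.2))
  have s1 : Sup C₀ k1 := hs₀.mono fun δ hδ p hp hp2 => by simp only [hk1, hδ p hp hp2, zero_smul]
  have s2 : Sup C₀ k2 := (hs'.and hs₀).mono fun δ hδ p hp hp2 => by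
    simp only [hk2, hδ.1 p hp hp2, hδ.2 p hp hp2, zero_smul, sub_zero, smul_zero]
  obtain ⟨C1, hC1, e1⟩ := hs_mul n hπ
  obtain ⟨C2, hC2, e2⟩ := KO_hs n hC h hs'
  obtain ⟨C3, hC3, e3⟩ := KD_hs n hC b1 s1 (hs2.mono fun δ hδ p hp hp2 => by simp only [hk1, hδ p hp hp2, zero_smul])
  obtain ⟨C4, hC4, e4⟩ := KO_hs n hC hd s2
  obtain ⟨_, -, t1⟩ := KO_hs_scale 0 hC h hs'
  obtain ⟨_, -, t2⟩ := KO_hs_scale 0 hC hd s2
  have hsm : ∀ᶠ δ in 𝓝[>] (0 : ℝ), C₀ * δ < 1 / 4 := by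
    have : Tendsto (fun δ : ℝ => C₀ * δ) (𝓝 0) (𝓝 (C₀ * 0)) := (continuous_const.mul continuous_id).tendsto 0
    exact mem_nhdsWithin_of_mem_nhds (this.eventually (gt_mem_nhds (by norm_num)))
  refine ⟨C1 + C2 + C3 + C4, by positivity, ?_⟩
  filter_upwards [e2, e3, e4, t1, t2, hsm, h1, h.1, b1.1, self_mem_nhdsWithin] with δ e2 e3 e4 t1 t2 hsm h1 c c1 hδ
    u ρ hρ0 hρ hu
  have hδ : 0 < δ := hδ
  have hCδ : 0 ≤ C₀ * δ := by positivity
  have hu2 : Tst 2 u := hu.mono hρ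
  have tπ : Tst ρ fun y => π y (u y) := Tst.mul (by linarith) hπ hu
  have tk := (t1 u ρ hρ0 hρ hu).1
  have tk2 := (t2 u ρ hρ0 hρ hu).1
  have n0 := hs_nonneg n zero_le_one u
  have n1 := hs_nonneg (n + 1) zero_le_one u
  refine ⟨(tπ.mono (by linarith)).sub tk, ?_, ?_⟩
  · refine (hs_sub_le n zero_le_one (tπ.mono (by linarith)) tk).trans ?_
    have h2 := e1 1 ⟨zero_le_one, le_rfl⟩ u (hu.mono (by linarith))
    have h3 := e2 u hu2
    nlinarith [mul_nonneg hC3 n0, mul_nonneg hC4 n0]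
  · have e : Df π k δ u = (-1 : ℝ) • KD k1 δ u - δ • KO k2 δ u := by
      funext y
      simp only [Df, Pi.sub_apply, Pi.smul_apply]
      by_cases hy : ‖y‖ < 9 / 4
      · have hV : y ∈ V := mem_ball_zero_iff.2 (by linarith)
        have i1 := a9a_int c hu2 hV (δ ^ 4)⁻¹
        have i2 := a9a_int c1 hu2 hV (δ ^ 4)⁻¹
        have i3 := h1 y (by linarith)
        have i4 := (integrable_of_integral_eq_one i3).smul_const (π y (u y))
        have f1 : KD k1 δ u y = KO k1 δ u y - π y (u y) := by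
          have : ∀ x, (δ ^ 4)⁻¹ • k1 δ (x, y) (u x - u y) =
              (δ ^ 4)⁻¹ • k1 δ (x, y) (u x) - ((δ ^ 4)⁻¹ * k₀ δ (x, y)) • π y (u y) := fun x => by
            simp only [hk1, map_sub, smul_sub, smul_apply, mul_smul]
          simp only [KD, if_pos hy, this, KO]
          rw [integral_sub i2 i4, integral_smul_const, i3, one_smul]
        have f2 : δ • KO k2 δ u y = KO k δ u y - KO k1 δ u y := by
          simp only [KO]
          rw [← integral_sub i1 i2, ← integral_smul]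
          refine integral_congr_ae (Eventually.of_forall fun x => ?_)
          simp only [hk1, hk2, smul_apply, sub_apply]
          rw [smul_comm δ, smul_inv_smul₀ hδ.ne', smul_sub]
        rw [f1, f2]
        module
      · have h2 : u y = 0 := hu.2 y (by linarith)
        rw [h2, tk.2 y (by linarith), tk2.2 y (by linarith)]
        simp [KD, hy]
    obtain ⟨td, h2⟩ := e3 u hu2
    have tk3 : Tst (2 + C₀ * δ) (KO k2 δ u) := tk2.mono (by linarith)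
    have h3 := e4 u hu2
    have h4 := hs_mono (Nat.le_succ n) zero_le_one u
    rw [e]
    refine (hs_sub_le n zero_le_one (td.smul _) (tk3.smul _)).trans ?_
    rw [hs_smul n 1 td, hs_smul n 1 tk3, abs_of_pos hδ, abs_neg, abs_one, one_mul]
    have h5 : δ * hs n 1 (KO k2 δ u) ≤ δ * (C4 * hs (n + 1) 1 u) :=
      mul_le_mul_of_nonneg_left (h3.trans (mul_le_mul_of_nonneg_left h4 hC4)) hδ.le
    nlinarith [mul_nonneg (mul_nonneg hC1 hδ.le) n1, mul_nonneg (mul_nonneg hC2 hδ.le) n1]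

theorem a9b_iter {s : ℕ} {D : (E4 → G) → E4 → G} {K δ r ρ A : ℝ} (hK : 1 ≤ K) (hδ : 0 ≤ δ) (hr : 0 ≤ r)
    (hρ : 0 ≤ ρ) (hA : 0 ≤ A) (h2 : ρ + s * r ≤ 2) {T : (E4 → G) → ℝ}
    (hD : ∀ n ≤ s, ∀ (u : E4 → G) (ρ : ℝ), 0 ≤ ρ → ρ ≤ 2 → Tst ρ u →
      Tst (ρ + r) (D u) ∧ hs n 1 (D u) ≤ K * hs n 1 u ∧ hs n 1 (D u) ≤ K * δ * hs (n + 1) 1 u)
    (hT : ∀ u, Tst (ρ + s * r) u → |T u - T (D u)| ≤ A * hs 0 1 u) {u : E4 → G} (hu : Tst ρ u) :
    ∀ i ≤ s, Tst (ρ + i * r) (D^[i] u) ∧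
      (∀ j m, m ≤ i → j + m ≤ s → hs j 1 (D^[i] u) ≤ K ^ i * δ ^ m * hs (j + m) 1 u) ∧
      |T u - T (D^[i] u)| ≤ i * K ^ i * (A * hs 0 1 u) := by
  intro i
  induction i with
  | zero =>
    refine fun _ => ⟨by simpa using hu, fun j m hm _ => ?_, by simp⟩
    obtain rfl : m = 0 := by omega
    simp
  | succ i ih =>
    intro hi
    obtain ⟨h1, h3, h4⟩ := ih (by omega)
    have hi' : ρ + i * r ≤ ρ + s * r := by
      have : (i : ℝ) ≤ s := by exact_mod_cast (by omega : i ≤ s)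
      gcongr
    have h5 := fun n hn => hD n hn _ _ (by positivity) (hi'.trans h2) h1
    have hK0 : 0 ≤ K := by linarith
    rw [Function.iterate_succ_apply']
    refine ⟨(h5 0 (Nat.zero_le _)).1.mono (le_of_eq (by push_cast; ring)), fun j m hm hj => ?_, ?_⟩
    · rcases m with _ | m
      · refine (h5 j (by omega)).2.1.trans ((mul_le_mul_of_nonneg_left
          (h3 j 0 (Nat.zero_le _) hj) hK0).trans_eq (by ring))
      · refine (h5 j (by omega)).2.2.trans ((mul_le_mul_of_nonneg_left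
          (h3 (j + 1) m (by omega) (by omega)) (mul_nonneg hK0 hδ)).trans_eq ?_)
        rw [show j + 1 + m = j + (m + 1) by omega]
        ring
    · have h6 := hT _ (h1.mono hi')
      have h7 := mul_le_mul_of_nonneg_left (h3 0 0 (Nat.zero_le _) (Nat.zero_le _)) hA
      have h8 := abs_sub_le (T u) (T (D^[i] u)) (T (D (D^[i] u)))
      have h9 : 0 ≤ A * hs 0 1 u := mul_nonneg hA (hs_nonneg 0 zero_le_one u)
      have h10 : ((i : ℝ) + 1) * K ^ i * (A * hs 0 1 u) ≤ (i + 1) * K ^ (i + 1) * (A * hs 0 1 u) := by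
        gcongr
        omega
      simp only [pow_zero, mul_one, add_zero] at h7
      push_cast
      linarith

/-- `T u = ∑_{i < s} T (KO (Df^i u)) + T (Df^s u)`; `δ^j hs j 1 (Df^s u) ≤ C δ^s hs s 1 u` for `j ≤ s`
(`s - j` gains, `j` bounded steps), `hs_split`. -/
theorem approx_iter (s : ℕ) {C₀ : ℝ} (hC : 0 ≤ C₀) {π : E4 → G →L[ℝ] G} (hπ : ContDiffOn ℝ ∞ π V)
    {k : KF (G →L[ℝ] G)}
    (hD : ∀ n, ∃ C : ℝ, 0 ≤ C ∧ ∀ᶠ δ in 𝓝[>] (0 : ℝ), ∀ (u : E4 → G) (ρ : ℝ), 0 ≤ ρ → ρ ≤ 2 → Tst ρ u →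
      Tst (ρ + C₀ * δ) (Df π k δ u) ∧ hs n 1 (Df π k δ u) ≤ C * hs n 1 u ∧
        hs n 1 (Df π k δ u) ≤ C * δ * hs (n + 1) 1 u) :
    ∃ C : ℝ, 1 ≤ C ∧ ∀ᶠ δ in 𝓝[>] (0 : ℝ), ∀ (T : (E4 → G) →ₗ[ℝ] ℝ) (a c : ℝ), 0 ≤ a → 0 ≤ c →
      (∀ u, T u = T fun y => π y (u y)) →
      (∀ u, Tst (2 - δ) u → |T u| ≤ c * hs s δ u) →
      (∀ u, Tst (2 - (C₀ + 1) * δ) u → |T (KO k δ u)| ≤ a * lpNorm u 2 volume) →
      ∀ u, Tst (2 - C * δ) u → |T u| ≤ C * a * lpNorm u 2 volume + C * c * δ ^ s * hs s 1 u := by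
  choose c₀ hc₀ hD using hD
  obtain ⟨K, hK, hcK⟩ : ∃ K : ℝ, 1 ≤ K ∧ ∀ n ≤ s, c₀ n ≤ K :=
    ⟨1 + ∑ n ∈ Finset.range (s + 1), c₀ n, le_add_of_nonneg_right (Finset.sum_nonneg fun n _ => hc₀ n),
      fun n hn => (Finset.single_le_sum (fun n _ => hc₀ n)
        (Finset.mem_range.2 (Nat.lt_succ_of_le hn))).trans (le_add_of_nonneg_left zero_le_one)⟩
  obtain ⟨C, hC1, hC2, hC3⟩ : ∃ C : ℝ, 1 ≤ C ∧ (s + 1) * K ^ s ≤ C ∧ (s + 1) * C₀ + 1 ≤ C := by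
    have h1 : 0 ≤ ((s : ℝ) + 1) * K ^ s := by positivity
    have h2 : 0 ≤ ((s : ℝ) + 1) * C₀ := by positivity
    exact ⟨(s + 1) * K ^ s + ((s + 1) * C₀ + 1), by linarith, by linarith, by linarith⟩
  refine ⟨C, hC1, ?_⟩
  have h1 : ∀ᶠ δ in 𝓝[>] (0 : ℝ), δ < 2 / C :=
    mem_nhdsWithin_of_mem_nhds (gt_mem_nhds (by positivity))
  filter_upwards [(eventually_all_finset (Finset.range (s + 1))).2 fun n _ => hD n, h1,
    self_mem_nhdsWithin] with δ hD' hδ1 (hδ : 0 < δ) T a c ha hc hπT hT1 hT2 u hu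
  rw [lt_div_iff₀ (by positivity)] at hδ1
  have h2 : 2 - C * δ + s * (C₀ * δ) ≤ 2 - (C₀ + 1) * δ := by nlinarith
  have h3 : 2 - (C₀ + 1) * δ ≤ 2 - δ := by nlinarith
  obtain ⟨h4, h5, h6⟩ := a9b_iter (s := s) (D := Df π k δ) (T := T) hK hδ.le (mul_nonneg hC hδ.le)
    (show 0 ≤ 2 - C * δ by linarith) ha (by linarith) (fun n hn v ρ h0 h0' hv => by
      obtain ⟨e1, e2, e3⟩ := hD' n (Finset.mem_range.2 (Nat.lt_succ_of_le hn)) v ρ h0 h0' hv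
      have := hcK n hn
      have := hs_nonneg n zero_le_one v
      have := hs_nonneg (n + 1) zero_le_one v
      exact ⟨e1, e2.trans (by gcongr), e3.trans (by gcongr)⟩)
    (fun v hv => by
      rw [Df, map_sub, ← hπT, sub_sub_cancel]
      exact hT2 v (hv.mono h2)) hu s le_rfl
  have h7 : hs s δ ((Df π k δ)^[s] u) ≤ (s + 1) * K ^ s * (δ ^ s * hs s 1 u) := by
    refine (hs_split s hδ.le _).trans ((Finset.sum_le_card_nsmul _ _ (K ^ s * (δ ^ s * hs s 1 u))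
      fun j hj => ?_).trans_eq (by simp; ring))
    have hj' : j ≤ s := Nat.lt_succ_iff.1 (Finset.mem_range.1 hj)
    obtain ⟨m, rfl⟩ := Nat.exists_eq_add_of_le hj'
    exact (mul_le_mul_of_nonneg_left (h5 j m (by omega) le_rfl) (by positivity)).trans_eq (by ring)
  have h8 := hT1 _ (h4.mono (h2.trans h3))
  have h9 : 0 ≤ δ ^ s * hs s 1 u := mul_nonneg (by positivity) (hs_nonneg s zero_le_one u)
  have h10 : 0 ≤ a * hs 0 1 u := mul_nonneg ha (hs_nonneg 0 zero_le_one u)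
  have h11 : (s : ℝ) * K ^ s ≤ C := le_trans (by gcongr; linarith) hC2
  have h12 := mul_le_mul_of_nonneg_right h11 h10
  have h13 := mul_le_mul_of_nonneg_left (h7.trans (mul_le_mul_of_nonneg_right hC2 h9)) hc
  have h14 := abs_sub_abs_le_abs_sub (T u) (T ((Df π k δ)^[s] u))
  change |T u| ≤ C * a * hs 0 1 u + _
  linarith

end Crest.Agent.R240
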