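import Crest.Agent.R240.A8
import Crest.Agent.R240.A9
import Crest.Agent.R240.A5

/-! Block A4: finite rank approximation (an elementary Rellich lemma). -/

set_option autoImplicit false
set_option maxSynthPendingDepth 3
set_option linter.unusedSectionVars false
set_option linter.unusedVariables false
open MeasureTheory Filter Set Metric
open scoped ENNReal NNReal Topology ContDiff InnerProductSpace InnerProduct

noncomputable section
namespace Crest.Agent.R240

variable {G G₁ G₂ H : Type*} [NormedAddCommGroup G] [NormedSpace ℝ G] [FiniteDimensional ℝ G]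
  [NormedAddCommGroup G₁] [NormedSpace ℝ G₁] [FiniteDimensional ℝ G₁] [NormedAddCommGroup G₂]
  [NormedSpace ℝ G₂] [FiniteDimensional ℝ G₂] [NormedAddCommGroup H] [NormedSpace ℝ H]
  [FiniteDimensional ℝ H]

/-- convolution -/
def a4_cv (ρ : E4 → ℝ) (u : E4 → G) (y : E4) : G := ∫ x, ρ (y - x) • u x

/-- a partition of the unit ball of mesh `r` -/
def a4_P {m : ℕ} (x : Fin m → E4) (Q : Fin m → Set E4) (r : ℝ) : Prop :=
  (∀ j, ‖x j‖ ≤ 1) ∧ (∀ j, MeasurableSet (Q j)) ∧ Pairwise (Function.onFun Disjoint Q) ∧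
    ⋃ j, Q j = closedBall 0 1 ∧ ∀ j, Q j ⊆ ball (x j) r

theorem a4_part {r : ℝ} (hr : 0 < r) : ∃ (m : ℕ) (x : Fin m → E4) (Q : Fin m → Set E4), a4_P x Q r := by
  obtain ⟨t, hts, ht, hcov⟩ :=
    finite_approx_of_totallyBounded (isCompact_closedBall (0 : E4) 1).totallyBounded r hr
  obtain ⟨m, x, -, rfl⟩ := ht.fin_param
  have hm : ∀ j, MeasurableSet (ball (x j) r ∩ closedBall 0 1) := fun j =>
    measurableSet_ball.inter measurableSet_closedBall
  refine ⟨m, x, disjointed fun j => ball (x j) r ∩ closedBall 0 1,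
    fun j => mem_closedBall_zero_iff.1 (hts (mem_range_self j)), fun j => ?_, disjoint_disjointed _, ?_,
    fun j => (disjointed_subset _ j).trans inter_subset_left⟩
  · rw [disjointed_eq_inter_compl]
    exact (hm j).inter (MeasurableSet.iInter fun i => MeasurableSet.iInter fun _ => (hm i).compl)
  · rw [iUnion_disjointed, ← iUnion_inter, inter_eq_right]
    simpa using hcov

theorem a4_split {m : ℕ} {x : Fin m → E4} {Q : Fin m → Set E4} {r : ℝ} (hP : a4_P x Q r) {F : E4 → G}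
    (hF : Integrable F) (h0 : ∀ z, 1 < ‖z‖ → F z = 0) : ∫ z, F z = ∑ j, ∫ z in Q j, F z := by
  rw [← integral_iUnion_fintype hP.2.1 hP.2.2.1 fun _ => hF.integrableOn, hP.2.2.2.1,
    setIntegral_eq_integral_of_forall_compl_eq_zero fun z hz => h0 z (by simpa using hz)]

theorem a4_lin (Q : Set E4) : ∃ I : (E4 → G) →ₗ[ℝ] G, ∀ u, Tst 1 u → I u = ∫ z in Q, u z := by
  let D : Submodule ℝ (E4 → G) :=
    { carrier := {u | Tst 1 u}, add_mem' := Tst.add, zero_mem' := Tst.zero 1, smul_mem' := fun c _ h => h.smul c }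
  let f : D →ₗ[ℝ] G :=
    { toFun := fun u => ∫ z in Q, u.1 z
      map_add' := fun u v => integral_add (Tst.integrable u.2).integrableOn (Tst.integrable v.2).integrableOn
      map_smul' := fun c u => integral_smul c _ }
  obtain ⟨I, hI⟩ := f.exists_extend
  exact ⟨I, fun u hu => LinearMap.congr_fun hI ⟨u, hu⟩⟩

theorem a4_chi : MemLp ((closedBall (0 : E4) 2).indicator fun _ => (1 : ℝ)) 2 volume :=
  memLp_indicator_const 2 measurableSet_closedBall 1 (Or.inr measure_closedBall_lt_top.ne)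

theorem a4_l1 : ∃ B : ℝ, 0 ≤ B ∧ ∀ u : E4 → G, Tst 1 u → ∫ z, ‖u z‖ ≤ B * lpNorm u 2 volume := by
  refine ⟨lpNorm ((closedBall (0 : E4) 2).indicator fun _ => (1 : ℝ)) 2 volume, lpNorm_nonneg, fun u hu => ?_⟩
  have h := integral_mul_le_lpNorm a4_chi (hu.memLp 2).norm
  rw [lpNorm_norm (hu.memLp 2).1] at h
  refine le_trans (le_of_eq (integral_congr_ae (Eventually.of_forall fun z => ?_))) h
  by_cases hz : z ∈ closedBall (0 : E4) 2
  · simp [hz]
  · simp [hz, hu.2 z (by linarith [not_le.1 (mt mem_closedBall_zero_iff.2 hz)])]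

theorem a4_pd {ρ : E4 → ℝ} (hρ : Tst 1 ρ) {u : E4 → G} (hu : Tst 1 u) {m : ℕ} (x : Fin m → E4) (a : Fin m → G)
    (μ : Fin 4) : pd μ (a4_cv ρ u - ∑ j, fun y => ρ (y - x j) • a j) =
      a4_cv (pd μ ρ) u - ∑ j, fun y => pd μ ρ (y - x j) • a j := by
  have := FiniteDimensional.complete ℝ G
  funext y
  have hl := hu.integrable.locallyIntegrable
  have h1 := hρ.hcs.hasFDerivAt_convolution_right (ContinuousLinearMap.lsmul ℝ ℝ : ℝ →L[ℝ] G →L[ℝ] G).flip hl
    (hρ.1.of_le (by norm_cast)) y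
  have h2 := HasFDerivAt.sum (u := Finset.univ) fun j _ =>
    (hasFDerivAt_comp_sub (x j) |>.2 (hρ.1.differentiable (by simp) (y - x j)).hasFDerivAt).smul_const (a j)
  refine (congrArg (fun L : E4 →L[ℝ] G => L (ee μ)) (h1.sub h2).fderiv).trans ?_
  simp only [sub_apply, sum_apply, Pi.sub_apply, Finset.sum_apply, ContinuousLinearMap.smulRight_apply]
  rw [convolution_precompR_apply _ hl (hρ.hcs.fderiv ℝ) (hρ.1.continuous_fderiv (by simp))]
  rfl

theorem a4_zero {ρ : E4 → ℝ} (hρ : Tst 1 ρ) : ∃ C : ℝ, 0 ≤ C ∧ ∀ (m : ℕ) (x : Fin m → E4) (Q : Fin m → Set E4)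
    (r : ℝ), 0 ≤ r → a4_P x Q r → ∀ u : E4 → G, Tst 1 u →
      lpNorm (a4_cv ρ u - ∑ j, fun y => ρ (y - x j) • ∫ z in Q j, u z) 2 volume ≤ C * r * ∫ z, ‖u z‖ := by
  have := FiniteDimensional.complete ℝ G
  obtain ⟨L, hL⟩ := ContDiff.lipschitzWith_of_hasCompactSupport hρ.hcs hρ.1 (by simp)
  refine ⟨L * lpNorm ((closedBall (0 : E4) 2).indicator fun _ => (1 : ℝ)) 2 volume,
    mul_nonneg L.2 lpNorm_nonneg, fun m x Q r hr hP u hu => ?_⟩
  have hA : 0 ≤ L * r * ∫ z, ‖u z‖ := mul_nonneg (mul_nonneg L.2 hr) (integral_nonneg fun _ => norm_nonneg _)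
  refine (lpNorm_mono_real (a4_chi.const_smul (L * r * ∫ z, ‖u z‖)) fun y => ?_).trans_eq ?_
  · simp only [Pi.sub_apply, Finset.sum_apply, Pi.smul_apply, smul_eq_mul, a4_cv]
    by_cases hy : y ∈ closedBall (0 : E4) 2
    · have hi : Integrable fun z => ρ (y - z) • u z :=
        ((hρ.1.continuous.comp (by fun_prop)).smul hu.1.continuous).integrable_of_hasCompactSupport
          hu.hcs.smul_left
      rw [indicator_of_mem hy, mul_one, a4_split hP hi fun z hz => by rw [hu.2 z hz, smul_zero],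
        a4_split hP hu.integrable.norm fun z hz => by rw [hu.2 z hz, norm_zero], ← Finset.sum_sub_distrib,
        Finset.mul_sum]
      refine norm_sum_le_of_le _ fun j _ => ?_
      have hi' : Integrable fun z => ρ (y - x j) • u z := hu.integrable.smul _
      rw [← integral_smul, ← integral_sub hi.integrableOn hi'.integrableOn, ← integral_const_mul]
      refine norm_integral_le_of_norm_le (hu.integrable.norm.const_mul _).integrableOn
        (ae_restrict_of_forall_mem (hP.2.1 j) fun z hz => ?_)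
      rw [← sub_smul, norm_smul, ← dist_eq_norm]
      refine mul_le_mul_of_nonneg_right ((hL.dist_le_mul _ _).trans (mul_le_mul_of_nonneg_left ?_ L.2))
        (norm_nonneg _)
      rw [dist_sub_left]
      exact (mem_ball.1 (hP.2.2.2.2 j hz)).le
    · have hy' := not_le.1 (mt mem_closedBall_zero_iff.2 hy)
      have h0 : ∀ z : E4, ‖z‖ ≤ 1 → ρ (y - z) = 0 := fun z hz => hρ.2 _ (by linarith [norm_sub_norm_le y z])
      have h1 : ∀ z, ρ (y - z) • u z = 0 := fun z => by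
        rcases le_or_gt ‖z‖ 1 with hz | hz
        · rw [h0 z hz, zero_smul]
        · rw [hu.2 z hz, smul_zero]
      simp [hy, h1, fun j => h0 _ (hP.1 j)]
  · rw [lpNorm_const_smul, coe_nnnorm, Real.norm_of_nonneg hA]
    ring

theorem a4_disc (n : ℕ) {ρ : E4 → ℝ} (hρ : Tst 1 ρ) : ∃ C : ℝ, 0 ≤ C ∧ ∀ (m : ℕ) (x : Fin m → E4)
    (Q : Fin m → Set E4) (r : ℝ), 0 ≤ r → a4_P x Q r → ∀ u : E4 → G, Tst 1 u →
      hs n 1 (a4_cv ρ u - ∑ j, fun y => ρ (y - x j) • ∫ z in Q j, u z) ≤ C * r * ∫ z, ‖u z‖ := by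
  induction n generalizing ρ with
  | zero => exact a4_zero hρ
  | succ n ih =>
    obtain ⟨C₀, h0, h1⟩ := a4_zero (G := G) hρ
    choose C hC h2 using fun μ => ih (hρ.pd' μ)
    refine ⟨C₀ + ∑ μ, C μ, add_nonneg h0 (Finset.sum_nonneg fun μ _ => hC μ), fun m x Q r hr hP u hu => ?_⟩
    simp only [hs, a4_pd hρ hu, one_mul, add_mul, Finset.sum_mul]
    exact add_le_add (h1 m x Q r hr hP u hu) (Finset.sum_le_sum fun μ _ => h2 μ m x Q r hr hP u hu)

theorem a4_moll (n : ℕ) {η : ℝ} (hη : 0 < η) : ∃ ρ : E4 → ℝ, Tst 1 ρ ∧ ∀ u : E4 → G, Tst 1 u →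
    Tst 2 (u - a4_cv ρ u) ∧ hs n 1 (u - a4_cv ρ u) ≤ η * hs (n + 1) 1 u := by
  have hΦ : ContDiff ℝ ∞ fun w : E4 => f0 (‖w‖ ^ 2) := prof.1.comp (contDiff_norm_sq ℝ)
  have h0 : Bd fun δ (p : E4 × E4) => f0 (‖δ⁻¹ • (p.2 - p.1)‖ ^ 2) :=
    (bd_div (D := fun p : E4 × E4 => p.2 - p.1) (contDiff_snd.sub contDiff_fst).contDiffOn
      fun z _ => sub_self z).comp hΦ
  have hz : ∀ (δ : ℝ) (w : E4), 0 < δ → δ < ‖w‖ → f0 (‖δ⁻¹ • w‖ ^ 2) = 0 := fun δ w hδ hw => by
    refine (prof.2.2.2.2.1 _ (one_le_pow₀ ?_)).1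
    rw [norm_smul, norm_inv, Real.norm_of_nonneg hδ.le, le_inv_mul_iff₀ hδ, mul_one]
    exact hw.le
  have hz' : ∀ᶠ δ in 𝓝[>] (0 : ℝ), ∀ p : E4 × E4, 1 * δ < ‖p.1 - p.2‖ → f0 (‖δ⁻¹ • (p.2 - p.1)‖ ^ 2) = 0 := by
    filter_upwards [self_mem_nhdsWithin] with δ hδ p hp
    exact hz δ _ hδ (by rwa [one_mul, norm_sub_rev] at hp)
  have hI : ∀ᶠ δ in 𝓝[>] (0 : ℝ), ∀ y : E4, ‖y‖ < 5 / 2 →
      ∫ x : E4, (δ ^ 4)⁻¹ * f0 (‖δ⁻¹ • (y - x)‖ ^ 2) = 1 := by
    filter_upwards [self_mem_nhdsWithin] with δ hδ y _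
    have hδ0 : 0 < δ := hδ
    have h := integral_f0 (g := ContinuousLinearMap.id ℝ E4) (gi := ContinuousLinearMap.id ℝ E4) (fun _ => rfl)
      (by simp [ContinuousLinearMap.det]) hδ0 y
    rw [← h]
    refine integral_congr_ae (Eventually.of_forall fun x => ?_)
    simp [ContinuousLinearMap.det, norm_smul, mul_pow, div_eq_inv_mul]
  have hB : Bd fun δ (p : E4 × E4) => δ⁻¹ • (f0 (‖δ⁻¹ • (p.2 - p.1)‖ ^ 2) • ContinuousLinearMap.id ℝ G -
      f0 (‖δ⁻¹ • (p.2 - p.1)‖ ^ 2) • ContinuousLinearMap.id ℝ G) := by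
    simpa using bd_const (D := fun _ : E4 × E4 => (0 : G →L[ℝ] G)) contDiffOn_const
  obtain ⟨C, hC, hD⟩ := Df_hs n zero_le_one (π := fun _ => ContinuousLinearMap.id ℝ G) contDiffOn_const
    (k := fun δ p => f0 (‖δ⁻¹ • (p.2 - p.1)‖ ^ 2) • ContinuousLinearMap.id ℝ G)
    (h0.smul (bd_const contDiffOn_const)) (hz'.mono fun δ h p _ hp => by simp only [h p hp, zero_smul]) h0
    (hz'.mono fun δ h p _ hp => h p hp) (hz'.mono fun δ h p _ hp => h p hp) hI hB
  have hs1 : ∀ᶠ δ in 𝓝[>] (0 : ℝ), δ < min 1 (η / (C + 1)) :=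
    mem_nhdsWithin_of_mem_nhds (Iio_mem_nhds (by positivity))
  obtain ⟨δ, hδ, h1, h2⟩ := ((eventually_mem_nhdsWithin (s := Ioi (0 : ℝ))).and (hs1.and hD)).exists
  have hδ0 : 0 < δ := hδ
  have h3 := (lt_min_iff.1 h1).1
  have h4 := (lt_div_iff₀ (by positivity)).1 (lt_min_iff.1 h1).2
  refine ⟨fun w => (δ ^ 4)⁻¹ * f0 (‖δ⁻¹ • w‖ ^ 2), ⟨contDiff_const.mul (hΦ.comp (contDiff_const_smul _)),
    fun w hw => by simp only [hz δ w hδ0 (h3.trans hw), mul_zero]⟩, fun u hu => ?_⟩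
  obtain ⟨t, -, h5⟩ := h2 u 1 zero_le_one one_le_two hu
  have e : Df (fun _ => ContinuousLinearMap.id ℝ G)
      (fun δ p => f0 (‖δ⁻¹ • (p.2 - p.1)‖ ^ 2) • ContinuousLinearMap.id ℝ G) δ u =
      u - a4_cv (fun w => (δ ^ 4)⁻¹ * f0 (‖δ⁻¹ • w‖ ^ 2)) u := by
    funext y
    simp [Df, KO, a4_cv, mul_smul]
  rw [e] at t h5
  exact ⟨t.mono (by linarith), h5.trans (mul_le_mul_of_nonneg_right (by nlinarith) (hs_nonneg _ zero_le_one _))⟩

/-- Mollify at scale `δ`: `KO k δ u` with `k δ p = f0 (‖p.1 - p.2‖² / δ²) • 1` (`approx_id`-type bound `KD_hs`, or directly), error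
`C δ hs (n+1)`.  Then discretise `∫ ρ_δ (y - x) u x dx ≈ ∑_c ρ_δ (y - x_c) ∫_{cell c} u` with finitely many measurable cells of
small diameter covering `closedBall 0 1` (`exists_finite_cover_balls_of_isCompact_closure` + `disjointed`); the error in `hs n 1` is at most
`C_δ · mesh · ‖u‖₂` (for instance by `hs n 1 (y ↦ ∫ Φ x y) ≤ ∫ hs n 1 (Φ x)`, or bound all derivatives in sup norm).
The functionals are coordinates (`Module.finBasis`) of `∫_{cell} u`, extended to total linear maps by `LinearMap.exists_extend`. -/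
theorem finite_rank (n : ℕ) {η : ℝ} (hη : 0 < η) :
    ∃ (m : ℕ) (v : Fin m → E4 → G) (c : Fin m → (E4 → G) →ₗ[ℝ] ℝ) (C : ℝ), 0 ≤ C ∧ (∀ i, Tst 2 (v i)) ∧
      ∀ u : E4 → G, Tst 1 u → (∀ i, |c i u| ≤ C * lpNorm u 2 volume) ∧
        hs n 1 (u - ∑ i, c i u • v i) ≤ η * hs (n + 1) 1 u := by
  have := FiniteDimensional.complete ℝ G
  obtain ⟨ρ, hρ, hm⟩ := a4_moll (G := G) n (half_pos hη)
  obtain ⟨C, hC, hd⟩ := a4_disc (G := G) n hρ
  obtain ⟨B, hB, hI⟩ := a4_l1 (G := G)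
  have hr : 0 < η / 2 / (C * B + 1) := by positivity
  obtain ⟨m, x, Q, hP⟩ := a4_part hr
  choose I hIe using fun j => a4_lin (G := G) (Q j)
  let b := Module.finBasis ℝ G
  let e := b.equivFun.toContinuousLinearEquiv
  let σ := (Fintype.equivFin (Fin m × Fin (Module.finrank ℝ G))).symm
  have hv : ∀ j (g : G), Tst 2 fun y => ρ (y - x j) • g := fun j g =>
    ⟨(hρ.1.comp (contDiff_id.sub contDiff_const)).smul contDiff_const, fun y hy => by
      simp only [hρ.2 (y - x j) (by linarith [norm_sub_norm_le y (x j), hP.1 j]), zero_smul]⟩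
  refine ⟨_, fun i y => ρ (y - x (σ i).1) • b (σ i).2, fun i => (b.coord (σ i).2).comp (I (σ i).1),
    ‖(e : G →L[ℝ] Fin (Module.finrank ℝ G) → ℝ)‖ * B, by positivity, fun i => hv _ _,
    fun u hu => ⟨fun i => ?_, ?_⟩⟩
  · refine (norm_le_pi_norm (e (I (σ i).1 u)) (σ i).2).trans
      (((e : G →L[ℝ] Fin (Module.finrank ℝ G) → ℝ).le_opNorm _).trans ?_)
    rw [mul_assoc, hIe _ u hu]
    refine mul_le_mul_of_nonneg_left ((norm_integral_le_integral_norm _).trans (le_trans ?_ (hI u hu)))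
      (norm_nonneg _)
    exact setIntegral_le_integral hu.integrable.norm (Eventually.of_forall fun _ => norm_nonneg _)
  · obtain ⟨t1, h1⟩ := hm u hu
    have e1 : ∑ i, ((b.coord (σ i).2).comp (I (σ i).1)) u • (fun y => ρ (y - x (σ i).1) • b (σ i).2) =
        ∑ j, fun y => ρ (y - x j) • ∫ z in Q j, u z := by
      rw [σ.sum_comp fun p => ((b.coord p.2).comp (I p.1)) u • (fun y => ρ (y - x p.1) • b p.2),
        Fintype.sum_prod_type]
      refine Finset.sum_congr rfl fun j _ => funext fun y => ?_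
      simp only [Finset.sum_apply, Pi.smul_apply, smul_comm _ (ρ (y - x j)), ← Finset.smul_sum,
        LinearMap.comp_apply, Module.Basis.coord_apply, b.sum_repr, hIe j u hu]
    have t2 : Tst 2 (a4_cv ρ u - ∑ j, fun y => ρ (y - x j) • ∫ z in Q j, u z) := by
      have := (hu.mono one_le_two).sub t1
      rw [sub_sub_cancel] at this
      exact this.sub (Tst.sum _ fun j _ => hv j _)
    have h2 := hs_add_le n zero_le_one t1 t2
    rw [sub_add_sub_cancel] at h2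
    rw [e1]
    have h3 := hd m x Q _ hr.le hP u hu
    have h4 : lpNorm u 2 volume ≤ hs (n + 1) 1 u := hs_mono (Nat.zero_le (n + 1)) zero_le_one u
    have h5 : ∫ z, ‖u z‖ ≤ B * hs (n + 1) 1 u := (hI u hu).trans (mul_le_mul_of_nonneg_left h4 hB)
    have h6 : C * (η / 2 / (C * B + 1)) * B ≤ η / 2 := by
      rw [mul_right_comm, ← mul_div_assoc, div_le_iff₀ (by positivity)]
      nlinarith
    have h7 := mul_le_mul_of_nonneg_left h5 (mul_nonneg hC hr.le)
    have h8 := mul_le_mul_of_nonneg_right h6 (hs_nonneg (n + 1) zero_le_one u)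
    linarith

end Crest.Agent.R240
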