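import Crest.Agent.R240.A1
import Crest.Agent.R240.A3

/-! Block A6: distributions of finite order.  `Rep n T`: `T u = ∫ t (u) + ∑ μ, T_μ (pd μ u)` with `t ∈ L²`.
The two interchange theorems are proved for `Rep` by induction on `n`, generalising the family. -/

set_option autoImplicit false
set_option maxSynthPendingDepth 3
set_option linter.unusedSectionVars false
set_option linter.unusedVariables false
open MeasureTheory Filter Set Metric
open scoped ENNReal NNReal Topology ContDiff InnerProductSpace InnerProduct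

noncomputable section
namespace Crest.Agent.R240

variable {G G₁ G₂ H : Type*} [NormedAddCommGroup G] [NormedSpace ℝ G] [FiniteDimensional ℝ G]
  [NormedAddCommGroup G₁] [NormedSpace ℝ G₁] [FiniteDimensional ℝ G₁] [NormedAddCommGroup G₂]
  [NormedSpace ℝ G₂] [FiniteDimensional ℝ G₂] [NormedAddCommGroup H] [NormedSpace ℝ H]
  [FiniteDimensional ℝ H]

/-- Representation by `L²` functions. -/
def Rep : ℕ → ((E4 → G) →ₗ[ℝ] ℝ) → Prop
  | 0, T => ∃ t : E4 → G →L[ℝ] ℝ, MemLp t 2 volume ∧ ∀ u, Tst 2 u → T u = ∫ z, t z (u z)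
  | n + 1, T => ∃ (T₀ : (E4 → G) →ₗ[ℝ] ℝ) (T' : Fin 4 → (E4 → G) →ₗ[ℝ] ℝ), Rep 0 T₀ ∧ (∀ μ, Rep n (T' μ)) ∧
      ∀ u, Tst 2 u → T u = T₀ u + ∑ μ, T' μ (pd μ u)

/-- Hahn-Banach through a linear map. -/
theorem a6a_factor {D W : Type*} [AddCommGroup D] [Module ℝ D] [AddCommGroup W] [Module ℝ W]
    (j : D →ₗ[ℝ] W) (f : D →ₗ[ℝ] ℝ) (N : W → ℝ) (h1 : ∀ (c : ℝ) x, N (c • x) = |c| * N x)
    (h2 : ∀ x y, N (x + y) ≤ N x + N y) (hf : ∀ x, |f x| ≤ N (j x)) :
    ∃ g : W →ₗ[ℝ] ℝ, (∀ x, g (j x) = f x) ∧ ∀ w, |g w| ≤ N w := by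
  obtain ⟨s, hs⟩ := j.rangeRestrict.exists_rightInverse_of_surjective j.range_rangeRestrict
  have hs' : ∀ w : LinearMap.range j, j (s w) = w := fun w =>
    congrArg Subtype.val (LinearMap.congr_fun hs w)
  obtain ⟨g, hg1, hg2⟩ := exists_extension_of_le_sublinear ⟨LinearMap.range j, f ∘ₗ s⟩ N
    (fun c hc x => by rw [h1, abs_of_pos hc]) h2 fun w => hs' w ▸ (le_abs_self _).trans (hf (s w))
  refine ⟨g, fun x => (hg1 ⟨j x, x, rfl⟩).trans ?_, fun w => abs_le.2 ⟨?_, hg2 w⟩⟩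
  · have h := hf (s ⟨j x, x, rfl⟩ - x)
    rw [map_sub j, hs', sub_self, ← zero_smul ℝ (0 : W), h1, abs_zero, zero_mul, abs_nonpos_iff, map_sub,
      sub_eq_zero] at h
    exact h
  · have h := hg2 ((-1 : ℝ) • w)
    rw [h1, map_smul] at h
    simp only [smul_eq_mul, abs_neg, abs_one] at h
    linarith

/-- The test functions. -/
def a6aD (G : Type*) [NormedAddCommGroup G] [NormedSpace ℝ G] [FiniteDimensional ℝ G] (ρ : ℝ) :
    Submodule ℝ (E4 → G) where
  carrier := {u | Tst ρ u}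
  add_mem' := Tst.add
  zero_mem' := Tst.zero ρ
  smul_mem' c _ h := Tst.smul h c

/-- Componentwise (basis `Module.finBasis ℝ G`): Hahn-Banach (`exists_extension_norm_eq`) from the image of the test
functions in `Lp ℝ 2 volume`, then `InnerProductSpace.toDual`. -/
theorem exists_L2_rep {ρ C : ℝ} {T : (E4 → G) →ₗ[ℝ] ℝ} (h : ∀ u, Tst ρ u → |T u| ≤ C * lpNorm u 2 volume) :
    ∃ t : E4 → G →L[ℝ] ℝ, MemLp t 2 volume ∧ ∀ u, Tst ρ u → T u = ∫ z, t z (u z) := by
  let e := (toEuclidean (E := G) : G →L[ℝ] EuclideanSpace ℝ (Fin (Module.finrank ℝ G)))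
  let e' := (toEuclidean (E := G).symm : EuclideanSpace ℝ (Fin (Module.finrank ℝ G)) →L[ℝ] G)
  have hm : ∀ u : a6aD G ρ, MemLp (fun z => e (u.1 z)) 2 volume := fun u => (Tst.clm u.2 e).memLp 2
  let j : a6aD G ρ →ₗ[ℝ] Lp (EuclideanSpace ℝ (Fin (Module.finrank ℝ G))) 2 (volume : Measure E4) :=
    { toFun := fun u => (hm u).toLp _
      map_add' := fun u v => by
        rw [← MemLp.toLp_add]
        exact MemLp.toLp_congr _ _ (Eventually.of_forall fun z => map_add e _ _)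
      map_smul' := fun c u => by
        rw [RingHom.id_apply, ← MemLp.toLp_const_smul]
        exact MemLp.toLp_congr _ _ (Eventually.of_forall fun z => map_smul e _ _) }
  obtain ⟨g, hg1, hg2⟩ := a6a_factor j (T ∘ₗ (a6aD G ρ).subtype) (fun w => |C| * ‖e'‖ * ‖w‖)
    (fun c x => by rw [norm_smul, Real.norm_eq_abs]; ring)
    (fun x y => by
      rw [← mul_add]
      exact mul_le_mul_of_nonneg_left (norm_add_le _ _) (by positivity))
    fun u => by
      have h1 : lpNorm (fun z => e' (e (u.1 z))) 2 volume ≤ ‖e'‖ * lpNorm (fun z => e (u.1 z)) 2 volume :=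
        hs_clm 0 zero_le_one (Tst.clm u.2 e) e'
      have h2 : (fun z => e' (e (u.1 z))) = u.1 := funext fun z => (toEuclidean (E := G)).symm_apply_apply _
      have h3 : ‖j u‖ = lpNorm (fun z => e (u.1 z)) 2 volume :=
        (Lp.norm_toLp _ (hm u)).trans (toReal_eLpNorm (hm u).1)
      rw [h2] at h1
      rw [h3, mul_assoc]
      exact (h u.1 u.2).trans (mul_le_mul (le_abs_self C) h1 lpNorm_nonneg (abs_nonneg C))
  let w := (InnerProductSpace.toDual ℝ _).symm (g.mkContinuous _ hg2)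
  let B : EuclideanSpace ℝ (Fin (Module.finrank ℝ G)) →L[ℝ] G →L[ℝ] ℝ :=
    ((ContinuousLinearMap.compL ℝ G _ ℝ).flip e).comp (innerSL ℝ)
  refine ⟨fun z => B (w z), B.comp_memLp w, fun u hu => ?_⟩
  have h1 : ⟪w, j ⟨u, hu⟩⟫_ℝ = g (j ⟨u, hu⟩) := InnerProductSpace.toDual_symm_apply
  refine ((hg1 ⟨u, hu⟩).symm.trans h1.symm).trans ?_
  rw [L2.inner_def]
  refine integral_congr_ae ?_
  filter_upwards [(hm ⟨u, hu⟩).coeFn_toLp] with z hz
  exact congrArg (fun a => ⟪w z, a⟫_ℝ) hz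

/-- Step: on `D × (Fin 4 → D)` (`D` the submodule of test functions) with the seminorm
`C (‖u‖₂ + ∑ hs n 1 (v μ))` extend `(u, pd · u) ↦ T u` by `exists_extension_of_le_sublinear`; extend to total linear maps by
`LinearMap.exists_extend`. -/
theorem HB.rep {n : ℕ} {T : (E4 → G) →ₗ[ℝ] ℝ} (h : HB n T) : Rep n T := by
  induction n generalizing T with
  | zero =>
    rw [Rep]
    exact h.elim fun C hC => exists_L2_rep hC
  | succ n ih =>
    obtain ⟨C, hC⟩ := h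
    let j : a6aD G 2 →ₗ[ℝ] a6aD G 2 × (Fin 4 → a6aD G 2) :=
      { toFun := fun u => (u, fun μ => ⟨pd μ u.1, Tst.pd' u.2 μ⟩)
        map_add' := fun u v => Prod.ext rfl (funext fun μ => Subtype.ext (pd_add u.2 v.2 μ))
        map_smul' := fun c u => Prod.ext rfl (funext fun μ => Subtype.ext (pd_smul u.2 c μ)) }
    obtain ⟨g, hg1, hg2⟩ := a6a_factor j (T ∘ₗ (a6aD G 2).subtype)
      (fun w => |C| * (hs 0 1 w.1.1 + ∑ μ, hs n 1 (w.2 μ).1))
      (fun c x => by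
        have h1 : hs 0 1 (c • x).1.1 = |c| * hs 0 1 x.1.1 := hs_smul 0 1 x.1.2 c
        have h2 : ∀ μ, hs n 1 ((c • x).2 μ).1 = |c| * hs n 1 (x.2 μ).1 := fun μ => hs_smul n 1 (x.2 μ).2 c
        simp only [h1, h2, ← Finset.mul_sum]
        ring)
      (fun x y => by
        have h1 : hs 0 1 (x + y).1.1 ≤ hs 0 1 x.1.1 + hs 0 1 y.1.1 := hs_add_le 0 zero_le_one x.1.2 y.1.2
        have h2 : ∑ μ, hs n 1 ((x + y).2 μ).1 ≤ ∑ μ, (hs n 1 (x.2 μ).1 + hs n 1 (y.2 μ).1) :=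
          Finset.sum_le_sum fun μ _ => hs_add_le n zero_le_one (x.2 μ).2 (y.2 μ).2
        rw [Finset.sum_add_distrib] at h2
        rw [← mul_add]
        exact mul_le_mul_of_nonneg_left (by linarith) (abs_nonneg C))
      fun u => by
        refine (hC u.1 u.2).trans ((mul_le_mul_of_nonneg_right (le_abs_self C)
          (hs_nonneg _ zero_le_one _)).trans_eq ?_)
        simp only [hs, one_mul]
        rfl
    obtain ⟨T₀, h₀⟩ := (g ∘ₗ LinearMap.inl ℝ _ _).exists_extend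
    choose T' h' using fun μ : Fin 4 =>
      (g ∘ₗ LinearMap.inr ℝ _ _ ∘ₗ LinearMap.single ℝ (fun _ : Fin 4 => a6aD G 2) μ).exists_extend
    have e₀ : ∀ u : a6aD G 2, T₀ u.1 = g (u, 0) := fun u => LinearMap.congr_fun h₀ u
    have e' : ∀ μ (u : a6aD G 2), T' μ u.1 = g (0, Pi.single μ u) := fun μ u => LinearMap.congr_fun (h' μ) u
    rw [Rep]
    refine ⟨T₀, T', ?_, fun μ => ih ⟨|C|, fun u hu => ?_⟩, fun u hu => ?_⟩
    · rw [Rep]
      refine exists_L2_rep (C := |C|) fun u hu => ?_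
      rw [e₀ ⟨u, hu⟩]
      refine (hg2 _).trans_eq ?_
      simp only [Pi.zero_apply, ZeroMemClass.coe_zero, hs_zero_fun, Finset.sum_const_zero, add_zero]
      rfl
    · rw [e' μ ⟨u, hu⟩]
      refine (hg2 _).trans_eq ?_
      rw [Finset.sum_eq_single μ (fun ν _ hν => ?_) (by simp)]
      · simp only [Pi.single_eq_same, ZeroMemClass.coe_zero, hs_zero_fun, zero_add]
      · simp only [Pi.single_eq_of_ne hν, ZeroMemClass.coe_zero, hs_zero_fun]
    · have h1 : ∀ μ, T' μ (pd μ u) = g (0, Pi.single μ ((j ⟨u, hu⟩).2 μ)) := fun μ => e' μ ((j ⟨u, hu⟩).2 μ)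
      simp only [h1]
      rw [e₀ ⟨u, hu⟩, ← map_sum, ← map_add]
      refine (hg1 ⟨u, hu⟩).symm.trans (congrArg g (Prod.ext ?_ ?_))
      · simp only [Prod.fst_add, Prod.fst_sum, Finset.sum_const_zero, add_zero]
        rfl
      · simp only [Prod.snd_add, Prod.snd_sum, zero_add, Finset.univ_sum_single]

theorem a6b_at {O : Set H} (hO : IsOpen O) {Ψ : H × E4 → G} (h : Fam O Ψ) {x : H} (hx : x ∈ O) (y : E4) :
    ContDiffAt ℝ ∞ Ψ (x, y) :=
  h.1.contDiffAt ((hO.prod isOpen_univ).mem_nhds ⟨hx, mem_univ _⟩)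

theorem a6b_zero {O : Set H} (hO : IsOpen O) {Ψ : H × E4 → G} (h : Fam O Ψ) {x : H} (hx : x ∈ O) {y : E4}
    (hy : 2 < ‖y‖) : fderiv ℝ Ψ (x, y) = 0 := by
  have : Ψ =ᶠ[𝓝 (x, y)] fun _ => 0 := by
    filter_upwards [(hO.prod (isOpen_lt continuous_const continuous_norm)).mem_nhds
      (show (x, y) ∈ O ×ˢ {y : E4 | 2 < ‖y‖} from ⟨hx, hy⟩)] with p hp
    exact h.2 p.1 hp.1 p.2 hp.2
  rw [this.fderiv_eq, fderiv_fun_const, Pi.zero_apply]

theorem a6b_symm {O : Set H} (hO : IsOpen O) {Ψ : H × E4 → G} (h : Fam O Ψ) {x : H} (hx : x ∈ O) (y : E4)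
    (a b : H × E4) :
    fderiv ℝ (fun p => fderiv ℝ Ψ p a) (x, y) b = fderiv ℝ (fun p => fderiv ℝ Ψ p b) (x, y) a := by
  have h1 : DifferentiableAt ℝ (fderiv ℝ Ψ) (x, y) :=
    ((a6b_at hO h hx y).fderiv_right (m := ∞) (by norm_cast)).differentiableAt (by simp)
  have h2 : ∀ a b : H × E4, fderiv ℝ (fun p => fderiv ℝ Ψ p a) (x, y) b = fderiv ℝ (fderiv ℝ Ψ) (x, y) b a :=
    fun a b => by rw [fderiv_clm_apply h1 (differentiableAt_const _)]; simp
  rw [h2, h2]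
  exact ((a6b_at hO h hx y).isSymmSndFDerivAt (by simp; norm_cast)).eq _ _

theorem Fam.tst {O : Set H} (hO : IsOpen O) {Ψ : H × E4 → G} (h : Fam O Ψ) {x : H} (hx : x ∈ O) :
    Tst 2 fun y => Ψ (x, y) := by
  exact ⟨contDiff_iff_contDiffAt.2 fun y => (a6b_at hO h hx y).comp y (contDiffAt_const.prodMk contDiffAt_id),
    h.2 x hx⟩

theorem Fam.der {O : Set H} (hO : IsOpen O) {Ψ : H × E4 → G} (h : Fam O Ψ) (v : H × E4) :
    Fam O fun p => fderiv ℝ Ψ p v := by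
  exact ⟨(h.1.fderiv_of_isOpen (hO.prod isOpen_univ) (by norm_cast)).clm_apply contDiffOn_const,
    fun x hx y hy => by simp only [a6b_zero hO h hx hy, ContinuousLinearMap.zero_apply]⟩

theorem Fam.pd_eq {O : Set H} (hO : IsOpen O) {Ψ : H × E4 → G} (h : Fam O Ψ) {x : H} (hx : x ∈ O) (μ : Fin 4) :
    pd μ (fun y => Ψ (x, y)) = fun y => fderiv ℝ Ψ (x, y) (0, ee μ) := by
  funext y
  have h1 := ((a6b_at hO h hx y).differentiableAt (by simp)).hasFDerivAt.comp y (hasFDerivAt_prodMk_right x y)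
  refine (congrArg (fun L => L (ee μ)) h1.fderiv).trans ?_
  simp

theorem a6b_base {T : (E4 → G) →ₗ[ℝ] ℝ} (hT : Rep 0 T) {O : Set H} (hO : IsOpen O)
    {Ψ : H × E4 → G} (h : Fam O Ψ) {x : H} (hx : x ∈ O) :
    DifferentiableAt ℝ (fun x' => T fun y => Ψ (x', y)) x ∧ ∀ v,
      fderiv ℝ (fun x' => T fun y => Ψ (x', y)) x v = T fun y => fderiv ℝ Ψ (x, y) (v, 0) := by
  rw [Rep] at hT
  obtain ⟨t, ht, hT⟩ := hT
  obtain ⟨ε, hε, hB⟩ := nhds_basis_closedBall.mem_iff.1 (hO.mem_nhds hx)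
  have hc : ContinuousOn (fderiv ℝ Ψ) (O ×ˢ univ) :=
    h.1.continuousOn_fderiv_of_isOpen (hO.prod isOpen_univ) (by simp)
  obtain ⟨M, hM⟩ := ((isCompact_closedBall x ε).prod (isCompact_closedBall (0 : E4) 2)).exists_bound_of_continuousOn
    (hc.mono (prod_mono hB (subset_univ _)))
  have hi : Integrable ((closedBall (0 : E4) 2).indicator fun z => ‖t z‖ * M) := by
    rw [integrable_indicator_iff measurableSet_closedBall]
    haveI : IsFiniteMeasure (volume.restrict (closedBall (0 : E4) 2)) :=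
      isFiniteMeasure_restrict.2 measure_closedBall_lt_top.ne
    exact (((ht.restrict _).integrable (by norm_num)).norm).mul_const M
  set F' : H → E4 → H →L[ℝ] ℝ := fun x' z =>
    (t z).comp ((fderiv ℝ Ψ (x', z)).comp (ContinuousLinearMap.inl ℝ H E4)) with hF'
  have hb : ∀ z, ∀ x' ∈ closedBall x ε, ‖F' x' z‖ ≤ (closedBall (0 : E4) 2).indicator (fun z => ‖t z‖ * M) z := by
    intro z x' hx'
    by_cases hz : z ∈ closedBall (0 : E4) 2
    · rw [indicator_of_mem hz]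
      refine (ContinuousLinearMap.opNorm_comp_le _ _).trans (mul_le_mul_of_nonneg_left ?_ (norm_nonneg _))
      refine (ContinuousLinearMap.opNorm_comp_le _ _).trans ?_
      have h1 := hM (x', z) ⟨hx', hz⟩
      have h2 := ContinuousLinearMap.norm_inl_le_one ℝ H E4
      nlinarith [norm_nonneg (fderiv ℝ Ψ (x', z)), norm_nonneg (ContinuousLinearMap.inl ℝ H E4)]
    · rw [indicator_of_notMem hz]
      rw [mem_closedBall_zero_iff, not_le] at hz
      simp only [hF', a6b_zero hO h (hB hx') hz, ContinuousLinearMap.zero_comp, ContinuousLinearMap.comp_zero,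
        norm_zero, le_refl]
  have hcz : Continuous fun z : E4 => fderiv ℝ Ψ (x, z) :=
    hc.comp_continuous (continuous_const.prodMk continuous_id) fun z => ⟨hx, mem_univ _⟩
  have hm' : AEStronglyMeasurable (F' x) volume :=
    (ContinuousLinearMap.compL ℝ H G ℝ).aestronglyMeasurable_comp₂ ht.1
      (hcz.clm_comp continuous_const).aestronglyMeasurable
  have hm : ∀ x' ∈ O, AEStronglyMeasurable (fun z => t z (Ψ (x', z))) volume := fun x' hx' =>
    (ContinuousLinearMap.id ℝ (G →L[ℝ] ℝ)).aestronglyMeasurable_comp₂ ht.1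
      (h.tst hO hx').1.continuous.aestronglyMeasurable
  have hint : Integrable (fun z => t z (Ψ (x, z))) volume :=
    memLp_one_iff_integrable.1
      ((ContinuousLinearMap.id ℝ (G →L[ℝ] ℝ)).memLp_of_bilin 1 ht ((h.tst hO hx).memLp 2))
  have hd := hasFDerivAt_integral_of_dominated_of_fderiv_le (μ := volume) (F := fun x' z => t z (Ψ (x', z)))
    (F' := F') (closedBall_mem_nhds x hε) (by filter_upwards [hO.mem_nhds hx] with x' hx' using hm x' hx') hint hm'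
    (Eventually.of_forall hb) hi (Eventually.of_forall fun z x' hx' =>
      (t z).hasFDerivAt.comp x' ((((a6b_at hO h (hB hx') z).differentiableAt (by simp)).hasFDerivAt).comp x'
        (hasFDerivAt_prodMk_left x' z)))
  have hd' : HasFDerivAt (fun x' => T fun y => Ψ (x', y)) (∫ z, F' x z) x := by
    refine hd.congr_of_eventuallyEq ?_
    filter_upwards [hO.mem_nhds hx] with x' hx' using hT _ (h.tst hO hx')
  refine ⟨hd'.differentiableAt, fun v => ?_⟩
  rw [hd'.fderiv, ContinuousLinearMap.integral_apply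
    (hi.mono' hm' (Eventually.of_forall fun z => hb z x (mem_closedBall_self hε.le))),
    hT _ ((h.der hO (v, 0)).tst hO hx)]
  rfl

/-- Differentiation under a distribution, first order. -/
theorem Rep.hasFDerivAt {n : ℕ} {T : (E4 → G) →ₗ[ℝ] ℝ} (hT : Rep n T) {O : Set H} (hO : IsOpen O)
    {Ψ : H × E4 → G} (h : Fam O Ψ) {x : H} (hx : x ∈ O) :
    DifferentiableAt ℝ (fun x' => T fun y => Ψ (x', y)) x ∧ ∀ v,
      fderiv ℝ (fun x' => T fun y => Ψ (x', y)) x v = T fun y => fderiv ℝ Ψ (x, y) (v, 0) := by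
  induction n generalizing T Ψ with
  | zero => exact a6b_base hT hO h hx
  | succ n ih =>
    rw [Rep] at hT
    obtain ⟨T₀, T', h0, h1, hT⟩ := hT
    have e : (fun x' => T fun y => Ψ (x', y)) =ᶠ[𝓝 x] fun x' => (T₀ fun y => Ψ (x', y)) +
        ∑ μ, T' μ fun y => fderiv ℝ Ψ (x', y) (0, ee μ) := by
      filter_upwards [hO.mem_nhds hx] with x' hx'
      rw [hT _ (h.tst hO hx')]
      simp only [h.pd_eq hO hx']
    have d0 := a6b_base h0 hO h hx
    have d1 := fun μ => ih (h1 μ) (h.der hO (0, ee μ))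
    have hd := (d0.1.hasFDerivAt.add (HasFDerivAt.fun_sum (u := Finset.univ)
      fun μ _ => (d1 μ).1.hasFDerivAt)).congr_of_eventuallyEq e
    refine ⟨hd.differentiableAt, fun v => ?_⟩
    rw [hd.fderiv, ContinuousLinearMap.add_apply, ContinuousLinearMap.sum_apply, d0.2,
      hT _ ((h.der hO (v, 0)).tst hO hx)]
    congr 1
    refine Finset.sum_congr rfl fun μ _ => ?_
    rw [(d1 μ).2, (h.der hO (v, 0)).pd_eq hO hx]
    simp only [a6b_symm hO h hx _ (0, ee μ) (v, 0)]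

/-- From `Rep.hasFDerivAt` by induction on the order of differentiability (`contDiffOn_succ_iff_fderiv_of_isOpen`,
`contDiffOn_clm_apply`). -/
theorem HB.contDiffOn {n : ℕ} {T : (E4 → G) →ₗ[ℝ] ℝ} (hT : HB n T) {O : Set H} (hO : IsOpen O)
    {Ψ : H × E4 → G} (h : Fam O Ψ) :
    ContDiffOn ℝ ∞ (fun x => T fun y => Ψ (x, y)) O ∧ ∀ x ∈ O, ∀ v,
      fderiv ℝ (fun x' => T fun y => Ψ (x', y)) x v = T fun y => fderiv ℝ Ψ (x, y) (v, 0) := by
  have hR := hT.rep
  refine ⟨contDiffOn_infty.2 fun k => ?_, fun x hx => (hR.hasFDerivAt hO h hx).2⟩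
  induction k generalizing Ψ with
  | zero =>
    exact contDiffOn_zero.2 fun x hx => (hR.hasFDerivAt hO h hx).1.continuousAt.continuousWithinAt
  | succ k ih =>
    rw [Nat.cast_succ, contDiffOn_succ_iff_fderiv_of_isOpen hO]
    refine ⟨fun x hx => (hR.hasFDerivAt hO h hx).1.differentiableWithinAt, by simp,
      contDiffOn_clm_apply.2 fun v => (ih (h.der hO (v, 0))).congr fun x hx => (hR.hasFDerivAt hO h hx).2 v⟩

theorem a6c_meas {X Z W : Type*} [MeasurableSpace X] {ϖ : Measure X} [PseudoMetricSpace Z]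
    [SecondCountableTopology Z] [NormedAddCommGroup W] {q : X → Z} (hq : AEStronglyMeasurable q ϖ) {S : Set Z}
    (hS : IsOpen S) (hqS : ∀ᵐ ξ ∂ϖ, q ξ ∈ S) {F : Z → W} (hF : ContinuousOn F S) :
    AEStronglyMeasurable (fun ξ => F (q ξ)) ϖ := by
  borelize Z
  have h := hF.aestronglyMeasurable (μ := ϖ.map q) hS.measurableSet
  rw [Measure.restrict_eq_self_of_ae_mem ((ae_map_iff hq.aemeasurable hS.measurableSet).2 hqS)] at h
  exact h.comp_aemeasurable hq.aemeasurable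

theorem a6c_int {W : Type*} [NormedAddCommGroup W] {O K : Set H} (hO : IsOpen O) (hK : IsCompact K)
    (hKO : K ⊆ O) {F : H × E4 → W} (h : ContinuousOn F (O ×ˢ univ)) {X : Type*} [MeasurableSpace X]
    {ϖ : Measure X} [IsFiniteMeasure ϖ] {p : X → H} (hp : AEStronglyMeasurable p ϖ)
    (hpK : ∀ᵐ ξ ∂ϖ, p ξ ∈ K) (y : E4) : Integrable (fun ξ => F (p ξ, y)) ϖ := by
  obtain ⟨C, hC⟩ := (hK.prod (isCompact_singleton (x := y))).exists_bound_of_continuousOn
    (h.mono (prod_mono hKO (subset_univ _)))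
  exact Integrable.of_bound (a6c_meas (hp.prodMk aestronglyMeasurable_const) (hO.prod isOpen_univ)
    (hpK.mono fun ξ hξ => mk_mem_prod (hKO hξ) (mem_univ _)) h) C (hpK.mono fun ξ hξ => hC _ ⟨hξ, rfl⟩)

theorem a6c_der {O K : Set H} (hO : IsOpen O) (hK : IsCompact K) (hKO : K ⊆ O) {Ψ : H × E4 → G}
    (h : Fam O Ψ) {X : Type*} [MeasurableSpace X] {ϖ : Measure X} [IsFiniteMeasure ϖ] {p : X → H}
    (hp : AEStronglyMeasurable p ϖ) (hpK : ∀ᵐ ξ ∂ϖ, p ξ ∈ K) (y : E4) :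
    DifferentiableAt ℝ (fun y => ∫ ξ, Ψ (p ξ, y) ∂ϖ) y ∧ ∀ v, fderiv ℝ (fun y => ∫ ξ, Ψ (p ξ, y) ∂ϖ) y v =
      ∫ ξ, fderiv ℝ Ψ (p ξ, y) (0, v) ∂ϖ := by
  have hS := hO.prod (isOpen_univ (X := E4))
  have hc : ContinuousOn (fun q => (fderiv ℝ Ψ q).comp (ContinuousLinearMap.inr ℝ H E4)) (O ×ˢ univ) :=
    (h.1.continuousOn_fderiv_of_isOpen hS (by simp)).clm_comp continuousOn_const
  obtain ⟨C, hC⟩ := (hK.prod (isCompact_closedBall y 1)).exists_bound_of_continuousOn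
    (hc.mono (prod_mono hKO (subset_univ _)))
  have hi := a6c_int hO hK hKO h.1.continuousOn hp hpK
  have hi' := a6c_int hO hK hKO hc hp hpK y
  have hd := hasFDerivAt_integral_of_dominated_of_fderiv_le (F := fun y ξ => Ψ (p ξ, y))
    (F' := fun y ξ => (fderiv ℝ Ψ (p ξ, y)).comp (ContinuousLinearMap.inr ℝ H E4))
    (closedBall_mem_nhds y one_pos) (Eventually.of_forall fun z => (hi z).1) (hi y) hi'.1
    (hpK.mono fun ξ hξ z hz => hC _ ⟨hξ, hz⟩) (integrable_const C)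
    (hpK.mono fun ξ hξ z hz => ((h.1.contDiffAt (hS.mem_nhds ⟨hKO hξ, mem_univ _⟩)).differentiableAt
      (by simp)).hasFDerivAt.comp z (hasFDerivAt_prodMk_right (p ξ) z))
  exact ⟨hd.differentiableAt, fun v => by rw [hd.fderiv, ContinuousLinearMap.integral_apply hi']; rfl⟩

/-- Differentiation under the integral sign. -/
theorem Fam.integral {O K : Set H} (hO : IsOpen O) (hK : IsCompact K) (hKO : K ⊆ O) {Ψ : H × E4 → G}
    (h : Fam O Ψ) {X : Type*} [MeasurableSpace X] {ϖ : Measure X} [IsFiniteMeasure ϖ] {p : X → H}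
    (hp : AEStronglyMeasurable p ϖ) (hpK : ∀ᵐ ξ ∂ϖ, p ξ ∈ K) :
    Tst 2 (fun y => ∫ ξ, Ψ (p ξ, y) ∂ϖ) ∧ ∀ μ, pd μ (fun y => ∫ ξ, Ψ (p ξ, y) ∂ϖ) =
      fun y => ∫ ξ, fderiv ℝ Ψ (p ξ, y) (0, ee μ) ∂ϖ := by
  have key : ∀ (n : ℕ) {Ψ : H × E4 → G}, Fam O Ψ → ContDiff ℝ n fun y => ∫ ξ, Ψ (p ξ, y) ∂ϖ := by
    intro n
    induction n with
    | zero =>
      exact fun h => contDiff_zero.2 (continuous_iff_continuousAt.2 fun y =>
        (a6c_der hO hK hKO h hp hpK y).1.continuousAt)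
    | succ n ih =>
      intro Ψ h
      rw [Nat.cast_succ, contDiff_succ_iff_fderiv_apply]
      refine ⟨fun y => (a6c_der hO hK hKO h hp hpK y).1, fun e => absurd e (by simp), fun v => ?_⟩
      simp only [fun y => (a6c_der hO hK hKO h hp hpK y).2 v]
      exact ih (h.der hO (0, v))
  refine ⟨⟨contDiff_infty.2 fun n => key n h, fun y hy => integral_eq_zero_of_ae ?_⟩,
    fun μ => funext fun y => (a6c_der hO hK hKO h hp hpK y).2 _⟩
  filter_upwards [hpK] with ξ hξ using h.2 _ (hKO hξ) y hy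

theorem a6c_zero {T : (E4 → G) →ₗ[ℝ] ℝ} (hT : Rep 0 T) {O K : Set H} (hO : IsOpen O)
    (hK : IsCompact K) (hKO : K ⊆ O) {Ψ : H × E4 → G} (h : Fam O Ψ) {X : Type*} [MeasurableSpace X]
    {ϖ : Measure X} [IsFiniteMeasure ϖ] {p : X → H} (hp : AEStronglyMeasurable p ϖ)
    (hpK : ∀ᵐ ξ ∂ϖ, p ξ ∈ K) :
    Integrable (fun ξ => T fun y => Ψ (p ξ, y)) ϖ ∧
      T (fun y => ∫ ξ, Ψ (p ξ, y) ∂ϖ) = ∫ ξ, T (fun y => Ψ (p ξ, y)) ∂ϖ := by
  have := FiniteDimensional.complete ℝ G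
  rw [Rep] at hT
  obtain ⟨t, ht, hT⟩ := hT
  obtain ⟨C, hC⟩ := (hK.prod (isCompact_closedBall (0 : E4) 2)).exists_bound_of_continuousOn
    (h.1.continuousOn.mono (prod_mono hKO (subset_univ _)))
  have hq : ∀ᵐ q ∂ϖ.prod (volume : Measure E4), p q.1 ∈ K := Measure.quasiMeasurePreserving_fst.ae hpK
  have hb : Integrable ((closedBall (0 : E4) 2).indicator fun z => ‖t z‖ * C) volume :=
    (integrable_indicator_iff measurableSet_closedBall).2
      (((ht.locallyIntegrable one_le_two).integrableOn_isCompact (isCompact_closedBall _ _)).norm.mul_const C)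
  have hi : Integrable (Function.uncurry fun ξ z => t z (Ψ (p ξ, z))) (ϖ.prod volume) := by
    refine (hb.comp_snd ϖ).mono' ((ContinuousLinearMap.id ℝ (G →L[ℝ] ℝ)).aestronglyMeasurable_comp₂
      ht.1.comp_snd (a6c_meas (hp.comp_fst.prodMk measurable_snd.aestronglyMeasurable) (hO.prod isOpen_univ)
        (hq.mono fun q hq => mk_mem_prod (hKO hq) (mem_univ _)) h.1.continuousOn)) ?_
    filter_upwards [hq] with q hq
    by_cases hz : q.2 ∈ closedBall (0 : E4) 2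
    · rw [indicator_of_mem hz]
      exact ((t q.2).le_opNorm _).trans (mul_le_mul_of_nonneg_left (hC _ ⟨hq, hz⟩) (norm_nonneg _))
    · simp [indicator_of_notMem hz, Function.uncurry, h.2 _ (hKO hq) q.2 (by simpa using hz)]
  have e : (fun ξ => ∫ z, t z (Ψ (p ξ, z))) =ᵐ[ϖ] fun ξ => T fun y => Ψ (p ξ, y) :=
    hpK.mono fun ξ hξ => (hT _ (h.tst hO (hKO hξ))).symm
  refine ⟨hi.integral_prod_left.congr e, ?_⟩
  rw [← integral_congr_ae e, integral_integral_swap hi, hT _ (h.integral hO hK hKO hp hpK).1]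
  simp only [fun z => (t z).integral_comp_comm (a6c_int hO hK hKO h.1.continuousOn hp hpK z)]

/-- Fubini for `Rep 0`, induction with `Fam.integral`, `Fam.pd_eq`. -/
theorem HB.integral {n : ℕ} {T : (E4 → G) →ₗ[ℝ] ℝ} (hT : HB n T) {O K : Set H} (hO : IsOpen O)
    (hK : IsCompact K) (hKO : K ⊆ O) {Ψ : H × E4 → G} (h : Fam O Ψ) {X : Type*} [MeasurableSpace X]
    {ϖ : Measure X} [IsFiniteMeasure ϖ] {p : X → H} (hp : AEStronglyMeasurable p ϖ)
    (hpK : ∀ᵐ ξ ∂ϖ, p ξ ∈ K) :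
    Integrable (fun ξ => T fun y => Ψ (p ξ, y)) ϖ ∧
      T (fun y => ∫ ξ, Ψ (p ξ, y) ∂ϖ) = ∫ ξ, T (fun y => Ψ (p ξ, y)) ∂ϖ := by
  have key : ∀ (n : ℕ) {T : (E4 → G) →ₗ[ℝ] ℝ} {Ψ : H × E4 → G}, Rep n T → Fam O Ψ →
      Integrable (fun ξ => T fun y => Ψ (p ξ, y)) ϖ ∧
        T (fun y => ∫ ξ, Ψ (p ξ, y) ∂ϖ) = ∫ ξ, T (fun y => Ψ (p ξ, y)) ∂ϖ := by
    intro n
    induction n with
    | zero => exact fun hT h => a6c_zero hT hO hK hKO h hp hpK
    | succ n ih =>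
      intro T Ψ hT h
      rw [Rep] at hT
      obtain ⟨T₀, T', h0, h1, h2⟩ := hT
      have e : (fun ξ => T₀ (fun y => Ψ (p ξ, y)) + ∑ μ, T' μ fun y => fderiv ℝ Ψ (p ξ, y) (0, ee μ)) =ᵐ[ϖ]
          fun ξ => T fun y => Ψ (p ξ, y) := by
        filter_upwards [hpK] with ξ hξ
        simp only [h2 _ (h.tst hO (hKO hξ)), h.pd_eq hO (hKO hξ)]
      have i0 := a6c_zero h0 hO hK hKO h hp hpK
      have i1 := fun μ => ih (h1 μ) (h.der hO (0, ee μ))
      have i2 := integrable_finsetSum Finset.univ fun μ _ => (i1 μ).1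
      obtain ⟨h3, h4⟩ := h.integral hO hK hKO hp hpK
      refine ⟨(i0.1.add i2).congr e, ?_⟩
      rw [← integral_congr_ae e, integral_add i0.1 i2, integral_finsetSum _ fun μ _ => (i1 μ).1, h2 _ h3, i0.2]
      simp only [h4, fun μ => (i1 μ).2]
  exact key n hT.rep h

theorem HB.mono {n m : ℕ} (h : n ≤ m) {T : (E4 → G) →ₗ[ℝ] ℝ} (hT : HB n T) : HB m T := by
  obtain ⟨C, hC⟩ := hT
  exact ⟨|C|, fun u hu => (hC u hu).trans (mul_le_mul (le_abs_self C) (hs_mono h zero_le_one u)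
    (hs_nonneg n zero_le_one u) (abs_nonneg C))⟩

theorem HB.add {n : ℕ} {T T' : (E4 → G) →ₗ[ℝ] ℝ} (hT : HB n T) (hT' : HB n T') : HB n (T + T') := by
  obtain ⟨C, hC⟩ := hT
  obtain ⟨C', hC'⟩ := hT'
  refine ⟨C + C', fun u hu => (abs_add_le _ _).trans ?_⟩
  rw [add_mul]
  exact add_le_add (hC u hu) (hC' u hu)

/-- `hs_mul` (import `A3`). -/
theorem HB.comp_mul {n : ℕ} {T : (E4 → G₂) →ₗ[ℝ] ℝ} (hT : HB n T) {a : E4 → G₁ →L[ℝ] G₂}
    (ha : ContDiffOn ℝ ∞ a V) {T' : (E4 → G₁) →ₗ[ℝ] ℝ} (h : ∀ u, Tst 2 u → T' u = T fun z => a z (u z)) :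
    HB n T' := by
  obtain ⟨C, hC⟩ := hT
  obtain ⟨C', h0, hC'⟩ := hs_mul n ha
  refine ⟨|C| * C', fun u hu => ?_⟩
  rw [h u hu, mul_assoc]
  exact (hC _ (hu.mul (by norm_num) ha)).trans (mul_le_mul (le_abs_self C)
    (hC' 1 ⟨zero_le_one, le_rfl⟩ u (hu.mono (by norm_num))) (hs_nonneg n zero_le_one _) (abs_nonneg C))

end Crest.Agent.R240
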