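import Crest.Agent.R240.A1

/-! Block A7: the kernel class `Bd`.  Everything is an induction on `n` in `BdN n`, generalising the kernels, with
`BdN.congr` to pass between expressions that agree near the diagonal of `V ×ˢ V`. -/

set_option autoImplicit false
set_option maxSynthPendingDepth 3
set_option linter.unusedSectionVars false
set_option linter.unusedVariables false
open MeasureTheory Filter Set Metric
open scoped ENNReal NNReal Topology ContDiff InnerProductSpace InnerProduct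

noncomputable section
namespace Crest.Agent.R240

variable {G G₁ G₂ H : Type*} [NormedAddCommGroup G] [NormedSpace ℝ G] [FiniteDimensional ℝ G]
  [NormedAddCommGroup G₁] [NormedSpace ℝ G₁] [FiniteDimensional ℝ G₁] [NormedAddCommGroup G₂]
  [NormedSpace ℝ G₂] [FiniteDimensional ℝ G₂] [NormedAddCommGroup H] [NormedSpace ℝ H]
  [FiniteDimensional ℝ H]

theorem a7a_open : IsOpen (V ×ˢ V) := isOpen_ball.prod isOpen_ball

theorem a7a_mem {p : E4 × E4} (h1 : ‖p.1‖ ≤ 5 / 2) (h2 : ‖p.2‖ ≤ 5 / 2) : p ∈ V ×ˢ V :=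
  ⟨mem_ball_zero_iff.2 (by linarith), mem_ball_zero_iff.2 (by linarith)⟩

theorem a7a_small (C₀ : ℝ) {c : ℝ} (hc : 0 < c) : ∀ᶠ δ in 𝓝[>] (0 : ℝ), C₀ * δ < c := by
  have : Tendsto (fun δ : ℝ => C₀ * δ) (𝓝 0) (𝓝 (C₀ * 0)) := (continuous_const.mul continuous_id).tendsto 0
  rw [mul_zero] at this
  exact (this.eventually (gt_mem_nhds hc)).filter_mono nhdsWithin_le_nhds

theorem a7a_bd0 {k k' : KF G} {c : ℝ} (hc : 0 < c) (h : Bd0 k)
    (he : ∀ᶠ δ in 𝓝[>] (0 : ℝ), ∀ p ∈ V ×ˢ V, ‖p.1 - p.2‖ < c → k' δ p = k δ p) : Bd0 k' := fun C₀ => by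
  obtain ⟨C, hC⟩ := h C₀
  refine ⟨C, ?_⟩
  filter_upwards [hC, he, a7a_small C₀ hc] with δ h1 h2 h3 p p1 p2 p3
  rw [h2 p (a7a_mem p1 p2) (p3.trans_lt h3)]
  exact h1 p p1 p2 p3

theorem a7a_fderiv {f g : E4 × E4 → G} {c : ℝ} (he : ∀ p ∈ V ×ˢ V, ‖p.1 - p.2‖ < c → f p = g p)
    {p : E4 × E4} (hp : p ∈ V ×ˢ V) (hc : ‖p.1 - p.2‖ < c) : fderiv ℝ f p = fderiv ℝ g p := by
  refine Filter.EventuallyEq.fderiv_eq ?_
  have : IsOpen {q : E4 × E4 | ‖q.1 - q.2‖ < c} := isOpen_lt (by fun_prop) continuous_const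
  filter_upwards [a7a_open.mem_nhds hp, this.mem_nhds hc] with q h1 h2 using he q h1 h2

theorem a7a_sm {f : E4 × E4 → G} (h : ContDiffOn ℝ ∞ f (V ×ˢ V)) (v : E4 × E4) :
    ContDiffOn ℝ ∞ (fun p => fderiv ℝ f p v) (V ×ˢ V) :=
  (h.fderiv_of_isOpen a7a_open (m := ∞) (by norm_cast)).clm_apply contDiffOn_const

theorem a7a_diff {f : E4 × E4 → G} (h : ContDiffOn ℝ ∞ f (V ×ˢ V)) {p : E4 × E4} (hp : p ∈ V ×ˢ V) :
    DifferentiableAt ℝ f p :=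
  (h.contDiffAt (a7a_open.mem_nhds hp)).differentiableAt (by simp)

theorem a7a_smY {k : KF G} (h : ∀ᶠ δ in 𝓝[>] (0 : ℝ), ContDiffOn ℝ ∞ (k δ) (V ×ˢ V)) (μ : Fin 4) :
    ∀ᶠ δ in 𝓝[>] (0 : ℝ), ContDiffOn ℝ ∞ (dY μ k δ) (V ×ˢ V) :=
  h.mono fun δ hδ => (a7a_sm hδ _).const_smul δ

theorem a7a_smD {k : KF G} (h : ∀ᶠ δ in 𝓝[>] (0 : ℝ), ContDiffOn ℝ ∞ (k δ) (V ×ˢ V)) (μ : Fin 4) :
    ∀ᶠ δ in 𝓝[>] (0 : ℝ), ContDiffOn ℝ ∞ (dD μ k δ) (V ×ˢ V) :=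
  h.mono fun δ hδ => a7a_sm hδ _

theorem BdN.congr {n : ℕ} {k k' : KF G} {c : ℝ} (hc : 0 < c) (h : BdN n k)
    (he : ∀ᶠ δ in 𝓝[>] (0 : ℝ), ∀ p ∈ V ×ˢ V, ‖p.1 - p.2‖ < c → k' δ p = k δ p) : BdN n k' := by
  induction n generalizing k k' with
  | zero => exact a7a_bd0 hc h he
  | succ n ih =>
    refine ⟨a7a_bd0 hc h.1 he, fun μ => ⟨ih (h.2 μ).1 (he.mono fun δ hδ p hp h1 => ?_),
      ih (h.2 μ).2 (he.mono fun δ hδ p hp h1 => ?_)⟩⟩
    · simp only [dY, a7a_fderiv hδ hp h1]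
    · simp only [dD, a7a_fderiv hδ hp h1]

theorem Bd.congr {k k' : KF G} {c : ℝ} (hc : 0 < c) (h : Bd k)
    (hs : ∀ᶠ δ in 𝓝[>] (0 : ℝ), ContDiffOn ℝ ∞ (k' δ) (V ×ˢ V))
    (he : ∀ᶠ δ in 𝓝[>] (0 : ℝ), ∀ p ∈ V ×ˢ V, ‖p.1 - p.2‖ < c → k' δ p = k δ p) : Bd k' :=
  ⟨hs, fun n => (h.2 n).congr hc he⟩

theorem Bd.congr' {k k' : KF G} (h : Bd k)
    (he : ∀ᶠ δ in 𝓝[>] (0 : ℝ), ∀ p ∈ V ×ˢ V, k' δ p = k δ p) : Bd k' := by
  refine h.congr one_pos ?_ (he.mono fun δ hδ p hp _ => hδ p hp)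
  filter_upwards [h.1, he] with δ h1 h2 using h1.congr h2

theorem Bd.bd0 {k : KF G} (h : Bd k) : Bd0 k :=
  h.2 0

theorem Bd.dY' {k : KF G} (h : Bd k) (μ : Fin 4) : Bd (dY μ k) :=
  ⟨a7a_smY h.1 μ, fun n => ((h.2 (n + 1)).2 μ).1⟩

theorem Bd.dD' {k : KF G} (h : Bd k) (μ : Fin 4) : Bd (dD μ k) :=
  ⟨a7a_smD h.1 μ, fun n => ((h.2 (n + 1)).2 μ).2⟩

theorem a7a_sup {r : ℝ} {f : E4 × E4 → G} (h : ∀ p : E4 × E4, ‖p.1‖ < 5 / 2 → r < ‖p.1 - p.2‖ → f p = 0)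
    {p : E4 × E4} (h1 : ‖p.1‖ < 5 / 2) (h2 : r < ‖p.1 - p.2‖) : fderiv ℝ f p = 0 := by
  have o1 : IsOpen {q : E4 × E4 | ‖q.1‖ < 5 / 2} := isOpen_lt (by fun_prop) continuous_const
  have o2 : IsOpen {q : E4 × E4 | r < ‖q.1 - q.2‖} := isOpen_lt continuous_const (by fun_prop)
  have : f =ᶠ[𝓝 p] fun _ => 0 := by
    filter_upwards [o1.mem_nhds h1, o2.mem_nhds h2] with q q1 q2 using h q q1 q2
  rw [this.fderiv_eq, fderiv_fun_const]
  rfl

theorem Sup.dY' {C₀ : ℝ} {k : KF G} (h : Sup C₀ k) (μ : Fin 4) : Sup C₀ (dY μ k) :=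
  Filter.Eventually.mono h fun δ hδ p h1 h2 => by simp [dY, a7a_sup hδ h1 h2]

theorem Sup.dD' {C₀ : ℝ} {k : KF G} (h : Sup C₀ k) (μ : Fin 4) : Sup C₀ (dD μ k) :=
  Filter.Eventually.mono h fun δ hδ p h1 h2 => by simp [dD, a7a_sup hδ h1 h2]

theorem a7a_add0 {k k' : KF G} (h : Bd0 k) (h' : Bd0 k') : Bd0 fun δ p => k δ p + k' δ p := fun C₀ => by
  obtain ⟨C, hC⟩ := h C₀
  obtain ⟨C', hC'⟩ := h' C₀
  refine ⟨C + C', ?_⟩
  filter_upwards [hC, hC'] with δ h1 h2 p p1 p2 p3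
  exact (norm_add_le _ _).trans (add_le_add (h1 p p1 p2 p3) (h2 p p1 p2 p3))

theorem a7a_add {n : ℕ} {k k' : KF G} (s : ∀ᶠ δ in 𝓝[>] (0 : ℝ), ContDiffOn ℝ ∞ (k δ) (V ×ˢ V))
    (s' : ∀ᶠ δ in 𝓝[>] (0 : ℝ), ContDiffOn ℝ ∞ (k' δ) (V ×ˢ V)) (h : BdN n k) (h' : BdN n k') :
    BdN n fun δ p => k δ p + k' δ p := by
  induction n generalizing k k' with
  | zero => exact a7a_add0 h h'
  | succ n ih =>
    refine ⟨a7a_add0 h.1 h'.1, fun μ =>
      ⟨(ih (a7a_smY s μ) (a7a_smY s' μ) (h.2 μ).1 (h'.2 μ).1).congr one_pos ?_,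
        (ih (a7a_smD s μ) (a7a_smD s' μ) (h.2 μ).2 (h'.2 μ).2).congr one_pos ?_⟩⟩
    · filter_upwards [s, s'] with δ h1 h2 p hp _
      simp only [dY, fderiv_fun_add (a7a_diff h1 hp) (a7a_diff h2 hp), ContinuousLinearMap.add_apply, smul_add]
    · filter_upwards [s, s'] with δ h1 h2 p hp _
      simp only [dD, fderiv_fun_add (a7a_diff h1 hp) (a7a_diff h2 hp), ContinuousLinearMap.add_apply]

theorem Bd.add {k k' : KF G} (h : Bd k) (h' : Bd k') : Bd fun δ p => k δ p + k' δ p := by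
  refine ⟨?_, fun n => a7a_add h.1 h'.1 (h.2 n) (h'.2 n)⟩
  filter_upwards [h.1, h'.1] with δ h1 h2 using h1.add h2

theorem a7a_zero : Bd fun (_ : ℝ) (_ : E4 × E4) => (0 : G) := by
  have h0 : Bd0 fun (_ : ℝ) (_ : E4 × E4) => (0 : G) := fun _ => ⟨0, .of_forall fun _ _ _ _ _ => by simp⟩
  refine ⟨.of_forall fun _ => contDiffOn_const, fun n => ?_⟩
  induction n with
  | zero => exact h0
  | succ n ih =>
    exact ⟨h0, fun μ => ⟨ih.congr one_pos (.of_forall fun δ p _ _ => by simp [dY]),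
      ih.congr one_pos (.of_forall fun δ p _ _ => by simp [dD])⟩⟩

theorem Bd.sum {κ : Type*} (s : Finset κ) {k : κ → KF G} (h : ∀ i ∈ s, Bd (k i)) :
    Bd fun δ p => ∑ i ∈ s, k i δ p := by
  classical
  induction s using Finset.induction_on with
  | empty => simpa using a7a_zero
  | insert i s hi ih =>
    simp only [Finset.sum_insert hi]
    exact (h i (Finset.mem_insert_self _ _)).add (ih fun j hj => h j (Finset.mem_insert_of_mem hj))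

theorem a7a_delta0 {k : KF G} (h : Bd0 k) : Bd0 fun δ p => δ • k δ p := fun C₀ => by
  obtain ⟨C, hC⟩ := h C₀
  refine ⟨C, ?_⟩
  filter_upwards [hC, Ioo_mem_nhdsGT (zero_lt_one' ℝ)] with δ h1 h2 p p1 p2 p3
  rw [norm_smul, Real.norm_of_nonneg h2.1.le]
  exact (mul_le_of_le_one_left (norm_nonneg _) h2.2.le).trans (h1 p p1 p2 p3)

theorem a7a_delta {n : ℕ} {k : KF G} (s : ∀ᶠ δ in 𝓝[>] (0 : ℝ), ContDiffOn ℝ ∞ (k δ) (V ×ˢ V))
    (h : BdN n k) : BdN n fun δ p => δ • k δ p := by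
  induction n generalizing k with
  | zero => exact a7a_delta0 h
  | succ n ih =>
    refine ⟨a7a_delta0 h.1, fun μ => ⟨(ih (a7a_smY s μ) (h.2 μ).1).congr one_pos ?_,
      (ih (a7a_smD s μ) (h.2 μ).2).congr one_pos ?_⟩⟩
    · filter_upwards [s] with δ h1 p hp _
      simp only [dY, fderiv_fun_const_smul (a7a_diff h1 hp), ContinuousLinearMap.smul_apply]
    · filter_upwards [s] with δ h1 p hp _
      simp only [dD, fderiv_fun_const_smul (a7a_diff h1 hp), ContinuousLinearMap.smul_apply]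

theorem Bd.delta {k : KF G} (h : Bd k) : Bd fun δ p => δ • k δ p :=
  ⟨h.1.mono fun δ hδ => hδ.const_smul δ, fun n => a7a_delta h.1 (h.2 n)⟩

theorem a7a_bil0 {k : KF G₁} {k' : KF G₂} (B : G₁ →L[ℝ] G₂ →L[ℝ] G) (h : Bd0 k) (h' : Bd0 k') :
    Bd0 fun δ p => B (k δ p) (k' δ p) := fun C₀ => by
  obtain ⟨C, hC⟩ := h C₀
  obtain ⟨C', hC'⟩ := h' C₀
  refine ⟨‖B‖ * C * C', ?_⟩
  filter_upwards [hC, hC'] with δ h1 h2 p p1 p2 p3
  exact B.le_of_opNorm₂_le_of_le le_rfl (h1 p p1 p2 p3) (h2 p p1 p2 p3)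

theorem a7a_bils {k : KF G₁} {k' : KF G₂} (B : G₁ →L[ℝ] G₂ →L[ℝ] G) (h : Bd k) (h' : Bd k') :
    ∀ᶠ δ in 𝓝[>] (0 : ℝ), ContDiffOn ℝ ∞ (fun p => B (k δ p) (k' δ p)) (V ×ˢ V) := by
  filter_upwards [h.1, h'.1] with δ h1 h2 using (B.contDiff.comp_contDiffOn h1).clm_apply h2

theorem Bd.bilin {k : KF G₁} {k' : KF G₂} (B : G₁ →L[ℝ] G₂ →L[ℝ] G) (h : Bd k) (h' : Bd k') :
    Bd fun δ p => B (k δ p) (k' δ p) := by
  refine ⟨a7a_bils B h h', fun n => ?_⟩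
  induction n generalizing k k' with
  | zero => exact a7a_bil0 B h.bd0 h'.bd0
  | succ n ih =>
    refine ⟨a7a_bil0 B h.bd0 h'.bd0, fun μ =>
      ⟨(a7a_add (a7a_bils B h (h'.dY' μ)) (a7a_bils B (h.dY' μ) h') (ih h (h'.dY' μ))
        (ih (h.dY' μ) h')).congr one_pos ?_,
       (a7a_add (a7a_bils B h (h'.dD' μ)) (a7a_bils B (h.dD' μ) h') (ih h (h'.dD' μ))
        (ih (h.dD' μ) h')).congr one_pos ?_⟩⟩
    · filter_upwards [h.1, h'.1] with δ h1 h2 p hp _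
      simp [dY, B.fderiv_of_bilinear (a7a_diff h1 hp) (a7a_diff h2 hp)]
    · filter_upwards [h.1, h'.1] with δ h1 h2 p hp _
      simp [dD, B.fderiv_of_bilinear (a7a_diff h1 hp) (a7a_diff h2 hp)]

theorem Bd.smul {k : KF ℝ} {k' : KF G} (h : Bd k) (h' : Bd k') : Bd fun δ p => k δ p • k' δ p :=
  h.bilin (ContinuousLinearMap.lsmul ℝ ℝ) h'

theorem bd_const {D : E4 × E4 → G} (hD : ContDiffOn ℝ ∞ D (V ×ˢ V)) : Bd fun _ => D := by
  have h0 : ∀ {D : E4 × E4 → G}, ContDiffOn ℝ ∞ D (V ×ˢ V) → Bd0 fun _ => D := fun {D} hD C₀ => by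
    obtain ⟨C, hC⟩ := ((isCompact_closedBall (0 : E4) (5 / 2)).prod
      (isCompact_closedBall (0 : E4) (5 / 2))).exists_bound_of_continuousOn
        (hD.continuousOn.mono fun p hp =>
          a7a_mem (mem_closedBall_zero_iff.1 hp.1) (mem_closedBall_zero_iff.1 hp.2))
    exact ⟨C, .of_forall fun δ p p1 p2 _ =>
      hC p ⟨mem_closedBall_zero_iff.2 p1, mem_closedBall_zero_iff.2 p2⟩⟩
  refine ⟨.of_forall fun _ => hD, fun n => ?_⟩
  induction n generalizing D with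
  | zero => exact h0 hD
  | succ n ih =>
    exact ⟨h0 hD, fun μ => ⟨a7a_delta (.of_forall fun _ => a7a_sm hD _) (ih (a7a_sm hD _)), ih (a7a_sm hD _)⟩⟩

theorem a7b_open : IsOpen (V ×ˢ V) := isOpen_ball.prod isOpen_ball

theorem a7b_fd {W : Type*} [NormedAddCommGroup W] [NormedSpace ℝ W] {D : E4 × E4 → W}
    (hD : ContDiffOn ℝ ∞ D (V ×ˢ V)) : ContDiffOn ℝ ∞ (fderiv ℝ D) (V ×ˢ V) :=
  hD.fderiv_of_isOpen a7b_open (by exact_mod_cast le_top)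

theorem a7b_fda {W : Type*} [NormedAddCommGroup W] [NormedSpace ℝ W] {D : E4 × E4 → W}
    (hD : ContDiffOn ℝ ∞ D (V ×ˢ V)) (v : E4 × E4) : ContDiffOn ℝ ∞ (fun p => fderiv ℝ D p v) (V ×ˢ V) :=
  (a7b_fd hD).clm_apply contDiffOn_const

theorem a7b_diff {W : Type*} [NormedAddCommGroup W] [NormedSpace ℝ W] {D : E4 × E4 → W}
    (hD : ContDiffOn ℝ ∞ D (V ×ˢ V)) {p : E4 × E4} (hp : p ∈ V ×ˢ V) : DifferentiableAt ℝ D p :=
  (hD.contDiffAt (a7b_open.mem_nhds hp)).differentiableAt (by simp)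

theorem a7b_diag {W : Type*} [NormedAddCommGroup W] [NormedSpace ℝ W] {D : E4 × E4 → W}
    (hD : ContDiffOn ℝ ∞ D (V ×ˢ V)) (h0 : ∀ z ∈ V, D (z, z) = 0) {z : E4} (hz : z ∈ V) (e : E4) :
    fderiv ℝ D (z, z) (e, e) = 0 := by
  have h1 : HasFDerivAt (fun y : E4 => D (y, y)) ((fderiv ℝ D (z, z)).comp
      ((ContinuousLinearMap.id ℝ E4).prod (ContinuousLinearMap.id ℝ E4))) z :=
    HasFDerivAt.comp (g := D) (f := fun y : E4 => (y, y)) z (a7b_diff hD (p := (z, z)) ⟨hz, hz⟩).hasFDerivAt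
      ((hasFDerivAt_id z).prodMk (hasFDerivAt_id z))
  have h2 : HasFDerivAt (fun y : E4 => D (y, y)) (0 : E4 →L[ℝ] W) z := by
    refine (hasFDerivAt_const (0 : W) z).congr_of_eventuallyEq ?_
    filter_upwards [isOpen_ball.mem_nhds hz] with y hy using h0 y hy
  have := congrArg (fun L : E4 →L[ℝ] W => L e) (h1.unique h2)
  simpa using this

theorem a7b_sub : closedBall (0 : E4) (5 / 2) ×ˢ closedBall (0 : E4) (5 / 2) ⊆ V ×ˢ V :=
  prod_mono (closedBall_subset_ball (by norm_num)) (closedBall_subset_ball (by norm_num))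

theorem a7b_mv {W : Type*} [NormedAddCommGroup W] [NormedSpace ℝ W] {D : E4 × E4 → W}
    (hD : ContDiffOn ℝ ∞ D (V ×ˢ V)) (h0 : ∀ z ∈ V, D (z, z) = 0) {p : E4 × E4} (h1 : ‖p.1‖ ≤ 5 / 2)
    (h2 : ‖p.2‖ ≤ 5 / 2) {L : ℝ} (hL : ∀ q : E4 × E4, ‖q.1‖ ≤ 5 / 2 → ‖q.2‖ ≤ 5 / 2 →
      ‖q.1 - q.2‖ ≤ ‖p.1 - p.2‖ → ‖fderiv ℝ D q‖ ≤ L) : ‖D p‖ ≤ L * ‖p.1 - p.2‖ := by
  set S : Set (E4 × E4) := (closedBall (0 : E4) (5 / 2) ×ˢ closedBall (0 : E4) (5 / 2)) ∩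
    (LinearMap.fst ℝ E4 E4 - LinearMap.snd ℝ E4 E4) ⁻¹' closedBall 0 ‖p.1 - p.2‖ with hS
  have hc : Convex ℝ S := ((convex_closedBall _ _).prod (convex_closedBall _ _)).inter
    ((convex_closedBall _ _).linear_preimage _)
  have hm : ∀ q, q ∈ S ↔ ‖q.1‖ ≤ 5 / 2 ∧ ‖q.2‖ ≤ 5 / 2 ∧ ‖q.1 - q.2‖ ≤ ‖p.1 - p.2‖ := by
    intro q
    simp only [hS, mem_inter_iff, mem_prod, mem_closedBall_zero_iff, mem_preimage, LinearMap.sub_apply,
      LinearMap.fst_apply, LinearMap.snd_apply, and_assoc]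
  have h3 := hc.norm_image_sub_le_of_norm_fderiv_le (𝕜 := ℝ) (f := D) (C := L)
    (fun q hq => a7b_diff hD (a7b_sub hq.1)) (fun q hq => hL q ((hm q).1 hq).1 ((hm q).1 hq).2.1 ((hm q).1 hq).2.2)
    (x := (p.1, p.1)) (y := p) ((hm _).2 ⟨h1, h1, by simp⟩) ((hm _).2 ⟨h1, h2, le_rfl⟩)
  have hz : p.1 ∈ V := by
    rw [V, mem_ball_zero_iff]; linarith
  have e : ‖p - (p.1, p.1)‖ = ‖p.1 - p.2‖ := by
    rw [Prod.norm_def, Prod.fst_sub, Prod.snd_sub, sub_self, norm_zero, max_eq_right (norm_nonneg _), norm_sub_rev]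
  rwa [h0 _ hz, sub_zero, e] at h3

theorem a7b_lip {W : Type*} [NormedAddCommGroup W] [NormedSpace ℝ W] {D : E4 × E4 → W}
    (hD : ContDiffOn ℝ ∞ D (V ×ˢ V)) (h0 : ∀ z ∈ V, D (z, z) = 0) :
    ∃ L : ℝ, 0 ≤ L ∧ ∀ p : E4 × E4, ‖p.1‖ ≤ 5 / 2 → ‖p.2‖ ≤ 5 / 2 → ‖D p‖ ≤ L * ‖p.1 - p.2‖ := by
  obtain ⟨L, hL⟩ := ((isCompact_closedBall (0 : E4) (5 / 2)).prod
    (isCompact_closedBall (0 : E4) (5 / 2))).exists_bound_of_continuousOn ((a7b_fd hD).continuousOn.mono a7b_sub)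
  refine ⟨max L 0, le_max_right _ _, fun p h1 h2 => a7b_mv hD h0 h1 h2 fun q q1 q2 _ => ?_⟩
  exact (hL q ⟨mem_closedBall_zero_iff.2 q1, mem_closedBall_zero_iff.2 q2⟩).trans (le_max_left _ _)

theorem a7b_smul (c : ℝ) (D : E4 × E4 → G) (p v : E4 × E4) :
    fderiv ℝ (fun p => c • D p) p v = c • fderiv ℝ D p v := by
  have := fderiv_const_smul_field (𝕜 := ℝ) (f := D) c
  exact congrArg (fun L : E4 × E4 →L[ℝ] G => L v) (congrFun this p)

theorem a7b_bd0 {D : E4 × E4 → G} (hD : ContDiffOn ℝ ∞ D (V ×ˢ V)) (h0 : ∀ z ∈ V, D (z, z) = 0) :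
    Bd0 fun δ p => δ⁻¹ • D p := by
  intro C₀
  obtain ⟨L, hL0, hL⟩ := a7b_lip hD h0
  refine ⟨L * C₀, ?_⟩
  filter_upwards [self_mem_nhdsWithin] with δ (hδ : 0 < δ) p h1 h2 h3
  rw [norm_smul, norm_inv, Real.norm_of_nonneg hδ.le, inv_mul_le_iff₀ hδ]
  calc ‖D p‖ ≤ L * (C₀ * δ) := (hL p h1 h2).trans (mul_le_mul_of_nonneg_left h3 hL0)
    _ = _ := by ring

theorem a7b_bd0' {D : E4 × E4 → G} (hD : ContDiffOn ℝ ∞ D (V ×ˢ V)) (h0 : ∀ z ∈ V, D (z, z) = 0)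
    (h1 : ∀ z ∈ V, fderiv ℝ D (z, z) = 0) : Bd0 fun δ p => (δ ^ 2)⁻¹ • D p := by
  intro C₀
  obtain ⟨L, hL0, hL⟩ := a7b_lip (a7b_fd hD) h1
  refine ⟨L * C₀ ^ 2, ?_⟩
  filter_upwards [self_mem_nhdsWithin] with δ (hδ : 0 < δ) p p1 p2 h3
  rw [norm_smul, norm_inv, Real.norm_of_nonneg (by positivity), inv_mul_le_iff₀ (by positivity)]
  have h4 := a7b_mv hD h0 p1 p2 (L := L * ‖p.1 - p.2‖) fun q q1 q2 q3 =>
    (hL q q1 q2).trans (mul_le_mul_of_nonneg_left q3 hL0)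
  have h5 : ‖p.1 - p.2‖ ^ 2 ≤ (C₀ * δ) ^ 2 := pow_le_pow_left₀ (norm_nonneg _) h3 2
  calc ‖D p‖ ≤ L * ‖p.1 - p.2‖ ^ 2 := h4.trans (le_of_eq (by ring))
    _ ≤ L * (C₀ * δ) ^ 2 := mul_le_mul_of_nonneg_left h5 hL0
    _ = _ := by ring

/-- `D` vanishes on the diagonal; so does `∂_x D + ∂_y D`; mean value inequality on the convex compact set
`closedBall 0 (5/2) ×ˢ closedBall 0 (5/2)`. -/
theorem bd_div {D : E4 × E4 → G} (hD : ContDiffOn ℝ ∞ D (V ×ˢ V)) (h0 : ∀ z ∈ V, D (z, z) = 0) :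
    Bd fun δ p => δ⁻¹ • D p := by
  refine ⟨Eventually.of_forall fun δ => hD.const_smul δ⁻¹, fun n => ?_⟩
  induction n generalizing D with
  | zero => exact a7b_bd0 hD h0
  | succ n ih =>
    refine ⟨a7b_bd0 hD h0, fun μ => ⟨?_, ?_⟩⟩
    · refine ((bd_const (a7b_fda hD (0, ee μ))).2 n).congr one_pos ?_
      filter_upwards [self_mem_nhdsWithin] with δ (hδ : 0 < δ) p _ _
      simp only [dY]
      rw [a7b_smul, smul_smul, mul_inv_cancel₀ hδ.ne', one_smul]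
    · refine (ih (a7b_fda hD (ee μ, ee μ)) fun z hz => a7b_diag hD h0 hz _).congr one_pos ?_
      refine Eventually.of_forall fun δ p _ _ => ?_
      simp only [dD]
      rw [a7b_smul]

theorem bd_div2 {D : E4 × E4 → G} (hD : ContDiffOn ℝ ∞ D (V ×ˢ V)) (h0 : ∀ z ∈ V, D (z, z) = 0)
    (h1 : ∀ z ∈ V, fderiv ℝ D (z, z) = 0) : Bd fun δ p => (δ ^ 2)⁻¹ • D p := by
  refine ⟨Eventually.of_forall fun δ => hD.const_smul (δ ^ 2)⁻¹, fun n => ?_⟩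
  induction n generalizing D with
  | zero => exact a7b_bd0' hD h0 h1
  | succ n ih =>
    refine ⟨a7b_bd0' hD h0 h1, fun μ => ⟨?_, ?_⟩⟩
    · refine ((bd_div (a7b_fda hD (0, ee μ)) fun z hz => by rw [h1 z hz]; rfl).2 n).congr one_pos ?_
      filter_upwards [self_mem_nhdsWithin] with δ (hδ : 0 < δ) p _ _
      simp only [dY]
      rw [a7b_smul, smul_smul]
      congr 1
      field_simp
    · refine (ih (a7b_fda hD (ee μ, ee μ)) (fun z hz => by rw [h1 z hz]; rfl) fun z hz => ?_).congr one_pos ?_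
      · have hz' : ((z, z) : E4 × E4) ∈ V ×ˢ V := ⟨hz, hz⟩
        have hs : IsSymmSndFDerivAt ℝ D (z, z) :=
          (hD.contDiffAt (a7b_open.mem_nhds hz')).isSymmSndFDerivAt (by
            rw [minSmoothness_of_isRCLikeNormedField]; exact WithTop.coe_le_coe.2 (le_top (a := (2 : ℕ∞))))
        refine ContinuousLinearMap.ext fun v => ?_
        rw [fderiv_clm_apply (a7b_diff (a7b_fd hD) hz') (differentiableAt_const _)]
        have h3 := hs v (ee μ, ee μ)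
        rw [a7b_diag (a7b_fd hD) h1 hz (ee μ)] at h3
        simpa using h3
      · refine Eventually.of_forall fun δ p _ _ => ?_
        simp only [dD]
        rw [a7b_smul]

/-- `dY` and `dD` in one formula -/
def a7cD (w : ℝ → ℝ) (v : E4 × E4) (K : KF G) : KF G := fun δ p => w δ • fderiv ℝ (K δ) p v

def a7cOk (w : ℝ → ℝ) (v : E4 × E4) : Prop :=
  ∃ μ, (w = id ∧ v = (0, ee μ)) ∨ ((w = fun _ => 1) ∧ v = (ee μ, ee μ))

theorem a7c_DD (μ : Fin 4) (K : KF G) : a7cD (fun _ => 1) (ee μ, ee μ) K = dD μ K := by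
  funext δ p
  simp [a7cD, dD]

theorem a7c_bd {w : ℝ → ℝ} {v : E4 × E4} (ok : a7cOk w v) {K : KF G} (h : Bd K) : Bd (a7cD w v K) := by
  obtain ⟨μ, ⟨rfl, rfl⟩ | ⟨rfl, rfl⟩⟩ := ok
  · exact h.dY' μ
  · rw [a7c_DD]
    exact h.dD' μ

theorem a7c_open : IsOpen (V ×ˢ V) := isOpen_ball.prod isOpen_ball

theorem a7c_diff {f : E4 × E4 → G} (h : ContDiffOn ℝ ∞ f (V ×ˢ V)) {p : E4 × E4} (hp : p ∈ V ×ˢ V) :
    DifferentiableAt ℝ f p := (h.contDiffAt (a7c_open.mem_nhds hp)).differentiableAt (by simp)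

theorem a7c_mem {p : E4 × E4} (h1 : ‖p.1‖ ≤ 5 / 2) (h2 : ‖p.2‖ ≤ 5 / 2) : p ∈ V ×ˢ V :=
  ⟨mem_ball_zero_iff.2 (by linarith), mem_ball_zero_iff.2 (by linarith)⟩

theorem a7c_clm (L : G₁ →L[ℝ] G) {k : KF G₁} (h : Bd k) : Bd fun δ p => L (k δ p) :=
  Bd.bilin (ContinuousLinearMap.id ℝ (G₁ →L[ℝ] G)) (bd_const (D := fun _ => L) contDiffOn_const) h

/-- the module over the bounded kernels generated by the family `F` -/
inductive a7cC {ι : Type*} (F : ι → KF G) : KF G → Prop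
  | bd {K : KF G} : Bd K → a7cC F K
  | sm {a : KF ℝ} (i : ι) : Bd a → a7cC F fun δ p => a δ p • F i δ p
  | add {K K' : KF G} : a7cC F K → a7cC F K' → a7cC F fun δ p => K δ p + K' δ p
  | congr {K K' : KF G} : a7cC F K → (∀ᶠ δ in 𝓝[>] (0 : ℝ), ∀ p ∈ V ×ˢ V, K' δ p = K δ p) → a7cC F K'

theorem a7cC.smul {ι : Type*} {F : ι → KF G} {a : KF ℝ} (ha : Bd a) {K : KF G} (h : a7cC F K) :
    a7cC F fun δ p => a δ p • K δ p := by
  induction h with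
  | bd h => exact .bd (ha.smul h)
  | sm i h => exact (a7cC.sm i (ha.smul h)).congr (Eventually.of_forall fun δ p _ => (smul_assoc _ _ _).symm)
  | add _ _ h h' => exact (h.add h').congr (Eventually.of_forall fun δ p _ => smul_add _ _ _)
  | congr _ he h => exact h.congr (he.mono fun δ hδ p hp => by rw [hδ p hp])

theorem a7cC.sum {ι κ : Type*} {F : ι → KF G} (s : Finset κ) {K : κ → KF G} (h : ∀ j, a7cC F (K j)) :
    a7cC F fun δ p => ∑ j ∈ s, K j δ p := by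
  classical
  induction s using Finset.induction_on with
  | empty => exact .bd (bd_const (D := fun _ => 0) contDiffOn_const)
  | insert j s hj ih => exact ((h j).add ih).congr (Eventually.of_forall fun δ p _ => Finset.sum_insert hj)

theorem a7c_gen {ι : Type*} {F : ι → KF G} (hs : ∀ i, ∀ᶠ δ in 𝓝[>] (0 : ℝ), ContDiffOn ℝ ∞ (F i δ) (V ×ˢ V))
    (h0 : ∀ i, Bd0 (F i)) (hD : ∀ i w v, a7cOk w v → a7cC F (a7cD w v (F i))) (i : ι) : Bd (F i) := by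
  have sm : ∀ K, a7cC F K → ∀ᶠ δ in 𝓝[>] (0 : ℝ), ContDiffOn ℝ ∞ (K δ) (V ×ˢ V) := fun K h => by
    induction h with
    | bd h => exact h.1
    | sm i h => filter_upwards [h.1, hs i] with δ h1 h2 using h1.smul h2
    | add _ _ h h' => filter_upwards [h, h'] with δ h1 h2 using h1.add h2
    | congr _ he h => filter_upwards [h, he] with δ h1 h2 using h1.congr h2
  have b0 : ∀ K, a7cC F K → Bd0 K := fun K h => by
    induction h with
    | bd h => exact h.bd0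
    | sm i h =>
      intro C₀
      obtain ⟨C, hC⟩ := h.bd0 C₀
      obtain ⟨C', hC'⟩ := h0 i C₀
      refine ⟨C * C', ?_⟩
      filter_upwards [hC, hC'] with δ h1 h2 p p1 p2 p3
      rw [norm_smul]
      exact mul_le_mul (h1 p p1 p2 p3) (h2 p p1 p2 p3) (norm_nonneg _) ((norm_nonneg _).trans (h1 p p1 p2 p3))
    | add _ _ h h' =>
      intro C₀
      obtain ⟨C, hC⟩ := h C₀
      obtain ⟨C', hC'⟩ := h' C₀
      refine ⟨C + C', ?_⟩
      filter_upwards [hC, hC'] with δ h1 h2 p p1 p2 p3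
      exact norm_add_le_of_le (h1 p p1 p2 p3) (h2 p p1 p2 p3)
    | congr _ he h =>
      intro C₀
      obtain ⟨C, hC⟩ := h C₀
      refine ⟨C, ?_⟩
      filter_upwards [hC, he] with δ h1 h2 p p1 p2 p3
      rw [h2 p (a7c_mem p1 p2)]
      exact h1 p p1 p2 p3
  have der : ∀ w v, a7cOk w v → ∀ K, a7cC F K → a7cC F (a7cD w v K) := fun w v ok K h => by
    induction h with
    | bd h => exact .bd (a7c_bd ok h)
    | sm i h =>
      refine ((a7cC.sm i (a7c_bd ok h)).add ((hD i w v ok).smul h)).congr ?_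
      filter_upwards [h.1, hs i] with δ h1 h2 p hp
      simp only [a7cD, fderiv_fun_smul (a7c_diff h1 hp) (a7c_diff h2 hp), _root_.add_apply,
        _root_.smul_apply, ContinuousLinearMap.smulRight_apply]
      module
    | add k k' h h' =>
      refine (h.add h').congr ?_
      filter_upwards [sm _ k, sm _ k'] with δ h1 h2 p hp
      simp only [a7cD, fderiv_fun_add (a7c_diff h1 hp) (a7c_diff h2 hp), _root_.add_apply, smul_add]
    | congr _ he h =>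
      refine h.congr (he.mono fun δ hδ p hp => ?_)
      simp only [a7cD]
      rw [Filter.EventuallyEq.fderiv_eq (eventually_of_mem (a7c_open.mem_nhds hp) hδ)]
  have main : ∀ n K, a7cC F K → BdN n K := fun n => by
    induction n with
    | zero => exact b0
    | succ n ih =>
      refine fun K h => ⟨b0 K h, fun μ => ⟨ih _ (der id _ ⟨μ, .inl ⟨rfl, rfl⟩⟩ K h), ih _ ?_⟩⟩
      rw [← a7c_DD]
      exact der _ _ ⟨μ, .inr ⟨rfl, rfl⟩⟩ K h
  exact ⟨hs i, fun n => main n _ ((a7cC.sm i (bd_const (D := fun _ => (1 : ℝ)) contDiffOn_const)).congr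
    (Eventually.of_forall fun δ p _ => (one_smul _ _).symm))⟩

/-- partial derivative of a smooth map -/
def a7cP (Φ : {Φ : G₁ → G₂ // ContDiff ℝ ∞ Φ}) (e : G₁) : {Φ : G₁ → G₂ // ContDiff ℝ ∞ Φ} :=
  ⟨fun x => fderiv ℝ Φ.1 x e, (Φ.2.fderiv_right (m := ∞) (by simp)).clm_apply contDiff_const⟩

theorem a7c_exp (L : G₁ →L[ℝ] G₂) (x : G₁) : L x = ∑ j,
    LinearMap.toContinuousLinearMap ((Module.finBasis ℝ G₁).coord j) x • L (Module.finBasis ℝ G₁ j) := by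
  conv_lhs => rw [← (Module.finBasis ℝ G₁).sum_repr x, map_sum]
  simp only [map_smul, LinearMap.coe_toContinuousLinearMap', Module.Basis.coord_apply]

theorem a7c_chain {k : KF G₁} {Φ : G₁ → G₂} (hΦ : ContDiff ℝ ∞ Φ) {δ : ℝ} (h : ContDiffOn ℝ ∞ (k δ) (V ×ˢ V))
    {p : E4 × E4} (hp : p ∈ V ×ˢ V) :
    HasFDerivAt (fun q => Φ (k δ q)) ((fderiv ℝ Φ (k δ p)).comp (fderiv ℝ (k δ) p)) p :=
  (hΦ.differentiable (by simp) _).hasFDerivAt.comp p (a7c_diff h hp).hasFDerivAt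

/-- Induction on `n` over all smooth `Φ`; to keep the value space fixed expand
`fderiv Φ (k) (v) = ∑ i, (b.repr v i) • fderiv Φ k (b i)` in a basis of `G₁`. -/
theorem Bd.comp {k : KF G₁} (h : Bd k) {Φ : G₁ → G₂} (hΦ : ContDiff ℝ ∞ Φ) : Bd fun δ p => Φ (k δ p) := by
  refine a7c_gen (F := fun (Φ : {Φ : G₁ → G₂ // ContDiff ℝ ∞ Φ}) δ p => Φ.1 (k δ p))
    (fun Φ => h.1.mono fun δ hδ => Φ.2.comp_contDiffOn hδ) (fun Φ C₀ => ?_) (fun Φ w v ok => ?_) ⟨Φ, hΦ⟩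
  · obtain ⟨C, hC⟩ := h.bd0 C₀
    obtain ⟨M, hM⟩ := (isCompact_closedBall (0 : G₁) C).exists_bound_of_continuousOn Φ.2.continuous.continuousOn
    exact ⟨M, hC.mono fun δ hδ p p1 p2 p3 => hM _ (mem_closedBall_zero_iff.2 (hδ p p1 p2 p3))⟩
  · refine (a7cC.sum Finset.univ fun j => a7cC.sm (a7cP Φ (Module.finBasis ℝ G₁ j))
      (a7c_clm (LinearMap.toContinuousLinearMap ((Module.finBasis ℝ G₁).coord j)) (a7c_bd ok h))).congr ?_
    filter_upwards [h.1] with δ h1 p hp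
    simp only [a7cP]
    rw [← a7c_exp, a7cD, a7cD, (a7c_chain Φ.2 h1 hp).fderiv, map_smul, ContinuousLinearMap.comp_apply]

/-- `∂(Φ k - Φ k') = (Φ' k - Φ' k') ∂k + Φ' k' (∂k - ∂k')`; base case: `Φ` is Lipschitz on bounded sets. -/
theorem Bd.diff {k k' : KF G₁} (h : Bd k) (h' : Bd k') (hd : Bd fun δ p => δ⁻¹ • (k δ p - k' δ p))
    {Φ : G₁ → G₂} (hΦ : ContDiff ℝ ∞ Φ) : Bd fun δ p => δ⁻¹ • (Φ (k δ p) - Φ (k' δ p)) := by
  refine a7c_gen (F := fun (Φ : {Φ : G₁ → G₂ // ContDiff ℝ ∞ Φ}) δ p => δ⁻¹ • (Φ.1 (k δ p) - Φ.1 (k' δ p)))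
    (fun Φ => ?_) (fun Φ C₀ => ?_) (fun Φ w v ok => ?_) ⟨Φ, hΦ⟩
  · filter_upwards [h.1, h'.1] with δ h1 h2
    exact ((Φ.2.comp_contDiffOn h1).sub (Φ.2.comp_contDiffOn h2)).const_smul _
  · obtain ⟨C, hC⟩ := h.bd0 C₀
    obtain ⟨C', hC'⟩ := h'.bd0 C₀
    obtain ⟨D, hD⟩ := hd.bd0 C₀
    obtain ⟨M, hM⟩ := (isCompact_closedBall (0 : G₁) (max C C')).exists_bound_of_continuousOn
      (Φ.2.continuous_fderiv (by simp)).continuousOn
    refine ⟨M * D, ?_⟩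
    filter_upwards [hC, hC', hD] with δ h1 h2 h3 p p1 p2 p3
    have m1 : k δ p ∈ closedBall (0 : G₁) (max C C') := mem_closedBall_zero_iff.2 ((h1 p p1 p2 p3).trans (le_max_left _ _))
    have m2 : k' δ p ∈ closedBall (0 : G₁) (max C C') :=
      mem_closedBall_zero_iff.2 ((h2 p p1 p2 p3).trans (le_max_right _ _))
    have e := (convex_closedBall (0 : G₁) (max C C')).norm_image_sub_le_of_norm_fderiv_le
      (fun x _ => Φ.2.differentiable (by simp) x) hM m2 m1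
    have h4 := h3 p p1 p2 p3
    have hM0 : 0 ≤ M := (norm_nonneg _).trans (hM _ m1)
    rw [norm_smul] at h4 ⊢
    calc _ ≤ ‖δ⁻¹‖ * (M * ‖k δ p - k' δ p‖) := mul_le_mul_of_nonneg_left e (norm_nonneg _)
      _ = M * (‖δ⁻¹‖ * ‖k δ p - k' δ p‖) := by ring
      _ ≤ M * D := mul_le_mul_of_nonneg_left h4 hM0
  · refine ((a7cC.sum Finset.univ fun j => a7cC.sm (a7cP Φ (Module.finBasis ℝ G₁ j))
      (a7c_clm (LinearMap.toContinuousLinearMap ((Module.finBasis ℝ G₁).coord j)) (a7c_bd ok h))).add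
      (.bd (Bd.bilin (ContinuousLinearMap.id ℝ (G₁ →L[ℝ] G₂))
        (h'.comp (Φ.2.fderiv_right (m := ∞) (by simp))) (a7c_bd ok hd)))).congr ?_
    filter_upwards [h.1, h'.1] with δ h1 h2 p hp
    have e := a7c_exp (δ⁻¹ • (fderiv ℝ Φ.1 (k δ p) - fderiv ℝ Φ.1 (k' δ p))) (a7cD w v k δ p)
    simp only [_root_.smul_apply, _root_.sub_apply] at e
    simp only [a7cP]
    rw [← e]
    simp only [a7cD]
    rw [(((a7c_chain Φ.2 h1 hp).fun_sub (a7c_chain Φ.2 h2 hp)).fun_const_smul δ⁻¹).fderiv,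
      (((a7c_diff h1 hp).hasFDerivAt.fun_sub (a7c_diff h2 hp).hasFDerivAt).fun_const_smul δ⁻¹).fderiv]
    simp only [_root_.smul_apply, _root_.sub_apply, ContinuousLinearMap.comp_apply,
      ContinuousLinearMap.id_apply, map_smul, map_sub]
    module

theorem ker_fam {C₀ : ℝ} {k : KF (G₁ →L[ℝ] G₂)} (h : Bd k) (hs : Sup C₀ k) {ρ : ℝ} (hρ : ρ < 2) :
    ∀ᶠ δ in 𝓝[>] (0 : ℝ), Fam ((ball (0 : E4) ρ) ×ˢ (univ : Set G₁))
      fun q : (E4 × G₁) × E4 => (δ ^ 4)⁻¹ • k δ (q.1.1, q.2) q.1.2 := by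
  have h1 : ∀ᶠ δ in 𝓝[>] (0 : ℝ), C₀ * δ < 2 - ρ := by
    have : Tendsto (fun δ : ℝ => C₀ * δ) (𝓝 0) (𝓝 (C₀ * 0)) := tendsto_id.const_mul C₀
    rw [mul_zero] at this
    exact mem_nhdsWithin_of_mem_nhds (this.eventually (gt_mem_nhds (by linarith)))
  filter_upwards [h.1, hs, h1] with δ hk hs h1
  have hz : ∀ x y : E4, ‖x‖ < ρ → 2 < ‖y‖ → k δ (x, y) = 0 := by
    intro x y hx hy
    refine hs (x, y) (by simp only; linarith) ?_
    have := norm_sub_norm_le y x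
    rw [norm_sub_rev] at this
    simp only; linarith
  refine ⟨fun q hq => ContDiffAt.contDiffWithinAt ?_, fun x hx y hy => ?_⟩
  · have hx : ‖q.1.1‖ < ρ := mem_ball_zero_iff.1 hq.1.1
    by_cases hy : ‖q.2‖ < 3
    · have hm : ((q.1.1, q.2) : E4 × E4) ∈ V ×ˢ V :=
        ⟨mem_ball_zero_iff.2 (by simp only; linarith), mem_ball_zero_iff.2 hy⟩
      have h2 : ContDiffAt ℝ ∞ (fun q : (E4 × G₁) × E4 => k δ (q.1.1, q.2)) q :=
        ContDiffAt.comp (g := k δ) (f := fun q : (E4 × G₁) × E4 => (q.1.1, q.2)) q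
          (hk.contDiffAt (a7b_open.mem_nhds hm)) (by fun_prop)
      exact (h2.clm_apply (by fun_prop)).const_smul _
    · refine (contDiffAt_const (c := (0 : G₂))).congr_of_eventuallyEq ?_
      have e1 : ∀ᶠ r : (E4 × G₁) × E4 in 𝓝 q, ‖r.1.1‖ < ρ :=
        (by fun_prop : ContinuousAt (fun r : (E4 × G₁) × E4 => ‖r.1.1‖) q).eventually (gt_mem_nhds hx)
      have e2 : ∀ᶠ r : (E4 × G₁) × E4 in 𝓝 q, 2 < ‖r.2‖ :=
        (by fun_prop : ContinuousAt (fun r : (E4 × G₁) × E4 => ‖r.2‖) q).eventually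
          (lt_mem_nhds (by linarith))
      filter_upwards [e1, e2] with r r1 r2
      rw [hz _ _ r1 r2]; simp
  · simp only
    rw [hz _ _ (mem_ball_zero_iff.1 hx.1) hy]; simp

end Crest.Agent.R240
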