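import Crest.Agent.R240.A7

/-! Differentiation of kernel operators under the integral sign (for block A8). -/

set_option autoImplicit false
set_option maxSynthPendingDepth 3
set_option linter.unusedSectionVars false
set_option linter.unusedVariables false
open MeasureTheory Filter Set Metric
open scoped ENNReal NNReal Topology ContDiff InnerProductSpace InnerProduct

noncomputable section
namespace Crest.Agent.R240

variable {G₁ G₂ : Type*} [NormedAddCommGroup G₁] [NormedSpace ℝ G₁] [NormedAddCommGroup G₂] [NormedSpace ℝ G₂]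
  {X : Type*} [MeasurableSpace X] {ϖ : Measure X} {p : X → E4} {f : X → G₁} {O K : Set E4}

theorem a8a_integrable (hK : IsCompact K) {g : E4 → G₁ →L[ℝ] G₂} (hg : ContinuousOn g K) (hp : Measurable p)
    (hpK : ∀ ξ, p ξ ∈ K) (hf : Integrable f ϖ) : Integrable (fun ξ => g (p ξ) (f ξ)) ϖ := by
  obtain ⟨C, hC⟩ := hK.exists_bound_of_continuousOn hg
  have h1 : AEStronglyMeasurable (fun ξ => g (p ξ)) ϖ :=
    hg.restrict.comp_aestronglyMeasurable (hp.subtype_mk (h := hpK)).aestronglyMeasurable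
  exact (hf.norm.const_mul C).mono'
    (isBoundedBilinearMap_apply.continuous.comp_aestronglyMeasurable (h1.prodMk hf.1))
    (Eventually.of_forall fun ξ => (g (p ξ)).le_of_opNorm_le (hC _ (hpK ξ)) _)

theorem a8a_der (hO : IsOpen O) (hK : IsCompact K) (hKO : K ⊆ O) {Ψ : E4 × E4 → G₁ →L[ℝ] G₂}
    (h : ContDiffOn ℝ ∞ Ψ (O ×ˢ univ)) (hp : Measurable p) (hpK : ∀ ξ, p ξ ∈ K) (hf : Integrable f ϖ) (y : E4) :
    DifferentiableAt ℝ (fun y => ∫ ξ, Ψ (p ξ, y) (f ξ) ∂ϖ) y ∧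
      ∀ v, fderiv ℝ (fun y => ∫ ξ, Ψ (p ξ, y) (f ξ) ∂ϖ) y v = ∫ ξ, fderiv ℝ Ψ (p ξ, y) (0, v) (f ξ) ∂ϖ := by
  have hW : IsOpen (O ×ˢ (univ : Set E4)) := hO.prod isOpen_univ
  have hc : ContinuousOn (fun q => ((fderiv ℝ Ψ q).comp (ContinuousLinearMap.inr ℝ E4 E4)).flip) (O ×ˢ univ) :=
    (ContinuousLinearMap.flipₗᵢ ℝ E4 G₁ G₂).continuous.comp_continuousOn
      ((h.continuousOn_fderiv_of_isOpen hW (by simp)).clm_comp continuousOn_const)
  have hm : ∀ y : E4, MapsTo (fun x => (x, y)) K (O ×ˢ univ) := fun y x hx => ⟨hKO hx, mem_univ _⟩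
  obtain ⟨C, hC⟩ := (hK.prod (isCompact_closedBall y 1)).exists_bound_of_continuousOn
    (hc.mono (prod_mono hKO (subset_univ _)))
  have i0 := fun y : E4 => a8a_integrable hK (h.continuousOn.comp (by fun_prop) (hm y)) hp hpK hf
  have i1 := a8a_integrable hK (hc.comp (by fun_prop) (hm y)) hp hpK hf
  have hd := hasFDerivAt_integral_of_dominated_of_fderiv_le (𝕜 := ℝ) (μ := ϖ)
    (F := fun y ξ => Ψ (p ξ, y) (f ξ))
    (F' := fun y ξ => ((fderiv ℝ Ψ (p ξ, y)).comp (ContinuousLinearMap.inr ℝ E4 E4)).flip (f ξ))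
    (bound := fun ξ => C * ‖f ξ‖) (closedBall_mem_nhds y one_pos) (Eventually.of_forall fun y => (i0 y).1)
    (i0 y) i1.1 (Eventually.of_forall fun ξ x hx =>
      ContinuousLinearMap.le_of_opNorm_le _ (hC (p ξ, x) ⟨hpK ξ, hx⟩) _) (hf.norm.const_mul C)
    (Eventually.of_forall fun ξ x _ => by
      have h1 := ((h.contDiffAt (hW.mem_nhds (hm x (hpK ξ)))).differentiableAt (by simp)).hasFDerivAt.comp x
        (hasFDerivAt_prodMk_right (p ξ) x)
      simpa using h1.clm_apply (hasFDerivAt_const (f ξ) x))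
  refine ⟨hd.differentiableAt, fun v => ?_⟩
  rw [hd.fderiv]
  exact ContinuousLinearMap.integral_apply i1 v

theorem a8a_smooth (hO : IsOpen O) (hK : IsCompact K) (hKO : K ⊆ O) {Ψ : E4 × E4 → G₁ →L[ℝ] G₂}
    (h : ContDiffOn ℝ ∞ Ψ (O ×ˢ univ)) (hp : Measurable p) (hpK : ∀ ξ, p ξ ∈ K) (hf : Integrable f ϖ) :
    ContDiff ℝ ∞ fun y => ∫ ξ, Ψ (p ξ, y) (f ξ) ∂ϖ := by
  refine contDiff_infty.2 fun n => ?_
  induction n generalizing Ψ with
  | zero => exact contDiff_zero.2 (Differentiable.continuous fun y => (a8a_der hO hK hKO h hp hpK hf y).1)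
  | succ n ih =>
    rw [Nat.cast_succ, contDiff_succ_iff_fderiv_apply]
    refine ⟨fun y => (a8a_der hO hK hKO h hp hpK hf y).1, by simp, fun v => ?_⟩
    simp only [fun y => (a8a_der hO hK hKO h hp hpK hf y).2 v]
    exact ih (Ψ := fun q => fderiv ℝ Ψ q (0, v))
      ((h.fderiv_of_isOpen (hO.prod isOpen_univ) (by norm_cast)).clm_apply contDiffOn_const)

theorem a8a_small (C₀ : ℝ) {c : ℝ} (hc : 0 < c) : ∀ᶠ δ in 𝓝[>] (0 : ℝ), C₀ * δ < c :=
  nhdsWithin_le_nhds ((show ContinuousAt (fun δ : ℝ => C₀ * δ) 0 by fun_prop).eventually_lt continuousAt_const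
    (by simpa using hc))

theorem a8a_sm {C₀ : ℝ} {k : KF G₁} (h : Bd k) (hs' : Sup C₀ k) :
    ∀ᶠ δ in 𝓝[>] (0 : ℝ), ContDiffOn ℝ ∞ (k δ) (ball 0 (9 / 4) ×ˢ univ) := by
  filter_upwards [h.1, hs', a8a_small C₀ (c := 1 / 2) (by norm_num)] with δ h1 h2 h3 q hq
  refine ContDiffAt.contDiffWithinAt ?_
  have hq1 := mem_ball_zero_iff.1 hq.1
  by_cases hy : ‖q.2‖ < 3
  · exact h1.contDiffAt ((isOpen_ball.prod isOpen_ball).mem_nhds
      ⟨mem_ball_zero_iff.2 (by linarith), mem_ball_zero_iff.2 hy⟩)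
  · refine (contDiffAt_const (c := 0)).congr_of_eventuallyEq ?_
    have h4 : C₀ * δ < ‖q.1 - q.2‖ := by linarith [norm_sub_norm_le q.2 q.1, norm_sub_rev q.1 q.2]
    filter_upwards [(show ContinuousAt (fun q : E4 × E4 => ‖q.1‖) q by fun_prop).eventually_lt continuousAt_const
      (show ‖q.1‖ < 5 / 2 by linarith), continuousAt_const.eventually_lt
      (show ContinuousAt (fun q : E4 × E4 => ‖q.1 - q.2‖) q by fun_prop) h4] with q' a b using h2 q' a b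

theorem a8a_memLp [IsFiniteMeasure ϖ] (hp : Measurable p) (hpK : ∀ ξ, ‖p ξ‖ ≤ 2) (hf : Integrable f ϖ) {r : ℝ}
    (hr : r ≤ 1) : MemLp (fun y => ∫ ξ in {ξ | ‖p ξ - y‖ ≤ r}, ‖f ξ‖ ∂ϖ) 2 volume := by
  have hS : MeasurableSet {q : E4 × X | ‖p q.2 - q.1‖ ≤ r} := measurableSet_le (by fun_prop) measurable_const
  have h1 := ((hf.1.norm.comp_snd (μ := (volume : Measure E4))).indicator hS).integral_prod_right'
  refine (memLp_indicator_const (s := closedBall (0 : E4) 3) 2 measurableSet_closedBall (∫ ξ, ‖f ξ‖ ∂ϖ)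
    (Or.inr measure_closedBall_lt_top.ne)).mono' (h1.congr (Eventually.of_forall fun y => ?_))
    (Eventually.of_forall fun y => ?_)
  · exact integral_indicator (f := fun ξ => ‖f ξ‖) (measurable_prodMk_left hS)
  · by_cases hy : y ∈ closedBall (0 : E4) 3
    · rw [indicator_of_mem hy, Real.norm_of_nonneg (integral_nonneg fun _ => norm_nonneg _)]
      exact setIntegral_le_integral hf.norm (Eventually.of_forall fun _ => norm_nonneg _)
    · have e : {ξ | ‖p ξ - y‖ ≤ r} = ∅ := eq_empty_of_forall_notMem fun ξ (h : ‖p ξ - y‖ ≤ r) =>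
        hy (mem_closedBall_zero_iff.2 (by linarith [norm_sub_norm_le y (p ξ), norm_sub_rev y (p ξ), hpK ξ]))
      simp [e, indicator_of_notMem hy]

theorem a8a_base [FiniteDimensional ℝ G₁] [FiniteDimensional ℝ G₂] {C₀ : ℝ} {k : KF (G₁ →L[ℝ] G₂)} (h : Bd k)
    (hs' : Sup C₀ k) (X : Type*) [MeasurableSpace X] :
    ∃ C : ℝ, 0 ≤ C ∧ ∀ᶠ δ in 𝓝[>] (0 : ℝ), ∀ (ϖ : Measure X) [IsFiniteMeasure ϖ]
      (p : X → E4) (f : X → G₁) (ρ B : ℝ), ρ ≤ 2 → Measurable p → AEStronglyMeasurable f ϖ →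
      (∀ ξ, ‖p ξ‖ ≤ ρ ∧ ‖f ξ‖ ≤ B) → Tst (ρ + C₀ * δ) (KM k δ ϖ p f) ∧
      (∀ μ, KM (dY μ k) δ ϖ p f = δ • pd μ (KM k δ ϖ p f)) ∧
      lpNorm (KM k δ ϖ p f) 2 volume ≤ C * (δ ^ 4)⁻¹ *
        lpNorm (fun y => ∫ ξ in {ξ | ‖p ξ - y‖ ≤ C₀ * δ}, ‖f ξ‖ ∂ϖ) 2 volume := by
  obtain ⟨C, hC⟩ := h.bd0 C₀
  refine ⟨|C|, abs_nonneg C, ?_⟩
  filter_upwards [hC, hs', a8a_sm h hs', a8a_small C₀ (c := 1 / 2) (by norm_num), self_mem_nhdsWithin]
    with δ h1 h2 h3 h4 (hδ : 0 < δ) ϖ _ p f ρ B hρ hp hf hb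
  have hf' : Integrable f ϖ := .of_bound hf B (Eventually.of_forall fun ξ => (hb ξ).2)
  have hp2 : ∀ ξ, ‖p ξ‖ ≤ 2 := fun ξ => (hb ξ).1.trans hρ
  have hpK : ∀ ξ, p ξ ∈ closedBall (0 : E4) 2 := fun ξ => mem_closedBall_zero_iff.2 (hp2 ξ)
  have hKO : closedBall (0 : E4) 2 ⊆ ball 0 (9 / 4) := closedBall_subset_ball (by norm_num)
  have e : KM k δ ϖ p f = (δ ^ 4)⁻¹ • fun y => ∫ ξ, k δ (p ξ, y) (f ξ) ∂ϖ := funext fun y => integral_smul _ _
  have h0 : ∀ ξ y, C₀ * δ < ‖p ξ - y‖ → k δ (p ξ, y) = 0 := fun ξ y hy =>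
    h2 (p ξ, y) ((hp2 ξ).trans_lt (by norm_num)) hy
  refine ⟨⟨?_, fun y hy => ?_⟩, fun μ => funext fun y => ?_, ?_⟩
  · rw [e]
    exact (a8a_smooth isOpen_ball (isCompact_closedBall _ _) hKO h3 hp hpK hf').const_smul _
  · have h5 : ∀ ξ, k δ (p ξ, y) = 0 := fun ξ =>
      h0 ξ y (by linarith [norm_sub_norm_le y (p ξ), norm_sub_rev y (p ξ), (hb ξ).1])
    simp [KM, h5]
  · rw [e, Pi.smul_apply, pd, fderiv_const_smul_field, Pi.smul_apply, smul_apply,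
      (a8a_der isOpen_ball (isCompact_closedBall _ _) hKO h3 hp hpK hf' y).2, smul_comm, ← integral_smul,
      ← integral_smul]
    rfl
  · have h6 := lpNorm_mono_real (f := KM k δ ϖ p f) ((a8a_memLp hp hp2 hf' (r := C₀ * δ) (by linarith)).const_smul
      (|C| * (δ ^ 4)⁻¹)) fun y => by
        have hS : MeasurableSet {ξ | ‖p ξ - y‖ ≤ C₀ * δ} := measurableSet_le (by fun_prop) measurable_const
        rw [Pi.smul_apply, ← integral_indicator hS, ← integral_smul]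
        refine norm_integral_le_of_norm_le ((hf'.norm.indicator hS).const_mul _) (Eventually.of_forall fun ξ => ?_)
        by_cases hξ : ‖p ξ - y‖ ≤ C₀ * δ
        · rw [indicator_of_mem (show ξ ∈ {ξ | ‖p ξ - y‖ ≤ C₀ * δ} from hξ), norm_smul,
            Real.norm_of_nonneg (by positivity), smul_eq_mul, mul_comm |C|, mul_assoc]
          refine mul_le_mul_of_nonneg_left (ContinuousLinearMap.le_of_opNorm_le _ ((h1 (p ξ, y)
            ((hp2 ξ).trans (by norm_num)) ?_ hξ).trans (le_abs_self C)) _) (by positivity)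
          linarith [norm_sub_norm_le y (p ξ), norm_sub_rev y (p ξ), hp2 ξ]
        · simp [h0 ξ y (not_le.1 hξ), indicator_of_notMem (show ξ ∉ {ξ | ‖p ξ - y‖ ≤ C₀ * δ} from hξ)]
    rwa [lpNorm_const_smul, coe_nnnorm, Real.norm_of_nonneg (by positivity)] at h6

end Crest.Agent.R240
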