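import Crest.Agent.R240.A1

/-! Block A8, auxiliary lemmas for `KD_hs` (helper23). -/

set_option autoImplicit false
set_option maxSynthPendingDepth 3
set_option linter.unusedSectionVars false
set_option linter.unusedVariables false
open MeasureTheory Filter Set Metric
open scoped ENNReal NNReal Topology ContDiff InnerProductSpace InnerProduct Convolution

noncomputable section
namespace Crest.Agent.R240

variable {G G₁ G₂ H : Type*} [NormedAddCommGroup G] [NormedSpace ℝ G] [FiniteDimensional ℝ G]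
  [NormedAddCommGroup G₁] [NormedSpace ℝ G₁] [FiniteDimensional ℝ G₁] [NormedAddCommGroup G₂]
  [NormedSpace ℝ G₂] [FiniteDimensional ℝ G₂]

/-- parametric integrals of smooth functions with uniformly compact support -/
theorem a8e_param {O K : Set E4} (hO : IsOpen O) (hK : IsCompact K) {g : E4 × E4 → G}
    (hg : ContDiffOn ℝ ∞ g (O ×ˢ univ)) (h0 : ∀ y v, y ∈ O → v ∉ K → g (y, v) = 0) :
    ContDiffOn ℝ ∞ (fun y => ∫ v, g (y, v)) O ∧
      ∀ y ∈ O, ∀ a, fderiv ℝ (fun y => ∫ v, g (y, v)) y a = ∫ v, fderiv ℝ g (y, v) (a, 0) := by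
  have := FiniteDimensional.complete ℝ G
  have e : ∀ φ : E4 → G, ((fun _ : E4 => (1 : ℝ)) ⋆[ContinuousLinearMap.lsmul ℝ ℝ, volume] φ) 0 = ∫ v, φ v :=
    fun φ => by
      simp only [convolution_def, ContinuousLinearMap.lsmul_apply, one_smul, zero_sub, integral_neg_eq_self]
  have hf : LocallyIntegrable (fun _ : E4 => (1 : ℝ)) volume := locallyIntegrable_const 1
  refine ⟨?_, fun y hy a => ?_⟩
  · simpa only [e] using contDiffOn_convolution_right_with_param_comp (n := ⊤) (ContinuousLinearMap.lsmul ℝ ℝ)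
      (v := fun _ => 0) contDiffOn_const (g := fun y v => g (y, v)) hO hK h0 hf hg
  have h1 := HasFDerivAt.comp (f := fun z : E4 => (z, (0 : E4))) y
    (hasFDerivAt_convolution_right_with_param (ContinuousLinearMap.lsmul ℝ ℝ) (g := fun y v => g (y, v))
      hO hK h0 hf (hg.of_le (by simp)) (y, 0) hy) (hasFDerivAt_prodMk_left (𝕜 := ℝ) y (0 : E4))
  have hc : Continuous fun v => fderiv ℝ g (y, v) :=
    (hg.continuousOn_fderiv_of_isOpen (hO.prod isOpen_univ) (by simp)).comp_continuous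
      (Continuous.prodMk_right y) fun v => ⟨hy, mem_univ v⟩
  have hs : HasCompactSupport fun v => fderiv ℝ g (y, v) := HasCompactSupport.intro hK fun v hv => by
    refine (EventuallyEq.fderiv_eq (f := fun _ => 0) ?_).trans (by simp)
    filter_upwards [(hO.prod hK.isClosed.isOpen_compl).mem_nhds (show (y, v) ∈ O ×ˢ Kᶜ from ⟨hy, hv⟩)] with q hq
    exact h0 _ _ hq.1 hq.2
  simp only [Function.comp_def, e] at h1
  rw [h1.fderiv, ContinuousLinearMap.comp_apply]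
  exact (convolution_precompR_apply _ hf hs hc 0 _).trans (e _)

theorem a8e_cs {T : Type*} [MeasurableSpace T] (m : Measure T) {F : T → ℝ≥0∞} (hF : AEMeasurable F m) :
    (∫⁻ t, F t ∂m) ^ (2 : ℝ) ≤ m univ * ∫⁻ t, F t ^ (2 : ℝ) ∂m := by
  have h := ENNReal.rpow_le_rpow (ENNReal.lintegral_mul_le_Lp_mul_Lq m Real.HolderConjugate.two_two hF
    (g := fun _ => 1) aemeasurable_const) zero_le_two
  rw [ENNReal.mul_rpow_of_nonneg _ _ zero_le_two, ← ENNReal.rpow_mul, ← ENNReal.rpow_mul] at h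
  simpa [mul_comm] using h

theorem a8e_l2 {f : E4 → G₂} {g : E4 → G} (hg : Continuous g) (hg2 : MemLp g 2 volume) (m : Measure (E4 × ℝ))
    [IsFiniteMeasure m] {c : ℝ} (hc : 0 ≤ c)
    (h : ∀ y, ‖f y‖ₑ ≤ ENNReal.ofReal c * ∫⁻ q, ‖g (y + q.2 • q.1)‖ₑ ∂m) :
    lpNorm f 2 volume ≤ c * m.real univ * lpNorm g 2 volume := by
  by_cases hf : AEStronglyMeasurable f volume
  swap
  · rw [lpNorm_of_not_aestronglyMeasurable hf]
    have := lpNorm_nonneg (f := g) (p := 2) (μ := volume)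
    positivity
  have h1 : eLpNorm f 2 volume ≤ ENNReal.ofReal c * m univ * eLpNorm g 2 volume := by
    rw [← ENNReal.rpow_le_rpow_iff two_pos, ENNReal.mul_rpow_of_nonneg _ _ zero_le_two,
      ENNReal.mul_rpow_of_nonneg _ _ zero_le_two]
    have e1 : eLpNorm f 2 volume ^ (2 : ℝ) = ∫⁻ y, ‖f y‖ₑ ^ (2 : ℝ) :=
      eLpNorm_nnreal_pow_eq_lintegral (p := 2) two_ne_zero
    have e2 : eLpNorm g 2 volume ^ (2 : ℝ) = ∫⁻ y, ‖g y‖ₑ ^ (2 : ℝ) :=
      eLpNorm_nnreal_pow_eq_lintegral (p := 2) two_ne_zero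
    have hm : Measurable fun p : E4 × E4 × ℝ => ‖g (p.1 + p.2.2 • p.2.1)‖ₑ ^ (2 : ℝ) :=
      (hg.comp (by fun_prop)).enorm.measurable.pow_const _
    rw [e1, e2]
    calc _ ≤ ∫⁻ y, ENNReal.ofReal c ^ (2 : ℝ) * (m univ * ∫⁻ q, ‖g (y + q.2 • q.1)‖ₑ ^ (2 : ℝ) ∂m) := by
          refine lintegral_mono fun y => (ENNReal.rpow_le_rpow (h y) zero_le_two).trans ?_
          rw [ENNReal.mul_rpow_of_nonneg _ _ zero_le_two]
          gcongr
          exact a8e_cs m (hg.comp (by fun_prop)).enorm.measurable.aemeasurable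
      _ = _ := by
          rw [lintegral_const_mul' _ _ (ENNReal.rpow_ne_top_of_nonneg zero_le_two ENNReal.ofReal_ne_top),
            lintegral_const_mul' _ _ (measure_ne_top _ _), lintegral_lintegral_swap hm.aemeasurable]
          simp only [fun q : E4 × ℝ => lintegral_add_right_eq_self (μ := volume)
            (fun y => ‖g y‖ₑ ^ (2 : ℝ)) (q.2 • q.1)]
          rw [lintegral_const, ENNReal.rpow_two (m univ)]
          ring
  rw [← toReal_eLpNorm hf, ← toReal_eLpNorm hg2.1]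
  refine (ENNReal.toReal_mono (ENNReal.mul_ne_top (ENNReal.mul_ne_top ENNReal.ofReal_ne_top (measure_ne_top _ _))
    hg2.2.ne) h1).trans_eq ?_
  rw [ENNReal.toReal_mul, ENNReal.toReal_mul, ENNReal.toReal_ofReal hc, Measure.real]

theorem a8e_diff {u : E4 → G} (hu : ContDiff ℝ ∞ u) (y v : E4) :
    ‖u (y + v) - u y‖ₑ ≤ ‖v‖ₑ * ∫⁻ t in Icc (0 : ℝ) 1, ‖fderiv ℝ u (y + t • v)‖ₑ := by
  have h := enorm_sub_le_lintegral_deriv_of_contDiffOn_Icc (f := fun t : ℝ => u (y + t • v))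
    ((hu.of_le (by simp)).comp (by fun_prop)).contDiffOn zero_le_one
  rw [one_smul, zero_smul, add_zero] at h
  rw [← lintegral_const_mul' _ _ enorm_ne_top]
  refine h.trans (lintegral_mono fun t => ?_)
  have h1 := (hu.differentiable (by simp) (y + t • v)).hasFDerivAt.comp_hasDerivAt t
    (((hasDerivAt_id t).smul_const v).const_add y)
  rw [show deriv (fun t : ℝ => u (y + t • v)) t = _ from h1.deriv, one_smul, mul_comm]
  exact ContinuousLinearMap.le_opENorm _ _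

theorem a8e_fderiv {u : E4 → G} {ρ : ℝ} (hu : Tst ρ u) :
    MemLp (fderiv ℝ u) 2 volume ∧ lpNorm (fderiv ℝ u) 2 volume ≤ hs 1 1 u := by
  refine ⟨(hu.1.continuous_fderiv (by simp)).memLp_of_hasCompactSupport (hu.hcs.fderiv ℝ), ?_⟩
  have hm : ∀ μ ∈ Finset.univ, MemLp (fun z => ‖pd μ u z‖) 2 volume := fun μ _ => ((hu.pd' μ).memLp 2).norm
  have h1 := (lpNorm_mono_real (f := fderiv ℝ u) (memLp_finsetSum' _ hm) fun z => by
    simpa [pd] using norm_le_sum_ee (fderiv ℝ u z)).trans (lpNorm_sum_le hm one_le_two)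
  simp only [fun μ => lpNorm_norm ((hu.pd' μ).memLp 2).1 2] at h1
  simp only [hs, one_mul]
  linarith [lpNorm_nonneg (f := u) (p := 2) (μ := volume)]

/-- kernels at a fixed scale -/
def A8eK (r : ℝ) (κ : E4 × E4 → G) : Prop :=
  ∀ p : E4 × E4, ‖p.2‖ < 5 / 2 → ContDiffAt ℝ ∞ κ p ∧ (r < ‖p.1 - p.2‖ → κ p = 0)

theorem a8e_ev {r : ℝ} {κ : E4 × E4 → G} (hz : ∀ p : E4 × E4, ‖p.2‖ < 5 / 2 → r < ‖p.1 - p.2‖ → κ p = 0)
    {p : E4 × E4} (h1 : ‖p.2‖ < 5 / 2) (h2 : r < ‖p.1 - p.2‖) : κ =ᶠ[𝓝 p] fun _ => 0 := by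
  filter_upwards [(isOpen_lt (by fun_prop) continuous_const).mem_nhds (show p ∈ {q : E4 × E4 | ‖q.2‖ < 5 / 2} from h1),
    (isOpen_lt continuous_const (by fun_prop)).mem_nhds (show p ∈ {q : E4 × E4 | r < ‖q.1 - q.2‖} from h2)]
    with q a b using hz q a b

theorem a8e_z {r : ℝ} {κ : E4 × E4 → G} (hz : ∀ p : E4 × E4, ‖p.2‖ < 5 / 2 → r < ‖p.1 - p.2‖ → κ p = 0)
    (a p : E4 × E4) (h1 : ‖p.2‖ < 5 / 2) (h2 : r < ‖p.1 - p.2‖) : fderiv ℝ κ p a = 0 := by
  rw [(a8e_ev hz h1 h2).fderiv_eq]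
  simp

theorem a8e_K {r : ℝ} (hr : r ≤ 1 / 10) {κ : E4 × E4 → G} (hk : ContDiffOn ℝ ∞ κ (V ×ˢ V))
    (hz : ∀ p : E4 × E4, ‖p.2‖ < 5 / 2 → r < ‖p.1 - p.2‖ → κ p = 0) : A8eK r κ := fun p hp => by
  refine ⟨?_, hz p hp⟩
  rcases lt_or_ge r ‖p.1 - p.2‖ with h | h
  · exact contDiffAt_const.congr_of_eventuallyEq (a8e_ev hz hp h)
  · exact hk.contDiffAt ((isOpen_ball.prod isOpen_ball).mem_nhds
      ⟨mem_ball_zero_iff.2 (by linarith [norm_sub_norm_le p.1 p.2]), mem_ball_zero_iff.2 (by linarith)⟩)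

theorem A8eK.der {r : ℝ} {κ : E4 × E4 → G} (h : A8eK r κ) (a : E4 × E4) : A8eK r fun p => fderiv ℝ κ p a :=
  fun p hp => ⟨((h p hp).1.fderiv_right (m := ∞) (by simp)).clm_apply contDiffAt_const,
    a8e_z (fun q hq => (h q hq).2) a p hp⟩

/-- the integrand -/
def a8eG (c : ℝ) (κ : E4 × E4 → G₁ →L[ℝ] G₂) (u : E4 → G₁) (q : E4 × E4) : G₂ :=
  c • κ (q.1 + q.2, q.1) (u (q.1 + q.2) - u q.1)

/-- the operator -/
def a8eD (c : ℝ) (κ : E4 × E4 → G₁ →L[ℝ] G₂) (u : E4 → G₁) (y : E4) : G₂ :=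
  if ‖y‖ < 9 / 4 then ∫ v, a8eG c κ u (y, v) else 0

theorem a8e_G {r : ℝ} {κ : E4 × E4 → G₁ →L[ℝ] G₂} (h : A8eK r κ) (c : ℝ) {u : E4 → G₁} (hu : ContDiff ℝ ∞ u) :
    ContDiffOn ℝ ∞ (a8eG c κ u) (ball 0 (5 / 2) ×ˢ univ) ∧
      (∀ y v, y ∈ ball (0 : E4) (5 / 2) → v ∉ closedBall (0 : E4) r → a8eG c κ u (y, v) = 0) ∧
      ∀ y ∈ ball (0 : E4) (5 / 2), Integrable fun v => a8eG c κ u (y, v) := by
  have h1 : ContDiffOn ℝ ∞ (a8eG c κ u) (ball 0 (5 / 2) ×ˢ univ) := fun q hq =>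
    ((((h (q.1 + q.2, q.1) (mem_ball_zero_iff.1 hq.1)).1.comp q (f := fun q : E4 × E4 => (q.1 + q.2, q.1))
      (by fun_prop)).clm_apply ((hu.comp (contDiff_fst.add contDiff_snd)).sub
        (hu.comp contDiff_fst)).contDiffAt).const_smul c).contDiffWithinAt
  have h2 : ∀ y v, y ∈ ball (0 : E4) (5 / 2) → v ∉ closedBall (0 : E4) r → a8eG c κ u (y, v) = 0 := fun y v hy hv => by
    rw [a8eG, (h (y + v, y) (mem_ball_zero_iff.1 hy)).2 (by simpa using hv)]
    simp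
  exact ⟨h1, h2, fun y hy => (h1.continuousOn.comp_continuous (Continuous.prodMk_right y)
    fun v => ⟨hy, mem_univ v⟩).integrable_of_hasCompactSupport
      (HasCompactSupport.intro (isCompact_closedBall 0 r) fun v hv => h2 y v hy hv)⟩

theorem a8e_pd {r : ℝ} (hr : r ≤ 1 / 10) {κ : E4 × E4 → G₁ →L[ℝ] G₂} (h : A8eK r κ) (c : ℝ) {u : E4 → G₁}
    (hr0 : 0 ≤ r) (hu : Tst 2 u) : Tst (2 + r) (a8eD c κ u) ∧ ∀ μ, pd μ (a8eD c κ u) =
      a8eD c (fun p => fderiv ℝ κ p (ee μ, ee μ)) u + a8eD c κ (pd μ u) := by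
  obtain ⟨g1, g2, -⟩ := a8e_G h c hu.1
  obtain ⟨p1, p2⟩ := a8e_param isOpen_ball (isCompact_closedBall 0 r) g1 g2
  have hb : ∀ {y : E4}, ‖y‖ < 9 / 4 → y ∈ ball (0 : E4) (5 / 2) := fun hy => mem_ball_zero_iff.2 (by linarith)
  have h0 : ∀ y, 2 + r < ‖y‖ → a8eD c κ u y = 0 := fun y hy => by
    rw [a8eD]
    split_ifs with hy'
    swap
    · rfl
    refine integral_eq_zero_of_ae (Eventually.of_forall fun v => ?_)
    by_cases hv : v ∈ closedBall (0 : E4) r
    · have := norm_sub_le (y + v) v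
      rw [add_sub_cancel_right] at this
      simp [a8eG, hu.2 y (by linarith), hu.2 (y + v) (by linarith [mem_closedBall_zero_iff.1 hv])]
    · exact g2 y v (hb hy') hv
  have he : ∀ {y : E4}, ‖y‖ < 9 / 4 → a8eD c κ u =ᶠ[𝓝 y] fun y => ∫ v, a8eG c κ u (y, v) := fun hy => by
    filter_upwards [(isOpen_lt continuous_norm continuous_const).mem_nhds hy] with z hz using if_pos hz
  have ht : Tst (2 + r) (a8eD c κ u) := ⟨contDiff_iff_contDiffAt.2 fun y => by
    rcases lt_or_ge ‖y‖ (9 / 4) with hy | hy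
    · exact (p1.contDiffAt (isOpen_ball.mem_nhds (hb hy))).congr_of_eventuallyEq (he hy)
    · refine (contDiffAt_const (c := 0)).congr_of_eventuallyEq ?_
      filter_upwards [(isOpen_lt continuous_const continuous_norm).mem_nhds
        (show 2 + r < ‖y‖ by linarith)] with z hz using h0 z hz, h0⟩
  refine ⟨ht, fun μ => funext fun y => ?_⟩
  rcases lt_or_ge ‖y‖ (9 / 4) with hy | hy
  swap
  · simp [(ht.pd' μ).2 y (by linarith), a8eD, hy.not_gt]
  rw [pd, (he hy).fderiv_eq, p2 y (hb hy), Pi.add_apply, a8eD, a8eD, if_pos hy, if_pos hy,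
    ← integral_add ((a8e_G (h.der _) c hu.1).2.2 y (hb hy)) ((a8e_G h c (hu.pd' μ).1).2.2 y (hb hy))]
  refine integral_congr_ae (Eventually.of_forall fun v => ?_)
  have df : HasFDerivAt (fun q : E4 × E4 => q.1) (ContinuousLinearMap.fst ℝ E4 E4) (y, v) := hasFDerivAt_fst
  have d0 : HasFDerivAt (fun q : E4 × E4 => q.1 + q.2)
    (ContinuousLinearMap.fst ℝ E4 E4 + ContinuousLinearMap.snd ℝ E4 E4) (y, v) := df.add hasFDerivAt_snd
  have d1 := HasFDerivAt.comp (y, v)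
    ((h (y + v, y) (mem_ball_zero_iff.1 (hb hy))).1.differentiableAt (by simp)).hasFDerivAt (d0.prodMk df)
  have d2 := (HasFDerivAt.comp (y, v) (hu.1.differentiable (by simp) (y + v)).hasFDerivAt d0).sub
    (HasFDerivAt.comp (y, v) (hu.1.differentiable (by simp) y).hasFDerivAt df)
  have d3 : HasFDerivAt (a8eG c κ u) _ (y, v) := (d1.clm_apply d2).const_smul c
  simp only
  rw [d3.fderiv]
  simp [a8eG, pd, add_comm]

theorem a8e_base {r C : ℝ} (hr : r ≤ 1 / 10) (hr0 : 0 ≤ r) {κ : E4 × E4 → G₁ →L[ℝ] G₂} (h : A8eK r κ) {c : ℝ}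
    (hc : 0 ≤ c) (hC0 : 0 ≤ C) (hC : ∀ p : E4 × E4, ‖p.1‖ ≤ 5 / 2 → ‖p.2‖ ≤ 5 / 2 → ‖p.1 - p.2‖ ≤ r → ‖κ p‖ ≤ C)
    {u : E4 → G₁} (hu : Tst 2 u) :
    lpNorm (a8eD c κ u) 2 volume ≤ c * C * r * (r ^ 4 * volume.real (ball (0 : E4) 1)) * hs 1 1 u := by
  obtain ⟨f1, f2⟩ := a8e_fderiv hu
  have hc' : Continuous (fderiv ℝ u) := hu.1.continuous_fderiv (by simp)
  have i1 : IsFiniteMeasure (volume.restrict (closedBall (0 : E4) r)) := isFiniteMeasure_restrict.2
    measure_closedBall_lt_top.ne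
  refine (a8e_l2 hc' f1 ((volume.restrict (closedBall (0 : E4) r)).prod (volume.restrict (Icc (0 : ℝ) 1)))
    (c := c * C * r) (by positivity) fun y => ?_).trans ?_
  · rw [a8eD]
    split_ifs with hy
    swap
    · simp
    have hm : Measurable fun q : E4 × ℝ => ‖fderiv ℝ u (y + q.2 • q.1)‖ₑ := (hc'.comp (by fun_prop)).enorm.measurable
    rw [lintegral_prod _ hm.aemeasurable, ← lintegral_const_mul' _ _ ENNReal.ofReal_ne_top,
      ← setIntegral_eq_integral_of_forall_compl_eq_zero fun v hv =>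
        (a8e_G h c hu.1).2.1 y v (mem_ball_zero_iff.2 (by linarith)) hv]
    refine (enorm_integral_le_lintegral_enorm _).trans (setLIntegral_mono' measurableSet_closedBall fun v hv => ?_)
    rw [mem_closedBall_zero_iff] at hv
    have h1 := hC (y + v, y) ((norm_add_le _ _).trans (by linarith)) (by linarith) (by simpa using hv)
    rw [a8eG, enorm_smul, ENNReal.ofReal_mul (by positivity), ENNReal.ofReal_mul hc, Real.enorm_of_nonneg hc,
      mul_assoc, mul_assoc]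
    gcongr
    refine (ContinuousLinearMap.le_opENorm _ _).trans (mul_le_mul' ?_ ((a8e_diff hu.1 y v).trans ?_))
    · rw [← ofReal_norm]
      exact ENNReal.ofReal_le_ofReal h1
    · rw [← ofReal_norm]
      gcongr
  · rw [← univ_prod_univ, measureReal_prod_prod, measureReal_restrict_apply_univ, measureReal_restrict_apply_univ,
      Measure.addHaar_real_closedBall _ _ hr0, Real.volume_real_Icc_of_le zero_le_one, finrank_euclideanSpace_fin,
      sub_zero, mul_one]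
    gcongr

end Crest.Agent.R240
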