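import Crest.Agent.R240.A7
import Crest.Agent.R240.A6
import Crest.Agent.R240.A3
import Crest.Agent.R240.A8AuxE
import Crest.Agent.R240.A8AuxA

/-! Block A8: kernel operators. -/

set_option autoImplicit false
set_option maxSynthPendingDepth 3
set_option linter.unusedSectionVars false
set_option linter.unusedVariables false
open MeasureTheory Filter Set Metric
open scoped ENNReal NNReal Topology ContDiff InnerProductSpace InnerProduct

noncomputable section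
namespace Crest.Agent.R240

variable {G G₁ G₂ H : Type*} [NormedAddCommGroup G] [NormedSpace ℝ G] [FiniteDimensional ℝ G]
  [NormedAddCommGroup G₁] [NormedSpace ℝ G₁] [FiniteDimensional ℝ G₁] [NormedAddCommGroup G₂]
  [NormedSpace ℝ G₂] [FiniteDimensional ℝ G₂] [NormedAddCommGroup H] [NormedSpace ℝ H]
  [FiniteDimensional ℝ H]

/-- The function is smooth (differentiate under the integral; the integrand is smooth on `ball 0 (5/2) ×ˢ univ` by `Bd` and
`Sup`), `δ • pd μ (KM k) = KM (dY μ k)`; pointwise `‖KM k y‖ ≤ C δ⁻⁴ ∫ 1_{‖p ξ - y‖ ≤ C₀ δ} ‖f ξ‖`. -/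
theorem KM_hs (n : ℕ) {C₀ : ℝ} (hC : 0 ≤ C₀) {k : KF (G₁ →L[ℝ] G₂)} (h : Bd k) (hs' : Sup C₀ k)
    (X : Type*) [MeasurableSpace X] :
    ∃ C : ℝ, 0 ≤ C ∧ ∀ᶠ δ in 𝓝[>] (0 : ℝ), ∀ (ϖ : Measure X) [IsFiniteMeasure ϖ]
      (p : X → E4) (f : X → G₁) (ρ B : ℝ), ρ ≤ 2 → Measurable p → AEStronglyMeasurable f ϖ →
      (∀ ξ, ‖p ξ‖ ≤ ρ ∧ ‖f ξ‖ ≤ B) → Tst (ρ + C₀ * δ) (KM k δ ϖ p f) ∧
      hs n δ (KM k δ ϖ p f) ≤ C * (δ ^ 4)⁻¹ *
        lpNorm (fun y => ∫ ξ in {ξ | ‖p ξ - y‖ ≤ C₀ * δ}, ‖f ξ‖ ∂ϖ) 2 volume := by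
  obtain ⟨C, hC0, h0⟩ := a8a_base h hs' X
  induction n generalizing k C with
  | zero =>
    refine ⟨C, hC0, h0.mono fun δ h1 ϖ _ p f ρ B a b c d => ?_⟩
    exact ⟨(h1 ϖ p f ρ B a b c d).1, (h1 ϖ p f ρ B a b c d).2.2⟩
  | succ n ih =>
    choose D hD0 hD using fun μ => (a8a_base (h.dY' μ) (hs'.dY' μ) X).elim fun C' h' =>
      ih (h.dY' μ) (hs'.dY' μ) C' h'.1 h'.2
    refine ⟨C + ∑ μ, D μ, add_nonneg hC0 (Finset.sum_nonneg fun μ _ => hD0 μ), ?_⟩
    filter_upwards [h0, eventually_all.2 hD, self_mem_nhdsWithin] with δ h1 h2 (hδ : 0 < δ) ϖ _ p f ρ B a b c d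
    obtain ⟨h3, h4, h5⟩ := h1 ϖ p f ρ B a b c d
    refine ⟨h3, ?_⟩
    rw [hs, add_mul, add_mul, Finset.sum_mul, Finset.sum_mul, Finset.mul_sum]
    refine add_le_add h5 (Finset.sum_le_sum fun μ _ => ?_)
    have h6 := (h2 μ ϖ p f ρ B a b c d).2
    rwa [h4, hs_smul n δ (h3.pd' μ), abs_of_pos hδ] at h6

theorem vol_ball_E4 : ∃ c : ℝ, 0 ≤ c ∧ ∀ (x : E4) (r : ℝ), 0 < r →
    volume (closedBall x r) ≤ ENNReal.ofReal (c * r ^ 4) := by
  refine ⟨(volume (ball (0 : E4) 1)).toReal, ENNReal.toReal_nonneg, fun x r hr => ?_⟩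
  rw [Measure.addHaar_closedBall _ _ hr.le, finrank_euclideanSpace_fin, mul_comm,
    ENNReal.ofReal_mul ENNReal.toReal_nonneg, ENNReal.ofReal_toReal measure_ball_lt_top.ne]

theorem a8b_sq {X : Type*} [MeasurableSpace X] (f : X → ℝ) (μ : Measure X) :
    eLpNorm f 2 μ ^ 2 = ∫⁻ z, ‖f z‖ₑ ^ 2 ∂μ := by
  have := eLpNorm_nnreal_pow_eq_lintegral (f := f) (μ := μ) (p := 2) two_ne_zero
  simpa using this

theorem a8b_mem {X : Type*} [MeasurableSpace X] {f : X → ℝ} {μ : Measure X} (hf : AEStronglyMeasurable f μ)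
    {B : ℝ} (hB : 0 ≤ B) (h : ∫⁻ z, ‖f z‖ₑ ^ 2 ∂μ ≤ ENNReal.ofReal (B ^ 2)) : MemLp f 2 μ ∧ lpNorm f 2 μ ≤ B := by
  rw [← a8b_sq, ENNReal.ofReal_pow hB, ENNReal.pow_le_pow_left_iff two_ne_zero] at h
  exact ⟨⟨hf, h.trans_lt ENNReal.ofReal_lt_top⟩, toReal_eLpNorm hf ▸ ENNReal.toReal_le_of_le_ofReal hB h⟩

theorem a8b_set {X : Type*} [PseudoMetricSpace X] [SecondCountableTopology X] [MeasurableSpace X] [BorelSpace X]
    (r : ℝ) : MeasurableSet {p : X × X | dist p.2 p.1 ≤ r} :=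
  (isClosed_le (by fun_prop) continuous_const).measurableSet

/-- `∫ (ϖ (B(y, r)))² dν = ∬ ν (B(x, r) ∩ B(x', r)) ≤ c r⁴ (ϖ ⊗ ϖ) {dist ≤ 2r}` (Tonelli). -/
theorem lpNorm_ball_le {X : Type*} [PseudoMetricSpace X] [SecondCountableTopology X] [MeasurableSpace X]
    [BorelSpace X] {ν : Measure X} [SFinite ν] {c r : ℝ} (hc : 0 ≤ c) (hr : 0 < r)
    (hν : ∀ x, ν (closedBall x r) ≤ ENNReal.ofReal (c * r ^ 4)) (ϖ : Measure X) [IsFiniteMeasure ϖ] :
    MemLp (fun y => ϖ.real (closedBall y r)) 2 ν ∧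
      lpNorm (fun y => ϖ.real (closedBall y r)) 2 ν ≤ Real.sqrt c * r ^ 2 * Real.sqrt (mm ϖ ϖ (2 * r)) := by
  refine a8b_mem (measurable_measure_prodMk_left (ν := ϖ) (a8b_set r)).ennreal_toReal.aestronglyMeasurable
    (by positivity) ?_
  have hS : MeasurableSet {q : X × X × X | dist q.2.1 q.1 ≤ r ∧ dist q.2.2 q.1 ≤ r} :=
    IsClosed.measurableSet ((isClosed_le (by fun_prop) continuous_const).and
      (isClosed_le (by fun_prop) continuous_const))
  have hT : MeasurableSet {p : X × X | dist p.1 p.2 ≤ 2 * r} :=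
    (isClosed_le (by fun_prop) continuous_const).measurableSet
  calc _ = ν.prod (ϖ.prod ϖ) {q : X × X × X | dist q.2.1 q.1 ≤ r ∧ dist q.2.2 q.1 ≤ r} := by
        rw [Measure.prod_apply hS]
        refine lintegral_congr fun y => ?_
        rw [Real.enorm_of_nonneg ENNReal.toReal_nonneg, ENNReal.ofReal_toReal (measure_ne_top _ _), sq,
          ← Measure.prod_prod]
        rfl
    _ ≤ ∫⁻ p, {p : X × X | dist p.1 p.2 ≤ 2 * r}.indicator (fun _ => ENNReal.ofReal (c * r ^ 4)) p ∂ϖ.prod ϖ := by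
        rw [Measure.prod_apply_symm hS]
        refine lintegral_mono fun p => ?_
        by_cases h : p ∈ {p : X × X | dist p.1 p.2 ≤ 2 * r}
        · rw [indicator_of_mem h]
          exact (measure_mono fun y hy => mem_closedBall'.2 hy.1).trans (hν p.1)
        · refine (measure_mono_null (fun y hy => h ?_) measure_empty).trans_le zero_le
          exact (dist_triangle_right _ _ y).trans (by linarith [hy.1, hy.2])
    _ = _ := by
        have h0 : 0 ≤ mm ϖ ϖ (2 * r) := measureReal_nonneg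
        rw [lintegral_indicator_const hT, mul_pow, mul_pow, Real.sq_sqrt hc, Real.sq_sqrt h0, ← pow_mul,
          ENNReal.ofReal_mul (by positivity) (q := mm _ _ _), mm, ofReal_measureReal]

/-- Schur test (Cauchy-Schwarz in the ball, Tonelli). -/
theorem lpNorm_avg_le {X : Type*} [PseudoMetricSpace X] [SecondCountableTopology X] [MeasurableSpace X]
    [BorelSpace X] {ν : Measure X} [SFinite ν] {c r : ℝ} (hc : 0 ≤ c) (hr : 0 < r)
    (hν : ∀ x, ν (closedBall x r) ≤ ENNReal.ofReal (c * r ^ 4)) {f : X → ℝ} (hf : MemLp f 2 ν) :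
    MemLp (fun y => ∫ x in closedBall y r, |f x| ∂ν) 2 ν ∧
      lpNorm (fun y => ∫ x in closedBall y r, |f x| ∂ν) 2 ν ≤ c * r ^ 4 * lpNorm f 2 ν := by
  obtain ⟨g, hg, hfg⟩ := hf.1
  have e : (fun y => ∫ x in closedBall y r, |f x| ∂ν) =
      fun y => ∫ x, {p : X × X | dist p.2 p.1 ≤ r}.indicator (fun p => ‖g p.2‖) (y, x) ∂ν := by
    funext y
    rw [← integral_indicator measurableSet_closedBall]
    refine integral_congr_ae (hfg.mono fun x hx => ?_)
    simp only [indicator, hx, mem_closedBall, mem_ofPred_eq, Real.norm_eq_abs]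
  refine a8b_mem ?_ (mul_nonneg (by positivity) lpNorm_nonneg) ?_
  · rw [e]
    exact (((hg.comp_measurable measurable_snd).norm.indicator (a8b_set r)).integral_prod_right'
      (ν := ν)).aestronglyMeasurable
  have hm : Measurable ({p : X × X | dist p.2 p.1 ≤ r}.indicator fun p => ‖g p.2‖ₑ ^ 2) :=
    ((hg.measurable.comp measurable_snd).enorm.pow_const 2).indicator (a8b_set r)
  calc _ ≤ ∫⁻ y, (∫⁻ x, {p : X × X | dist p.2 p.1 ≤ r}.indicator (fun p => ‖g p.2‖ₑ ^ 2) (y, x) ∂ν) *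
        ENNReal.ofReal (c * r ^ 4) ∂ν := by
        refine lintegral_mono fun y => ?_
        have h1 := eLpNorm_le_eLpNorm_mul_rpow_measure_univ (μ := ν.restrict (closedBall y r)) one_le_two
          hf.1.restrict
        have h2 : ‖∫ x in closedBall y r, |f x| ∂ν‖ₑ ≤ eLpNorm f 1 (ν.restrict (closedBall y r)) := by
          rw [eLpNorm_one_eq_lintegral_enorm]
          exact (enorm_integral_le_lintegral_enorm _).trans_eq (by simp)
        refine (pow_le_pow_left' (h2.trans h1) 2).trans ?_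
        rw [mul_pow, a8b_sq, ← ENNReal.rpow_natCast, ← ENNReal.rpow_mul, Measure.restrict_apply_univ,
          ← lintegral_indicator measurableSet_closedBall]
        refine mul_le_mul' (lintegral_congr_ae (hfg.mono fun x hx => ?_)).le ?_
        · simp only [indicator, hx, mem_closedBall, mem_ofPred_eq]
        · norm_num
          exact hν y
    _ ≤ (∫⁻ x, ‖g x‖ₑ ^ 2 * ENNReal.ofReal (c * r ^ 4) ∂ν) * ENNReal.ofReal (c * r ^ 4) := by
        rw [lintegral_mul_const' _ _ ENNReal.ofReal_ne_top, ← lintegral_prod _ hm.aemeasurable,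
          lintegral_prod_symm _ hm.aemeasurable]
        refine mul_le_mul_left (lintegral_mono fun x => ?_) _
        refine le_trans (le_of_eq ?_) (mul_le_mul_right (hν x) _)
        rw [← lintegral_indicator_const measurableSet_closedBall]
        simp only [indicator, mem_closedBall', mem_ofPred_eq]
    _ = _ := by
        rw [lintegral_mul_const' _ _ ENNReal.ofReal_ne_top, ← a8b_sq, ← eLpNorm_congr_ae hfg, ← ofReal_lpNorm hf,
          ← ENNReal.ofReal_pow lpNorm_nonneg, ← ENNReal.ofReal_mul (by positivity),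
          ← ENNReal.ofReal_mul (by positivity)]
        congr 1
        ring

theorem a8c_swap {X : Type*} [PseudoMetricSpace X] [SecondCountableTopology X] [MeasurableSpace X]
    [BorelSpace X] (ν μ : Measure X) [IsFiniteMeasure ν] [IsFiniteMeasure μ] (r : ℝ) :
    Measurable (fun y => μ.real (closedBall y r)) ∧
      ∫ y, μ.real (closedBall y r) ∂ν = ∫ x, ν.real (closedBall x r) ∂μ := by
  have hS : MeasurableSet {p : X × X | dist p.2 p.1 ≤ r} :=
    (isClosed_le (continuous_snd.dist continuous_fst) continuous_const).measurableSet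
  refine ⟨(measurable_measure_prodMk_left (ν := μ) hS).ennreal_toReal, ?_⟩
  have hi : Integrable (Function.uncurry fun y x => ({p : X × X | dist p.2 p.1 ≤ r}).indicator
      (fun _ => (1 : ℝ)) (y, x)) (ν.prod μ) := (integrable_const (1 : ℝ)).indicator hS
  have h := integral_integral_swap hi
  have e1 : ∀ y, ∫ x, ({p : X × X | dist p.2 p.1 ≤ r}).indicator (fun _ => (1 : ℝ)) (y, x) ∂μ =
      μ.real (closedBall y r) := fun y => by
    rw [← integral_indicator_one measurableSet_closedBall]; rfl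
  have e2 : ∀ x, ∫ y, ({p : X × X | dist p.2 p.1 ≤ r}).indicator (fun _ => (1 : ℝ)) (y, x) ∂ν =
      ν.real (closedBall x r) := fun x => by
    rw [← integral_indicator_one measurableSet_closedBall]
    refine integral_congr_ae (Eventually.of_forall fun y => ?_)
    simp only [indicator, mem_ofPred_eq, mem_closedBall, dist_comm x y, Pi.one_apply]
  simpa only [e1, e2] using h

/-- The cross term lemma.  `g_r y = r⁻³ μ (B(y, C₀ r))` satisfies `g_r ≤ C / r`, `∫ g_r dν ≤ C r` (Tonelli), so `∫ g_r² ≤ C`;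
split `τ = min τ L + (τ - L)₊`. -/
theorem cross_tendsto {X : Type*} [PseudoMetricSpace X] [SecondCountableTopology X] [MeasurableSpace X]
    [BorelSpace X] {ν μ : Measure X} [IsFiniteMeasure ν] [IsFiniteMeasure μ] {c C₀ : ℝ} (hc : 0 ≤ c) (hC : 0 < C₀)
    (hν : ∀ x r, 0 < r → ν (closedBall x r) ≤ ENNReal.ofReal (c * r ^ 4))
    (hμ : ∀ x r, 0 < r → μ.real (closedBall x r) ≤ c * r ^ 2) {τ : X → ℝ} (h0 : ∀ x, 0 ≤ τ x)
    (hτ : MemLp τ 2 ν) :
    Tendsto (fun r => ∫ y, τ y * ((r ^ 3)⁻¹ * μ.real (closedBall y (C₀ * r))) ∂ν) (𝓝[>] 0) (𝓝 0) := by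
  set g : ℝ → X → ℝ := fun r y => (r ^ 3)⁻¹ * μ.real (closedBall y (C₀ * r)) with hg
  set A : ℝ := c * C₀ ^ 4 * μ.real univ with hA
  have hA0 : 0 ≤ A := by positivity
  have g0 : ∀ r, 0 < r → ∀ y, 0 ≤ g r y := fun r hr y => by positivity
  have g1 : ∀ r, 0 < r → ∀ y, g r y ≤ c * C₀ ^ 2 / r := fun r hr y => by
    refine (mul_le_mul_of_nonneg_left (hμ y _ (by positivity)) (by positivity)).trans_eq ?_
    field_simp
  have gi : ∀ r, 0 < r → Integrable (g r) ν := fun r hr =>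
    (integrable_const (c * C₀ ^ 2 / r)).mono'
      ((a8c_swap ν μ _).1.const_mul _).aestronglyMeasurable
      (Eventually.of_forall fun y => by rw [Real.norm_of_nonneg (g0 r hr y)]; exact g1 r hr y)
  have g2 : ∀ r, 0 < r → ∫ y, g r y ∂ν ≤ A * r := fun r hr => by
    simp only [hg]
    rw [integral_const_mul, (a8c_swap ν μ _).2]
    have h1 : ∫ x, ν.real (closedBall x (C₀ * r)) ∂μ ≤ ∫ _x, c * (C₀ * r) ^ 4 ∂μ :=
      integral_mono_of_nonneg (Eventually.of_forall fun x => measureReal_nonneg) (integrable_const _)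
        (Eventually.of_forall fun x =>
          ENNReal.toReal_le_of_le_ofReal (by positivity) (hν x _ (by positivity)))
    rw [integral_const, smul_eq_mul] at h1
    refine (mul_le_mul_of_nonneg_left h1 (by positivity)).trans_eq ?_
    rw [hA]; field_simp
  have hτ2 : Integrable (fun y => τ y ^ 2) ν := hτ.integrable_sq
  have hm : ∀ L : ℝ, AEStronglyMeasurable (fun y => max (τ y - L) 0 ^ 2) ν := fun L =>
    ((hτ.1.aemeasurable.sub_const L).max aemeasurable_const).pow_const 2 |>.aestronglyMeasurable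
  have hb : ∀ (L : ℕ) y, ‖max (τ y - L) 0 ^ 2‖ ≤ τ y ^ 2 := fun L y => by
    rw [Real.norm_of_nonneg (sq_nonneg _)]
    exact pow_le_pow_left₀ (le_max_right _ _) (max_le (by simp) (h0 y)) 2
  have hlim : Tendsto (fun L : ℕ => ∫ y, max (τ y - L) 0 ^ 2 ∂ν) atTop (𝓝 (∫ _y, (0 : ℝ) ∂ν)) := by
    refine tendsto_integral_of_dominated_convergence _ (fun L => hm L) hτ2
      (fun L => Eventually.of_forall (hb L)) (Eventually.of_forall fun y => ?_)
    refine tendsto_const_nhds.congr' ?_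
    filter_upwards [tendsto_natCast_atTop_atTop.eventually_ge_atTop (τ y)] with L hL
    rw [max_eq_right (by linarith)]; simp
  rw [integral_zero] at hlim
  refine tendsto_order.2 ⟨fun a ha => ?_, fun ε hε => ?_⟩
  · filter_upwards [self_mem_nhdsWithin] with r hr
    exact ha.trans_le (integral_nonneg fun y => mul_nonneg (h0 y) (g0 r hr y))
  set D : ℝ := c * C₀ ^ 2 * A with hD
  have hD0 : 0 ≤ D := by positivity
  set θ : ℝ := ε / 3 / (D + 1) with hθ
  have θ0 : 0 < θ := by positivity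
  have θ1 : θ * D ≤ ε / 3 := by
    have : θ * (D + 1) = ε / 3 := by rw [hθ]; field_simp
    nlinarith
  obtain ⟨L, hL⟩ := (hlim.eventually_lt_const (show 0 < θ * (ε / 3) by positivity)).exists
  have ht : Tendsto (fun r : ℝ => L * (A * r)) (𝓝[>] 0) (𝓝 (L * (A * 0))) :=
    ((continuous_const.mul (continuous_const.mul continuous_id)).tendsto 0).mono_left nhdsWithin_le_nhds
  filter_upwards [self_mem_nhdsWithin, ht.eventually_lt_const (show L * (A * 0) < ε / 3 by simpa)]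
    with r hr h3
  have hr : 0 < r := hr
  have hi2 : Integrable (fun y => max (τ y - L) 0 ^ 2) ν :=
    hτ2.mono' (hm L) (Eventually.of_forall (hb L))
  have h4 : ∫ y, τ y * g r y ∂ν ≤
      ∫ y, ((L + θ * (c * C₀ ^ 2 / r)) * g r y + θ⁻¹ * max (τ y - L) 0 ^ 2) ∂ν := by
    refine integral_mono_of_nonneg (Eventually.of_forall fun y => mul_nonneg (h0 y) (g0 r hr y))
      (((gi r hr).const_mul _).add (hi2.const_mul _)) (Eventually.of_forall fun y => ?_)
    have a0 := g0 r hr y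
    have a1 := mul_le_mul_of_nonneg_left (mul_le_mul_of_nonneg_right (g1 r hr y) a0) θ0.le
    have a2 := mul_le_mul_of_nonneg_right (le_max_left (τ y - L) 0) a0
    have a3 := mul_nonneg (le_max_right (τ y - L) 0) a0
    have a4 : 0 ≤ θ⁻¹ * (θ * g r y - max (τ y - L) 0) ^ 2 := by positivity
    have a5 : θ⁻¹ * (θ * g r y - max (τ y - L) 0) ^ 2 = θ * (g r y * g r y) -
        2 * (max (τ y - L) 0 * g r y) + θ⁻¹ * max (τ y - L) 0 ^ 2 := by field_simp; ring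
    simp only
    nlinarith
  rw [integral_add ((gi r hr).const_mul _) (hi2.const_mul _), integral_const_mul,
    integral_const_mul θ⁻¹] at h4
  have h5 := mul_le_mul_of_nonneg_left (g2 r hr)
    (show 0 ≤ L + θ * (c * C₀ ^ 2 / r) by positivity)
  have e5 : (L + θ * (c * C₀ ^ 2 / r)) * (A * r) = L * (A * r) + θ * D := by
    rw [hD]; field_simp
  have h6 : θ⁻¹ * ∫ y, max (τ y - L) 0 ^ 2 ∂ν < ε / 3 := by
    rw [inv_mul_lt_iff₀ θ0]; exact hL
  change ∫ y, τ y * g r y ∂ν < ε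
  linarith

theorem mm_mono {X : Type*} [PseudoMetricSpace X] [MeasurableSpace X] (μ ν : Measure X) [IsFiniteMeasure μ]
    [IsFiniteMeasure ν] : Monotone (mm μ ν) ∧ ∀ r, 0 ≤ mm μ ν r ∧ mm μ ν r ≤ μ.real univ * ν.real univ := by
  refine ⟨fun r s h => measureReal_mono fun p hp => le_trans hp h, fun r => ⟨measureReal_nonneg, ?_⟩⟩
  rw [← measureReal_prod_prod, univ_prod_univ]
  exact measureReal_mono (subset_univ _)

theorem mm_eq {X : Type*} [PseudoMetricSpace X] [SecondCountableTopology X] [MeasurableSpace X] [BorelSpace X]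
    (μ ν : Measure X) [IsFiniteMeasure μ] [IsFiniteMeasure ν] (r : ℝ) :
    Measurable (fun x => ν.real (closedBall x r)) ∧ Integrable (fun x => ν.real (closedBall x r)) μ ∧
      mm μ ν r = ∫ x, ν.real (closedBall x r) ∂μ ∧ mm μ ν r = mm ν μ r := by
  have h1 : Measurable fun x => ν (closedBall x r) := measurable_measure_prodMk_left (ν := ν) (a8b_set r)
  have e : {p : X × X | dist p.1 p.2 ≤ r} = {p : X × X | dist p.2 p.1 ≤ r} := by simp only [dist_comm]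
  refine ⟨h1.ennreal_toReal, .of_bound h1.ennreal_toReal.aestronglyMeasurable (ν.real univ)
    (ae_of_all _ fun x => ?_), ?_, ?_⟩
  · rw [Real.norm_of_nonneg measureReal_nonneg]
    exact measureReal_mono (subset_univ _)
  · rw [mm, e, Measure.real, Measure.prod_apply (a8b_set r)]
    exact (integral_toReal h1.aemeasurable (ae_of_all _ fun x => measure_lt_top _ _)).symm
  · rw [mm, mm, ← Measure.prod_swap, map_measureReal_apply measurable_swap (e ▸ a8b_set r)]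
    exact congrArg _ e.symm

/-- `KO k δ u = KM k δ (volume.restrict (closedBall 0 ρ)) p u` with `p` the identity on the ball; `KM_hs`, `lpNorm_avg_le`. -/
theorem KO_hs_scale (n : ℕ) {C₀ : ℝ} (hC : 0 ≤ C₀) {k : KF (G₁ →L[ℝ] G₂)} (h : Bd k) (hs' : Sup C₀ k) :
    ∃ C : ℝ, 0 ≤ C ∧ ∀ᶠ δ in 𝓝[>] (0 : ℝ), ∀ (u : E4 → G₁) (ρ : ℝ), 0 ≤ ρ → ρ ≤ 2 → Tst ρ u →
      Tst (ρ + C₀ * δ) (KO k δ u) ∧ hs n δ (KO k δ u) ≤ C * lpNorm u 2 volume := by
  obtain ⟨C, hC0, hK⟩ := KM_hs n hC h hs' E4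
  obtain ⟨c, hc, hv⟩ := vol_ball_E4
  refine ⟨C * (c * (C₀ + 1) ^ 4), by positivity, ?_⟩
  filter_upwards [hK, self_mem_nhdsWithin] with δ hδ δ0 u ρ ρ0 ρ2 hu
  have δ0 : 0 < δ := δ0
  obtain ⟨B, hB⟩ := hu.1.continuous.bounded_above_of_compact_support hu.hcs
  have : IsFiniteMeasure (volume.restrict (closedBall (0 : E4) ρ)) :=
    isFiniteMeasure_restrict.2 measure_closedBall_lt_top.ne
  set p : E4 → E4 := (closedBall (0 : E4) ρ).indicator id with hp
  have p1 : ∀ ξ ∈ closedBall (0 : E4) ρ, p ξ = ξ := fun ξ hξ => indicator_of_mem hξ _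
  have pm : Measurable p := measurable_id.indicator measurableSet_closedBall
  obtain ⟨k1, k2⟩ := hδ (volume.restrict (closedBall (0 : E4) ρ)) p u ρ B ρ2 pm
    hu.1.continuous.aestronglyMeasurable fun ξ => ⟨by
      by_cases hξ : ξ ∈ closedBall (0 : E4) ρ
      · rw [p1 ξ hξ]; exact mem_closedBall_zero_iff.1 hξ
      · rw [hp, indicator_of_notMem hξ, norm_zero]; exact ρ0, hB ξ⟩
  have e : KM k δ (volume.restrict (closedBall (0 : E4) ρ)) p u = KO k δ u := by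
    funext y
    refine Eq.trans (setIntegral_congr_fun measurableSet_closedBall fun ξ hξ => ?_)
      (setIntegral_eq_integral_of_forall_compl_eq_zero (s := closedBall (0 : E4) ρ)
        fun x hx => by rw [hu.2 x (by simpa using hx), map_zero, smul_zero])
    simp only [p1 ξ hξ]
  rw [e] at k1 k2
  refine ⟨k1, k2.trans ?_⟩
  have hr : 0 < (C₀ + 1) * δ := by positivity
  obtain ⟨a1, a2⟩ := lpNorm_avg_le hc hr (fun x => hv x _ hr) (hu.memLp 2).norm
  rw [lpNorm_norm hu.1.continuous.aestronglyMeasurable] at a2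
  have a3 := lpNorm_mono_real (f := fun y => ∫ ξ in {ξ | ‖p ξ - y‖ ≤ C₀ * δ}, ‖u ξ‖
      ∂volume.restrict (closedBall (0 : E4) ρ)) a1 fun y => by
    rw [Real.norm_of_nonneg (integral_nonneg fun _ => norm_nonneg _), Measure.restrict_restrict
      (measurableSet_le (pm.sub_const y).norm measurable_const)]
    simp only [abs_norm]
    refine setIntegral_mono_set hu.integrable.norm.integrableOn
      (Eventually.of_forall fun _ => norm_nonneg _) (LE.le.eventuallyLE fun ξ hξ => ?_)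
    have h1 : ‖p ξ - y‖ ≤ C₀ * δ := hξ.1
    rw [p1 ξ hξ.2] at h1
    rw [mem_closedBall, dist_eq_norm]; linarith
  refine (mul_le_mul_of_nonneg_left (a3.trans a2) (by positivity)).trans_eq ?_
  field_simp

theorem a8d_at {K : E4 × E4 → G} {r : ℝ} (hr : r < 1) (hK : ContDiffOn ℝ ∞ K (V ×ˢ V))
    (h0 : ∀ p : E4 × E4, ‖p.1‖ < 5 / 2 → r < ‖p.1 - p.2‖ → K p = 0) {p : E4 × E4} (hp : ‖p.1‖ ≤ 2) :
    ContDiffAt ℝ ∞ K p := by
  by_cases h : ‖p.2‖ < 3
  · refine hK.contDiffAt ((isOpen_ball.prod isOpen_ball).mem_nhds ⟨?_, ?_⟩)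
    · exact mem_ball_zero_iff.2 (by linarith)
    · exact mem_ball_zero_iff.2 h
  · have h1 : r < ‖p.1 - p.2‖ := by
      have := norm_sub_norm_le p.2 p.1
      rw [norm_sub_rev] at this
      linarith
    refine (contDiffAt_const (c := (0 : G))).congr_of_eventuallyEq ?_
    filter_upwards [(isOpen_lt (f := fun q : E4 × E4 => ‖q.1‖) (by fun_prop) continuous_const).mem_nhds
      (show ‖p.1‖ < 5 / 2 by linarith),
      (isOpen_lt (g := fun q : E4 × E4 => ‖q.1 - q.2‖) continuous_const (by fun_prop)).mem_nhds h1] with q a b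
    exact h0 q a b

theorem a8d_zero {Φ : E4 × E4 → G} (h0 : ∀ p : E4 × E4, 2 < ‖p.1‖ → Φ p = 0) {p : E4 × E4} (hp : 2 < ‖p.1‖) :
    Φ =ᶠ[𝓝 p] fun _ => 0 := by
  filter_upwards [(isOpen_lt (g := fun q : E4 × E4 => ‖q.1‖) continuous_const (by fun_prop)).mem_nhds hp] with q a
  exact h0 q a

theorem a8d_sm {K : E4 × E4 → G₁ →L[ℝ] G₂} {r : ℝ} (hr : r < 1) (hK : ContDiffOn ℝ ∞ K (V ×ˢ V))
    (h0 : ∀ p : E4 × E4, ‖p.1‖ < 5 / 2 → r < ‖p.1 - p.2‖ → K p = 0) {u : E4 → G₁} (hu : Tst 2 u) (c : ℝ) :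
    ContDiff ℝ ∞ (fun p : E4 × E4 => c • K p (u p.1)) ∧ HasCompactSupport fun p : E4 × E4 => c • K p (u p.1) := by
  refine ⟨contDiff_iff_contDiffAt.2 fun p => ?_,
    HasCompactSupport.intro (isCompact_closedBall (0 : E4 × E4) 3) fun p hp => ?_⟩
  · by_cases hp : ‖p.1‖ ≤ 2
    · exact ((a8d_at hr hK h0 hp).clm_apply (hu.1.comp contDiff_fst).contDiffAt).const_smul c
    · exact contDiffAt_const.congr_of_eventuallyEq
        (a8d_zero (fun q hq => by simp [hu.2 _ hq]) (not_le.1 hp))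
  · by_cases h1 : ‖p.1‖ ≤ 2
    · rw [mem_closedBall_zero_iff, Prod.norm_def, max_le_iff, not_and_or] at hp
      have := norm_sub_norm_le p.2 p.1
      rw [norm_sub_rev] at this
      rcases hp with hp | hp
      · linarith
      · simp [h0 p (by linarith) (by linarith)]
    · simp [hu.2 _ (not_le.1 h1)]

theorem a8d_slice {Φ : E4 × E4 → G} (hΦ : Continuous Φ) (hc : HasCompactSupport Φ) (y : E4) :
    Integrable fun x => Φ (x, y) :=
  (hΦ.comp (by fun_prop)).integrable_of_hasCompactSupport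
    (hc.comp_isClosedEmbedding (Topology.IsClosedEmbedding.of_continuous_injective_isClosedMap (by fun_prop)
      (fun a b h => (Prod.ext_iff.1 h).1) (isClosedMap_prodMk_right y)))

theorem a8d_pd {Φ : E4 × E4 → G} (hΦ : ContDiff ℝ ∞ Φ) (hc : HasCompactSupport Φ)
    (h0 : ∀ p : E4 × E4, 2 < ‖p.1‖ → Φ p = 0) (μ : Fin 4) (y : E4) :
    pd μ (fun y => ∫ x, Φ (x, y)) y = ∫ x, fderiv ℝ Φ (x, y) (ee μ, ee μ) := by
  have hd : Continuous (fderiv ℝ Φ) := hΦ.continuous_fderiv (by simp)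
  obtain ⟨C, hC⟩ := hd.bounded_above_of_compact_support (hc.fderiv ℝ)
  have hi : ∀ v, Integrable fun x => fderiv ℝ Φ (x, y) v := fun v =>
    a8d_slice (Φ := fun p => fderiv ℝ Φ p v) (hd.clm_apply continuous_const) (hc.fderiv_apply ℝ v) y
  have hi' : Integrable fun x => (fderiv ℝ Φ (x, y)).comp (ContinuousLinearMap.inr ℝ E4 E4) :=
    a8d_slice (Φ := fun p => (fderiv ℝ Φ p).comp (ContinuousLinearMap.inr ℝ E4 E4))
      (hd.clm_comp continuous_const) ((hc.fderiv ℝ).mono fun p hp h => hp (by simp [h])) y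
  have h1 := hasFDerivAt_integral_of_dominated_of_fderiv_le (𝕜 := ℝ) (μ := volume) (s := univ) (x₀ := y)
    (F := fun y x => Φ (x, y)) (F' := fun y x => (fderiv ℝ Φ (x, y)).comp (ContinuousLinearMap.inr ℝ E4 E4))
    (bound := (closedBall (0 : E4) 2).indicator fun _ => C) univ_mem
    (Eventually.of_forall fun y => (a8d_slice hΦ.continuous hc y).aestronglyMeasurable)
    (a8d_slice hΦ.continuous hc y) hi'.aestronglyMeasurable (Eventually.of_forall fun x y _ => ?_)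
    ((integrable_indicator_iff measurableSet_closedBall).2
      (integrableOn_const measure_closedBall_lt_top.ne)) (Eventually.of_forall fun x y _ =>
        (hΦ.differentiable (by simp) (x, y)).hasFDerivAt.comp y (hasFDerivAt_prodMk_right x y))
  · have h2 : Tst 2 fun x => Φ (x, y) := ⟨hΦ.comp (by fun_prop), fun z hz => h0 _ hz⟩
    have h3 := h2.integral_fderiv (ee μ)
    have h4 : ∀ x, fderiv ℝ (fun x => Φ (x, y)) x (ee μ) = fderiv ℝ Φ (x, y) (ee μ, 0) := fun x => by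
      have := (HasFDerivAt.comp (f := fun e => (e, y)) x (hΦ.differentiable (by simp) (x, y)).hasFDerivAt
        (hasFDerivAt_prodMk_left x y)).fderiv
      exact congrArg (fun L : E4 →L[ℝ] G => L (ee μ)) this
    simp only [h4] at h3
    have h5 : ∀ x, fderiv ℝ Φ (x, y) (ee μ, ee μ) =
        fderiv ℝ Φ (x, y) (ee μ, 0) + fderiv ℝ Φ (x, y) (0, ee μ) := fun x => by
      rw [← map_add]; simp
    simp only [h5]
    rw [integral_add (hi _) (hi _), h3, zero_add, pd, h1.fderiv, ContinuousLinearMap.integral_apply hi']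
    rfl
  · by_cases hx : x ∈ closedBall (0 : E4) 2
    · rw [indicator_of_mem hx]
      refine (ContinuousLinearMap.opNorm_comp_le _ _).trans ?_
      exact (mul_le_of_le_one_right (norm_nonneg _) (ContinuousLinearMap.norm_inr_le_one ℝ E4 E4)).trans (hC _)
    · rw [indicator_of_notMem hx, (a8d_zero h0 (p := (x, y)) (by simpa using hx)).fderiv_eq]
      simp

theorem a8d_small {C₀ : ℝ} : ∀ᶠ δ in 𝓝[>] (0 : ℝ), C₀ * δ < 1 := by
  have : Tendsto (fun δ : ℝ => C₀ * δ) (𝓝 0) (𝓝 (C₀ * 0)) := tendsto_id.const_mul C₀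
  rw [mul_zero] at this
  exact (this.mono_left nhdsWithin_le_nhds).eventually_lt_const one_pos

/-- `KO k δ u y = ∫ v, δ⁻⁴ k δ (y + v, y) (u (y + v))`, so `pd μ (KO k δ u) = KO (dD μ k) δ u + KO k δ (pd μ u)`. -/
theorem pd_KO {C₀ : ℝ} (hC : 0 ≤ C₀) {k : KF (G₁ →L[ℝ] G₂)} (h : Bd k) (hs' : Sup C₀ k) :
    ∀ᶠ δ in 𝓝[>] (0 : ℝ), ∀ u : E4 → G₁, Tst 2 u → ∀ μ,
      pd μ (KO k δ u) = KO (dD μ k) δ u + KO k δ (pd μ u) := by
  filter_upwards [h.1, hs', eventually_all.2 fun μ => (h.dD' μ).1, eventually_all.2 fun μ => hs'.dD' μ,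
    a8d_small (C₀ := C₀)] with δ h1 h2 h3 h4 h5 u hu μ
  obtain ⟨a1, a2⟩ := a8d_sm h5 h1 h2 hu (δ ^ 4)⁻¹
  obtain ⟨b1, b2⟩ := a8d_sm h5 (h3 μ) (h4 μ) hu (δ ^ 4)⁻¹
  obtain ⟨c1, c2⟩ := a8d_sm h5 h1 h2 (hu.pd' μ) (δ ^ 4)⁻¹
  have h0 : ∀ p : E4 × E4, 2 < ‖p.1‖ → (δ ^ 4)⁻¹ • k δ p (u p.1) = 0 := fun p hp => by simp [hu.2 _ hp]
  funext y
  refine (a8d_pd a1 a2 h0 μ y).trans ?_
  rw [Pi.add_apply, KO, KO, ← integral_add (a8d_slice b1.continuous b2 y) (a8d_slice c1.continuous c2 y)]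
  congr 1
  funext x
  by_cases hx : ‖x‖ ≤ 2
  · have d1 := ((a8d_at h5 h1 h2 (p := (x, y)) hx).differentiableAt (by simp)).hasFDerivAt
    have d2 := HasFDerivAt.comp (f := Prod.fst) (x, y) ((hu.1.differentiable (by simp)) x).hasFDerivAt
      (hasFDerivAt_fst (p := (x, y)))
    have d3 : HasFDerivAt (fun p : E4 × E4 => (δ ^ 4)⁻¹ • k δ p (u p.1)) _ (x, y) :=
      (d1.clm_apply d2).const_smul (δ ^ 4)⁻¹
    rw [d3.fderiv]
    simp [dD, pd, add_comm]
  · rw [(a8d_zero h0 (p := (x, y)) (not_le.1 hx)).fderiv_eq]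
    simp [hu.2 _ (not_le.1 hx), (hu.pd' μ).2 _ (not_le.1 hx)]

theorem KO_hs (n : ℕ) {C₀ : ℝ} (hC : 0 ≤ C₀) {k : KF (G₁ →L[ℝ] G₂)} (h : Bd k) (hs' : Sup C₀ k) :
    ∃ C : ℝ, 0 ≤ C ∧ ∀ᶠ δ in 𝓝[>] (0 : ℝ), ∀ u : E4 → G₁, Tst 2 u → hs n 1 (KO k δ u) ≤ C * hs n 1 u := by
  induction n generalizing k with
  | zero =>
    obtain ⟨C, hC0, h1⟩ := KO_hs_scale 0 hC h hs'
    exact ⟨C, hC0, h1.mono fun δ h2 u hu => (h2 u 2 (by norm_num) le_rfl hu).2⟩
  | succ n ih =>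
    obtain ⟨C, hC0, h1⟩ := KO_hs_scale 0 hC h hs'
    obtain ⟨C', hC0', h2⟩ := ih h hs'
    choose D hD0 h3 using fun μ => ih (h.dD' μ) (hs'.dD' μ)
    choose D' hD0' h4 using fun μ => KO_hs_scale 0 hC (h.dD' μ) (hs'.dD' μ)
    have hD : 0 ≤ ∑ μ, D μ := Finset.sum_nonneg fun μ _ => hD0 μ
    refine ⟨C + C' + ∑ μ, D μ, by positivity, ?_⟩
    filter_upwards [h1, h2, eventually_all.2 h3, eventually_all.2 h4, pd_KO hC h hs'] with δ a1 a2 a3 a4 a5 u hu
    have b1 : lpNorm (KO k δ u) 2 volume ≤ C * lpNorm u 2 volume := (a1 u 2 (by norm_num) le_rfl hu).2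
    have b2 : ∑ μ, hs n 1 (pd μ (KO k δ u)) ≤ ∑ μ, (D μ * hs n 1 u + C' * hs n 1 (pd μ u)) :=
      Finset.sum_le_sum fun μ _ => by
        rw [a5 u hu μ]
        exact (hs_add_le n zero_le_one (a4 μ u 2 (by norm_num) le_rfl hu).1
          (a1 _ 2 (by norm_num) le_rfl (hu.pd' μ)).1).trans (add_le_add (a3 μ u hu) (a2 _ (hu.pd' μ)))
    rw [Finset.sum_add_distrib, ← Finset.sum_mul, ← Finset.mul_sum] at b2
    have b3 := mul_le_mul_of_nonneg_left (hs_mono (Nat.le_succ n) zero_le_one u) hD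
    have b4 : 0 ≤ ∑ μ, hs n 1 (pd μ u) := Finset.sum_nonneg fun μ _ => hs_nonneg n zero_le_one _
    have b5 : 0 ≤ lpNorm u 2 volume := hs_nonneg 0 zero_le_one u
    simp only [hs, one_mul] at b3 ⊢
    nlinarith [mul_nonneg hC0 b4, mul_nonneg hC0' b5]

/-- The operator `u ↦ ∫ k (x, y) (u x - u y) dx`, cut off outside `ball 0 (9/4)`. -/
def KD (k : KF (G₁ →L[ℝ] G₂)) (δ : ℝ) (u : E4 → G₁) (y : E4) : G₂ :=
  if ‖y‖ < 9 / 4 then ∫ x, (δ ^ 4)⁻¹ • k δ (x, y) (u x - u y) else 0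

theorem a8e_eq (k : KF (G₁ →L[ℝ] G₂)) (δ : ℝ) (u : E4 → G₁) : KD k δ u = a8eD (δ ^ 4)⁻¹ (k δ) u := by
  funext y
  rw [KD, a8eD, ← integral_add_left_eq_self _ y]
  rfl

/-- For `‖y‖ < 9/4` the integrand may be non-zero also for `‖x‖ ≥ 5/2`, hence the extra hypothesis `hs2`.
`n = 0`: `‖u (y + v) - u y‖ ≤ ‖v‖ ∫₀¹ ‖Du (y + t v)‖`, Cauchy-Schwarz, Tonelli, translation invariance;
step: `pd μ (KD k δ u) = KD (dD μ k) δ u + KD k δ (pd μ u)`. -/
theorem KD_hs (n : ℕ) {C₀ : ℝ} (hC : 0 ≤ C₀) {k : KF (G₁ →L[ℝ] G₂)} (h : Bd k) (hs' : Sup C₀ k)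
    (hs2 : ∀ᶠ δ in 𝓝[>] (0 : ℝ), ∀ p : E4 × E4, ‖p.2‖ < 5 / 2 → C₀ * δ < ‖p.1 - p.2‖ → k δ p = 0) :
    ∃ C : ℝ, 0 ≤ C ∧ ∀ᶠ δ in 𝓝[>] (0 : ℝ), ∀ u : E4 → G₁, Tst 2 u →
      Tst (2 + C₀ * δ) (KD k δ u) ∧ hs n 1 (KD k δ u) ≤ C * δ * hs (n + 1) 1 u := by
  clear hs'
  have hr : ∀ᶠ δ in 𝓝[>] (0 : ℝ), 0 < δ ∧ C₀ * δ ≤ 1 / 10 := by
    have : Tendsto (fun δ : ℝ => C₀ * δ) (𝓝[>] 0) (𝓝 (C₀ * 0)) :=
      ((continuous_const.mul continuous_id).tendsto 0).mono_left nhdsWithin_le_nhds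
    exact Eventually.and self_mem_nhdsWithin (this.eventually_le_const (by simp))
  have base : ∀ {k : KF (G₁ →L[ℝ] G₂)}, Bd k → (∀ᶠ δ in 𝓝[>] (0 : ℝ), ∀ p : E4 × E4, ‖p.2‖ < 5 / 2 →
      C₀ * δ < ‖p.1 - p.2‖ → k δ p = 0) → ∃ C : ℝ, 0 ≤ C ∧ ∀ᶠ δ in 𝓝[>] (0 : ℝ), ∀ u : E4 → G₁, Tst 2 u →
      Tst (2 + C₀ * δ) (KD k δ u) ∧ (∀ μ, pd μ (KD k δ u) = KD (dD μ k) δ u + KD k δ (pd μ u)) ∧
        lpNorm (KD k δ u) 2 volume ≤ C * δ * hs 1 1 u := fun {k} h hs2 => by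
    obtain ⟨C, hB⟩ := h.bd0 C₀
    refine ⟨|C| * C₀ ^ 5 * volume.real (ball (0 : E4) 1), by positivity, ?_⟩
    filter_upwards [hr, h.1, hs2, hB] with δ hδ h1 h2 h3 u hu
    have hK := a8e_K hδ.2 h1 h2
    have h0 : 0 ≤ C₀ * δ := mul_nonneg hC hδ.1.le
    simp only [a8e_eq]
    refine ⟨(a8e_pd hδ.2 hK _ h0 hu).1, (a8e_pd hδ.2 hK _ h0 hu).2, (a8e_base hδ.2 h0 hK (by positivity)
      (abs_nonneg C) (fun p a b c => (h3 p a b c).trans (le_abs_self C)) hu).trans_eq ?_⟩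
    have := hδ.1.ne'
    field_simp
  induction n generalizing k with
  | zero =>
    obtain ⟨C, h0, h1⟩ := base h hs2
    exact ⟨C, h0, h1.mono fun δ hδ u hu => ⟨(hδ u hu).1, (hδ u hu).2.2⟩⟩
  | succ n ih =>
    obtain ⟨C₁, c1, h1⟩ := base h hs2
    obtain ⟨C₂, c2, h2⟩ := ih h hs2
    choose D hD h3 using fun μ => ih (h.dD' μ) (hs2.mono fun δ hδ => a8e_z hδ (ee μ, ee μ))
    have hS : 0 ≤ ∑ μ, D μ := Finset.sum_nonneg fun μ _ => hD μ
    refine ⟨C₁ + C₂ + ∑ μ, D μ, by positivity, ?_⟩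
    filter_upwards [hr, h1, h2, eventually_all.2 h3] with δ hδ h1 h2 h3 u hu
    refine ⟨(h1 u hu).1, ?_⟩
    have h4 : ∀ μ ∈ Finset.univ, hs n 1 (pd μ (KD k δ u)) ≤
        D μ * δ * hs (n + 1) 1 u + C₂ * δ * hs (n + 1) 1 (pd μ u) := fun μ _ => by
      rw [(h1 u hu).2.1]
      exact (hs_add_le n zero_le_one (h3 μ u hu).1 (h2 _ (hu.pd' μ)).1).trans
        (add_le_add (h3 μ u hu).2 (h2 _ (hu.pd' μ)).2)
    have h5 := Finset.sum_le_sum h4
    rw [Finset.sum_add_distrib, ← Finset.sum_mul, ← Finset.sum_mul, ← Finset.mul_sum] at h5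
    have h6 := mul_le_mul_of_nonneg_left (hs_mono (by omega : 1 ≤ n + 1 + 1) zero_le_one u) (mul_nonneg c1 hδ.1.le)
    have h7 := mul_le_mul_of_nonneg_left (hs_mono (n + 1).le_succ zero_le_one u) (mul_nonneg hS hδ.1.le)
    have h8 : ∑ μ, hs (n + 1) 1 (pd μ u) ≤ hs (n + 1 + 1) 1 u := by
      rw [hs, one_mul]
      exact le_add_of_nonneg_left lpNorm_nonneg
    have h9 := mul_le_mul_of_nonneg_left h8 (mul_nonneg c2 hδ.1.le)
    rw [hs, one_mul]
    linarith [(h1 u hu).2.2]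

end Crest.Agent.R240
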