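import Crest.Agent.R240.Defs

/-! Block B1: Hermitian linear algebra. -/

set_option autoImplicit false
set_option maxSynthPendingDepth 3
set_option linter.unusedSectionVars false
set_option linter.unusedVariables false
open MeasureTheory Filter Set Metric
open scoped ENNReal NNReal Topology ContDiff InnerProductSpace InnerProduct

noncomputable section
namespace Crest.Agent.R240

variable {F G : Type*} [NormedAddCommGroup F] [InnerProductSpace ℝ F] [FiniteDimensional ℝ F]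
  [NormedAddCommGroup G] [NormedSpace ℝ G] [FiniteDimensional ℝ G]

namespace Cx
variable (X : Cx F)

theorem _root_.Crest.Agent.R240.J0_apply (v : E4) :
    J0 v 0 = -v 1 ∧ J0 v 1 = v 0 ∧ J0 v 2 = -v 3 ∧ J0 v 3 = v 2 := by
  simp [J0, ee]

theorem _root_.Crest.Agent.R240.J0_J0 (v : E4) : J0 (J0 v) = -v := by
  obtain ⟨h0, h1, h2, h3⟩ := J0_apply v
  obtain ⟨k0, k1, k2, k3⟩ := J0_apply (J0 v)
  ext i
  fin_cases i
  · simpa [h1] using k0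
  · simpa [h0] using k1
  · simpa [h3] using k2
  · simpa [h2] using k3

theorem _root_.Crest.Agent.R240.inner_J0 (u v : E4) : ⟪J0 u, J0 v⟫_ℝ = ⟪u, v⟫_ℝ := by
  obtain ⟨h0, h1, h2, h3⟩ := J0_apply v
  obtain ⟨k0, k1, k2, k3⟩ := J0_apply u
  simp only [PiLp.inner_apply, Fin.sum_univ_four, h0, h1, h2, h3, k0, k1, k2, k3, RCLike.inner_apply, conj_trivial]
  ring

/-- The standard structure. -/
def _root_.Crest.Agent.R240.cx0 : Cx E4 := ⟨J0, J0_J0, inner_J0⟩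

theorem inner_J_left (u v : F) : ⟪X.J u, v⟫_ℝ = -⟪u, X.J v⟫_ℝ := by
  rw [← X.inner_J u (X.J v), X.JJ, inner_neg_right, neg_neg]

theorem norm_J (u : F) : ‖X.J u‖ = ‖u‖ := by
  rw [norm_eq_sqrt_real_inner, X.inner_J, ← norm_eq_sqrt_real_inner]

theorem om_skew (u v : F) : X.om u v = -X.om v u := by
  rw [om_apply, om_apply, X.inner_J_left, real_inner_comm]

theorem abs_om_le (u v : F) : |X.om u v| ≤ ‖u‖ * ‖v‖ := by
  rw [om_apply, ← X.norm_J u]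
  exact abs_real_inner_le_norm _ _

theorem W_swap12 (u v c d : F) : X.W v u c d = -X.W u v c d := by
  simp only [W, X.om_skew v u]
  ring

theorem W_swap23 (u v c d : F) : X.W u c v d = -X.W u v c d := by
  simp only [W, X.om_skew c v]
  ring

theorem W_swap34 (u v c d : F) : X.W u v d c = -X.W u v c d := by
  simp only [W, X.om_skew d c]
  ring

theorem W_comm (u v c d : F) : X.W c d u v = X.W u v c d := by
  simp only [W, X.om_skew c u, X.om_skew d v, X.om_skew c v, X.om_skew d u]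
  ring

theorem abs_W_le (u v c d : F) : |X.W u v c d| ≤ 3 * (‖u‖ * ‖v‖ * ‖c‖ * ‖d‖) := by
  have e : ∀ a b a' b' : F, |X.om a b * X.om a' b'| ≤ ‖a‖ * ‖b‖ * (‖a'‖ * ‖b'‖) := fun a b a' b' => by
    rw [abs_mul]
    exact mul_le_mul (X.abs_om_le _ _) (X.abs_om_le _ _) (abs_nonneg _) (by positivity)
  have h1 := abs_le.1 (e u v c d)
  have h2 := abs_le.1 (e u c v d)
  have h3 := abs_le.1 (e u d v c)
  rw [W, abs_le]
  constructor <;> linarith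

theorem W_line (b b' : F) : X.W b (X.J b) b' (X.J b') = X.gam b b' := by
  simp only [W, gam, om_apply, X.inner_J, X.JJ, inner_neg_left, X.inner_J_left b b', real_inner_self_eq_norm_sq]
  ring

theorem b1a_perp (u b : F) :
    ‖(‖b‖ ^ 2) • u - ⟪u, b⟫_ℝ • b - ⟪u, X.J b⟫_ℝ • X.J b‖ ^ 2 = ‖b‖ ^ 2 * X.gam u b := by
  have h0 : ⟪b, X.J b⟫_ℝ = 0 := by
    have h := X.inner_J_left b b
    rw [real_inner_comm] at h
    linarith
  rw [norm_sub_sq_real, norm_sub_sq_real, gam]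
  simp only [inner_sub_left, real_inner_smul_left, real_inner_smul_right, norm_smul, mul_pow, Real.norm_eq_abs,
    sq_abs, X.norm_J, h0]
  ring

/-- Bessel's inequality for the orthogonal pair `b, J b`. -/
theorem gam_nonneg (u b : F) : 0 ≤ X.gam u b := by
  rcases eq_or_ne b 0 with rfl | hb
  · simp [gam]
  have h := sq_nonneg ‖(‖b‖ ^ 2) • u - ⟪u, b⟫_ℝ • b - ⟪u, X.J b⟫_ℝ • X.J b‖
  rw [X.b1a_perp] at h
  exact nonneg_of_mul_nonneg_right h (by positivity)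

theorem gam_comm (u b : F) : X.gam u b = X.gam b u := by
  rw [gam, gam, real_inner_comm u b, real_inner_comm (X.J u) b, X.inner_J_left]
  ring

theorem ang_sq (u b : F) : X.ang u b ^ 2 = X.gam u b := by
  exact Real.sq_sqrt (X.gam_nonneg u b)

theorem ang_nonneg (u b : F) : 0 ≤ X.ang u b := Real.sqrt_nonneg _

theorem ang_comm (u b : F) : X.ang u b = X.ang b u := by
  rw [ang, ang, X.gam_comm]

theorem ang_J (u b : F) : X.ang (X.J u) b = X.ang u b := by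
  rw [ang, ang, gam, gam, X.norm_J, X.inner_J, X.inner_J_left]
  congr 1
  ring

theorem ang_le (u b : F) : X.ang u b ≤ ‖u‖ * ‖b‖ := by
  refine Real.sqrt_le_iff.2 ⟨by positivity, ?_⟩
  rw [gam, mul_pow]
  linarith [sq_nonneg ⟪u, b⟫_ℝ, sq_nonneg ⟪u, X.J b⟫_ℝ]

/-- `‖b‖ · ang u b = ‖ ‖b‖² u - ⟪u,b⟫ b - ⟪u,Jb⟫ Jb ‖`. -/
theorem norm_perp (u b : F) :
    ‖(‖b‖ ^ 2) • u - ⟪u, b⟫_ℝ • b - ⟪u, X.J b⟫_ℝ • X.J b‖ = ‖b‖ * X.ang u b := by
  refine (pow_left_inj₀ (norm_nonneg _) (mul_nonneg (norm_nonneg _) (X.ang_nonneg _ _)) two_ne_zero).1 ?_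
  rw [X.b1a_perp, mul_pow, X.ang_sq]

theorem ang_le_add (u u' b : F) : X.ang u b ≤ X.ang u' b + ‖u - u'‖ * ‖b‖ := by
  rcases eq_or_ne b 0 with rfl | hb
  · simp [ang, gam]
  have hb' : 0 < ‖b‖ := norm_pos_iff.2 hb
  have h := norm_add_le ((‖b‖ ^ 2) • u' - ⟪u', b⟫_ℝ • b - ⟪u', X.J b⟫_ℝ • X.J b)
    ((‖b‖ ^ 2) • (u - u') - ⟪u - u', b⟫_ℝ • b - ⟪u - u', X.J b⟫_ℝ • X.J b)
  have e : (‖b‖ ^ 2) • u' - ⟪u', b⟫_ℝ • b - ⟪u', X.J b⟫_ℝ • X.J b +
      ((‖b‖ ^ 2) • (u - u') - ⟪u - u', b⟫_ℝ • b - ⟪u - u', X.J b⟫_ℝ • X.J b) =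
      (‖b‖ ^ 2) • u - ⟪u, b⟫_ℝ • b - ⟪u, X.J b⟫_ℝ • X.J b := by
    simp only [inner_sub_left]
    module
  rw [e, X.norm_perp, X.norm_perp, X.norm_perp, ← mul_add] at h
  linarith [le_of_mul_le_mul_left h hb', X.ang_le (u - u') b]

theorem continuous_gam : Continuous fun p : F × F => X.gam p.1 p.2 := by
  unfold gam
  have := X.J.continuous
  fun_prop

theorem Xi_apply (z u b b' : F) :
    X.Xi z u b b' = ⟪z, u⟫_ℝ * X.om b b' - ⟪z, b⟫_ℝ * X.om u b' + ⟪z, b'⟫_ℝ * X.om u b := by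
  simp only [Xi, sub_apply, smul_apply, wd_apply, innerSL_apply_apply,
    smul_eq_mul]
  ring

theorem abs_Xi_le (z u b b' : F) : |X.Xi z u b b'| ≤ 3 * (‖z‖ * ‖u‖ * ‖b‖ * ‖b'‖) := by
  have e : ∀ a c a' c' : F, |⟪a, c⟫_ℝ * X.om a' c'| ≤ ‖a‖ * ‖c‖ * (‖a'‖ * ‖c'‖) := fun a c a' c' => by
    rw [abs_mul]
    exact mul_le_mul (abs_real_inner_le_norm _ _) (X.abs_om_le _ _) (abs_nonneg _) (by positivity)
  have h1 := abs_le.1 (e z u b b')
  have h2 := abs_le.1 (e z b u b')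
  have h3 := abs_le.1 (e z b' u b)
  rw [X.Xi_apply, abs_le]
  constructor <;> linarith

theorem b1b_self (b : F) : ⟪b, X.J b⟫_ℝ = 0 := by
  have := X.inner_J_left b b
  rw [real_inner_comm] at this
  linarith

theorem b1b_line (z u b : F) :
    X.Xi z u b (X.J b) = ⟪z, u⟫_ℝ * ‖b‖ ^ 2 - ⟪z, b⟫_ℝ * ⟪u, b⟫_ℝ - ⟪z, X.J b⟫_ℝ * ⟪u, X.J b⟫_ℝ := by
  rw [Xi_apply, om_apply, om_apply, om_apply, X.inner_J, X.inner_J, X.inner_J_left, real_inner_self_eq_norm_sq]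
  ring

theorem Xi_self (z b e : F) : |X.Xi z z b (X.J b + e) - X.gam z b| ≤ 3 * (‖z‖ ^ 2 * ‖b‖ * ‖e‖) := by
  have h : X.Xi z z b (X.J b + e) - X.gam z b = X.Xi z z b e := by
    rw [map_add, b1b_line, gam, real_inner_self_eq_norm_sq]
    ring
  rw [h, sq]
  exact X.abs_Xi_le z z b e

theorem b1b_dec {b : F} (hb : 0 < ‖b‖) (z : F) : ∃ (α β : ℝ) (p : F), z = α • b + β • X.J b + p ∧
    ⟪p, b⟫_ℝ = 0 ∧ ⟪p, X.J b⟫_ℝ = 0 ∧ ‖p‖ * ‖b‖ = X.ang z b := by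
  have h0 := X.b1b_self b
  have h0' : ⟪X.J b, b⟫_ℝ = 0 := by rw [real_inner_comm, h0]
  refine ⟨⟪z, b⟫_ℝ / ‖b‖ ^ 2, ⟪z, X.J b⟫_ℝ / ‖b‖ ^ 2,
    z - (⟪z, b⟫_ℝ / ‖b‖ ^ 2) • b - (⟪z, X.J b⟫_ℝ / ‖b‖ ^ 2) • X.J b, by abel, ?_, ?_, ?_⟩
  · simp only [inner_sub_left, real_inner_smul_left, h0', real_inner_self_eq_norm_sq]
    field_simp
    ring
  · simp only [inner_sub_left, real_inner_smul_left, h0, real_inner_self_eq_norm_sq, X.norm_J]
    field_simp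
    ring
  · have h1 := X.norm_perp z b
    have e : (‖b‖ ^ 2) • z - ⟪z, b⟫_ℝ • b - ⟪z, X.J b⟫_ℝ • X.J b =
        (‖b‖ ^ 2) • (z - (⟪z, b⟫_ℝ / ‖b‖ ^ 2) • b - (⟪z, X.J b⟫_ℝ / ‖b‖ ^ 2) • X.J b) := by
      simp only [smul_sub, smul_smul, mul_div_cancel₀ _ (pow_pos hb 2).ne']
    rw [e, norm_smul, Real.norm_of_nonneg (sq_nonneg _)] at h1
    refine mul_left_cancel₀ hb.ne' ?_
    rw [← h1]
    ring

/-- Split `z` and `u` into their components along `b, J b` and orthogonal to them (`norm_perp`).  `Xi z u b (J b) = ‖b‖² ⟪z^⊥, u^⊥⟫`;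
`Xi z u b e = 0` when both `z` and `u` are combinations of `b, J b`. -/
theorem Xi_bound {z u b e : F} (h1 : 1 / 2 ≤ ‖b‖) (h2 : ‖b‖ ≤ 2) :
    |X.Xi z u b (X.J b + e)| ≤
      100 * (X.ang z b * X.ang u b + ‖e‖ * (X.ang z b * ‖u‖ + ‖z‖ * X.ang u b)) := by
  have hb : 0 < ‖b‖ := by linarith
  obtain ⟨α, β, p, hz, p1, p2, p3⟩ := X.b1b_dec hb z
  obtain ⟨γ, δ, q, hu, q1, q2, q3⟩ := X.b1b_dec hb u
  have h0 := X.b1b_self b
  have h0' : ⟪X.J b, b⟫_ℝ = 0 := by rw [real_inner_comm, h0]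
  have q1' : ⟪b, q⟫_ℝ = 0 := by rw [real_inner_comm, q1]
  have q2' : ⟪X.J b, q⟫_ℝ = 0 := by rw [real_inner_comm, q2]
  have e1 : X.Xi z u b (X.J b) = ⟪p, q⟫_ℝ * ‖b‖ ^ 2 := by
    rw [b1b_line, hz, hu]
    simp only [inner_add_left, inner_add_right, real_inner_smul_left, real_inner_smul_right, h0, h0', p1, p2,
      q1, q2, q1', q2', real_inner_self_eq_norm_sq, X.norm_J]
    ring
  have e2 : X.Xi z u b e = X.Xi p u b e + X.Xi z q b e - X.Xi p q b e := by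
    simp only [Xi_apply, om_apply]
    rw [hz, hu]
    simp only [map_add, map_smul, X.JJ, inner_add_left, inner_add_right, real_inner_smul_left,
      real_inner_smul_right, inner_neg_left, h0, h0', p1, p2, q1, q2, q1', q2', real_inner_self_eq_norm_sq,
      X.norm_J]
    ring
  have a1 : |⟪p, q⟫_ℝ * ‖b‖ ^ 2| ≤ X.ang z b * X.ang u b := by
    rw [abs_mul, abs_sq, ← p3, ← q3]
    nlinarith [mul_le_mul_of_nonneg_right (abs_real_inner_le_norm p q) (sq_nonneg ‖b‖)]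
  have a2 : |X.Xi p u b e| ≤ 3 * (‖e‖ * (X.ang z b * ‖u‖)) := by
    rw [← p3]; exact (X.abs_Xi_le p u b e).trans_eq (by ring)
  have a3 : |X.Xi z q b e| ≤ 3 * (‖e‖ * (‖z‖ * X.ang u b)) := by
    rw [← q3]; exact (X.abs_Xi_le z q b e).trans_eq (by ring)
  have a4 : |X.Xi p q b e| ≤ 3 * (‖e‖ * (X.ang z b * ‖u‖)) := by
    have h3 : ‖q‖ * ‖b‖ ≤ ‖u‖ * ‖b‖ := q3 ▸ X.ang_le u b
    have h4 := mul_le_mul_of_nonneg_left h3 (mul_nonneg (norm_nonneg p) (norm_nonneg e))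
    rw [← p3]
    linarith [X.abs_Xi_le p q b e]
  have n1 := mul_nonneg (X.ang_nonneg z b) (X.ang_nonneg u b)
  have n2 := mul_nonneg (norm_nonneg e) (mul_nonneg (X.ang_nonneg z b) (norm_nonneg u))
  have n3 := mul_nonneg (norm_nonneg e) (mul_nonneg (norm_nonneg z) (X.ang_nonneg u b))
  rw [map_add, e1, e2, abs_le]
  rw [abs_le] at a1 a2 a3 a4
  constructor <;> nlinarith [a1.1, a1.2, a2.1, a2.2, a3.1, a3.2, a4.1, a4.2]

theorem b1b_norm (u v : F) : ‖X.stW u v‖ ≤ 3 * (‖u‖ * ‖v‖) := by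
  refine ContinuousLinearMap.opNorm_le_bound₂ _ (by positivity) fun c d => ?_
  rw [stW_apply]
  exact (X.abs_W_le u v c d).trans_eq (by ring)

theorem b1b_skew (u v : F) : X.stW v u = -X.stW u v := by
  ext c d
  simp only [stW_apply, ContinuousLinearMap.neg_apply]
  exact X.W_swap12 u v c d

theorem b1b_zero (u : F) : X.stW u u = 0 := by
  ext c d
  have := X.W_swap12 u u c d
  simp only [stW_apply, ContinuousLinearMap.zero_apply]
  linarith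

/-- `b' = α b + β J b + p`, `stW (α b + β J b) (J (..)) = (α² + β²) stW b (J b)`, `‖p‖ = ang / ‖b‖`. -/
theorem stW_line_sub {b b' : F} (h1 : 1 / 2 ≤ ‖b‖) (h2 : ‖b‖ ≤ 2) (h3 : ‖b'‖ ≤ 2) :
    ‖X.stW b (X.J b) - X.stW b' (X.J b')‖ ≤ 100 * (X.ang b b' + |‖b‖ ^ 2 - ‖b'‖ ^ 2|) := by
  have hb : 0 < ‖b‖ := by linarith
  obtain ⟨α, β, p, hz, p1, p2, p3⟩ := X.b1b_dec hb b'
  have h0 := X.b1b_self b
  have h0' : ⟪X.J b, b⟫_ℝ = 0 := by rw [real_inner_comm, h0]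
  have p1' : ⟪b, p⟫_ℝ = 0 := by rw [real_inner_comm, p1]
  have p2' : ⟪X.J b, p⟫_ℝ = 0 := by rw [real_inner_comm, p2]
  have e0 : ‖b'‖ ^ 2 = (α ^ 2 + β ^ 2) * ‖b‖ ^ 2 + ‖p‖ ^ 2 := by
    rw [← real_inner_self_eq_norm_sq b', hz]
    simp only [inner_add_left, inner_add_right, real_inner_smul_left, real_inner_smul_right, h0, h0', p1, p2,
      p1', p2', real_inner_self_eq_norm_sq, X.norm_J, norm_smul, mul_pow, Real.norm_eq_abs, sq_abs]
    ring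
  have e1 : X.stW b (X.J b) - X.stW b' (X.J b') =
      (1 - (α ^ 2 + β ^ 2)) • X.stW b (X.J b) - X.stW p (X.J b') - X.stW (b' - p) (X.J p) := by
    have e2 : b' - p = α • b + β • X.J b := by rw [hz]; abel
    have e3 : X.stW (b' - p) (X.J (b' - p)) = (α ^ 2 + β ^ 2) • X.stW b (X.J b) := by
      rw [e2]
      simp only [map_add, map_smul, X.JJ, map_neg, ContinuousLinearMap.add_apply, ContinuousLinearMap.smul_apply,
        X.b1b_zero, X.b1b_skew b (X.J b)]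
      module
    rw [sub_smul, ← e3]
    simp only [map_sub, ContinuousLinearMap.sub_apply]
    module
  have hp0 := norm_nonneg p
  have hp1 : ‖p‖ ≤ 2 := by nlinarith [mul_nonneg (add_nonneg (sq_nonneg α) (sq_nonneg β)) (sq_nonneg ‖b‖), norm_nonneg b']
  have hp2 : ‖p‖ ≤ 2 * X.ang b b' := by
    rw [X.ang_comm, ← p3]; nlinarith
  have a1 : ‖(1 - (α ^ 2 + β ^ 2)) • X.stW b (X.J b)‖ ≤ 3 * (|‖b‖ ^ 2 - ‖b'‖ ^ 2| + ‖p‖ ^ 2) := by
    have h4 := X.b1b_norm b (X.J b)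
    rw [X.norm_J] at h4
    have h5 : |1 - (α ^ 2 + β ^ 2)| * ‖b‖ ^ 2 ≤ |‖b‖ ^ 2 - ‖b'‖ ^ 2| + ‖p‖ ^ 2 := by
      rw [← abs_sq ‖b‖, ← abs_mul, abs_sq ‖b‖,
        show (1 - (α ^ 2 + β ^ 2)) * ‖b‖ ^ 2 = ‖b‖ ^ 2 - ‖b'‖ ^ 2 + ‖p‖ ^ 2 by rw [e0]; ring]
      exact (abs_add_le _ _).trans_eq (by rw [abs_sq])
    rw [norm_smul, Real.norm_eq_abs]
    nlinarith [mul_le_mul_of_nonneg_left h4 (abs_nonneg (1 - (α ^ 2 + β ^ 2)))]
  have a2 : ‖X.stW p (X.J b')‖ ≤ 6 * ‖p‖ := by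
    have h4 := X.b1b_norm p (X.J b')
    rw [X.norm_J] at h4
    nlinarith
  have a3 : ‖X.stW (b' - p) (X.J p)‖ ≤ 12 * ‖p‖ := by
    have h4 := X.b1b_norm (b' - p) (X.J p)
    rw [X.norm_J] at h4
    nlinarith [norm_sub_le b' p]
  rw [e1]
  refine (norm_sub_le _ _).trans ((add_le_add (norm_sub_le _ _) le_rfl).trans ?_)
  nlinarith [abs_nonneg (‖b‖ ^ 2 - ‖b'‖ ^ 2)]

namespace Fr
variable {X} {P : F →L[ℝ] F} {L : E4 →L[ℝ] F} (h : X.Fr P L)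
include h

theorem adj_L (a : E4) : (L†) (L a) = a := by
  refine ext_inner_right ℝ fun b => ?_
  rw [ContinuousLinearMap.adjoint_inner_left, h.iso]

theorem P_L (a : E4) : P (L a) = L a := by
  rw [h.proj, ContinuousLinearMap.comp_apply, h.adj_L]

theorem P_eq (v : F) : P v = L ((L†) v) := by
  rw [h.proj, ContinuousLinearMap.comp_apply]

theorem P_P (v : F) : P (P v) = P v := by
  rw [h.P_eq v, h.P_L]

theorem inner_P (u v : F) : ⟪P u, v⟫_ℝ = ⟪u, P v⟫_ℝ := by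
  rw [h.P_eq, h.P_eq, ← ContinuousLinearMap.adjoint_inner_right L, ← ContinuousLinearMap.adjoint_inner_left L]

theorem P_J (v : F) : P (X.J v) = X.J (P v) := by
  have e : (L†) (X.J v) = J0 ((L†) v) := by
    refine ext_inner_right ℝ fun b => ?_
    rw [ContinuousLinearMap.adjoint_inner_left, X.inner_J_left, ← h.comm,
      ← ContinuousLinearMap.adjoint_inner_left]
    exact (cx0.inner_J_left _ _).symm
  rw [h.P_eq, h.P_eq, e, h.comm]

theorem adj_J (v : F) : (L†) (X.J v) = J0 ((L†) v) := by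
  rw [← h.adj_L (J0 _), h.comm, ← h.P_eq, ← h.P_J, h.P_eq, h.adj_L]

theorem norm_P_le (v : F) : ‖P v‖ ≤ ‖v‖ := by
  have h1 : ‖P v‖ * ‖P v‖ ≤ ‖v‖ * ‖P v‖ := by
    rw [← real_inner_self_eq_norm_mul_norm, h.inner_P, h.P_P]
    exact real_inner_le_norm _ _
  rcases (norm_nonneg (P v)).eq_or_lt with h0 | h0
  · exact h0 ▸ norm_nonneg v
  · exact le_of_mul_le_mul_right h1 h0

theorem norm_L (a : E4) : ‖L a‖ = ‖a‖ := by
  rw [norm_eq_sqrt_real_inner, h.iso, ← norm_eq_sqrt_real_inner]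

theorem om_L (a b : E4) : X.om (L a) (L b) = cx0.om a b := by
  rw [om_apply, om_apply, ← h.comm, h.iso]
  rfl

theorem W_L (a b c d : E4) : X.W (L a) (L b) (L c) (L d) = cx0.W a b c d := by
  simp only [W, h.om_L]

/-- Only the tangential part of a vector matters when the other three are tangential. -/
theorem W_P (u b c d : F) (hb : P b = b) (hc : P c = c) (hd : P d = d) : X.W (P u) b c d = X.W u b c d := by
  have e : ∀ v, P v = v → X.om (P u) v = X.om u v := fun v hv => by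
    rw [om_apply, om_apply, ← h.P_J, h.inner_P, hv]
  simp only [W, e b hb, e c hc, e d hd]

/-- Cramer's rule in dimension four: pull back by `L`, coordinates, `ring`. -/
theorem cramer (s : F) {u₁ u₂ u₃ u₄ u₅ : F} (h₁ : P u₁ = u₁) (h₂ : P u₂ = u₂) (h₃ : P u₃ = u₃)
    (h₄ : P u₄ = u₄) (h₅ : P u₅ = u₅) :
    ⟪s, u₁⟫_ℝ * X.W u₂ u₃ u₄ u₅ - ⟪s, u₂⟫_ℝ * X.W u₁ u₃ u₄ u₅ + ⟪s, u₃⟫_ℝ * X.W u₁ u₂ u₄ u₅ -
      ⟪s, u₄⟫_ℝ * X.W u₁ u₂ u₃ u₅ + ⟪s, u₅⟫_ℝ * X.W u₁ u₂ u₃ u₄ = 0 := by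
  rw [← h₁, ← h₂, ← h₃, ← h₄, ← h₅]
  simp only [h.P_eq, h.W_L, ← ContinuousLinearMap.adjoint_inner_left L]
  generalize (L†) s = t, (L†) u₁ = a₁, (L†) u₂ = a₂, (L†) u₃ = a₃, (L†) u₄ = a₄, (L†) u₅ = a₅
  have e : ∀ a b : E4, cx0.om a b = a 0 * b 1 - a 1 * b 0 + a 2 * b 3 - a 3 * b 2 := fun a b => by
    obtain ⟨h0, h1, h2, h3⟩ := J0_apply a
    change ⟪J0 a, b⟫_ℝ = _
    simp only [PiLp.inner_apply, Fin.sum_univ_four, h0, h1, h2, h3, RCLike.inner_apply, conj_trivial]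
    ring
  simp only [W, e, PiLp.inner_apply, Fin.sum_univ_four, RCLike.inner_apply, conj_trivial]
  ring

end Fr

end Cx
end Crest.Agent.R240
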