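import Crest.Agent.R240.B1

/-! Block B2: projections on forms, pairings, smoothness of the algebraic operations. -/

set_option autoImplicit false
set_option maxSynthPendingDepth 3
set_option linter.unusedSectionVars false
set_option linter.unusedVariables false
open MeasureTheory Filter Set Metric
open scoped ENNReal NNReal Topology ContDiff InnerProductSpace InnerProduct

noncomputable section
namespace Crest.Agent.R240

variable {F G : Type*} [NormedAddCommGroup F] [InnerProductSpace ℝ F] [FiniteDimensional ℝ F]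
  [NormedAddCommGroup G] [NormedSpace ℝ G] [FiniteDimensional ℝ G]

namespace Cx
variable (X : Cx F)

theorem _root_.Crest.Agent.R240.sum_eF (v : F) : ∑ i, ⟪eF i, v⟫_ℝ • eF i = v := by
  exact (stdOrthonormalBasis ℝ F).sum_repr' v

theorem _root_.Crest.Agent.R240.piT_apply (P : F →L[ℝ] F) (b : Bil F) (u v : F) :
    piT P b u v = 1 / 2 * (b (P u) (P v) - b (P v) (P u)) := by
  simp [piT]

theorem piM_apply (P : F →L[ℝ] F) (b : Bil F) (u v : F) :
    X.piM P b u v = 1 / 2 * (piT P b u v - piT P b (X.J u) (X.J v)) := by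
  simp [piM]

theorem piP_add_piM (P : F →L[ℝ] F) (b : Bil F) : X.piP P b + X.piM P b = piT P b := by
  simp [piP]

theorem _root_.Crest.Agent.R240.ipG_apply (θ : F →L[ℝ] F →L[ℝ] G) (η : Bil F) :
    ipG θ η = (1 / 2 : ℝ) • ∑ i, ∑ j, η (eF i) (eF j) • θ (eF i) (eF j) := by
  simp [ipG]

theorem wG_apply (θ : F →L[ℝ] F →L[ℝ] G) (η : Bil F) :
    X.wG θ η = X.trG η • X.trG θ - ipG θ (pb X.J η) := by
  simp [wG, trG]

theorem _root_.Crest.Agent.R240.ipG_comm (b b' : Bil F) : ipG b b' = ipG b' b := by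
  simp only [ipG_apply, smul_eq_mul]
  congr 1
  exact Finset.sum_congr rfl fun i _ => Finset.sum_congr rfl fun j _ => mul_comm _ _

theorem _root_.Crest.Agent.R240.b2a_exp (f : F →L[ℝ] ℝ) (v : F) :
    f v = ∑ i, ⟪eF i, v⟫_ℝ * f (eF i) := by
  conv_lhs => rw [← sum_eF v]
  simp only [map_sum, map_smul, smul_eq_mul]

theorem _root_.Crest.Agent.R240.b2a_move (f g : F →L[ℝ] ℝ) (A : F →L[ℝ] F) :
    ∑ i, f (eF i) * g (A (eF i)) = ∑ i, f ((A†) (eF i)) * g (eF i) := by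
  have h1 : ∀ i, f (eF i) * g (A (eF i)) = ∑ k, ⟪eF k, A (eF i)⟫_ℝ * f (eF i) * g (eF k) := by
    intro i
    rw [b2a_exp g, Finset.mul_sum]
    exact Finset.sum_congr rfl fun k _ => by ring
  have h2 : ∀ k, f ((A†) (eF k)) * g (eF k) =
      ∑ i, ⟪eF k, A (eF i)⟫_ℝ * f (eF i) * g (eF k) := by
    intro k
    rw [b2a_exp f, Finset.sum_mul]
    refine Finset.sum_congr rfl fun i _ => ?_
    rw [ContinuousLinearMap.adjoint_inner_right, real_inner_comm]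
  simp only [h1, h2]
  exact Finset.sum_comm

/-- Moving an operator from one slot of the orthonormal basis to its adjoint. -/
theorem _root_.Crest.Agent.R240.ipG_pb (θ : Bil F) (η : Bil F) (A : F →L[ℝ] F) :
    ipG (pb A θ) η = ipG θ (pb (A†) η) := by
  simp only [ipG_apply, smul_eq_mul, pb_apply]
  congr 1
  have h1 : ∀ i, ∑ j, η (eF i) (eF j) * θ (A (eF i)) (A (eF j)) =
      ∑ j, η (eF i) ((A†) (eF j)) * θ (A (eF i)) (eF j) := fun i => b2a_move _ _ A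
  simp only [h1]
  rw [Finset.sum_comm, Finset.sum_comm (f := fun i j =>
    η ((A†) (eF i)) ((A†) (eF j)) * θ (eF i) (eF j))]
  refine Finset.sum_congr rfl fun j _ => ?_
  exact b2a_move (η.flip ((A†) (eF j))) (θ.flip (eF j)) A

theorem b2a_adj_J (v : F) : (X.J†) v = -X.J v := by
  refine ext_inner_left ℝ fun u => ?_
  rw [ContinuousLinearMap.adjoint_inner_right, X.inner_J_left, inner_neg_right]

theorem wG_comm (b b' : Bil F) : X.wG b b' = X.wG b' b := by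
  have h : pb (X.J†) b' = pb X.J b' := by
    ext u v
    simp [b2a_adj_J]
  rw [wG_apply, wG_apply, ipG_comm b' (pb X.J b), ipG_pb, h, smul_eq_mul, smul_eq_mul, mul_comm]

theorem _root_.Crest.Agent.R240.b2a_sq (v : F) : ∑ i, ⟪eF i, v⟫_ℝ ^ 2 = ‖v‖ ^ 2 := by
  exact (stdOrthonormalBasis ℝ F).sum_sq_inner_right v

theorem _root_.Crest.Agent.R240.b2a_sq_le (f : F →L[ℝ] ℝ) (v : F) :
    f v ^ 2 ≤ ‖v‖ ^ 2 * ∑ i, f (eF i) ^ 2 := by
  rw [b2a_exp f v, ← b2a_sq v]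
  exact Finset.sum_mul_sq_le_sq_mul_sq _ _ _

theorem _root_.Crest.Agent.R240.norm_sq_le_ipG (b : Bil F) : ‖b‖ ^ 2 ≤ 2 * ipG b b := by
  have h0 : 2 * ipG b b = ∑ i, ∑ j, b (eF i) (eF j) ^ 2 := by
    simp only [ipG_apply, smul_eq_mul, sq]
    ring
  have hS : 0 ≤ ∑ i, ∑ j, b (eF i) (eF j) ^ 2 :=
    Finset.sum_nonneg fun i _ => Finset.sum_nonneg fun j _ => sq_nonneg _
  rw [h0, ← Real.le_sqrt (norm_nonneg _) hS]
  refine ContinuousLinearMap.opNorm_le_bound₂ _ (Real.sqrt_nonneg _) fun u v => ?_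
  rw [Real.norm_eq_abs]
  refine abs_le_of_sq_le_sq ?_ (by positivity)
  rw [mul_pow, mul_pow, Real.sq_sqrt hS]
  have h1 := b2a_sq_le (b.flip v) u
  have h2 : ∑ i, (b.flip v) (eF i) ^ 2 ≤ ‖v‖ ^ 2 * ∑ i, ∑ j, b (eF i) (eF j) ^ 2 := by
    rw [Finset.mul_sum]
    exact Finset.sum_le_sum fun i _ => b2a_sq_le (b (eF i)) v
  have h3 := mul_le_mul_of_nonneg_left h2 (sq_nonneg ‖u‖)
  have h4 : b.flip v u = b u v := rfl
  rw [h4] at h1
  nlinarith

theorem _root_.Crest.Agent.R240.b2a_norm_eF (i : Fin (Module.finrank ℝ F)) : ‖(eF i : F)‖ = 1 :=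
  (stdOrthonormalBasis ℝ F).orthonormal.1 i

theorem _root_.Crest.Agent.R240.b2a_ipG_le (θ : F →L[ℝ] F →L[ℝ] G) (η : Bil F) :
    ‖ipG θ η‖ ≤ 1 / 2 * (Module.finrank ℝ F : ℝ) ^ 2 * ‖θ‖ * ‖η‖ := by
  have h : ∀ i j, ‖η (eF i) (eF j) • θ (eF i) (eF j)‖ ≤ ‖θ‖ * ‖η‖ := by
    intro i j
    have h1 := η.le_opNorm₂ (eF i) (eF j)
    have h2 := θ.le_opNorm₂ (eF i) (eF j)
    rw [b2a_norm_eF, b2a_norm_eF, mul_one, mul_one] at h1 h2
    rw [norm_smul, mul_comm]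
    exact mul_le_mul h2 h1 (norm_nonneg _) (norm_nonneg _)
  have h3 : ‖∑ i, ∑ j, η (eF i) (eF j) • θ (eF i) (eF j)‖ ≤
      (Module.finrank ℝ F : ℝ) ^ 2 * (‖θ‖ * ‖η‖) := by
    refine (norm_sum_le _ _).trans ?_
    refine (Finset.sum_le_sum fun i _ => (norm_sum_le _ _).trans
      (Finset.sum_le_sum fun j _ => h i j)).trans ?_
    simp only [Finset.sum_const, Finset.card_univ, Fintype.card_fin, nsmul_eq_mul]
    exact le_of_eq (by ring)
  rw [ipG_apply, norm_smul, Real.norm_eq_abs, abs_of_pos (by norm_num : (0 : ℝ) < 1 / 2)]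
  linarith

theorem b2a_trG_le {H : Type*} [NormedAddCommGroup H] [NormedSpace ℝ H] (θ : F →L[ℝ] F →L[ℝ] H) :
    ‖X.trG θ‖ ≤ 1 / 2 * (Module.finrank ℝ F : ℝ) * ‖θ‖ := by
  have h : ∀ i, ‖θ (eF i) (X.J (eF i))‖ ≤ ‖θ‖ := by
    intro i
    have h2 := θ.le_opNorm₂ (eF i) (X.J (eF i))
    rwa [X.norm_J, b2a_norm_eF, mul_one, mul_one] at h2
  have h3 : ‖∑ i, θ (eF i) (X.J (eF i))‖ ≤ (Module.finrank ℝ F : ℝ) * ‖θ‖ := by
    refine (norm_sum_le _ _).trans ((Finset.sum_le_sum fun i _ => h i).trans ?_)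
    simp only [Finset.sum_const, Finset.card_univ, Fintype.card_fin, nsmul_eq_mul, le_refl]
  rw [trG, norm_smul, Real.norm_eq_abs, abs_of_pos (by norm_num : (0 : ℝ) < 1 / 2)]
  linarith

theorem pair_bound : ∃ C : ℝ, 1 ≤ C ∧ ∀ (θ : F →L[ℝ] F →L[ℝ] G) (η : Bil F),
    ‖ipG θ η‖ ≤ C * ‖θ‖ * ‖η‖ ∧ ‖X.wG θ η‖ ≤ C * ‖θ‖ * ‖η‖ := by
  refine ⟨(Module.finrank ℝ F : ℝ) ^ 2 + 1, by nlinarith [sq_nonneg (Module.finrank ℝ F : ℝ)],
    fun θ η => ?_⟩
  set n : ℝ := (Module.finrank ℝ F : ℝ) with hn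
  have hn0 : 0 ≤ n := Nat.cast_nonneg _
  have p0 : 0 ≤ ‖θ‖ * ‖η‖ := by positivity
  have p1 : 0 ≤ n ^ 2 * (‖θ‖ * ‖η‖) := by positivity
  have h1 := b2a_ipG_le θ η
  have hJ : ‖pb X.J η‖ ≤ ‖η‖ := by
    refine ContinuousLinearMap.opNorm_le_bound₂ _ (norm_nonneg _) fun u v => ?_
    have := η.le_opNorm₂ (X.J u) (X.J v)
    rwa [X.norm_J, X.norm_J] at this
  have h2 : ‖ipG θ (pb X.J η)‖ ≤ 1 / 2 * n ^ 2 * ‖θ‖ * ‖η‖ :=
    (b2a_ipG_le θ (pb X.J η)).trans (mul_le_mul_of_nonneg_left hJ (by positivity))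
  have h3 : ‖X.trG η • X.trG θ‖ ≤ (1 / 2 * n * ‖η‖) * (1 / 2 * n * ‖θ‖) := by
    rw [norm_smul]
    exact mul_le_mul (X.b2a_trG_le η) (X.b2a_trG_le θ) (norm_nonneg _) (by positivity)
  refine ⟨by nlinarith, ?_⟩
  rw [wG_apply]
  refine (norm_sub_le _ _).trans ?_
  nlinarith

theorem wG_add (θ θ' : F →L[ℝ] F →L[ℝ] G) : X.wG (θ + θ') = X.wG θ + X.wG θ' := by
  ext η
  simp only [wG_apply, ipG_apply, trG, add_apply, smul_add,
    Finset.sum_add_distrib]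
  abel

theorem wG_smul (c : ℝ) (θ : F →L[ℝ] F →L[ℝ] G) : X.wG (c • θ) = c • X.wG θ := by
  ext η
  simp only [wG_apply, ipG_apply, trG, smul_apply, smul_sub, Finset.smul_sum,
    smul_comm c]

theorem _root_.Crest.Agent.R240.ipG_add (θ θ' : F →L[ℝ] F →L[ℝ] G) : ipG (θ + θ') = ipG θ + ipG θ' := by
  ext η
  simp only [ipG_apply, add_apply, smul_add, Finset.sum_add_distrib]

theorem _root_.Crest.Agent.R240.ipG_smul (c : ℝ) (θ : F →L[ℝ] F →L[ℝ] G) : ipG (c • θ) = c • ipG θ := by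
  ext η
  simp only [ipG_apply, smul_apply, Finset.smul_sum, smul_comm c]

theorem _root_.Crest.Agent.R240.norm_pb_le {E E' : Type*} [NormedAddCommGroup E] [NormedSpace ℝ E]
    [NormedAddCommGroup E'] [NormedSpace ℝ E'] (A : E →L[ℝ] E') (b : Bil E') : ‖pb A b‖ ≤ ‖A‖ ^ 2 * ‖b‖ := by
  refine ContinuousLinearMap.opNorm_le_bound₂ _ (by positivity) fun u v => ?_
  rw [pb_apply]
  calc ‖b (A u) (A v)‖ ≤ ‖b‖ * ‖A u‖ * ‖A v‖ := b.le_opNorm₂ _ _
    _ ≤ ‖b‖ * (‖A‖ * ‖u‖) * (‖A‖ * ‖v‖) := by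
      gcongr <;> exact A.le_opNorm _
    _ = _ := by ring

theorem _root_.Crest.Agent.R240.norm_pb_sub_le {E E' : Type*} [NormedAddCommGroup E] [NormedSpace ℝ E]
    [NormedAddCommGroup E'] [NormedSpace ℝ E'] (A A' : E →L[ℝ] E') (b : Bil E') :
    ‖pb A b - pb A' b‖ ≤ ‖A - A'‖ * (‖A‖ + ‖A'‖) * ‖b‖ := by
  refine ContinuousLinearMap.opNorm_le_bound₂ _ (by positivity) fun u v => ?_
  have e : (pb A b - pb A' b) u v = b ((A - A') u) (A v) + b (A' u) ((A - A') v) := by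
    simp
  rw [e]
  calc ‖b ((A - A') u) (A v) + b (A' u) ((A - A') v)‖
      ≤ ‖b‖ * ‖(A - A') u‖ * ‖A v‖ + ‖b‖ * ‖A' u‖ * ‖(A - A') v‖ :=
        (norm_add_le _ _).trans (add_le_add (b.le_opNorm₂ _ _) (b.le_opNorm₂ _ _))
    _ ≤ ‖b‖ * (‖A - A'‖ * ‖u‖) * (‖A‖ * ‖v‖) + ‖b‖ * (‖A'‖ * ‖u‖) * (‖A - A'‖ * ‖v‖) := by
      gcongr <;> exact ContinuousLinearMap.le_opNorm _ _
    _ = _ := by ring

theorem norm_stW_le (c d : F) : ‖X.stW c d‖ ≤ 3 * (‖c‖ * ‖d‖) := by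
  refine ContinuousLinearMap.opNorm_le_bound₂ _ (by positivity) fun u v => ?_
  rw [stW_apply, Real.norm_eq_abs]
  exact (X.abs_W_le c d u v).trans (le_of_eq (by ring))

theorem norm_q4_le (A B : F →L[ℝ] F) : ‖X.q4 A B‖ ≤ 3 * (‖A‖ ^ 2 * ‖B‖ ^ 2) := by
  refine ContinuousLinearMap.opNorm_le_bound₂ _ (by positivity) fun a b => ?_
  refine ContinuousLinearMap.opNorm_le_bound₂ _ (by positivity) fun c d => ?_
  rw [q4_apply, Real.norm_eq_abs]
  calc |X.W (A a) (A b) (B c) (B d)| ≤ 3 * (‖A a‖ * ‖A b‖ * ‖B c‖ * ‖B d‖) := X.abs_W_le _ _ _ _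
    _ ≤ 3 * ((‖A‖ * ‖a‖) * (‖A‖ * ‖b‖) * (‖B‖ * ‖c‖) * (‖B‖ * ‖d‖)) := by
      gcongr <;> exact ContinuousLinearMap.le_opNorm _ _
    _ = _ := by ring

theorem _root_.Crest.Agent.R240.norm_wd_le {E : Type*} [NormedAddCommGroup E] [NormedSpace ℝ E]
    (a c : E →L[ℝ] ℝ) : ‖wd a c‖ ≤ 2 * (‖a‖ * ‖c‖) := by
  refine (norm_sub_le _ _).trans ?_
  rw [ContinuousLinearMap.norm_smulRight_apply, ContinuousLinearMap.norm_smulRight_apply]
  exact le_of_eq (by ring)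

/-- For smoothness use `contDiff_clm_apply_iff` repeatedly, then `fun_prop`/`ContDiff.clm_apply`. -/
theorem _root_.Crest.Agent.R240.contDiff_pb {E E' : Type*} [NormedAddCommGroup E] [NormedSpace ℝ E]
    [FiniteDimensional ℝ E] [NormedAddCommGroup E'] [NormedSpace ℝ E'] [FiniteDimensional ℝ E'] :
    ContDiff ℝ ∞ (pb : (E →L[ℝ] E') → Bil E' →L[ℝ] Bil E) := by
  refine contDiff_clm_apply_iff.2 fun b => contDiff_clm_apply_iff.2 fun u => contDiff_clm_apply_iff.2 fun v => ?_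
  simp only [pb_apply]
  fun_prop

theorem _root_.Crest.Agent.R240.contDiff_wd {E : Type*} [NormedAddCommGroup E] [NormedSpace ℝ E]
    [FiniteDimensional ℝ E] : ContDiff ℝ ∞ fun p : (E →L[ℝ] ℝ) × (E →L[ℝ] ℝ) => wd p.1 p.2 := by
  refine contDiff_clm_apply_iff.2 fun u => contDiff_clm_apply_iff.2 fun v => ?_
  simp only [wd_apply]
  fun_prop

theorem contDiff_pi : ContDiff ℝ ∞ (piT : (F →L[ℝ] F) → _) ∧ ContDiff ℝ ∞ X.piM ∧ ContDiff ℝ ∞ X.piP := by
  have h1 : ContDiff ℝ ∞ (piT : (F →L[ℝ] F) → _) :=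
    (contDiff_pb.sub (contDiff_const.clm_comp contDiff_pb)).const_smul (1 / 2 : ℝ)
  have h2 : ContDiff ℝ ∞ X.piM := (h1.sub (contDiff_const.clm_comp h1)).const_smul (1 / 2 : ℝ)
  exact ⟨h1, h2, h1.sub h2⟩

theorem contDiff_q4 : ContDiff ℝ ∞ fun p : (F →L[ℝ] F) × (F →L[ℝ] F) => X.q4 p.1 p.2 := by
  refine contDiff_clm_apply_iff.2 fun a => contDiff_clm_apply_iff.2 fun b => contDiff_clm_apply_iff.2 fun c =>
    contDiff_clm_apply_iff.2 fun d => ?_
  simp only [q4_apply, W]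
  fun_prop

theorem contDiff_pair : ContDiff ℝ ∞ (ipG : (F →L[ℝ] F →L[ℝ] G) → _) ∧
    ContDiff ℝ ∞ (X.wG : (F →L[ℝ] F →L[ℝ] G) → _) := by
  have h1 : ContDiff ℝ ∞ (ipG : (F →L[ℝ] F →L[ℝ] G) → _) := by
    refine contDiff_clm_apply_iff.2 fun η => ?_
    simp only [ipG_apply]
    fun_prop
  refine ⟨h1, contDiff_clm_apply_iff.2 fun η => ?_⟩
  simp only [wG_apply, ipG_apply, trG]
  fun_prop

theorem contDiff_Xi : ContDiff ℝ ∞ fun p : F × F => X.Xi p.1 p.2 := by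
  refine contDiff_clm_apply_iff.2 fun a => contDiff_clm_apply_iff.2 fun b => ?_
  obtain ⟨I, hI⟩ : ∃ I : Bil F, ∀ u v, I u v = ⟪u, v⟫_ℝ := ⟨innerSL ℝ, fun _ _ => rfl⟩
  have h : ∀ p : F × F, X.Xi p.1 p.2 a b = I p.1 p.2 * X.om a b -
      (I p.1 a * X.om p.2 b - X.om p.2 a * I p.1 b) := fun p => by
    simp only [hI]
    rfl
  simp only [h]
  fun_prop

namespace Fr
variable {X} {P : F →L[ℝ] F} {L : E4 →L[ℝ] F} (h : X.Fr P L)
include h

theorem piT_eq_iff (b : Bil F) :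
    piT P b = b ↔ (∀ u v, b u v = -b v u) ∧ ∀ u v, b (P u) (P v) = b u v := by
  constructor
  · intro hb
    refine ⟨fun u v => ?_, fun u v => ?_⟩
    · rw [← hb, piT_apply, piT_apply]
      ring
    · rw [← hb, piT_apply, piT_apply, h.P_P, h.P_P]
  · rintro ⟨h1, h2⟩
    ext u v
    rw [piT_apply, h2, h2, h1 v u]
    ring

theorem piT_piT (b : Bil F) : piT P (piT P b) = piT P b := by
  ext u v
  simp only [piT_apply, h.P_P]
  ring

theorem piT_piM (b : Bil F) : piT P (X.piM P b) = X.piM P b := by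
  ext u v
  simp only [piT_apply, piM_apply, ← h.P_J, h.P_P]
  ring

theorem piM_piT (b : Bil F) : X.piM P (piT P b) = X.piM P b := by
  ext u v
  simp only [piM_apply, h.piT_piT]

theorem piM_piM (b : Bil F) : X.piM P (X.piM P b) = X.piM P b := by
  ext u v
  rw [piM_apply, h.piT_piM]
  simp only [piM_apply, X.JJ, map_neg, neg_apply, neg_neg]
  ring

theorem piT_piP (b : Bil F) : piT P (X.piP P b) = X.piP P b := by
  rw [eq_sub_of_add_eq (X.piP_add_piM P b), map_sub, h.piT_piT, h.piT_piM]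

theorem piP_piP (b : Bil F) : X.piP P (X.piP P b) = X.piP P b := by
  rw [eq_sub_of_add_eq (X.piP_add_piM P (X.piP P b)), h.piT_piP, eq_sub_of_add_eq (X.piP_add_piM P b), map_sub,
    h.piM_piT, h.piM_piM, sub_self, sub_zero]

theorem piM_piP (b : Bil F) : X.piM P (X.piP P b) = 0 := by
  rw [eq_sub_of_add_eq (X.piP_add_piM P b), map_sub, h.piM_piT, h.piM_piM, sub_self]

theorem piM_pb (b : Bil F) : X.piM P (pb P b) = X.piM P b := by
  ext u v
  simp only [piM_apply, piT_apply, pb_apply, h.P_P]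

theorem pb_J_piM (b : Bil F) : pb X.J (X.piM P b) = -X.piM P b := by
  ext u v
  simp only [pb_apply, piM_apply, X.JJ, map_neg, neg_apply, neg_neg]
  ring

theorem piM_of_inv {b : Bil F} (hb : pb X.J b = b) : X.piM P b = 0 := by
  have e : ∀ u v, b (X.J u) (X.J v) = b u v := fun u v => by rw [← pb_apply, hb]
  ext u v
  simp only [piM_apply, piT_apply, h.P_J, e, sub_self, mul_zero, zero_apply]

theorem inv_of_piM {b : Bil F} (hb : piT P b = b) (h0 : X.piM P b = 0) : pb X.J b = b := by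
  ext u v
  have e := X.piM_apply P b u v
  rw [h0, hb, zero_apply, zero_apply] at e
  rw [pb_apply]
  linarith

theorem norm_pi_le (b : Bil F) : ‖piT P b‖ ≤ ‖b‖ ∧ ‖X.piM P b‖ ≤ ‖b‖ ∧ ‖X.piP P b‖ ≤ 2 * ‖b‖ := by
  have e : ∀ (c : Bil F) (u v u' v' : F) (r : ℝ), ‖u‖ * ‖v‖ ≤ r → ‖u'‖ * ‖v'‖ ≤ r →
      ‖1 / 2 * (c u v - c u' v')‖ ≤ ‖c‖ * r := fun c u v u' v' r h1 h2 => by
    have h3 := abs_le.1 ((c.le_opNorm₂ u v).trans_eq (mul_assoc _ _ _))
    have h4 := abs_le.1 ((c.le_opNorm₂ u' v').trans_eq (mul_assoc _ _ _))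
    have h5 := mul_le_mul_of_nonneg_left h1 (norm_nonneg c)
    have h6 := mul_le_mul_of_nonneg_left h2 (norm_nonneg c)
    rw [Real.norm_eq_abs, abs_le]
    constructor <;> linarith
  have h1 : ‖piT P b‖ ≤ ‖b‖ := by
    refine ContinuousLinearMap.opNorm_le_bound₂ _ (norm_nonneg _) fun u v => ?_
    have h3 : ‖P u‖ * ‖P v‖ ≤ ‖u‖ * ‖v‖ :=
      mul_le_mul (h.norm_P_le u) (h.norm_P_le v) (norm_nonneg _) (norm_nonneg _)
    rw [piT_apply, mul_assoc]
    exact e b _ _ _ _ _ h3 ((mul_comm _ _).trans_le h3)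
  have h2 : ‖X.piM P b‖ ≤ ‖b‖ := by
    refine (ContinuousLinearMap.opNorm_le_bound₂ _ (norm_nonneg _) fun u v => ?_).trans h1
    rw [piM_apply, mul_assoc]
    exact e _ _ _ _ _ _ le_rfl (by rw [X.norm_J, X.norm_J])
  refine ⟨h1, h2, ?_⟩
  rw [eq_sub_of_add_eq (X.piP_add_piM P b)]
  linarith [norm_sub_le (piT P b) (X.piM P b)]

theorem b2c_piT (b b' : Bil F) : ipG (piT P b) b' = ipG b (piT P b') := by
  have e : ∀ c : Bil F, piT P c = (1 / 2 : ℝ) • (pb P c - flp (pb P c)) := fun c => rfl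
  have hP : P† = P := by
    ext u
    refine ext_inner_right ℝ fun v => ?_
    rw [ContinuousLinearMap.adjoint_inner_left, h.inner_P]
  have hf : ∀ c c' : Bil F, ipG (flp c) c' = ipG c (flp c') := fun c c' => by
    rw [ipG_apply, ipG_apply, Finset.sum_comm]
    rfl
  rw [ipG_comm, e, e, map_smul, map_smul, map_sub, map_sub, ipG_comm b', ipG_comm b', hf, ipG_pb, ipG_pb, hP]
  rfl

theorem ipG_piM (b b' : Bil F) : ipG (X.piM P b) b' = ipG b (X.piM P b') := by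
  have e : ∀ c : Bil F, X.piM P c = (1 / 2 : ℝ) • (piT P c - pb X.J (piT P c)) := fun c => rfl
  have hJ : pb (X.J†) b' = pb X.J b' := by
    have e1 : ∀ u, (X.J†) u = -X.J u := fun u => by
      refine ext_inner_right ℝ fun v => ?_
      rw [ContinuousLinearMap.adjoint_inner_left, inner_neg_left, X.inner_J_left, neg_neg]
    ext u v
    simp only [pb_apply, e1, map_neg, neg_apply, neg_neg]
  have hc : piT P (pb X.J b') = pb X.J (piT P b') := by
    ext u v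
    simp only [piT_apply, pb_apply, h.P_J]
  rw [ipG_comm, e, e, map_smul, map_smul, map_sub, map_sub, ipG_comm b', ipG_comm b', ipG_pb, hJ, h.b2c_piT,
    h.b2c_piT, hc]

theorem ipG_piP (b b' : Bil F) : ipG (X.piP P b) b' = ipG b (X.piP P b') := by
  rw [ipG_comm, eq_sub_of_add_eq (X.piP_add_piM P b), eq_sub_of_add_eq (X.piP_add_piM P b'), map_sub, map_sub,
    ipG_comm b', ipG_comm b', h.b2c_piT, h.ipG_piM]

theorem wG_piM (θ : F →L[ℝ] F →L[ℝ] G) (η : Bil F) : X.wG θ (X.piM P η) = ipG θ (X.piM P η) := by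
  have e : ∀ u, X.piM P η u (X.J u) = 0 := fun u => by
    simp only [piM_apply, piT_apply, X.JJ, map_neg]
    ring
  rw [wG_apply, h.pb_J_piM, map_neg, sub_neg_eq_add, trG]
  simp only [e, Finset.sum_const_zero, smul_zero, zero_smul, zero_add]

/-- Splitting of the wedge pairing. -/
theorem wG_split {b b' : Bil F} (hb : piT P b = b) (hb' : piT P b' = b') :
    X.wG b b' = X.wG (X.piP P b) (X.piP P b') + ipG (X.piM P b) (X.piM P b') := by
  have e : ∀ c c' : Bil F, X.wG (X.piP P c) (X.piM P c') = 0 := fun c c' => by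
    rw [h.wG_piM, ← h.ipG_piM, h.piM_piP, ipG_comm, map_zero]
  calc X.wG b b' = X.wG (X.piP P b + X.piM P b) (X.piP P b' + X.piM P b') := by
        rw [X.piP_add_piM, X.piP_add_piM, hb, hb']
    _ = _ := by
        rw [X.wG_add, add_apply, map_add, map_add, e, X.wG_comm (X.piM P b) (X.piP P b'), e, h.wG_piM, add_zero,
          zero_add]

end Fr

end Cx
end Crest.Agent.R240
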