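import Crest.Agent.R240.A1
import Crest.Agent.R240.B2

/-! Block B3: identities special to complex dimension two.  Reduce to `E4` by the frame `L` (`ipG_pb`, `Fr.P_eq`;
`∑ i, b (P (eF i)) .. = ∑ μ, b (L (ee μ)) ..`), then coordinates and `ring`. -/

set_option autoImplicit false
set_option maxSynthPendingDepth 3
set_option linter.unusedSectionVars false
set_option linter.unusedVariables false
open MeasureTheory Filter Set Metric
open scoped ENNReal NNReal Topology ContDiff InnerProductSpace InnerProduct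

noncomputable section
namespace Crest.Agent.R240

variable {F G : Type*} [NormedAddCommGroup F] [InnerProductSpace ℝ F] [FiniteDimensional ℝ F]
  [NormedAddCommGroup G] [NormedSpace ℝ G] [FiniteDimensional ℝ G]

namespace Cx
variable (X : Cx F)

theorem _root_.Crest.Agent.R240.J0_ee : J0 (ee 0) = ee 1 ∧ J0 (ee 1) = -ee 0 ∧ J0 (ee 2) = ee 3 ∧ J0 (ee 3) = -ee 2 := by
  refine ⟨?_, ?_, ?_, ?_⟩ <;> simp [J0, ee]

theorem _root_.Crest.Agent.R240.skew_form0 {β : Bil E4} (h : ∀ a c, β a c = -β c a) (a b : E4) :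
    β a b = β (ee 0) (ee 1) * (a 0 * b 1 - a 1 * b 0) + β (ee 0) (ee 2) * (a 0 * b 2 - a 2 * b 0) +
      β (ee 0) (ee 3) * (a 0 * b 3 - a 3 * b 0) + β (ee 1) (ee 2) * (a 1 * b 2 - a 2 * b 1) +
      β (ee 1) (ee 3) * (a 1 * b 3 - a 3 * b 1) + β (ee 2) (ee 3) * (a 2 * b 3 - a 3 * b 2) := by
  have z : ∀ v, β v v = 0 := fun v => by linarith [h v v]
  conv_lhs => rw [← sum_ee a, ← sum_ee b]
  simp only [Fin.sum_univ_four, map_add, map_smul, add_apply, smul_apply, smul_eq_mul, z, h (ee 1) (ee 0),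
    h (ee 2) (ee 0), h (ee 3) (ee 0), h (ee 2) (ee 1), h (ee 3) (ee 1), h (ee 3) (ee 2)]
  ring

theorem _root_.Crest.Agent.R240.inner_E4 (a b : E4) : ⟪a, b⟫_ℝ = a 0 * b 0 + a 1 * b 1 + a 2 * b 2 + a 3 * b 3 := by
  simp [PiLp.inner_apply, Fin.sum_univ_four, mul_comm]

theorem _root_.Crest.Agent.R240.om0 (a b : E4) : cx0.om a b = a 0 * b 1 - a 1 * b 0 + a 2 * b 3 - a 3 * b 2 := by
  obtain ⟨h0, h1, h2, h3⟩ := J0_apply a
  rw [om_apply, inner_E4]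
  change J0 a 0 * b 0 + J0 a 1 * b 1 + J0 a 2 * b 2 + J0 a 3 * b 3 = _
  rw [h0, h1, h2, h3]; ring

theorem _root_.Crest.Agent.R240.ee_coord (μ ν : Fin 4) : ee μ ν = if ν = μ then 1 else 0 := by
  simp [ee, Pi.single_apply]

theorem _root_.Crest.Agent.R240.wedge4_star0 (c d c' d' : E4) :
    wedge4 (cx0.stW c d) (cx0.stW c' d') = cx0.W c d c' d' := by
  simp only [wedge4, stW_apply, W, om0, ee_coord]
  simp
  ring

theorem _root_.Crest.Agent.R240.wedge4_pb (g : E4 →L[ℝ] E4) {β β' : Bil E4} (h : ∀ a c, β a c = -β c a)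
    (h' : ∀ a c, β' a c = -β' c a) : wedge4 (pb g β) (pb g β') = g.det * wedge4 β β' := by
  have hd : g.det = Matrix.det (LinearMap.toMatrix (EuclideanSpace.basisFun (Fin 4) ℝ).toBasis
      (EuclideanSpace.basisFun (Fin 4) ℝ).toBasis (g : E4 →ₗ[ℝ] E4)) := (LinearMap.det_toMatrix _ _).symm
  have hm : ∀ i j, LinearMap.toMatrix (EuclideanSpace.basisFun (Fin 4) ℝ).toBasis
      (EuclideanSpace.basisFun (Fin 4) ℝ).toBasis (g : E4 →ₗ[ℝ] E4) i j = g (ee j) i := fun i j => by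
    simp [LinearMap.toMatrix_apply, ee]
  rw [hd]
  simp only [Matrix.det_succ_row_zero, Fin.sum_univ_succ, Matrix.submatrix_apply, Matrix.det_unique, hm, wedge4, pb_apply,
    skew_form0 h (g _) (g _), skew_form0 h' (g _) (g _)]
  simp [Fin.succAbove]
  ring

namespace Fr
variable {X} {P : F →L[ℝ] F} {L : E4 →L[ℝ] F} (h : X.Fr P L)
include h

theorem tr_pull (Φ : Bil E4) : ∑ i, Φ ((L†) (eF i)) ((L†) (eF i)) = ∑ μ, Φ (ee μ) (ee μ) := by
  have e1 : ∀ i, Φ ((L†) (eF i)) ((L†) (eF i)) = ∑ μ, ⟪eF i, L (ee μ)⟫_ℝ * Φ (ee μ) ((L†) (eF i)) := fun i => by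
    have : ∀ a w : E4, Φ a w = ∑ μ, a μ * Φ (ee μ) w := fun a w => by
      conv_lhs => rw [← sum_ee a]
      simp only [map_sum, map_smul, sum_apply, smul_apply, smul_eq_mul]
    rw [this]
    refine Finset.sum_congr rfl fun μ _ => ?_
    rw [← ContinuousLinearMap.adjoint_inner_left]
    congr 1
    simp [ee, EuclideanSpace.inner_single_right]
  simp only [e1]
  rw [Finset.sum_comm]
  refine Finset.sum_congr rfl fun μ _ => ?_
  have : Φ (ee μ) (ee μ) = Φ (ee μ) ((L†) (∑ i, ⟪eF i, L (ee μ)⟫_ℝ • eF i)) := by rw [sum_eF, h.adj_L]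
  rw [this]
  simp only [map_sum, map_smul, smul_eq_mul]

theorem tr_red {b : Bil F} (t : ∀ u v, b (P u) (P v) = b u v) :
    X.trG b = 1 / 2 * ∑ μ, b (L (ee μ)) (L (J0 (ee μ))) := by
  have := h.tr_pull (b.bilinearComp L (L.comp J0))
  simp only [ContinuousLinearMap.bilinearComp_apply, ContinuousLinearMap.comp_apply, ← h.adj_J, ← h.P_eq, t] at this
  rw [trG, smul_eq_mul, this]

theorem ip_red {b b' : Bil F} (t : ∀ u v, b (P u) (P v) = b u v) (t' : ∀ u v, b' (P u) (P v) = b' u v) :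
    ipG b b' = 1 / 2 * ∑ μ, ∑ ν, b' (L (ee μ)) (L (ee ν)) * b (L (ee μ)) (L (ee ν)) := by
  have e1 : ∀ u, ∑ j, b' (P u) (eF j) * b (P u) (eF j) = ∑ ν, b' (P u) (L (ee ν)) * b (P u) (L (ee ν)) := fun u => by
    have := h.tr_pull (((b' (P u)).comp L).smulRight ((b (P u)).comp L))
    simp only [ContinuousLinearMap.smulRight_apply, smul_apply, ContinuousLinearMap.comp_apply, ← h.P_eq,
      smul_eq_mul] at this
    rw [← this]
    refine Finset.sum_congr rfl fun j _ => ?_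
    rw [← t (P u), ← t' (P u), h.P_P]
  have e2 : ∀ v, ∑ i, b' (P (eF i)) v * b (P (eF i)) v = ∑ μ, b' (L (ee μ)) v * b (L (ee μ)) v := fun v => by
    have := h.tr_pull (((b'.flip v).comp L).smulRight ((b.flip v).comp L))
    simpa only [ContinuousLinearMap.smulRight_apply, smul_apply, ContinuousLinearMap.comp_apply, ← h.P_eq,
      smul_eq_mul, ContinuousLinearMap.flip_apply] using this
  rw [ipG_apply, smul_eq_mul]
  congr 1
  have e3 : ∀ i j, b' (eF i) (eF j) • b (eF i) (eF j) = b' (P (eF i)) (eF j) * b (P (eF i)) (eF j) := fun i j => by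
    rw [← t (P _), ← t' (P _), h.P_P, t, t', smul_eq_mul]
  simp only [e3, e1]
  rw [Finset.sum_comm]
  simp only [e2]
  exact Finset.sum_comm

theorem piT_pb_stW {A : F →L[ℝ] F} (hA' : ∀ v, A (P v) = A v) (c d : F) : piT P (pb A (X.stW c d)) = pb A (X.stW c d) :=
  (h.piT_eq_iff _).2 ⟨fun u v => by simp only [pb_apply, stW_apply]; rw [X.W_swap34], fun u v => by
    simp only [pb_apply, hA']⟩

theorem pb_L_stW {A : F →L[ℝ] F} (hA : ∀ v, P (A v) = A v) {c d : F} (hc : P c = c) (hd : P d = d) :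
    pb L (pb A (X.stW c d)) = pb ((L†).comp (A.comp L)) (cx0.stW ((L†) c) ((L†) d)) := by
  ext a b
  simp only [pb_apply, stW_apply, ContinuousLinearMap.comp_apply, ← h.W_L, ← h.P_eq, hA, hc, hd]

theorem pb_L_stW' {c d : F} (hc : P c = c) (hd : P d = d) :
    pb L (pb P (X.stW c d)) = cx0.stW ((L†) c) ((L†) d) := by
  ext a b
  simp only [pb_apply, stW_apply, ← h.W_L, ← h.P_eq, h.P_L, hc, hd]

theorem wG_eq_wedge4 {b b' : Bil F} (hb : piT P b = b) (hb' : piT P b' = b') :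
    X.wG b b' = wedge4 (pb L b) (pb L b') := by
  obtain ⟨s, t⟩ := (h.piT_eq_iff b).1 hb
  obtain ⟨s', t'⟩ := (h.piT_eq_iff b').1 hb'
  have tJ : ∀ u v, pb X.J b' (P u) (P v) = pb X.J b' u v := fun u v => by
    simp only [pb_apply, ← h.P_J, t']
  obtain ⟨j0, j1, j2, j3⟩ := J0_ee
  have z : ∀ v, b v v = 0 := fun v => by linarith [s v v]
  have z' : ∀ v, b' v v = 0 := fun v => by linarith [s' v v]
  rw [wG_apply, h.tr_red t, h.tr_red t', h.ip_red t tJ]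
  simp only [Fin.sum_univ_four, pb_apply, ← h.comm, j0, j1, j2, j3, map_neg, neg_apply, wedge4, smul_eq_mul, z, z',
    s (L (ee 1)) (L (ee 0)), s (L (ee 2)) (L (ee 0)), s (L (ee 3)) (L (ee 0)), s (L (ee 2)) (L (ee 1)),
    s (L (ee 3)) (L (ee 1)), s (L (ee 3)) (L (ee 2)), s' (L (ee 1)) (L (ee 0)), s' (L (ee 2)) (L (ee 0)),
    s' (L (ee 3)) (L (ee 0)), s' (L (ee 2)) (L (ee 1)), s' (L (ee 3)) (L (ee 1)), s' (L (ee 3)) (L (ee 2))]
  ring

theorem wG_star {c d c' d' : F} (hc : P c = c) (hd : P d = d) (hc' : P c' = c') (hd' : P d' = d') :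
    X.wG (pb P (X.stW c d)) (pb P (X.stW c' d')) = X.W c d c' d' := by
  rw [h.wG_eq_wedge4 (h.piT_pb_stW h.P_P _ _) (h.piT_pb_stW h.P_P _ _), h.pb_L_stW' hc hd, h.pb_L_stW' hc' hd',
    wedge4_star0, ← h.W_L]
  simp only [← h.P_eq, hc, hd, hc', hd']

/-- Grassmann-Plücker relation. -/
theorem plucker {A : F →L[ℝ] F} (hA : ∀ v, P (A v) = A v) (hA' : ∀ v, A (P v) = A v) {c d : F} (hc : P c = c)
    (hd : P d = d) : X.wG (pb A (X.stW c d)) (pb A (X.stW c d)) = 0 := by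
  have sk : ∀ a b, cx0.stW ((L†) c) ((L†) d) a b = -cx0.stW ((L†) c) ((L†) d) b a := fun a b => by
    simp only [stW_apply]; rw [cx0.W_swap34]
  rw [h.wG_eq_wedge4 (h.piT_pb_stW hA' _ _) (h.piT_pb_stW hA' _ _), h.pb_L_stW hA hc hd, wedge4_pb _ sk sk,
    wedge4_star0]
  simp only [W, om0]
  ring

theorem anti_form (η : Bil F) (a b : E4) : X.piM P η (L a) (L b) =
    X.piM P η (L (ee 0)) (L (ee 2)) * (a 0 * b 2 - a 2 * b 0 - a 1 * b 3 + a 3 * b 1) +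
      X.piM P η (L (ee 0)) (L (ee 3)) * (a 0 * b 3 - a 3 * b 0 + a 1 * b 2 - a 2 * b 1) := by
  obtain ⟨s, t⟩ := (h.piT_eq_iff _).1 (h.piT_piM η)
  have an : ∀ a b, X.piM P η (L (J0 a)) (L (J0 b)) = -X.piM P η (L a) (L b) := fun a b => by
    rw [h.comm, h.comm]
    exact congrArg (fun β : Bil F => β (L a) (L b)) (h.pb_J_piM η)
  obtain ⟨j0, j1, j2, j3⟩ := J0_ee
  have a01 := an (ee 0) (ee 1)
  have a23 := an (ee 2) (ee 3)
  have a02 := an (ee 0) (ee 2)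
  have a03 := an (ee 0) (ee 3)
  simp only [j0, j1, j2, j3, map_neg, s (L (ee 1)) (L (ee 0)), s (L (ee 3)) (L (ee 2))] at a01 a23 a02 a03
  have := skew_form0 (β := pb L (X.piM P η)) (fun a c => s _ _) a b
  simp only [pb_apply] at this
  rw [this, a02, show X.piM P η (L (ee 0)) (L (ee 1)) = 0 by linarith,
    show X.piM P η (L (ee 2)) (L (ee 3)) = 0 by linarith,
    show X.piM P η (L (ee 1)) (L (ee 2)) = X.piM P η (L (ee 0)) (L (ee 3)) by linarith]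
  ring

theorem anti_form' (η : Bil F) (u v : F) : X.piM P η u v =
    X.piM P η (L (ee 0)) (L (ee 2)) * ((L†) u 0 * (L†) v 2 - (L†) u 2 * (L†) v 0 - (L†) u 1 * (L†) v 3 +
      (L†) u 3 * (L†) v 1) + X.piM P η (L (ee 0)) (L (ee 3)) * ((L†) u 0 * (L†) v 3 - (L†) u 3 * (L†) v 0 +
      (L†) u 1 * (L†) v 2 - (L†) u 2 * (L†) v 1) := by
  rw [← h.anti_form, ← h.P_eq, ← h.P_eq, ((h.piT_eq_iff _).1 (h.piT_piM η)).2]

/-- Anti-invariant forms are self-dual. -/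
theorem wG_q4 (η : Bil F) : X.wG (X.q4 P P) (X.piM P η) = X.piM P η := by
  ext c d
  have e : X.wG (X.q4 P P) (X.piM P η) c d = X.wG (pb P (X.stW (P c) (P d))) (X.piM P η) := by
    simp only [wG_apply, ipG_apply, trG, sub_apply, smul_apply, sum_apply, q4_apply, pb_apply, stW_apply,
      X.W_comm (P c) (P d)]
  rw [e, h.wG_eq_wedge4 (h.piT_pb_stW h.P_P _ _) (h.piT_piM η), h.pb_L_stW' (h.P_P c) (h.P_P d), h.anti_form' η c d]
  have a := h.anti_form η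
  simp only [wedge4, pb_apply, a (ee 0) (ee 1), a (ee 2) (ee 3), a (ee 1) (ee 2), a (ee 1) (ee 3), stW_apply, W, om0,
    ee_coord, h.P_eq, h.adj_L]
  simp
  ring

/-- The Hodge star preserves invariant forms. -/
theorem piM_ip_q4 (η : Bil F) : X.piM P (ipG (X.q4 P P) (X.piP P η)) = 0 := by
  refine h.piM_of_inv ?_
  obtain ⟨s, t⟩ := (h.piT_eq_iff _).1 (h.piT_piP η)
  have iv : ∀ a b, X.piP P η (L (J0 a)) (L (J0 b)) = X.piP P η (L a) (L b) := fun a b => by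
    rw [h.comm, h.comm]
    exact congrArg (fun β : Bil F => β (L a) (L b)) (h.inv_of_piM (h.piT_piP η) (h.piM_piP η))
  have e : ∀ c d, ipG (X.q4 P P) (X.piP P η) c d = ipG (pb P (X.stW (P c) (P d))) (X.piP P η) := fun c d => by
    simp only [ipG_apply, smul_apply, sum_apply, q4_apply, pb_apply, stW_apply, X.W_comm (P c) (P d)]
  have e2 : ∀ c d, ipG (X.q4 P P) (X.piP P η) c d = 1 / 2 * ∑ μ, ∑ ν, X.piP P η (L (ee μ)) (L (ee ν)) *
      cx0.W ((L†) c) ((L†) d) (ee μ) (ee ν) := fun c d => by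
    rw [e, h.ip_red (fun u v => by simp only [pb_apply, h.P_P]) t]
    simp only [pb_apply, stW_apply, h.P_L, ← h.W_L, ← h.P_eq]
  obtain ⟨j0, j1, j2, j3⟩ := J0_ee
  have a02 := iv (ee 0) (ee 2)
  have a03 := iv (ee 0) (ee 3)
  simp only [j0, j1, j2, j3, map_neg] at a02 a03
  have z : ∀ v, X.piP P η v v = 0 := fun v => by linarith [s v v]
  ext c d
  rw [pb_apply, e2, e2, h.adj_J, h.adj_J]
  obtain ⟨c0, c1, c2, c3⟩ := J0_apply ((L†) c)
  obtain ⟨d0, d1, d2, d3⟩ := J0_apply ((L†) d)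
  simp only [Fin.sum_univ_four, z, s (L (ee 1)) (L (ee 0)), s (L (ee 2)) (L (ee 0)), s (L (ee 3)) (L (ee 0)),
    s (L (ee 2)) (L (ee 1)), s (L (ee 3)) (L (ee 1)), s (L (ee 3)) (L (ee 2)), a02, ← a03, W, om0, ee_coord,
    c0, c1, c2, c3, d0, d1, d2, d3]
  simp
  ring

/-- The symbol identity. -/
theorem symbol {ξ ξ' : F} (hξ : P ξ = ξ) (hξ' : P ξ' = ξ') (η : Bil F) :
    X.piM P (wd (innerSL ℝ ξ) (X.piM P η ξ')) + X.piM P (wd (innerSL ℝ ξ') (X.piM P η ξ)) =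
      ⟪ξ, ξ'⟫_ℝ • X.piM P η := by
  ext u v
  have ip : ∀ {ζ : F}, P ζ = ζ → ∀ w, ⟪ζ, w⟫_ℝ = (L†) ζ 0 * (L†) w 0 + (L†) ζ 1 * (L†) w 1 + (L†) ζ 2 * (L†) w 2 +
      (L†) ζ 3 * (L†) w 3 := fun {ζ} hζ w => by
    rw [← inner_E4, ContinuousLinearMap.adjoint_inner_right, ← h.P_eq, hζ]
  have aP : ∀ w, (L†) (P w) = (L†) w := fun w => by rw [h.P_eq, h.adj_L]
  obtain ⟨c0, c1, c2, c3⟩ := J0_apply ((L†) u)
  obtain ⟨d0, d1, d2, d3⟩ := J0_apply ((L†) v)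
  rw [add_apply, add_apply, smul_apply, smul_apply, X.piM_apply P (wd _ _), X.piM_apply P (wd _ _), h.anti_form' η u v]
  simp only [piT_apply, wd_apply, innerSL_apply_apply, ip hξ, ip hξ', h.anti_form' η ξ, h.anti_form' η ξ', aP, h.adj_J,
    c0, c1, c2, c3, d0, d1, d2, d3, smul_eq_mul]
  ring

end Fr

theorem Fr.near_aux {X : Cx F} {P : F →L[ℝ] F} {L : E4 →L[ℝ] F} (h : X.Fr P L) {δ : ℝ} {A : F →L[ℝ] F} {w c d : F}
    (hδ : δ ≤ 1 / 4) (nA : ‖A - P‖ ≤ δ) (nw : ‖w‖ = 1) (e1 : ‖c - w‖ ≤ δ) (e2 : ‖d - X.J w‖ ≤ δ) :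
    3 / 4 ≤ ‖c‖ ∧ ‖c‖ ≤ 5 / 4 ∧ |‖c‖ - 1| ≤ δ ∧ ‖pb A (X.stW c d) - pb P (X.stW c (X.J c))‖ ≤ 25 * δ := by
  have hδ0 : 0 ≤ δ := (norm_nonneg _).trans nA
  have n3 : |‖c‖ - 1| ≤ δ := by rw [← nw]; exact (abs_norm_sub_norm_le _ _).trans e1
  have n4 : |‖d‖ - 1| ≤ δ := by rw [← nw, ← X.norm_J w]; exact (abs_norm_sub_norm_le _ _).trans e2
  have n3' := abs_le.1 n3
  have n4' := abs_le.1 n4
  have nP : ‖P‖ ≤ 1 := ContinuousLinearMap.opNorm_le_bound _ zero_le_one fun v => by simpa using h.norm_P_le v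
  have nA' : ‖A‖ ≤ 5 / 4 := by
    have : ‖A‖ ≤ ‖A - P‖ + ‖P‖ := by simpa using norm_add_le (A - P) P
    linarith
  refine ⟨by linarith, by linarith, n3, ?_⟩
  have e3 : ‖d - X.J c‖ ≤ 2 * δ := by
    have : d - X.J c = (d - X.J w) - X.J (c - w) := by rw [map_sub]; abel
    rw [this]
    refine (norm_sub_le _ _).trans ?_
    rw [X.norm_J]; linarith
  have : pb A (X.stW c d) - pb P (X.stW c (X.J c)) =
      (pb A (X.stW c d) - pb P (X.stW c d)) + pb P (X.stW c (d - X.J c)) := by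
    rw [map_sub, map_sub]; abel
  rw [this]
  refine (norm_add_le _ _).trans ?_
  have h1 : ‖pb A (X.stW c d) - pb P (X.stW c d)‖ ≤ δ * (5 / 4 + 1) * (3 * (5 / 4 * (5 / 4))) := by
    refine (norm_pb_sub_le _ _ _).trans ?_
    have := X.norm_stW_le c d
    have h2 : ‖c‖ * ‖d‖ ≤ 5 / 4 * (5 / 4) := by gcongr <;> linarith
    gcongr
    linarith
  have h2 : ‖pb P (X.stW c (d - X.J c))‖ ≤ 1 ^ 2 * (3 * (5 / 4 * (2 * δ))) := by
    refine (norm_pb_le _ _).trans ?_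
    have := X.norm_stW_le c (d - X.J c)
    have h2 : ‖c‖ * ‖d - X.J c‖ ≤ 5 / 4 * (2 * δ) := by gcongr; linarith
    gcongr
    linarith
  linarith

/-- `η ∧ η' = -(1/2) (η - η') ∧ (η - η')` by `plucker`; `η = η₀ + O(δ)` with `η₀ = pb P (stW c (J c))`;
`(η₀ - η₀') ∧ (η₀ - η₀') = -2 gam c c'` (`wG_star`, `W_line`), `‖η₀ - η₀'‖ ≤ C (ang + δ)` (`stW_line_sub`), `ang_le_add`. -/
theorem near_pos : ∃ C : ℝ, 0 ≤ C ∧ ∀ (P : F →L[ℝ] F) (L : E4 →L[ℝ] F), X.Fr P L → ∀ (δ : ℝ) (A A' : F →L[ℝ] F)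
    (w w' c d c' d' : F), δ ≤ 1 / 4 → (∀ v, P (A v) = A v ∧ A (P v) = A v) → (∀ v, P (A' v) = A' v ∧ A' (P v) = A' v) →
    ‖A - P‖ ≤ δ → ‖A' - P‖ ≤ δ → ‖w‖ = 1 → ‖w'‖ = 1 → P c = c → P d = d → P c' = c' → P d' = d' →
    ‖c - w‖ ≤ δ → ‖d - X.J w‖ ≤ δ → ‖c' - w'‖ ≤ δ → ‖d' - X.J w'‖ ≤ δ →
    1 / 2 * X.gam w w' - C * δ ^ 2 ≤ X.wG (pb A (X.stW c d)) (pb A' (X.stW c' d')) := by
  obtain ⟨C₁, hC₁, hb⟩ := X.pair_bound (G := ℝ)
  refine ⟨2 * (C₁ * 100 * 50) ^ 2 + C₁ * (100 * 5 * 50 + 50 ^ 2) + 100, by positivity, ?_⟩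
  intro P L h δ A A' w w' c d c' d' hδ hA hA' nA nA' nw nw' hc hd hc' hd' e1 e2 e3 e4
  have hδ0 : 0 ≤ δ := (norm_nonneg _).trans nA
  obtain ⟨n1, n2, n3, E1⟩ := h.near_aux hδ nA nw e1 e2
  obtain ⟨n1', n2', n3', E2⟩ := h.near_aux hδ nA' nw' e3 e4
  have hJc : P (X.J c) = X.J c := by rw [h.P_J, hc]
  have hJc' : P (X.J c') = X.J c' := by rw [h.P_J, hc']
  set η := pb A (X.stW c d)
  set η' := pb A' (X.stW c' d')
  set η₀ := pb P (X.stW c (X.J c))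
  set η₀' := pb P (X.stW c' (X.J c'))
  have p1 : X.wG η η = 0 := h.plucker (fun v => (hA v).1) (fun v => (hA v).2) hc hd
  have p2 : X.wG η' η' = 0 := h.plucker (fun v => (hA' v).1) (fun v => (hA' v).2) hc' hd'
  have g0 : ∀ u : F, X.gam u u = 0 := fun u => by
    have : ⟪u, X.J u⟫_ℝ = 0 := by
      have := X.inner_J_left u u
      rw [real_inner_comm] at this
      linarith
    rw [gam, this, real_inner_self_eq_norm_sq]; ring
  have q1 : X.wG η₀ η₀ = 0 := by rw [h.wG_star hc hJc hc hJc, X.W_line, g0]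
  have q2 : X.wG η₀' η₀' = 0 := by rw [h.wG_star hc' hJc' hc' hJc', X.W_line, g0]
  have q3 : X.wG η₀ η₀' = X.gam c c' := by rw [h.wG_star hc hJc hc' hJc', X.W_line]
  have wsub : ∀ a b e : Bil F, X.wG (a - b) e = X.wG a e - X.wG b e := fun a b e => by
    rw [X.wG_comm, map_sub, X.wG_comm e a, X.wG_comm e b]
  set D := η₀ - η₀' with hD
  set E := (η - η₀) - (η' - η₀') with hE
  have key : X.wG η η' = X.gam c c' - X.wG D E - 1 / 2 * X.wG E E := by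
    simp only [hD, hE, wsub, map_sub, p1, p2, q1, q2, q3, X.wG_comm η' η, X.wG_comm η₀' η₀, X.wG_comm η₀ η,
      X.wG_comm η₀' η, X.wG_comm η₀ η', X.wG_comm η₀' η']
    ring
  have nE : ‖E‖ ≤ 50 * δ := (norm_sub_le _ _).trans (by linarith)
  have nP : ‖P‖ ≤ 1 := ContinuousLinearMap.opNorm_le_bound _ zero_le_one fun v => by simpa using h.norm_P_le v
  have a0 := X.ang_nonneg c c'
  have nD : ‖D‖ ≤ 100 * (X.ang c c' + 5 * δ) := by
    have : D = pb P (X.stW c (X.J c) - X.stW c' (X.J c')) := by rw [map_sub]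
    rw [this]
    refine (norm_pb_le _ _).trans ?_
    have h1 := X.stW_line_sub (b := c) (b' := c') (by linarith) (by linarith) (by linarith)
    have h2 : |‖c‖ ^ 2 - ‖c'‖ ^ 2| ≤ 5 * δ := by
      rw [abs_le] at n3 n3' ⊢
      constructor <;> nlinarith [n3.1, n3.2, n3'.1, n3'.2]
    have h3 : ‖P‖ ^ 2 ≤ 1 := by nlinarith [norm_nonneg P]
    calc _ ≤ 1 * (100 * (X.ang c c' + 5 * δ)) := by
          refine mul_le_mul h3 (h1.trans (by linarith)) (norm_nonneg _) zero_le_one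
      _ = _ := one_mul _
  have b1 : X.wG D E ≤ C₁ * (100 * (X.ang c c' + 5 * δ)) * (50 * δ) := by
    refine (le_abs_self _).trans ((hb D E).2.trans ?_)
    gcongr
  have b2 : X.wG E E ≤ C₁ * (50 * δ) * (50 * δ) := by
    refine (le_abs_self _).trans ((hb E E).2.trans ?_)
    gcongr
  have b3 : X.ang w w' ≤ X.ang c c' + 3 * δ := by
    have h1 := X.ang_le_add w c w'
    have h2 := X.ang_le_add w' c' c
    rw [X.ang_comm w' c, X.ang_comm c' c] at h2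
    rw [norm_sub_rev w c, nw'] at h1
    rw [norm_sub_rev w' c'] at h2
    nlinarith [norm_nonneg (c' - w')]
  have b4 : X.gam w w' ≤ (X.ang c c' + 3 * δ) ^ 2 := by
    rw [← X.ang_sq]
    exact pow_le_pow_left₀ (X.ang_nonneg _ _) b3 2
  rw [key, ← X.ang_sq c c']
  set a := X.ang c c'
  nlinarith [sq_nonneg (a - 6 * δ), sq_nonneg (a / 4 - 2 * (C₁ * 100 * 50) * δ), mul_nonneg hδ0 hδ0,
    mul_nonneg (by linarith : 0 ≤ C₁) (mul_nonneg hδ0 hδ0), sq_nonneg (C₁ * δ), sq_nonneg a]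

/-- `stW c (J c)` is invariant (`Fr.piM_of_inv`, `Fr.piM_pb`). -/
theorem near_inv : ∃ C : ℝ, 0 ≤ C ∧ ∀ (P : F →L[ℝ] F) (L : E4 →L[ℝ] F), X.Fr P L → ∀ (δ : ℝ) (A : F →L[ℝ] F)
    (w c d : F), δ ≤ 1 / 4 → ‖A - P‖ ≤ δ → ‖w‖ = 1 → ‖c - w‖ ≤ δ → ‖d - X.J w‖ ≤ δ →
    ‖X.piM P (pb A (X.stW c d))‖ ≤ C * δ := by
  refine ⟨25, by norm_num, ?_⟩
  intro P L h δ A w c d hδ nA nw e1 e2
  obtain ⟨-, -, -, E1⟩ := h.near_aux hδ nA nw e1 e2
  have h0 : X.piM P (pb P (X.stW c (X.J c))) = 0 := by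
    rw [h.piM_pb]
    refine h.piM_of_inv ?_
    ext u v
    simp only [pb_apply, stW_apply, W, om_apply, X.JJ, X.inner_J, inner_neg_left, inner_neg_right, X.inner_J_left]
    ring
  have : X.piM P (pb A (X.stW c d)) = X.piM P (pb A (X.stW c d) - pb P (X.stW c (X.J c))) := by
    rw [map_sub, h0, sub_zero]
  rw [this]
  exact (h.norm_pi_le _).2.1.trans E1

end Cx
end Crest.Agent.R240
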