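/-!
# Row 240 (S0371): tamed implies compatible on closed four-manifolds.  Blueprint (helper54)

Model (`Atl`): compact metric space `M`, finitely many charts onto `V = ball 0 3`, `TM = range (Pr x) ⊆ F` with constant complex
structure `J`.  Forms are maps `M → Bil F`; currents are total linear functionals on such maps.

1. (K2) Hahn-Banach in `C(SM)`: if no closed invariant form is positive there is a probability measure `lam` on the unit sphere
   bundle whose current `P b = ∫ b (w, J w)` kills closed invariant forms.
2. (O*, K1, K2) A parametrix of `γ ↦ (dγ)⁻` (scalar symbol `(1 + 4π²|ξ|²)⁻¹`), finite rank approximation and a Neumann series give: every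
   anti-invariant `τ` is `(b)⁻ - ∑ c_i e_i` with `b` closed and controlled.  Hence an anti-invariant current `T` of finite order such that
   `S = P + T` kills all closed forms.
3. (M*, R1) The Mathai-Quillen kernel `th δ` is closed: `R S δ` is a smooth closed form for closed `S`, and
   `∫ R S ∧ R S' = S (Rt (R S')) = 0`.
4. (P1) `R P' ∧ R P ≥ c · angle² - C δ²` (simple two-forms that are `O(δ)`-close to complex lines).
5. (T1, T2) With `a ε` the norm of `T` at scale `ε`: `‖(R T)⁻‖ ≤ C p + η a`, `a (Kδ) ≤ C ‖(R T)⁻‖ + C K^{-s} a δ`, so `a ε ≤ C ε⁻¹ √(mm ε)`.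
6. (E1, E2) Monotonicity formula integrated against `μ`: `mm r ≤ C r²`, so `T ∈ L²`.
7. (F1) Pointwise monotonicity: `μ (B_r) ≤ C r²`, the density `ν` exists.
8. (G1, G2) `d (F(ν_r) S) → 0` by Cauchy-Schwarz (angle energy bounded, radial deviation small), so `1_{ν = 0} P + T` is closed.
9. (H1) Pairing `S` with `1_{ν=0} P + T` gives `(R T)⁻ → 0`, so `T = 0`, so `P Ω = 0`, contradicting tameness.
10. (Br*, Main) Bridge to the statement.
-/
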