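import Crest.Prelude.Def_ManifoldTwoForm
import Crest.Agent.R240.A10
import Crest.Agent.R240.B1

/-! Block Br1: smooth charts and coordinate expressions of tensors on the manifold. -/

set_option autoImplicit false
set_option maxSynthPendingDepth 3
set_option linter.unusedSectionVars false
set_option linter.unusedVariables false
open MeasureTheory Filter Set Metric
open scoped ENNReal NNReal Topology ContDiff InnerProductSpace InnerProduct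

noncomputable section
namespace Crest.Agent.R240


open scoped Manifold
open Crest.GeometryTopology.TwoForm

variable {M : Type*} [TopologicalSpace M] [ChartedSpace E4 M] [IsManifold (𝓡 4) ∞ M]

/-- Two-forms and endomorphism fields as in the statement. -/
abbrev TF (M : Type*) [TopologicalSpace M] [ChartedSpace E4 M] : Type _ :=
  Π x : M, TangentSpace (𝓡 4) x →L[ℝ] TangentSpace (𝓡 4) x →L[ℝ] ℝ
abbrev TE (M : Type*) [TopologicalSpace M] [ChartedSpace E4 M] : Type _ :=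
  Π x : M, TangentSpace (𝓡 4) x →L[ℝ] TangentSpace (𝓡 4) x

def toB (α : TF M) (x : M) : Bil E4 := α x
def toE (J : TE M) (x : M) : E4 →L[ℝ] E4 := J x
def ofB (β : M → Bil E4) : TF M := fun x => β x
def mD (ψ : E4 → M) (z : E4) : E4 →L[ℝ] E4 := mfderiv (𝓡 4) (𝓡 4) ψ z
def mK (κ : M → E4) (x : M) : E4 →L[ℝ] E4 := mfderiv (𝓡 4) (𝓡 4) κ x

/-- A smooth chart `κ : U → W` with inverse `ψ`. -/
structure IsCh (U : Set M) (κ : M → E4) (ψ : E4 → M) (W : Set E4) : Prop where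
  U_open : IsOpen U
  W_open : IsOpen W
  κ_mem : ∀ x ∈ U, κ x ∈ W
  ψ_mem : ∀ z ∈ W, ψ z ∈ U
  κψ : ∀ z ∈ W, κ (ψ z) = z
  ψκ : ∀ x ∈ U, ψ (κ x) = x
  κ_sm : ContMDiffOn (𝓡 4) (𝓡 4) ∞ κ U
  ψ_sm : ContMDiffOn (𝓡 4) (𝓡 4) ∞ ψ W

/-- Coordinate expression of a two-form. -/
def lf (α : TF M) (ψ : E4 → M) (z : E4) : Bil E4 := pb (mD ψ z) (toB α (ψ z))
/-- Coordinate expression of an endomorphism field. -/
def lJ (J : TE M) (κ : M → E4) (ψ : E4 → M) (z : E4) : E4 →L[ℝ] E4 :=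
  (mK κ (ψ z)).comp ((toE J (ψ z)).comp (mD ψ z))

variable {U U' : Set M} {κ κ' : M → E4} {ψ ψ' : E4 → M} {W W' : Set E4}

theorem IsCh.br1a_κ (h : IsCh U κ ψ W) {x : M} (hx : x ∈ U) : MDifferentiableAt (𝓡 4) (𝓡 4) κ x :=
  (h.κ_sm.contMDiffAt (h.U_open.mem_nhds hx)).mdifferentiableAt (by simp)

theorem IsCh.br1a_ψ (h : IsCh U κ ψ W) {z : E4} (hz : z ∈ W) : MDifferentiableAt (𝓡 4) (𝓡 4) ψ z :=
  (h.ψ_sm.contMDiffAt (h.W_open.mem_nhds hz)).mdifferentiableAt (by simp)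

theorem IsCh.mK_mD (h : IsCh U κ ψ W) {z : E4} (hz : z ∈ W) (a : E4) : mK κ (ψ z) (mD ψ z a) = a := by
  have h1 := mfderiv_comp_apply z (h.br1a_κ (h.ψ_mem z hz)) (h.br1a_ψ hz) a
  have h2 : κ ∘ ψ =ᶠ[𝓝 z] id := eventually_of_mem (h.W_open.mem_nhds hz) fun y hy => h.κψ y hy
  rw [h2.mfderiv_eq, mfderiv_id] at h1
  exact h1.symm

theorem IsCh.mD_mK (h : IsCh U κ ψ W) {z : E4} (hz : z ∈ W) (u : E4) : mD ψ z (mK κ (ψ z) u) = u := by
  have hx := h.ψ_mem z hz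
  have h1 := mfderiv_comp_apply_of_eq (ψ z) (h.br1a_ψ hz) (h.br1a_κ hx) (h.κψ z hz) u
  have h2 : ψ ∘ κ =ᶠ[𝓝 (ψ z)] id := eventually_of_mem (h.U_open.mem_nhds hx) fun y hy => h.ψκ y hy
  rw [h2.mfderiv_eq, mfderiv_id] at h1
  exact h1.symm

theorem IsCh.trans_sm (h : IsCh U κ ψ W) (h' : IsCh U' κ' ψ' W') :
    ContDiffOn ℝ ∞ (κ' ∘ ψ) (W ∩ ψ ⁻¹' U') ∧ ∀ z ∈ W, ψ z ∈ U' → ∀ a,
      fderiv ℝ (κ' ∘ ψ) z a = mK κ' (ψ z) (mD ψ z a) := by
  refine ⟨contMDiffOn_iff_contDiffOn.1 (h'.κ_sm.comp (h.ψ_sm.mono inter_subset_left) inter_subset_right),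
    fun z hz hz' a => ?_⟩
  rw [← mfderiv_eq_fderiv]
  exact mfderiv_comp_apply z (h'.br1a_κ hz') (h.br1a_ψ hz) a

theorem IsCh.comp_sm (h : IsCh U κ ψ W) {G : Type*} [NormedAddCommGroup G] [NormedSpace ℝ G] {f : M → G}
    (hf : ContMDiff (𝓡 4) 𝓘(ℝ, G) ∞ f) : ContDiffOn ℝ ∞ (f ∘ ψ) W ∧ ∀ z ∈ W, ∀ a,
      fderiv ℝ (f ∘ ψ) z a = mfderiv (𝓡 4) 𝓘(ℝ, G) f (ψ z) (mD ψ z a) := by
  refine ⟨contMDiffOn_iff_contDiffOn.1 (hf.comp_contMDiffOn h.ψ_sm), fun z hz a => ?_⟩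
  rw [← mfderiv_eq_fderiv]
  exact mfderiv_comp_apply z ((hf _).mdifferentiableAt (by simp)) (h.br1a_ψ hz) a

/-- The preferred chart at a point. -/
theorem exists_isCh (x : M) : ∃ (U : Set M) (κ : M → E4) (ψ : E4 → M) (W : Set E4), IsCh U κ ψ W ∧ x ∈ U :=
  ⟨_, chartAt E4 x, (chartAt E4 x).symm, _, ⟨(chartAt E4 x).open_source, (chartAt E4 x).open_target,
    fun _ => (chartAt E4 x).map_source, fun _ => (chartAt E4 x).map_target, fun _ => (chartAt E4 x).right_inv,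
    fun _ => (chartAt E4 x).left_inv, contMDiffOn_chart, contMDiffOn_chart_symm⟩, mem_chart_source E4 x⟩

theorem br1b_push {M' : Type*} [TopologicalSpace M'] [ChartedSpace E4 M'] [IsManifold (𝓡 4) ∞ M']
    {f : M → M'} {b : E4 → M} {v : Π z, TangentSpace (𝓡 4) (b z)} {z₀ : E4}
    (hf : ContMDiffAt (𝓡 4) (𝓡 4) ∞ f (b z₀))
    (hv : ContMDiffAt (𝓡 4) (𝓡 4).tangent ∞ (fun z => (Bundle.TotalSpace.mk' E4 (b z) (v z) : TangentBundle (𝓡 4) M)) z₀) :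
    ContMDiffAt (𝓡 4) (𝓡 4).tangent ∞ (fun z => (Bundle.TotalSpace.mk' E4 (f (b z))
      (mfderiv (𝓡 4) (𝓡 4) f (b z) (v z)) : TangentBundle (𝓡 4) M')) z₀ := by
  have hb : ContMDiffAt (𝓡 4) (𝓡 4) ∞ b z₀ := by
    have := hv
    rw [ModelWithCorners.tangent, Bundle.contMDiffAt_totalSpace] at this
    exact this.1
  have h1 := (hf.mfderiv_const (m := ∞) (by simp)).comp z₀ hb
  exact ContMDiffAt.clm_apply_of_inCoordinates (b₁ := b) (b₂ := fun z => f (b z))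
    (ϕ := fun z => mfderiv (𝓡 4) (𝓡 4) f (b z)) h1 hv (hf.comp z₀ hb)

theorem br1b_coord (h : IsCh U κ ψ W) {z₀ : E4} (hz : z₀ ∈ W) (a : E4) :
    ContMDiffAt (𝓡 4) (𝓡 4).tangent ∞ (fun z => (Bundle.TotalSpace.mk' E4 (ψ z)
      (mfderiv (𝓡 4) (𝓡 4) ψ z a) : TangentBundle (𝓡 4) M)) z₀ := by
  have h1 : ContMDiffAt (𝓡 4) (𝓡 4).tangent ∞
      (fun z : E4 => (Bundle.TotalSpace.mk' E4 z (a : TangentSpace (𝓡 4) z) : TangentBundle (𝓡 4) E4)) z₀ :=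
    (contMDiffAt_vectorSpace_iff_contDiffAt (V := fun _ => a)).2 contDiffAt_const
  exact br1b_push (M := E4) (f := ψ) (b := fun z => z) (v := fun _ => a)
    (h.ψ_sm.contMDiffAt (h.W_open.mem_nhds hz)) h1

/-- The coordinate vector fields `z ↦ mD ψ z a` are smooth sections along `ψ` (`ContMDiffOn.contMDiffOn_tangentMapWithin` or
`ContMDiffAt.mfderiv_const`, `ContMDiffAt.clm_apply_of_inCoordinates`, `ContMDiffAt.clm_bundle_apply₂`). -/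
theorem IsCh.lf_sm (h : IsCh U κ ψ W) {α : TF M} (hα : IsSmoothTwoForm (𝓡 4) M α) :
    ContDiffOn ℝ ∞ (lf α ψ) W := by
  rw [contDiffOn_clm_apply]
  intro a
  rw [contDiffOn_clm_apply]
  intro c z₀ hz
  have hψ := h.ψ_sm.contMDiffAt (h.W_open.mem_nhds hz)
  have h1 : ContMDiffAt (𝓡 4) ((𝓡 4).prod 𝓘(ℝ)) ∞
      (fun z => Bundle.TotalSpace.mk' ℝ (E := Bundle.Trivial M ℝ) (ψ z)
        (α (ψ z) (mfderiv (𝓡 4) (𝓡 4) ψ z a) (mfderiv (𝓡 4) (𝓡 4) ψ z c))) z₀ := by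
    apply ContMDiffAt.clm_bundle_apply₂ (F₁ := E4) (F₂ := E4)
    · exact ContMDiffAt.comp z₀ hα.contMDiff.contMDiffAt hψ
    · exact br1b_coord h hz a
    · exact br1b_coord h hz c
  simp only [Bundle.contMDiffAt_totalSpace] at h1
  exact (contMDiffAt_iff_contDiffAt.1 h1.2).contDiffWithinAt

theorem IsCh.lJ_sm (h : IsCh U κ ψ W) {J : TE M} (hJ : IsAlmostComplexStructure (𝓡 4) M J) :
    ContDiffOn ℝ ∞ (lJ J κ ψ) W := by
  rw [contDiffOn_clm_apply]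
  intro a z₀ hz
  have hψ := h.ψ_sm.contMDiffAt (h.W_open.mem_nhds hz)
  have h1 : ContMDiffAt (𝓡 4) (𝓡 4).tangent ∞
      (fun z => (Bundle.TotalSpace.mk' E4 (ψ z) (J (ψ z) (mfderiv (𝓡 4) (𝓡 4) ψ z a)) : TangentBundle (𝓡 4) M)) z₀ := by
    apply ContMDiffAt.clm_bundle_apply (F₁ := E4)
    · exact ContMDiffAt.comp z₀ hJ.contMDiff.contMDiffAt hψ
    · exact br1b_coord h hz a
  have h2 := br1b_push (f := κ) (h.κ_sm.contMDiffAt (h.U_open.mem_nhds (h.ψ_mem z₀ hz))) h1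
  have h3 := (contMDiff_snd_tangentBundle_modelSpace E4 (𝓡 4) (n := ∞)).contMDiffAt.comp z₀ h2
  exact (contMDiffAt_iff_contDiffAt.1 h3).contDiffWithinAt

theorem br1c_pb {x₀ : M} {D : M → E4 →L[ℝ] E4} {b : M → Bil E4}
    (hD : ContMDiffAt (𝓡 4) 𝓘(ℝ, E4 →L[ℝ] E4) ∞ D x₀) (hb : ContMDiffAt (𝓡 4) 𝓘(ℝ, Bil E4) ∞ b x₀) :
    ContMDiffAt (𝓡 4) 𝓘(ℝ, Bil E4) ∞ (fun x => pb (D x) (b x)) x₀ := by
  have h1 : ContMDiffAt (𝓡 4) 𝓘(ℝ, (E4 →L[ℝ] ℝ) →L[ℝ] E4 →L[ℝ] ℝ) ∞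
      (fun x => (ContinuousLinearMap.compL ℝ E4 E4 ℝ).flip (D x)) x₀ :=
    ((ContinuousLinearMap.compL ℝ E4 E4 ℝ).flip.contDiff.contMDiff _).comp x₀ hD
  exact h1.clm_comp (hb.clm_comp hD)

/-- `contMDiffAt_hom_bundle`/`contMDiffAt_section`: in the trivialisation at `x₀` the section is `pb (D) (lf β ψ (κ x))` with
`D = inCoordinates`-type matrix `mK κ x ∘ (trivialisation inverse)`, the derivative of the transition map to the preferred chart. -/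
theorem smooth_of_charts {β : TF M} (ha : ∀ x v, β x v v = 0)
    (h : ∀ x, ∃ (U : Set M) (κ : M → E4) (ψ : E4 → M) (W : Set E4), IsCh U κ ψ W ∧ x ∈ U ∧
      ContDiffOn ℝ ∞ (lf β ψ) W) : IsSmoothTwoForm (𝓡 4) M β := by
  refine ⟨ha, fun x₀ => ?_⟩
  obtain ⟨U, κ, ψ, W, hc, hx, hs⟩ := h x₀
  have hκ : ContMDiffAt (𝓡 4) (𝓡 4) ∞ κ x₀ := hc.κ_sm.contMDiffAt (hc.U_open.mem_nhds hx)
  have hD : ContMDiffAt (𝓡 4) 𝓘(ℝ, E4 →L[ℝ] E4) ∞
      (inTangentCoordinates (𝓡 4) (𝓡 4) id κ (mfderiv (𝓡 4) (𝓡 4) κ) x₀) x₀ :=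
    hκ.mfderiv_const (by simp)
  have hb : ContMDiffAt (𝓡 4) 𝓘(ℝ, Bil E4) ∞ (fun x => lf β ψ (κ x)) x₀ :=
    (hs.contDiffAt (hc.W_open.mem_nhds (hc.κ_mem _ hx))).contMDiffAt.comp x₀ hκ
  rw [Bundle.contMDiffAt_section]
  refine (br1c_pb hD hb).congr_of_eventuallyEq ?_
  filter_upwards [hc.U_open.mem_nhds hx,
    (chartAt E4 x₀).open_source.mem_nhds (mem_chart_source E4 x₀)] with x hxU hxc
  ext v w
  have hb1 : x ∈ (trivializationAt E4 (TangentSpace (𝓡 4)) x₀).baseSet := by simpa using hxc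
  have hD' : ∀ u : E4, mD ψ (κ x) (inTangentCoordinates (𝓡 4) (𝓡 4) id κ
      (mfderiv (𝓡 4) (𝓡 4) κ) x₀ x u) =
      (trivializationAt E4 (TangentSpace (𝓡 4)) x₀).symm x u := by
    intro u
    have h1 := hc.mD_mK (hc.κ_mem _ hxU) ((trivializationAt E4 (TangentSpace (𝓡 4)) x₀).symm x u)
    rw [hc.ψκ x hxU] at h1
    rw [← h1]
    congr 1
    simp only [inTangentCoordinates, ContinuousLinearMap.inCoordinates,
      TangentBundle.continuousLinearMapAt_model_space]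
    rw [← Bundle.Trivialization.symmL_apply (R := ℝ) _ hb1]
    rfl
  have h2 := inCoordinates_apply_eq₂ (𝕜 := ℝ) (F₁ := E4) (F₂ := E4) (F₃ := ℝ)
    (E₁ := TangentSpace (𝓡 4)) (E₂ := TangentSpace (𝓡 4)) (E₃ := fun _ : M => ℝ)
    (x₀ := x₀) (x := x) (ϕ := β x) (v := v) (w := w) hb1 hb1 (by simp)
  simp only [pb_apply, lf, hD', hc.ψκ x hxU]
  refine h2.trans ?_
  simp [toB]
  rfl

/-- Coordinate expression of a vector field. -/
def br1d_cf (ψ : E4 → M) (X : Π x : M, TangentSpace (𝓡 4) x) : E4 → E4 :=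
  VectorField.mpullback (𝓡 4) (𝓡 4) ψ X

theorem IsCh.br1d_pb (h : IsCh U κ ψ W) (X : Π x : M, TangentSpace (𝓡 4) x) {z : E4} (hz : z ∈ W) :
    br1d_cf ψ X z = mK κ (ψ z) (X (ψ z)) := by
  have e : (mD ψ z).inverse = mK κ (ψ z) := ContinuousLinearMap.inverse_eq
    (ContinuousLinearMap.ext (h.mD_mK hz)) (ContinuousLinearMap.ext (h.mK_mD hz))
  rw [← e]
  rfl

theorem IsCh.br1d_diff (h : IsCh U κ ψ W) {X : Π x : M, TangentSpace (𝓡 4) x}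
    (hX : IsSmoothVectorField (𝓡 4) M X) {z : E4} (hz : z ∈ W) : DifferentiableAt ℝ (br1d_cf ψ X) z := by
  have hi : (mD ψ z).IsInvertible := ContinuousLinearMap.IsInvertible.of_inverse
    (ContinuousLinearMap.ext (h.mD_mK hz)) (ContinuousLinearMap.ext (h.mK_mD hz))
  have h1 := ContMDiffAt.mpullback_vectorField_preimage (m := 1) ((hX (ψ z)).of_le (by simp))
    (h.ψ_sm.contMDiffAt (h.W_open.mem_nhds hz)) hi (by norm_cast)
  exact (contMDiffAt_vectorSpace_iff_contDiffAt.1 h1).differentiableAt one_ne_zero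

theorem IsCh.br1d_brk (h : IsCh U κ ψ W) {X Y : Π x : M, TangentSpace (𝓡 4) x}
    (hX : IsSmoothVectorField (𝓡 4) M X) (hY : IsSmoothVectorField (𝓡 4) M Y) {z : E4} (hz : z ∈ W) :
    mK κ (ψ z) (VectorField.mlieBracket (𝓡 4) X Y (ψ z)) =
      fderiv ℝ (br1d_cf ψ Y) z (br1d_cf ψ X z) - fderiv ℝ (br1d_cf ψ X) z (br1d_cf ψ Y z) := by
  have : IsManifold (𝓡 4) (minSmoothness ℝ 2) M := by
    rw [minSmoothness_of_isRCLikeNormedField]; infer_instance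
  have h1 := VectorField.mpullback_mlieBracket ((hX (ψ z)).mdifferentiableAt (by simp))
    ((hY (ψ z)).mdifferentiableAt (by simp)) (h.ψ_sm.contMDiffAt (h.W_open.mem_nhds hz))
    (by rw [minSmoothness_of_isRCLikeNormedField]; norm_cast)
  rw [← VectorField.mlieBracketWithin_univ (V := VectorField.mpullback _ _ ψ X),
    VectorField.mlieBracketWithin_eq_lieBracketWithin, VectorField.lieBracketWithin_univ] at h1
  exact (h.br1d_pb _ hz).symm.trans h1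

theorem IsCh.br1d_ev (h : IsCh U κ ψ W) (β : TF M) {z : E4} (hz : z ∈ W) (u v : TangentSpace (𝓡 4) (ψ z)) :
    β (ψ z) u v = lf β ψ z (mK κ (ψ z) u) (mK κ (ψ z) v) := by
  rw [lf, pb_apply, h.mD_mK hz, h.mD_mK hz]
  rfl

theorem br1d_skew {β : TF M} (hβ : IsSmoothTwoForm (𝓡 4) M β) (x : M) (u v : TangentSpace (𝓡 4) x) :
    β x u v = -β x v u := by
  have := hβ.alternating x (u + v)
  simp only [map_add, add_apply, hβ.alternating] at this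
  linarith

theorem IsCh.br1d_dskew (h : IsCh U κ ψ W) {β : TF M} (hβ : IsSmoothTwoForm (𝓡 4) M β) {z : E4} (hz : z ∈ W)
    (a u v : E4) : fderiv ℝ (lf β ψ) z a u v = -fderiv ℝ (lf β ψ) z a v u := by
  have hd : HasFDerivAt (lf β ψ) (fderiv ℝ (lf β ψ) z) z :=
    (((h.lf_sm hβ).contDiffAt (h.W_open.mem_nhds hz)).differentiableAt (by simp)).hasFDerivAt
  have h1 := (evB u v + evB v u).hasFDerivAt.comp z hd
  have h2 : ((evB u v + evB v u : Bil E4 →L[ℝ] ℝ) ∘ lf β ψ) = fun _ => 0 := funext fun w => by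
    have : lf β ψ w u v = -lf β ψ w v u := br1d_skew hβ _ _ _
    simp [this]
  rw [h2] at h1
  have h3 := congrArg (fun L : E4 →L[ℝ] ℝ => L a) (h1.unique (hasFDerivAt_const 0 z))
  simp only [ContinuousLinearMap.comp_apply, add_apply, evB_apply, zero_apply] at h3
  linarith

theorem IsCh.br1d_lie (h : IsCh U κ ψ W) {β : TF M} (hβ : IsSmoothTwoForm (𝓡 4) M β)
    (X : Π x : M, TangentSpace (𝓡 4) x) {Y Z : Π x : M, TangentSpace (𝓡 4) x}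
    (hY : IsSmoothVectorField (𝓡 4) M Y) (hZ : IsSmoothVectorField (𝓡 4) M Z) {z : E4} (hz : z ∈ W) :
    lieDerivFun (𝓡 4) M X (fun y => β y (Y y) (Z y)) (ψ z) =
      fderiv ℝ (lf β ψ) z (br1d_cf ψ X z) (br1d_cf ψ Y z) (br1d_cf ψ Z z) +
        lf β ψ z (fderiv ℝ (br1d_cf ψ Y) z (br1d_cf ψ X z)) (br1d_cf ψ Z z) +
        lf β ψ z (br1d_cf ψ Y z) (fderiv ℝ (br1d_cf ψ Z) z (br1d_cf ψ X z)) := by
  have hx := h.ψ_mem z hz
  have hd : HasFDerivAt (lf β ψ) (fderiv ℝ (lf β ψ) z) z :=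
    (((h.lf_sm hβ).contDiffAt (h.W_open.mem_nhds hz)).differentiableAt (by simp)).hasFDerivAt
  have h1 := (hd.clm_apply (h.br1d_diff hY hz).hasFDerivAt).clm_apply (h.br1d_diff hZ hz).hasFDerivAt
  have h2 : (fun y => β y (Y y) (Z y)) =ᶠ[𝓝 (ψ z)]
      (fun w => lf β ψ w (br1d_cf ψ Y w) (br1d_cf ψ Z w)) ∘ κ := by
    filter_upwards [h.U_open.mem_nhds hx] with y hy
    obtain ⟨w, hw, rfl⟩ : ∃ w ∈ W, ψ w = y := ⟨κ y, h.κ_mem y hy, h.ψκ y hy⟩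
    rw [Function.comp_apply, h.κψ w hw, h.br1d_pb Y hw, h.br1d_pb Z hw, h.br1d_ev β hw]
  have h3 := mfderiv_comp_apply_of_eq (ψ z) h1.differentiableAt.mdifferentiableAt (h.br1a_κ hx) (h.κψ z hz) (X (ψ z))
  rw [lieDerivFun, h2.mfderiv_eq]
  refine h3.trans ?_
  have h4 := congrArg (fun L : E4 →L[ℝ] ℝ => L (br1d_cf ψ X z)) h1.fderiv
  simp only [ContinuousLinearMap.comp_apply, add_apply, ContinuousLinearMap.flip_apply] at h4
  rw [mfderiv_eq_fderiv]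
  refine Eq.trans ?_ (h4.trans (by ring))
  rw [h.br1d_pb X hz]
  rfl

/-- The invariant formula in a chart.  Put `X' z = mK κ (ψ z) (X (ψ z))` (smooth on `W`; it is `VectorField.mpullback ψ X`),
`mK κ (mlieBracket X Y) = lieBracket X' Y'` (`VectorField.mpullback_mlieBracket`, `mlieBracket_eq_lieBracket`),
`β y (Y y) (Z y) = lf β ψ (κ y) (Y' (κ y)) (Z' (κ y))` near `x`; product rule and skewness. -/
theorem IsCh.extDeriv_eq (h : IsCh U κ ψ W) {β : TF M} (hβ : IsSmoothTwoForm (𝓡 4) M β)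
    {X Y Z : Π x : M, TangentSpace (𝓡 4) x} (hX : IsSmoothVectorField (𝓡 4) M X)
    (hY : IsSmoothVectorField (𝓡 4) M Y) (hZ : IsSmoothVectorField (𝓡 4) M Z) {x : M} (hx : x ∈ U) :
    extDerivOnFields (𝓡 4) M β X Y Z x =
      dcyc (lf β ψ) (κ x) (mK κ x (X x)) (mK κ x (Y x)) (mK κ x (Z x)) := by
  obtain ⟨z, hz, rfl⟩ : ∃ z ∈ W, ψ z = x := ⟨κ x, h.κ_mem x hx, h.ψκ x hx⟩
  have sk : ∀ u v, lf β ψ z u v = -lf β ψ z v u := fun u v => br1d_skew hβ _ _ _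
  have sk' : ∀ a u v, fderiv ℝ (lf β ψ) z a u v = -fderiv ℝ (lf β ψ) z a v u := h.br1d_dskew hβ hz
  rw [extDerivOnFields, h.br1d_lie hβ X hY hZ hz, h.br1d_lie hβ Y hX hZ hz, h.br1d_lie hβ Z hX hY hz,
    h.br1d_ev β hz, h.br1d_ev β hz, h.br1d_ev β hz, h.br1d_brk hX hY hz, h.br1d_brk hX hZ hz,
    h.br1d_brk hY hZ hz, h.κψ z hz, ← h.br1d_pb X hz, ← h.br1d_pb Y hz, ← h.br1d_pb Z hz, dcyc]
  simp only [map_sub, sub_apply]
  rw [sk' (br1d_cf ψ Y z) (br1d_cf ψ Z z), sk (br1d_cf ψ Y z), sk (br1d_cf ψ X z), sk (br1d_cf ψ X z)]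
  ring

/-- A smooth bump function times a coordinate vector field. -/
theorem exists_field [T2Space M] (x : M) (v : TangentSpace (𝓡 4) x) :
    ∃ X : Π y : M, TangentSpace (𝓡 4) y, IsSmoothVectorField (𝓡 4) M X ∧ X x = v := by
  obtain ⟨s, hs, hv⟩ := FiberBundle.exists_contMDiffOn_extend (k := ∞) (V := TangentSpace (𝓡 4) (M := M))
    (𝓡 4) E4 v
  obtain ⟨f, -, hf⟩ := (SmoothBumpFunction.nhds_basis_tsupport (I := 𝓡 4) x).mem_iff.1 (interior_mem_nhds.2 hs)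
  refine ⟨(f : M → ℝ) • FiberBundle.extend E4 v, ContMDiffOn.smul_section_of_tsupport f.contMDiff.contMDiffOn
    isOpen_interior hf (hv.mono interior_subset), ?_⟩
  simp

end Crest.Agent.R240
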