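import Crest.Agent.R240.Br1

/-! Block Br2: unitary charts. -/

set_option autoImplicit false
set_option maxSynthPendingDepth 3
set_option linter.unusedSectionVars false
set_option linter.unusedVariables false
open MeasureTheory Filter Set Metric
open scoped ENNReal NNReal Topology ContDiff InnerProductSpace InnerProduct

noncomputable section
namespace Crest.Agent.R240


open scoped Manifold
open Crest.GeometryTopology.TwoForm

variable {M : Type*} [MetricSpace M] [ChartedSpace E4 M] [IsManifold (𝓡 4) ∞ M]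

/-- The map sending the coordinate vectors to the frame `p, J p, q, J q`. -/
def br2aI (J : E4 →L[ℝ] E4) (p q : E4) : E4 →L[ℝ] E4 :=
  (EuclideanSpace.proj (0 : Fin 4)).smulRight p + (EuclideanSpace.proj (1 : Fin 4)).smulRight (J p) +
    (EuclideanSpace.proj (2 : Fin 4)).smulRight q + (EuclideanSpace.proj (3 : Fin 4)).smulRight (J q)

/-- Coordinates in the frame `p, J p, q, J q`. -/
def br2aG (h : Bil E4) (J : E4 →L[ℝ] E4) (p q : E4) : E4 →L[ℝ] E4 :=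
  (h p).smulRight (ee 0) + (h (J p)).smulRight (ee 1) + (h q).smulRight (ee 2) + (h (J q)).smulRight (ee 3)

theorem br2aI_apply (J : E4 →L[ℝ] E4) (p q a : E4) :
    br2aI J p q a = a 0 • p + a 1 • J p + a 2 • q + a 3 • J q := rfl

theorem br2aG_apply (h : Bil E4) (J : E4 →L[ℝ] E4) (p q a : E4) :
    br2aG h J p q a 0 = h p a ∧ br2aG h J p q a 1 = h (J p) a ∧ br2aG h J p q a 2 = h q a ∧
      br2aG h J p q a 3 = h (J q) a := by
  simp [br2aG, ee]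

theorem br2a_ext {a b : E4} (h0 : a 0 = b 0) (h1 : a 1 = b 1) (h2 : a 2 = b 2) (h3 : a 3 = b 3) : a = b := by
  ext i
  fin_cases i
  exacts [h0, h1, h2, h3]

theorem br2a_skew {h : Bil E4} {J : E4 →L[ℝ] E4} (hJJ : ∀ a, J (J a) = -a) (hi : ∀ a b, h (J a) (J b) = h a b)
    (a b : E4) : h a (J b) = -h (J a) b := by
  rw [← hi a (J b), hJJ, map_neg]

theorem br2a_zero {h : Bil E4} {J : E4 →L[ℝ] E4} (hs : ∀ a b, h a b = h b a) (hJJ : ∀ a, J (J a) = -a)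
    (hi : ∀ a b, h (J a) (J b) = h a b) (a : E4) : h (J a) a = 0 := by
  have h1 := br2a_skew hJJ hi a a
  rw [hs a] at h1
  linarith

theorem br2a_alg {h : Bil E4} {J : E4 →L[ℝ] E4} (hs : ∀ a b, h a b = h b a) (hJJ : ∀ a, J (J a) = -a)
    (hi : ∀ a b, h (J a) (J b) = h a b) {p q : E4} (hp : h p p = 1) (hq : h q q = 1) (h1 : h p q = 0)
    (h2 : h (J p) q = 0) :
    (∀ a, br2aG h J p q (br2aI J p q a) = a) ∧ (∀ a, br2aI J p q (br2aG h J p q a) = a) ∧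
      (∀ a b, ⟪br2aG h J p q a, br2aG h J p q b⟫_ℝ = h a b) ∧
        ∀ a, br2aG h J p q (J a) = J0 (br2aG h J p q a) := by
  have sk := br2a_skew hJJ hi
  have z := br2a_zero hs hJJ hi
  have k1 : ∀ a, br2aG h J p q (br2aI J p q a) = a := fun a => by
    obtain ⟨g0, g1, g2, g3⟩ := br2aG_apply h J p q (br2aI J p q a)
    refine br2a_ext (g0.trans ?_) (g1.trans ?_) (g2.trans ?_) (g3.trans ?_) <;>
      simp only [br2aI_apply, map_add, map_smul, smul_eq_mul, hi, sk p p, sk p q, sk q q, hs q p, hs q (J p),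
        hs (J q) p, z, hp, hq, h1, h2] <;> ring
  have k2 : ∀ a, br2aI J p q (br2aG h J p q a) = a := fun a => by
    obtain ⟨b, rfl⟩ := (LinearMap.injective_iff_surjective (f := (br2aI J p q : E4 →ₗ[ℝ] E4))).1
      (Function.LeftInverse.injective k1) a
    exact congrArg (br2aI J p q) (k1 b)
  refine ⟨k1, k2, fun a b => ?_, fun a => ?_⟩
  · obtain ⟨g0, g1, g2, g3⟩ := br2aG_apply h J p q a
    conv_rhs => rw [← k2 b]
    simp only [PiLp.inner_apply, Fin.sum_univ_four, RCLike.inner_apply, conj_trivial, br2aI_apply, map_add, map_smul,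
      smul_eq_mul, add_apply, smul_apply, g0, g1, g2, g3, hs a]
  · obtain ⟨g0, g1, g2, g3⟩ := br2aG_apply h J p q a
    obtain ⟨f0, f1, f2, f3⟩ := br2aG_apply h J p q (J a)
    obtain ⟨j0, j1, j2, j3⟩ := J0_apply (br2aG h J p q a)
    refine br2a_ext ?_ ?_ ?_ ?_
    · rw [f0, j0, g1, sk]
    · rw [f1, j1, g0, hi]
    · rw [f2, j2, g3, sk]
    · rw [f3, j3, g2, hi]

theorem br2a_unit {h : Bil E4} {a : E4} (ha : 0 < h a a) : h ((√(h a a))⁻¹ • a) ((√(h a a))⁻¹ • a) = 1 := by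
  have h1 := Real.mul_self_sqrt ha.le
  have h2 := (Real.sqrt_pos.2 ha).ne'
  simp only [map_smul, smul_apply, smul_eq_mul]
  generalize √(h a a) = s at *
  rw [← h1]
  field_simp

theorem br2a_sm {O : Set E4} {h : E4 → Bil E4} {w : E4 → E4} (hh : ContDiffOn ℝ ∞ h O) (hw : ContDiffOn ℝ ∞ w O)
    (hp : ∀ z ∈ O, 0 < h z (w z) (w z)) : ContDiffOn ℝ ∞ (fun z => (√(h z (w z) (w z)))⁻¹ • w z) O :=
  ((((hh.clm_apply hw).clm_apply hw).sqrt fun z hz => (hp z hz).ne').inv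
    fun z hz => (Real.sqrt_pos.2 (hp z hz)).ne').smul hw

theorem br2a_ex (f g : E4 →L[ℝ] ℝ) (p q : E4) : ∃ a, a - f a • p - g a • q ≠ 0 := by
  by_contra hc
  push Not at hc
  have e : ∀ a, a = f a • p + g a • q := fun a => by rw [← sub_eq_zero, ← sub_sub, hc]
  have h1 := LinearMap.finrank_le_finrank_of_injective (f := (f.prod g : E4 →ₗ[ℝ] ℝ × ℝ)) fun a b hab => by
    have h2 : f a = f b := congrArg Prod.fst hab
    have h3 : g a = g b := congrArg Prod.snd hab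
    rw [e a, e b, ← e a, ← e b, e a, h2, h3, ← e b]
  simp at h1

/-- Gram-Schmidt near the origin: `e₀ = a₀/|a₀|`, `e₁ = J e₀`, `e₂` the normalised projection of `a₂ ∉ span (a₀, J(0) a₀)`, `e₃ = J e₂`;
`gi z = ∑ μ, (proj μ).smulRight (e_μ z)`, `g z a = ∑ μ, h z a (e_μ z) • ee μ`; `g ∘ gi = id` by orthonormality, `gi ∘ g = id` by dimension. -/
theorem exists_frame {O : Set E4} (hO : IsOpen O) {z₀ : E4} (hz : z₀ ∈ O) {h : E4 → Bil E4} {J : E4 → E4 →L[ℝ] E4}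
    (hh : ContDiffOn ℝ ∞ h O) (hJ : ContDiffOn ℝ ∞ J O) (hs : ∀ z ∈ O, ∀ a b, h z a b = h z b a)
    (hp : ∀ z ∈ O, ∀ a, a ≠ 0 → 0 < h z a a) (hJJ : ∀ z ∈ O, ∀ a, J z (J z a) = -a)
    (hi : ∀ z ∈ O, ∀ a b, h z (J z a) (J z b) = h z a b) :
    ∃ (O' : Set E4) (g gi : E4 → E4 →L[ℝ] E4), IsOpen O' ∧ z₀ ∈ O' ∧ O' ⊆ O ∧ ContDiffOn ℝ ∞ g O' ∧
      ContDiffOn ℝ ∞ gi O' ∧ ∀ z ∈ O', (∀ a, g z (gi z a) = a) ∧ (∀ a, gi z (g z a) = a) ∧
        (∀ a b, ⟪g z a, g z b⟫_ℝ = h z a b) ∧ ∀ a, g z (J z a) = J0 (g z a) := by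
  have h0 : ee 0 ≠ 0 := fun h => by simpa [ee] using congrArg (fun v : E4 => v 0) h
  obtain ⟨p, hps, hp1⟩ : ∃ p : E4 → E4, ContDiffOn ℝ ∞ p O ∧ ∀ z ∈ O, h z (p z) (p z) = 1 :=
    ⟨_, br2a_sm hh (contDiffOn_const (c := ee 0)) fun z hz => hp z hz _ h0, fun z hz => br2a_unit (hp z hz _ h0)⟩
  obtain ⟨a, ha⟩ := br2a_ex (h z₀ (p z₀)) (h z₀ (J z₀ (p z₀))) (p z₀) (J z₀ (p z₀))
  have hJp := hJ.clm_apply hps
  obtain ⟨w, hws, hw0, hw1, hw2⟩ : ∃ w : E4 → E4, ContDiffOn ℝ ∞ w O ∧ w z₀ ≠ 0 ∧ (∀ z ∈ O, h z (p z) (w z) = 0) ∧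
      ∀ z ∈ O, h z (J z (p z)) (w z) = 0 := by
    refine ⟨fun z => a - h z (p z) a • p z - h z (J z (p z)) a • J z (p z),
      (contDiffOn_const.sub (((hh.clm_apply hps).clm_apply contDiffOn_const).smul hps)).sub
        (((hh.clm_apply hJp).clm_apply contDiffOn_const).smul hJp), ha, fun z hz => ?_, fun z hz => ?_⟩
    · simp only [map_sub, map_smul, smul_eq_mul, hp1 z hz, hs z hz (p z) (J z (p z)),
        br2a_zero (hs z hz) (hJJ z hz) (hi z hz)]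
      ring
    · simp only [map_sub, map_smul, smul_eq_mul, hp1 z hz, hi z hz, br2a_zero (hs z hz) (hJJ z hz) (hi z hz)]
      ring
  have hO' : IsOpen (O ∩ w ⁻¹' {0}ᶜ) := hws.continuousOn.isOpen_inter_preimage hO isOpen_compl_singleton
  have hsub : O ∩ w ⁻¹' {0}ᶜ ⊆ O := inter_subset_left
  have hpos : ∀ z ∈ O ∩ w ⁻¹' {0}ᶜ, 0 < h z (w z) (w z) := fun z hz => hp z hz.1 _ hz.2
  have hq := br2a_sm (hh.mono hsub) (hws.mono hsub) hpos
  have hJq := (hJ.mono hsub).clm_apply hq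
  have hh' := hh.mono hsub
  refine ⟨_, fun z => br2aG (h z) (J z) (p z) ((√(h z (w z) (w z)))⁻¹ • w z),
    fun z => br2aI (J z) (p z) ((√(h z (w z) (w z)))⁻¹ • w z), hO', ⟨hz, hw0⟩, hsub,
    ((((hh'.clm_apply (hps.mono hsub)).smulRight contDiffOn_const).add
      ((hh'.clm_apply (hJp.mono hsub)).smulRight contDiffOn_const)).add
        ((hh'.clm_apply hq).smulRight contDiffOn_const)).add ((hh'.clm_apply hJq).smulRight contDiffOn_const),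
    (((contDiffOn_const.smulRight (hps.mono hsub)).add (contDiffOn_const.smulRight (hJp.mono hsub))).add
      (contDiffOn_const.smulRight hq)).add (contDiffOn_const.smulRight hJq), fun z hz => ?_⟩
  exact br2a_alg (hs z hz.1) (hJJ z hz.1) (hi z hz.1) (hp1 z hz.1) (br2a_unit (hpos z hz))
    (by rw [map_smul, hw1 z hz.1, smul_zero]) (by rw [map_smul, hw2 z hz.1, smul_zero])

/-- The Hermitian metric of a taming form. -/
def hm (α : TF M) (J : TE M) (x : M) (u v : E4) : ℝ :=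
  (toB α x u (toE J x v) + toB α x v (toE J x u)) / 2

/-- A unitary chart onto `V`. -/
structure LC (α : TF M) (J : TE M) where
  U : Set M
  κ : M → E4
  ψ : E4 → M
  g : E4 → E4 →L[ℝ] E4
  gi : E4 → E4 →L[ℝ] E4
  ch : IsCh U κ ψ V
  lip : ∃ C : ℝ, 1 ≤ C ∧ ∀ x ∈ U, ∀ y ∈ U, ‖κ x - κ y‖ ≤ C * dist x y ∧ dist x y ≤ C * ‖κ x - κ y‖
  g_sm : ContDiffOn ℝ ∞ g V
  gi_sm : ContDiffOn ℝ ∞ gi V
  g_gi : ∀ z ∈ V, ∀ a, g z (gi z a) = a
  gi_g : ∀ z ∈ V, ∀ a, gi z (g z a) = a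
  gi_bd : ∃ C : ℝ, ∀ z ∈ V, ‖gi z‖ ≤ C
  det_pos : ∀ z ∈ V, 0 < (g z).det
  iso : ∀ z ∈ V, ∀ a b, ⟪g z a, g z b⟫_ℝ = hm α J (ψ z) (mD ψ z a) (mD ψ z b)
  cx : ∀ z ∈ V, ∀ a, g z (lJ J κ ψ z a) = J0 (g z a)

/-- A `C¹` map with injective derivative is bi-Lipschitz on a small ball (`HasStrictFDerivAt`, antilipschitz linear map). -/
theorem bilip_near {G : Type*} [NormedAddCommGroup G] [NormedSpace ℝ G] {f : E4 → G} {z₀ : E4}
    (hf : ContDiffAt ℝ ∞ f z₀) (hi : Function.Injective (fderiv ℝ f z₀)) :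
    ∃ r C : ℝ, 0 < r ∧ 1 ≤ C ∧ ∀ z ∈ ball z₀ r, ∀ w ∈ ball z₀ r,
      ‖z - w‖ ≤ C * ‖f z - f w‖ ∧ ‖f z - f w‖ ≤ C * ‖z - w‖ := by
  obtain ⟨K, hK, hA⟩ := (LinearMap.injective_iff_antilipschitz (fderiv ℝ f z₀).toLinearMap).1 hi
  have hK' : (0 : ℝ) < K := hK
  have hA' : ∀ v, ‖v‖ ≤ K * ‖fderiv ℝ f z₀ v‖ := fun v => by
    simpa using hA.le_mul_dist v 0
  have h1 := (hf.hasStrictFDerivAt (by simp)).isLittleO.def (c := 1 / (2 * K)) (by positivity)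
  obtain ⟨r, hr, h2⟩ := Metric.eventually_nhds_iff_ball.1 h1
  have n0 := norm_nonneg (fderiv ℝ f z₀)
  refine ⟨r, 1 + 2 * K + ‖fderiv ℝ f z₀‖ + 1 / (2 * K), hr, ?_, fun z hz w hw => ?_⟩
  · have : (0 : ℝ) < 1 / (2 * K) := by positivity
    linarith
  have h3 : ‖f z - f w - fderiv ℝ f z₀ (z - w)‖ ≤ 1 / (2 * K) * ‖z - w‖ :=
    h2 (z, w) (by rw [← ball_prod_same]; exact ⟨hz, hw⟩)
  have h4 := hA' (z - w)
  have h5 := (fderiv ℝ f z₀).le_opNorm (z - w)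
  have h6 : ‖fderiv ℝ f z₀ (z - w)‖ ≤ ‖f z - f w‖ + ‖f z - f w - fderiv ℝ f z₀ (z - w)‖ := by
    simpa using norm_sub_le (f z - f w) (f z - f w - fderiv ℝ f z₀ (z - w))
  have h7 : ‖f z - f w‖ ≤ ‖f z - f w - fderiv ℝ f z₀ (z - w)‖ + ‖fderiv ℝ f z₀ (z - w)‖ := by
    simpa using norm_add_le (f z - f w - fderiv ℝ f z₀ (z - w)) (fderiv ℝ f z₀ (z - w))
  have h8 : (K : ℝ) * (1 / (2 * K) * ‖z - w‖) = ‖z - w‖ / 2 := by field_simp
  have n1 := norm_nonneg (z - w)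
  have n2 := norm_nonneg (f z - f w)
  have n3 : (0 : ℝ) < 1 / (2 * K) := by positivity
  constructor
  · have h9 := mul_le_mul_of_nonneg_left (h6.trans (add_le_add le_rfl h3)) hK'.le
    rw [mul_add, h8] at h9
    nlinarith [mul_nonneg n0 n2, mul_nonneg n3.le n2]
  · nlinarith [mul_nonneg hK'.le n1]

/-- Affine reparametrisation `z ↦ z₀ + B z` of a chart, restricted to `V`. -/
theorem IsCh.affine {U : Set M} {κ : M → E4} {ψ : E4 → M} {W : Set E4} (h : IsCh U κ ψ W) (z₀ : E4)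
    (B : E4 ≃L[ℝ] E4) (hB : ∀ z ∈ V, z₀ + B z ∈ W) :
    IsCh (U ∩ κ ⁻¹' ((fun z => z₀ + B z) '' V)) (fun x => B.symm (κ x - z₀)) (fun z => ψ (z₀ + B z)) V ∧
      ∀ z ∈ V, (∀ a, mD (fun z => ψ (z₀ + B z)) z a = mD ψ (z₀ + B z) (B a)) ∧
        ∀ u, mK (fun x => B.symm (κ x - z₀)) (ψ (z₀ + B z)) u = B.symm (mK κ (ψ (z₀ + B z)) u) := by
  have hA : ContDiff ℝ ∞ (fun z => z₀ + B z) := contDiff_const.add B.contDiff
  have hA' : ContDiff ℝ ∞ (fun w => B.symm (w - z₀)) := B.symm.contDiff.comp (contDiff_id.sub contDiff_const)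
  have hO : IsOpen ((fun z => z₀ + B z) '' V) :=
    ((isOpenMap_add_left z₀).comp B.toHomeomorph.isOpenMap) V isOpen_ball
  refine ⟨⟨h.κ_sm.continuousOn.isOpen_inter_preimage h.U_open hO, isOpen_ball, ?_, fun z hz => ?_, fun z hz => ?_,
    fun x hx => ?_, hA'.contMDiff.comp_contMDiffOn (h.κ_sm.mono inter_subset_left),
    h.ψ_sm.comp hA.contMDiff.contMDiffOn hB⟩, fun z hz => ⟨fun a => ?_, fun u => ?_⟩⟩
  · rintro x ⟨hx, z, hz, hxz⟩
    have hxz' : z₀ + B z = κ x := hxz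
    rw [← hxz', add_sub_cancel_left, B.symm_apply_apply]
    exact hz
  · exact ⟨h.ψ_mem _ (hB z hz), z, hz, (h.κψ _ (hB z hz)).symm⟩
  · rw [h.κψ _ (hB z hz), add_sub_cancel_left, B.symm_apply_apply]
  · rw [B.apply_symm_apply, add_sub_cancel, h.ψκ x hx.1]
  · have h1 : HasMFDerivAt (𝓡 4) (𝓡 4) (fun z => z₀ + B z) z (B : E4 →L[ℝ] E4) :=
      ((B : E4 →L[ℝ] E4).hasFDerivAt.const_add z₀).hasMFDerivAt
    have h2 := ((h.ψ_sm.contMDiffAt (h.W_open.mem_nhds (hB z hz))).mdifferentiableAt (by simp)).hasMFDerivAt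
    have h3 := (HasMFDerivAt.comp z h2 h1).mfderiv
    exact congrArg (fun T : E4 →L[ℝ] E4 => T a) h3
  · have h1 : HasMFDerivAt (𝓡 4) (𝓡 4) (fun w => B.symm (w - z₀)) (κ (ψ (z₀ + B z))) (B.symm : E4 →L[ℝ] E4) :=
      ((B.symm : E4 →L[ℝ] E4).hasFDerivAt.comp _ ((hasFDerivAt_id _).sub_const z₀)).hasMFDerivAt
    have h2 := ((h.κ_sm.contMDiffAt (h.U_open.mem_nhds (h.ψ_mem _ (hB z hz)))).mdifferentiableAt
      (by simp)).hasMFDerivAt
    have h3 := (HasMFDerivAt.comp _ h1 h2).mfderiv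
    exact congrArg (fun T : E4 →L[ℝ] E4 => T u) h3

theorem br2c_inv {α : TF M} {J : TE M} (hα : IsSmoothTwoForm (𝓡 4) M α)
    (hJ : IsAlmostComplexStructure (𝓡 4) M J) (x : M) (u v : E4) :
    hm α J x (toE J x u) (toE J x v) = hm α J x u v := by
  have h1 : ∀ u : E4, toE J x (toE J x u) = -u := hJ.sq_eq_neg x
  have h0 : ∀ u : E4, toB α x u u = 0 := hα.alternating x
  have h2 : ∀ u v : E4, toB α x u v = -toB α x v u := fun u v => by
    have := h0 (u + v)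
    simp only [map_add, add_apply, h0] at this
    linarith
  rw [hm, hm, h1, h1, map_neg, map_neg, h2 (toE J x u) v, h2 (toE J x v) u]
  ring

theorem br2c_frame {α : TF M} {J : TE M} (hα : IsSmoothTwoForm (𝓡 4) M α)
    (hJ : IsAlmostComplexStructure (𝓡 4) M J) (ht : Tames (𝓡 4) M α J) {U : Set M} {κ : M → E4} {ψ : E4 → M}
    {W : Set E4} (hc : IsCh U κ ψ W) {z₀ : E4} (hz : z₀ ∈ W) :
    ∃ (O' : Set E4) (g gi : E4 → E4 →L[ℝ] E4), IsOpen O' ∧ z₀ ∈ O' ∧ O' ⊆ W ∧ ContDiffOn ℝ ∞ g O' ∧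
      ContDiffOn ℝ ∞ gi O' ∧ ∀ z ∈ O', (∀ a, g z (gi z a) = a) ∧ (∀ a, gi z (g z a) = a) ∧
        (∀ a b, ⟪g z a, g z b⟫_ℝ = hm α J (ψ z) (mD ψ z a) (mD ψ z b)) ∧
          ∀ a, g z (lJ J κ ψ z a) = J0 (g z a) := by
  have hT : ContDiffOn ℝ ∞ (fun z => (flp (lf α ψ z)).comp (lJ J κ ψ z)) W :=
    ((flp (E := E4)).contDiff.comp_contDiffOn (hc.lf_sm hα)).clm_comp (hc.lJ_sm hJ)
  have hl : ∀ z ∈ W, ∀ a, mD ψ z (lJ J κ ψ z a) = toE J (ψ z) (mD ψ z a) := fun z hz a => hc.mD_mK hz _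
  have he : ∀ z ∈ W, ∀ a b, ((1 / 2 : ℝ) • (flp ((flp (lf α ψ z)).comp (lJ J κ ψ z)) +
      (flp (lf α ψ z)).comp (lJ J κ ψ z))) a b = hm α J (ψ z) (mD ψ z a) (mD ψ z b) := by
    intro z hz a b
    simp only [smul_apply, add_apply, flp_apply, ContinuousLinearMap.comp_apply, lf, pb_apply, hl z hz, hm,
      smul_eq_mul]
    ring
  obtain ⟨O', g, gi, h1, h2, h3, h4, h5, h6⟩ := exists_frame hc.W_open hz
    (h := fun z => (1 / 2 : ℝ) • (flp ((flp (lf α ψ z)).comp (lJ J κ ψ z)) + (flp (lf α ψ z)).comp (lJ J κ ψ z)))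
    (J := lJ J κ ψ) ((((flp (E := E4)).contDiff.comp_contDiffOn hT).add hT).const_smul _) (hc.lJ_sm hJ)
    (fun z hz a b => by rw [he z hz, he z hz, hm, hm, add_comm])
    (fun z hz a ha => by
      rw [he z hz, hm, add_self_div_two]
      refine ht (ψ z) (mD ψ z a) fun h0 => ha ?_
      have h0' : mD ψ z a = 0 := h0
      rw [← hc.mK_mD hz a, h0', map_zero])
    (fun z hz a => by
      have h1 : ∀ u : E4, toE J (ψ z) (toE J (ψ z) u) = -u := hJ.sq_eq_neg _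
      show mK κ (ψ z) (toE J (ψ z) (mD ψ z (lJ J κ ψ z a))) = -a
      rw [hl z hz, h1, map_neg, hc.mK_mD hz])
    (fun z hz a b => by rw [he z hz, he z hz, hl z hz, hl z hz, br2c_inv hα hJ])
  exact ⟨O', g, gi, h1, h2, h3, h4, h5, fun z hz => ⟨(h6 z hz).1, (h6 z hz).2.1,
    fun a b => ((h6 z hz).2.2.1 a b).trans (he z (h3 hz) a b), (h6 z hz).2.2.2⟩⟩

/-- `exists_isCh`, `exists_frame` for `h z a b = hm (ψ z) (mD a) (mD b)` (which is `(lf α ψ z a (lJ z b) + lf α ψ z b (lJ z a)) / 2`),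
`bilip_near` for `e ∘ ψ`; then `IsCh.affine` with `B = t • gi z₀`, `t > 0` so small that the image of `closedBall 0 3` lies in the set where
all of this holds and `det (g z ∘ gi z₀) > 0`; new frame `g (z₀ + B z) ∘ B`. -/
theorem exists_LC {α : TF M} {J : TE M} (hα : IsSmoothTwoForm (𝓡 4) M α)
    (hJ : IsAlmostComplexStructure (𝓡 4) M J) (ht : Tames (𝓡 4) M α J) {n : ℕ}
    {e : M → EuclideanSpace ℝ (Fin n)} (he : ContMDiff (𝓡 4) 𝓘(ℝ, EuclideanSpace ℝ (Fin n)) ∞ e)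
    (hi : ∀ x, Function.Injective (mfderiv (𝓡 4) 𝓘(ℝ, EuclideanSpace ℝ (Fin n)) e x))
    (hd : ∀ x y, dist x y = ‖e x - e y‖) (x₀ : M) : ∃ c : LC α J, x₀ ∈ c.U ∧ c.κ x₀ = 0 := by
  obtain ⟨U, κ, ψ, W, hc, hx⟩ := exists_isCh x₀
  have hz : κ x₀ ∈ W := hc.κ_mem x₀ hx
  set z₀ := κ x₀ with hz₀
  obtain ⟨O, g, gi, hO, hzO, hOW, hg, hgi, hfr⟩ := br2c_frame hα hJ ht hc hz
  obtain ⟨hf, hf'⟩ := hc.comp_sm he
  obtain ⟨r, C, hr, hC, hL⟩ := bilip_near (hf.contDiffAt (hc.W_open.mem_nhds hz)) (by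
    intro a b hab
    rw [hf' z₀ hz, hf' z₀ hz] at hab
    have h1 : mD ψ z₀ a = mD ψ z₀ b := hi _ hab
    rw [← hc.mK_mD hz a, h1, hc.mK_mD hz b])
  have c1 : ContinuousAt (fun z => ((g z).comp (gi z₀)).det) z₀ :=
    ContinuousLinearMap.continuous_det.continuousAt.comp
      ((hg.continuousOn.continuousAt (hO.mem_nhds hzO)).clm_comp continuousAt_const)
  have c2 : ContinuousAt (fun z => ‖gi z‖) z₀ := (hgi.continuousOn.continuousAt (hO.mem_nhds hzO)).norm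
  have e1 : ((g z₀).comp (gi z₀)).det = 1 := by
    rw [show (g z₀).comp (gi z₀) = ContinuousLinearMap.id ℝ E4 from
      ContinuousLinearMap.ext (hfr z₀ hzO).1]
    exact LinearMap.det_id
  obtain ⟨ρ, hρ, hN⟩ := Metric.eventually_nhds_iff_ball.1 (((c1.eventually (lt_mem_nhds
    (show (0 : ℝ) < ((g z₀).comp (gi z₀)).det by rw [e1]; exact one_pos))).and
      (c2.eventually (gt_mem_nhds (lt_add_one _)))).and
        ((show ∀ᶠ z in 𝓝 z₀, z ∈ O from hO.mem_nhds hzO).and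
          (show ∀ᶠ z in 𝓝 z₀, z ∈ ball z₀ r from ball_mem_nhds z₀ hr)))
  set t := ρ / (3 * (‖gi z₀‖ + 1)) with ht'
  have ht0 : 0 < t := by positivity
  let B : E4 ≃L[ℝ] E4 := ContinuousLinearEquiv.equivOfInverse (t • gi z₀) (t⁻¹ • g z₀)
    (fun a => by simp [(hfr z₀ hzO).1, smul_smul, ht0.ne'])
    (fun a => by simp [(hfr z₀ hzO).2.1, smul_smul, ht0.ne'])
  have hB : ∀ z ∈ V, z₀ + B z ∈ ball z₀ ρ := by
    intro z hz
    have h1 : ‖z‖ < 3 := mem_ball_zero_iff.1 hz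
    have h2 : B z = t • gi z₀ z := rfl
    rw [mem_ball, dist_eq_norm, add_sub_cancel_left, h2, norm_smul, Real.norm_of_nonneg ht0.le]
    have h3 : ‖gi z₀ z‖ < 3 * (‖gi z₀‖ + 1) := by
      have := (gi z₀).le_opNorm z
      nlinarith [norm_nonneg (gi z₀), norm_nonneg z]
    calc t * ‖gi z₀ z‖ < t * (3 * (‖gi z₀‖ + 1)) := mul_lt_mul_of_pos_left h3 ht0
      _ = ρ := div_mul_cancel₀ _ (by positivity)
  have hBO : ∀ z ∈ V, z₀ + B z ∈ O := fun z hz => (hN _ (hB z hz)).2.1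
  obtain ⟨hc', hD⟩ := hc.affine z₀ B fun z hz => hOW (hBO z hz)
  have hA : ContDiffOn ℝ ∞ (fun z => z₀ + B z) V := (contDiff_const.add B.contDiff).contDiffOn
  refine ⟨⟨_, _, _, fun z => (g (z₀ + B z)).comp (B : E4 →L[ℝ] E4),
    fun z => (B.symm : E4 →L[ℝ] E4).comp (gi (z₀ + B z)), hc',
    ⟨C * (1 + ‖(B : E4 →L[ℝ] E4)‖ + ‖(B.symm : E4 →L[ℝ] E4)‖), ?_, ?_⟩,
    (hg.comp hA hBO).clm_comp contDiffOn_const, contDiffOn_const.clm_comp (hgi.comp hA hBO),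
    fun z hz a => ?_, fun z hz a => ?_, ⟨‖(B.symm : E4 →L[ℝ] E4)‖ * (‖gi z₀‖ + 1), fun z hz => ?_⟩,
    fun z hz => ?_, fun z hz a b => ?_, fun z hz a => ?_⟩, ⟨hx, 0, ?_, ?_⟩, ?_⟩
  · nlinarith [norm_nonneg (B : E4 →L[ℝ] E4), norm_nonneg (B.symm : E4 →L[ℝ] E4)]
  · rintro x ⟨hxU, z, hz, hxz⟩ y ⟨hyU, w, hw, hyw⟩
    have hxz' : z₀ + B z = κ x := hxz
    have hyw' : z₀ + B w = κ y := hyw
    obtain ⟨l1, l2⟩ := hL _ (hN _ (hB z hz)).2.2 _ (hN _ (hB w hw)).2.2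
    rw [hxz', hyw', Function.comp_apply, Function.comp_apply, hc.ψκ x hxU, hc.ψκ y hyU, ← hd] at l1 l2
    have e2 : B.symm (κ x - z₀) - B.symm (κ y - z₀) = B.symm (κ x - κ y) := by
      rw [← map_sub, sub_sub_sub_cancel_right]
    have l3 : ‖B.symm (κ x - κ y)‖ ≤ ‖(B.symm : E4 →L[ℝ] E4)‖ * ‖κ x - κ y‖ := (B.symm : E4 →L[ℝ] E4).le_opNorm _
    have l4 : ‖κ x - κ y‖ ≤ ‖(B : E4 →L[ℝ] E4)‖ * ‖B.symm (κ x - κ y)‖ := by
      simpa using (B : E4 →L[ℝ] E4).le_opNorm (B.symm (κ x - κ y))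
    have n1 := norm_nonneg (B : E4 →L[ℝ] E4)
    have n2 := norm_nonneg (B.symm : E4 →L[ℝ] E4)
    have hC0 : 0 ≤ C := by linarith
    rw [e2]
    constructor
    · refine l3.trans ((mul_le_mul_of_nonneg_left l1 n2).trans ?_)
      rw [← mul_assoc]
      exact mul_le_mul_of_nonneg_right (by nlinarith) dist_nonneg
    · refine l2.trans ((mul_le_mul_of_nonneg_left l4 hC0).trans ?_)
      rw [← mul_assoc]
      exact mul_le_mul_of_nonneg_right (by nlinarith) (norm_nonneg _)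
  · simp [(hfr _ (hBO z hz)).1]
  · simp [(hfr _ (hBO z hz)).2.1]
  · exact (ContinuousLinearMap.opNorm_comp_le _ _).trans
      (mul_le_mul_of_nonneg_left (hN _ (hB z hz)).1.2.le (norm_nonneg _))
  · have e2 : (g (z₀ + B z)).comp (B : E4 →L[ℝ] E4) = t • (g (z₀ + B z)).comp (gi z₀) :=
      ContinuousLinearMap.ext fun a => (g (z₀ + B z)).map_smul t (gi z₀ a)
    have h1 := (hN _ (hB z hz)).1.1
    rw [e2, ContinuousLinearMap.det, ContinuousLinearMap.toLinearMap_smul, LinearMap.det_smul]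
    exact mul_pos (pow_pos ht0 _) h1
  · rw [(hD z hz).1, (hD z hz).1]
    exact (hfr _ (hBO z hz)).2.2.1 _ _
  · have e2 : lJ J (fun x => B.symm (κ x - z₀)) (fun z => ψ (z₀ + B z)) z a =
        B.symm (lJ J κ ψ (z₀ + B z) (B a)) := by
      simp only [lJ, ContinuousLinearMap.comp_apply, (hD z hz).1, (hD z hz).2]
    simp only [e2, ContinuousLinearMap.comp_apply, ContinuousLinearEquiv.coe_coe,
      ContinuousLinearEquiv.apply_symm_apply]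
    exact (hfr _ (hBO z hz)).2.2.2 _
  · exact mem_ball_self (by norm_num)
  · simp [hz₀]
  · simp [hz₀]

end Crest.Agent.R240
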