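import Crest.Agent.R240.Br2

/-! Auxiliary constructions for `exists_atl`. -/

set_option autoImplicit false
set_option maxSynthPendingDepth 3
set_option linter.unusedSectionVars false
set_option linter.unusedVariables false
open MeasureTheory Filter Set Metric
open scoped ENNReal NNReal Topology ContDiff InnerProductSpace InnerProduct

noncomputable section
namespace Crest.Agent.R240

open scoped Manifold
open Crest.GeometryTopology.TwoForm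

/-- The fibre. -/
abbrev FF (m : ℕ) : Type := PiLp 2 fun _ : Fin m => E4

section Lin
variable {m : ℕ} {G : Type*} [NormedAddCommGroup G] [NormedSpace ℝ G]

def mkF (f : Fin m → G →L[ℝ] E4) : G →L[ℝ] FF m :=
  (PiLp.continuousLinearEquiv 2 ℝ fun _ : Fin m => E4).symm.toContinuousLinearMap.comp (ContinuousLinearMap.pi f)

@[simp] theorem mkF_apply (f : Fin m → G →L[ℝ] E4) (v : G) (l : Fin m) : mkF f v l = f l v := rfl

def prF (l : Fin m) : FF m →L[ℝ] E4 := PiLp.proj 2 (fun _ : Fin m => E4) l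

@[simp] theorem prF_apply (l : Fin m) (v : FF m) : prF l v = v l := rfl

theorem contDiffOn_mkF [FiniteDimensional ℝ G] {f : E4 → Fin m → G →L[ℝ] E4} {s : Set E4}
    (h : ∀ l, ContDiffOn ℝ ∞ (fun z => f z l) s) : ContDiffOn ℝ ∞ (fun z => mkF (f z)) s := by
  rw [contDiffOn_clm_apply]
  intro v
  rw [contDiffOn_piLp]
  intro l
  exact (h l).clm_apply contDiffOn_const

def cxF (m : ℕ) : Cx (FF m) where
  J := mkF fun l => J0.comp (prF l)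
  JJ v := by
    ext1 l
    simp [J0_J0]
  inner_J u v := by
    simp [PiLp.inner_apply (𝕜 := ℝ) (f := fun _ : Fin m => E4), inner_J0]

theorem cxF_J (v : FF m) (l : Fin m) : (cxF m).J v l = J0 (v l) := rfl

theorem contDiff_adj {F : Type*} [NormedAddCommGroup F] [InnerProductSpace ℝ F] [FiniteDimensional ℝ F] :
    ContDiff ℝ ∞ fun L : E4 →L[ℝ] F => L† := by
  let T : (E4 →L[ℝ] F) →ₗ[ℝ] (F →L[ℝ] E4) :=
    { toFun := fun L => L†
      map_add' := fun a b => map_add _ a b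
      map_smul' := fun c a => by simp }
  exact (LinearMap.toContinuousLinearMap T).contDiff

theorem adj_iso {F : Type*} [NormedAddCommGroup F] [InnerProductSpace ℝ F] [FiniteDimensional ℝ F]
    {L : E4 →L[ℝ] F} (h : ∀ a b, ⟪L a, L b⟫_ℝ = ⟪a, b⟫_ℝ) (a : E4) : (L†) (L a) = a := by
  refine ext_inner_left ℝ fun b => ?_
  rw [ContinuousLinearMap.adjoint_inner_right, h]

theorem proj_eq {F : Type*} [NormedAddCommGroup F] [InnerProductSpace ℝ F] [FiniteDimensional ℝ F]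
    {L : E4 →L[ℝ] F} (h : ∀ a b, ⟪L a, L b⟫_ℝ = ⟪a, b⟫_ℝ) (K : Submodule ℝ F) (h1 : ∀ a, L a ∈ K)
    (h2 : ∀ w ∈ K, ∃ a, L a = w) : K.starProjection = L.comp (L†) := by
  ext v
  refine Submodule.eq_starProjection_of_mem_of_inner_eq_zero (h1 _) fun w hw => ?_
  obtain ⟨a, rfl⟩ := h2 w hw
  rw [inner_sub_left, ContinuousLinearMap.comp_apply, h, ContinuousLinearMap.adjoint_inner_left, sub_self]

end Lin

variable {M : Type*} [MetricSpace M] [ChartedSpace E4 M] [IsManifold (𝓡 4) ∞ M] {α : TF M} {J : TE M}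

/-- The data produced by `exists_cover`. -/
structure Cov (α : TF M) (J : TE M) (m : ℕ) where
  c : Fin m → LC α J
  φ : Fin m → M → ℝ
  em : Fin m → M → E4
  φ_sm : ∀ k, ContMDiff (𝓡 4) 𝓘(ℝ, ℝ) ∞ (φ k)
  em_sm : ∀ k, ContMDiff (𝓡 4) 𝓘(ℝ, E4) ∞ (em k)
  supp : ∀ k x, φ k x ≠ 0 → x ∈ (c k).U ∧ ‖(c k).κ x‖ ≤ 1
  sum : ∀ x, ∑ k, φ k x ^ 2 = 1
  em_eq : ∀ k, ∀ x ∈ (c k).U, ‖(c k).κ x‖ < 3 / 2 → em k x = (c k).κ x

theorem LC.mD_mK' (c : LC α J) {x : M} (hx : x ∈ c.U) (u : E4) : mD c.ψ (c.κ x) (mK c.κ x u) = u := by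
  have := c.ch.mD_mK (c.ch.κ_mem x hx) u
  rwa [c.ch.ψκ x hx] at this

theorem LC.iso' (c : LC α J) {x : M} (hx : x ∈ c.U) (u v : E4) :
    ⟪c.g (c.κ x) (mK c.κ x u), c.g (c.κ x) (mK c.κ x v)⟫_ℝ = hm α J x u v := by
  rw [c.iso _ (c.ch.κ_mem x hx), c.mD_mK' hx, c.mD_mK' hx, c.ch.ψκ x hx]

theorem LC.cx' (c : LC α J) {x : M} (hx : x ∈ c.U) (u : E4) :
    c.g (c.κ x) (mK c.κ x (toE J x u)) = J0 (c.g (c.κ x) (mK c.κ x u)) := by
  rw [← c.cx _ (c.ch.κ_mem x hx)]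
  simp only [lJ, ContinuousLinearMap.comp_apply]
  rw [c.mD_mK' hx, c.ch.ψκ x hx]

namespace Cov
variable {m : ℕ} (D : Cov α J m)

def Ix (x : M) : E4 →L[ℝ] FF m :=
  mkF fun l => D.φ l x • ((D.c l).g ((D.c l).κ x)).comp (mK (D.c l).κ x)

theorem Ix_apply (x : M) (u : E4) (l : Fin m) :
    D.Ix x u l = D.φ l x • (D.c l).g ((D.c l).κ x) (mK (D.c l).κ x u) := rfl

theorem Ix_iso (x : M) (u v : E4) : ⟪D.Ix x u, D.Ix x v⟫_ℝ = hm α J x u v := by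
  rw [PiLp.inner_apply]
  have : ∀ l, ⟪D.Ix x u l, D.Ix x v l⟫_ℝ = D.φ l x ^ 2 * hm α J x u v := by
    intro l
    rw [Ix_apply, Ix_apply, real_inner_smul_left, real_inner_smul_right]
    by_cases h : D.φ l x = 0
    · simp [h]
    · rw [(D.c l).iso' (D.supp l x h).1]; ring
  simp only [this]
  rw [← Finset.sum_mul, D.sum, one_mul]

theorem Ix_J (x : M) (u : E4) : D.Ix x (toE J x u) = (cxF m).J (D.Ix x u) := by
  ext1 l
  rw [cxF_J, Ix_apply, Ix_apply, map_smul]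
  by_cases h : D.φ l x = 0
  · simp [h]
  · rw [(D.c l).cx' (D.supp l x h).1]

def L (k : Fin m) (z : E4) : E4 →L[ℝ] FF m :=
  (D.Ix ((D.c k).ψ z)).comp ((mD (D.c k).ψ z).comp ((D.c k).gi z))

theorem L_g (k : Fin m) {z : E4} (hz : z ∈ V) (a : E4) :
    D.L k z ((D.c k).g z a) = D.Ix ((D.c k).ψ z) (mD (D.c k).ψ z a) := by
  simp only [L, ContinuousLinearMap.comp_apply, (D.c k).gi_g z hz]

theorem L_iso (k : Fin m) {z : E4} (hz : z ∈ V) (a b : E4) : ⟪D.L k z a, D.L k z b⟫_ℝ = ⟪a, b⟫_ℝ := by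
  simp only [L, ContinuousLinearMap.comp_apply]
  rw [Ix_iso, ← (D.c k).iso z hz, (D.c k).g_gi z hz, (D.c k).g_gi z hz]

theorem L_J (k : Fin m) {z : E4} (hz : z ∈ V) (a : E4) : D.L k z (J0 a) = (cxF m).J (D.L k z a) := by
  have h1 : J0 a = (D.c k).g z (lJ J (D.c k).κ (D.c k).ψ z ((D.c k).gi z a)) := by
    rw [(D.c k).cx z hz, (D.c k).g_gi z hz]
  rw [h1, L_g _ _ hz]
  simp only [lJ, ContinuousLinearMap.comp_apply, L]
  rw [(D.c k).ch.mD_mK hz, Ix_J]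

def Pr (x : M) : FF m →L[ℝ] FF m := (LinearMap.range (D.Ix x : E4 →ₗ[ℝ] FF m)).starProjection

theorem Ix_eq_L (k : Fin m) {z : E4} (hz : z ∈ V) (u : E4) :
    D.Ix ((D.c k).ψ z) u = D.L k z ((D.c k).g z (mK (D.c k).κ ((D.c k).ψ z) u)) := by
  rw [L_g _ _ hz, (D.c k).ch.mD_mK hz]

theorem Pr_eq (k : Fin m) {z : E4} (hz : z ∈ V) : D.Pr ((D.c k).ψ z) = (D.L k z).comp ((D.L k z)†) := by
  refine proj_eq (D.L_iso k hz) _ (fun a => ⟨_, rfl⟩) ?_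
  rintro _ ⟨u, rfl⟩
  exact ⟨_, (D.Ix_eq_L k hz u).symm⟩

theorem Pr_Ix (x : M) (u : E4) : D.Pr x (D.Ix x u) = D.Ix x u :=
  Submodule.starProjection_eq_self_iff.2 ⟨u, rfl⟩

theorem Pr_Pr (x : M) (v : FF m) : D.Pr x (D.Pr x v) = D.Pr x v :=
  Submodule.starProjection_eq_self_iff.2 (Submodule.starProjection_apply_mem _ v)

theorem exists_Ipx (x : M) : ∃ Ip : FF m →L[ℝ] E4, (∀ u, Ip (D.Ix x u) = u) ∧ ∀ v, D.Ix x (Ip v) = D.Pr x v := by
  obtain ⟨k, hk⟩ : ∃ k, D.φ k x ≠ 0 := by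
    by_contra h
    push Not at h
    have := D.sum x
    simp [h] at this
  have hx := (D.supp k x hk).1
  have hz := (D.c k).ch.κ_mem x hx
  have e := (D.c k).ch.ψκ x hx
  refine ⟨(mD (D.c k).ψ ((D.c k).κ x)).comp (((D.c k).gi ((D.c k).κ x)).comp ((D.L k ((D.c k).κ x))†)),
    fun u => ?_, fun v => ?_⟩
  · have h1 := D.Ix_eq_L k hz u
    rw [e] at h1
    simp only [ContinuousLinearMap.comp_apply]
    rw [h1, adj_iso (D.L_iso k hz), (D.c k).gi_g _ hz, (D.c k).mD_mK' hx]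
  · have h1 := D.Pr_eq k hz
    rw [e] at h1
    rw [h1]
    conv_lhs => rw [← e]
    simp only [L, ContinuousLinearMap.comp_apply, (D.c k).ch.κψ _ hz]

def dg (x : M) : FF m →L[ℝ] FF m := mkF fun l => D.φ l x • ((D.c l).g ((D.c l).κ x)).comp (prF l)

def Lam (x : M) : FF m →L[ℝ] FF m := (D.Pr x).comp (D.dg x)

def emb (x : M) : FF m := WithLp.toLp 2 fun l => D.em l x

theorem emb_sm (k : Fin m) : ContDiffOn ℝ ∞ (D.emb ∘ (D.c k).ψ) V := by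
  rw [contDiffOn_piLp]
  intro l
  exact ((D.c k).ch.comp_sm (D.em_sm l)).1

theorem ovl_open (k l : Fin m) : IsOpen (V ∩ (D.c k).ψ ⁻¹' (D.c l).U) :=
  (D.c k).ch.ψ_sm.continuousOn.isOpen_inter_preimage (D.c k).ch.W_open (D.c l).ch.U_open

theorem g_trans_sm (k l : Fin m) :
    ContDiffOn ℝ ∞ (fun z => (D.c l).g ((D.c l).κ ((D.c k).ψ z))) (V ∩ (D.c k).ψ ⁻¹' (D.c l).U) :=
  (D.c l).g_sm.comp ((D.c k).ch.trans_sm (D.c l).ch).1 fun z hz => (D.c l).ch.κ_mem _ hz.2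

theorem fderiv_emb (k l : Fin m) {z : E4} (hz : z ∈ V) (h : D.φ l ((D.c k).ψ z) ≠ 0) (a : E4) :
    fderiv ℝ (D.emb ∘ (D.c k).ψ) z a l = mK (D.c l).κ ((D.c k).ψ z) (mD (D.c k).ψ z a) := by
  have hx := D.supp l _ h
  have hd : DifferentiableAt ℝ (D.emb ∘ (D.c k).ψ) z :=
    ((D.emb_sm k).contDiffAt (isOpen_ball.mem_nhds hz)).differentiableAt (by simp)
  have h1 : fderiv ℝ (D.emb ∘ (D.c k).ψ) z a l = fderiv ℝ (D.em l ∘ (D.c k).ψ) z a := by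
    have := ((prF l).hasFDerivAt.comp z hd.hasFDerivAt).fderiv
    change _ = fderiv ℝ (prF l ∘ D.emb ∘ (D.c k).ψ) z a
    rw [this]; rfl
  have ht := (D.c k).ch.trans_sm (D.c l).ch
  have hev : D.em l ∘ (D.c k).ψ =ᶠ[𝓝 z] (D.c l).κ ∘ (D.c k).ψ := by
    have ho := (D.ovl_open k l).mem_nhds ⟨hz, hx.1⟩
    have hc : ContinuousAt ((D.c l).κ ∘ (D.c k).ψ) z := ht.1.continuousOn.continuousAt ho
    have h2 : ∀ᶠ w in 𝓝 z, ‖((D.c l).κ ∘ (D.c k).ψ) w‖ < 3 / 2 :=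
      hc.norm.eventually (gt_mem_nhds (lt_of_le_of_lt hx.2 (by norm_num)))
    filter_upwards [ho, h2] with w hw hw2
    exact D.em_eq l _ hw.2 hw2
  rw [h1, hev.fderiv_eq, ht.2 z hz hx.1]

theorem Lam_emb (k : Fin m) {z : E4} (hz : z ∈ V) (a : E4) :
    D.Lam ((D.c k).ψ z) (fderiv ℝ (D.emb ∘ (D.c k).ψ) z a) = D.L k z ((D.c k).g z a) := by
  have : D.dg ((D.c k).ψ z) (fderiv ℝ (D.emb ∘ (D.c k).ψ) z a) = D.Ix ((D.c k).ψ z) (mD (D.c k).ψ z a) := by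
    ext1 l
    rw [Ix_apply]
    simp only [dg, mkF_apply, smul_apply, ContinuousLinearMap.comp_apply, prF_apply]
    by_cases h : D.φ l ((D.c k).ψ z) = 0
    · simp [h]
    · rw [D.fderiv_emb k l hz h]
  rw [Lam, ContinuousLinearMap.comp_apply, this, Pr_Ix, L_g _ _ hz]

theorem compat (k l : Fin m) {z : E4} (hz : z ∈ V) (hl : (D.c k).ψ z ∈ (D.c l).U) (a : E4) :
    D.L k z ((D.c k).g z a) = D.L l ((D.c l).κ ((D.c k).ψ z)) ((D.c l).g ((D.c l).κ ((D.c k).ψ z))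
      (fderiv ℝ ((D.c l).κ ∘ (D.c k).ψ) z a)) := by
  rw [L_g _ _ hz, L_g _ _ ((D.c l).ch.κ_mem _ hl), ((D.c k).ch.trans_sm (D.c l).ch).2 z hz hl, (D.c l).mD_mK' hl,
    (D.c l).ch.ψκ _ hl]

end Cov
end Crest.Agent.R240
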