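import Crest.Agent.R240.Br2
import Crest.Agent.R240.Br3Aux

/-! Block Br3: the atlas. -/

set_option autoImplicit false
set_option maxSynthPendingDepth 3
set_option linter.unusedSectionVars false
set_option linter.unusedVariables false
open MeasureTheory Filter Set Metric
open scoped ENNReal NNReal Topology ContDiff InnerProductSpace InnerProduct

noncomputable section
namespace Crest.Agent.R240


open scoped Manifold
open Crest.GeometryTopology.TwoForm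

variable {M : Type*} [MetricSpace M] [ChartedSpace E4 M] [IsManifold (𝓡 4) ∞ M]

theorem br3a_compact {α : TF M} {J : TE M} (c : LC α J) {ρ : ℝ} (hρ : ρ < 3) :
    IsCompact (c.ψ '' closedBall 0 ρ) :=
  (isCompact_closedBall 0 ρ).image_of_continuousOn
    (c.ch.ψ_sm.continuousOn.mono (closedBall_subset_ball hρ))

theorem br3a_mem {α : TF M} {J : TE M} (c : LC α J) {ρ : ℝ} {x : M} (hx : x ∈ c.U) (h : ‖c.κ x‖ ≤ ρ) :
    x ∈ c.ψ '' closedBall 0 ρ :=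
  ⟨c.κ x, mem_closedBall_zero_iff.2 h, c.ch.ψκ x hx⟩

theorem br3a_nhds {α : TF M} {J : TE M} (c : LC α J) {ρ : ℝ} (hρ : ρ < 3) {x : M} (hx : x ∉ c.U) :
    ∀ᶠ y in 𝓝 x, y ∈ c.U → ρ < ‖c.κ y‖ := by
  have h1 : x ∈ (c.ψ '' closedBall 0 ρ)ᶜ := by
    rintro ⟨z, hz, rfl⟩
    exact hx (c.ch.ψ_mem z (closedBall_subset_ball hρ hz))
  filter_upwards [(br3a_compact c hρ).isClosed.isOpen_compl.mem_nhds h1] with y hy hU
  by_contra hn
  exact hy (br3a_mem c hU (not_lt.1 hn))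

open Classical in
theorem br3a_ext {α : TF M} {J : TE M} (c : LC α J) {G : Type*} [NormedAddCommGroup G] [NormedSpace ℝ G]
    {u : E4 → G} (hu : ContDiff ℝ ∞ u) {ρ : ℝ} (hρ : ρ < 3) (h0 : ∀ z, ρ < ‖z‖ → u z = 0) :
    ContMDiff (𝓡 4) 𝓘(ℝ, G) ∞ fun x => if x ∈ c.U then u (c.κ x) else 0 := by
  intro x
  by_cases hx : x ∈ c.U
  · have hU := c.ch.U_open.mem_nhds hx
    have h1 : ContMDiffAt (𝓡 4) 𝓘(ℝ, G) ∞ (u ∘ c.κ) x :=
      hu.contMDiff.contMDiffAt.comp x (c.ch.κ_sm.contMDiffAt hU)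
    refine h1.congr_of_eventuallyEq ?_
    filter_upwards [hU] with y hy
    simp [hy]
  · refine (contMDiffAt_const (c := (0 : G))).congr_of_eventuallyEq ?_
    filter_upwards [br3a_nhds c hρ hx] with y hy
    by_cases h : y ∈ c.U
    · simp [h, h0 _ (hy h)]
    · simp [h]

/-- Finite subcover of the open sets `{x ∈ U, ‖κ x‖ < 1/2}`; `φ̃ k` = extension by zero of a bump (`rIn = 1/2`, `rOut = 1`) composed with `κ`,
`φ k = φ̃ k / √(∑ φ̃²)`, `χ k` from a bump with `rIn = 3/2`, `rOut = 2`.  Smoothness off `U`: the function vanishes on the open complement of the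
compact set `ψ '' closedBall 0 2` (`contMDiff_of_tsupport`-type argument). -/
theorem exists_cover [CompactSpace M] {α : TF M} {J : TE M} (h : ∀ x₀ : M, ∃ c : LC α J, x₀ ∈ c.U ∧ c.κ x₀ = 0) :
    ∃ (m : ℕ) (c : Fin m → LC α J) (φ : Fin m → M → ℝ) (em : Fin m → M → E4),
      (∀ k, ContMDiff (𝓡 4) 𝓘(ℝ, ℝ) ∞ (φ k)) ∧ (∀ k, ContMDiff (𝓡 4) 𝓘(ℝ, E4) ∞ (em k)) ∧
      (∀ k x, φ k x ≠ 0 → x ∈ (c k).U ∧ ‖(c k).κ x‖ ≤ 1) ∧ (∀ x, ∑ k, φ k x ^ 2 = 1) ∧
      ∀ k, ∀ x ∈ (c k).U, ‖(c k).κ x‖ < 3 / 2 → em k x = (c k).κ x := by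
  classical
  choose c hcU hc0 using h
  have hO : ∀ x₀, (c x₀).U ∩ (c x₀).κ ⁻¹' ball 0 (1 / 2) ∈ 𝓝 x₀ := fun x₀ =>
    ((c x₀).ch.κ_sm.continuousOn.isOpen_inter_preimage (c x₀).ch.U_open isOpen_ball).mem_nhds
      ⟨hcU x₀, by simp [hc0]⟩
  obtain ⟨t, ht⟩ := CompactSpace.elim_nhds_subcover _ hO
  let b₁ : ContDiffBump (0 : E4) := ⟨1 / 2, 1, by norm_num, by norm_num⟩
  let b₂ : ContDiffBump (0 : E4) := ⟨3 / 2, 2, by norm_num, by norm_num⟩
  have hb₁ : ∀ z : E4, 1 < ‖z‖ → b₁ z = 0 := fun z hz => b₁.zero_of_le_dist (by simpa using hz.le)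
  have hb₂ : ∀ z : E4, 2 < ‖z‖ → b₂ z • z = 0 := fun z hz => by
    rw [b₂.zero_of_le_dist (by simpa using hz.le), zero_smul]
  let C : Fin t.card → LC α J := fun k => c (t.equivFin.symm k)
  let p : Fin t.card → M → ℝ := fun k x => if x ∈ (C k).U then b₁ ((C k).κ x) else 0
  have hp : ∀ k, ContMDiff (𝓡 4) 𝓘(ℝ, ℝ) ∞ (p k) := fun k => br3a_ext (C k) b₁.contDiff (by norm_num) hb₁
  have hS : ∀ x, 0 < ∑ k, p k x ^ 2 := by
    intro x
    have hx : x ∈ ⋃ y ∈ t, (c y).U ∩ (c y).κ ⁻¹' ball 0 (1 / 2) := ht ▸ mem_univ x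
    obtain ⟨y, hy, h1, h2⟩ := mem_iUnion₂.1 hx
    refine Finset.sum_pos' (fun k _ => sq_nonneg _) ⟨t.equivFin ⟨y, hy⟩, Finset.mem_univ _, ?_⟩
    have e : C (t.equivFin ⟨y, hy⟩) = c y := by simp [C]
    have : p (t.equivFin ⟨y, hy⟩) x = 1 := by
      simp only [p, e, h1, if_true]
      exact b₁.one_of_mem_closedBall (ball_subset_closedBall h2)
    rw [this]; norm_num
  have hSs : ContMDiff (𝓡 4) 𝓘(ℝ, ℝ) ∞ fun x => ∑ k, p k x ^ 2 :=
    contMDiff_finsetSum fun k _ => (hp k).pow 2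
  have hinv : ContMDiff (𝓡 4) 𝓘(ℝ, ℝ) ∞ fun x => (Real.sqrt (∑ k, p k x ^ 2))⁻¹ := fun x =>
    ContDiffAt.comp_contMDiffAt (g := fun s : ℝ => (Real.sqrt s)⁻¹)
      ((Real.contDiffAt_sqrt (hS x).ne').inv (Real.sqrt_pos.2 (hS x)).ne') (hSs x)
  refine ⟨t.card, C, fun k x => p k x * (Real.sqrt (∑ k, p k x ^ 2))⁻¹,
    fun k x => if x ∈ (C k).U then b₂ ((C k).κ x) • (C k).κ x else 0, fun k => (hp k).mul hinv,
    fun k => br3a_ext (C k) (u := fun z => b₂ z • z) (b₂.contDiff.smul contDiff_id) (by norm_num) hb₂,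
    fun k x hx => ?_, fun x => ?_, fun k x hx h => ?_⟩
  · have h1 : p k x ≠ 0 := left_ne_zero_of_mul hx
    by_cases hU : x ∈ (C k).U
    · refine ⟨hU, not_lt.1 fun hl => h1 ?_⟩
      simp only [p, hU, if_true]
      exact hb₁ _ hl
    · exact absurd (by simp only [p, hU, if_false]) h1
  · simp only [mul_pow, inv_pow, Real.sq_sqrt (hS x).le, ← Finset.sum_mul]
    exact mul_inv_cancel₀ (hS x).ne'
  · simp only [hx, if_true]
    rw [b₂.one_of_mem_closedBall (mem_closedBall_zero_iff.2 h.le), one_smul]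

/-- A function of the form `φ • (f ∘ κ)` with `φ` supported in the unit ball of the chart is smooth in every chart. -/
theorem cut_sm {α : TF M} {J : TE M} (c c' : LC α J) {G : Type*} [NormedAddCommGroup G] [NormedSpace ℝ G]
    {φ : M → ℝ} (hφ : ContMDiff (𝓡 4) 𝓘(ℝ, ℝ) ∞ φ) (hs : ∀ x, φ x ≠ 0 → x ∈ c.U ∧ ‖c.κ x‖ ≤ 1)
    {f : E4 → G} (hf : ContDiffOn ℝ ∞ f (V ∩ c'.ψ ⁻¹' c.U)) :
    ContDiffOn ℝ ∞ (fun z => φ (c'.ψ z) • f z) V := by
  intro z hz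
  have hV : V ∈ 𝓝 z := c'.ch.W_open.mem_nhds hz
  have hψ : ContinuousAt c'.ψ z := c'.ch.ψ_sm.continuousOn.continuousAt hV
  refine ContDiffAt.contDiffWithinAt ?_
  by_cases h : c'.ψ z ∈ c.U
  · exact ((c'.ch.comp_sm hφ).1.contDiffAt hV).smul
      (hf.contDiffAt (inter_mem hV (hψ.preimage_mem_nhds (c.ch.U_open.mem_nhds h))))
  · refine (contDiffAt_const (c := (0 : G))).congr_of_eventuallyEq ?_
    filter_upwards [hψ.eventually (br3a_nhds c (ρ := 1) (by norm_num) h)] with w hw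
    by_cases h0 : φ (c'.ψ w) = 0
    · simp [h0]
    · exact absurd (hs _ h0).2 (not_le.2 (hw (hs _ h0).1))

theorem Cov.L_sm {α : TF M} {J : TE M} {m : ℕ} (D : Cov α J m) (k : Fin m) : ContDiffOn ℝ ∞ (D.L k) V := by
  have key : ∀ l, ContDiffOn ℝ ∞ (fun z => D.φ l ((D.c k).ψ z) • ((D.c l).g ((D.c l).κ ((D.c k).ψ z))).comp
      ((fderiv ℝ ((D.c l).κ ∘ (D.c k).ψ) z).comp ((D.c k).gi z))) V := by
    intro l
    refine cut_sm (D.c l) (D.c k) (D.φ_sm l) (D.supp l) ((D.g_trans_sm k l).clm_comp (ContDiffOn.clm_comp ?_ ?_))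
    · exact ((D.c k).ch.trans_sm (D.c l).ch).1.fderiv_of_isOpen (D.ovl_open k l) (by simp)
    · exact (D.c k).gi_sm.mono inter_subset_left
  refine (contDiffOn_mkF key).congr fun z hz => ?_
  ext1 a
  ext1 l
  simp only [Cov.L, ContinuousLinearMap.comp_apply, Cov.Ix_apply, mkF_apply, smul_apply]
  by_cases h : D.φ l ((D.c k).ψ z) = 0
  · simp [h]
  · rw [((D.c k).ch.trans_sm (D.c l).ch).2 z hz (D.supp l _ h).1]

theorem Cov.Lam_sm {α : TF M} {J : TE M} {m : ℕ} (D : Cov α J m) (k : Fin m) :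
    ContDiffOn ℝ ∞ (D.Lam ∘ (D.c k).ψ) V := by
  have h1 : ContDiffOn ℝ ∞ (fun z => D.Pr ((D.c k).ψ z)) V :=
    ((D.L_sm k).clm_comp (contDiff_adj.comp_contDiffOn (D.L_sm k))).congr fun z hz => D.Pr_eq k hz
  have h2 : ContDiffOn ℝ ∞ (fun z => D.dg ((D.c k).ψ z)) V :=
    contDiffOn_mkF fun l =>
      cut_sm (D.c l) (D.c k) (D.φ_sm l) (D.supp l) ((D.g_trans_sm k l).clm_comp contDiffOn_const)
  exact h1.clm_comp h2

/-- `F = PiLp 2 (fun _ : Fin m => E4)` with `J = J0` in each component.  `Ix x u = (φ l x • g_l (κ_l x) (mK κ_l x u))_l` is an isometry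
from `hm` and complex linear; `L k z = Ix (ψ z) ∘ mD ψ z ∘ gi z` (components `φ_l • g_l (τ z) ∘ Dτ ∘ gi`, smooth by `cut_sm`,
`IsCh.trans_sm`); `Pr x = L L†` and `Ipx x = mD ∘ gi ∘ L†` for a chosen chart at `x` (two isometries with the same range have the same
`L L†`); `emb x = (em l x)_l`, `Lam x = Pr x ∘ diag (φ l x • g_l (κ_l x))`. -/
theorem exists_atl [CompactSpace M] {α : TF M} {J : TE M} (hJ : IsAlmostComplexStructure (𝓡 4) M J)
    (h : ∀ x₀ : M, ∃ c : LC α J, x₀ ∈ c.U ∧ c.κ x₀ = 0) :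
    ∃ (m : ℕ) (A : Atl M (PiLp 2 fun _ : Fin m => E4) (Fin m))
      (Ix : M → E4 →L[ℝ] PiLp 2 fun _ : Fin m => E4) (Ipx : M → (PiLp 2 fun _ : Fin m => E4) →L[ℝ] E4),
      (∀ k, IsCh (A.U k) (A.κ k) (A.ψ k) V) ∧
      (∀ k, ∀ z ∈ V, ∀ a, A.I k z a = Ix (A.ψ k z) (mD (A.ψ k) z a)) ∧ (∀ x u, Ipx x (Ix x u) = u) ∧
      (∀ x v, Ix x (Ipx x v) = A.Pr x v) ∧ ∀ x u, Ix x (toE J x u) = A.J (Ix x u) := by
  obtain ⟨m, c, φ, em, h1, h2, h3, h4, h5⟩ := exists_cover h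
  let D : Cov α J m := ⟨c, φ, em, h1, h2, h3, h4, h5⟩
  choose Ipx hI1 hI2 using D.exists_Ipx
  have hlip : ∃ C : ℝ, 1 ≤ C ∧ ∀ k, ∀ x ∈ (D.c k).U, ∀ y ∈ (D.c k).U,
      ‖(D.c k).κ x - (D.c k).κ y‖ ≤ C * dist x y ∧ dist x y ≤ C * ‖(D.c k).κ x - (D.c k).κ y‖ := by
    choose C hC using fun k => (D.c k).lip
    obtain ⟨B, hB⟩ := Finite.exists_le C
    refine ⟨max B 1, le_max_right _ _, fun k x hx y hy => ?_⟩
    have := (hC k).2 x hx y hy
    have hk : C k ≤ max B 1 := (hB k).trans (le_max_left _ _)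
    exact ⟨this.1.trans (by gcongr), this.2.trans (by gcongr)⟩
  have hgi : ∃ C : ℝ, ∀ k, ∀ z ∈ V, ‖(D.c k).gi z‖ ≤ C := by
    choose C hC using fun k => (D.c k).gi_bd
    obtain ⟨B, hB⟩ := Finite.exists_le C
    exact ⟨B, fun k z hz => (hC k z hz).trans (hB k)⟩
  let A : Atl M (FF m) (Fin m) :=
    { toCx := cxF m
      U := fun k => (D.c k).U
      κ := fun k => (D.c k).κ
      ψ := fun k => (D.c k).ψ
      U_open := fun k => (D.c k).ch.U_open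
      κ_mem := fun k => (D.c k).ch.κ_mem
      ψ_mem := fun k => (D.c k).ch.ψ_mem
      κψ := fun k => (D.c k).ch.κψ
      ψκ := fun k => (D.c k).ch.ψκ
      lip := hlip
      trans := fun k l => ((D.c k).ch.trans_sm (D.c l).ch).1
      φ := D.φ
      φ_sm := fun k l => ((D.c l).ch.comp_sm (D.φ_sm k)).1
      φ_supp := D.supp
      φ_sum := D.sum
      L := D.L
      g := fun k => (D.c k).g
      gi := fun k => (D.c k).gi
      L_sm := D.L_sm
      g_sm := fun k => (D.c k).g_sm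
      gi_sm := fun k => (D.c k).gi_sm
      g_gi := fun k => (D.c k).g_gi
      gi_g := fun k => (D.c k).gi_g
      gi_bd := hgi
      det_pos := fun k => (D.c k).det_pos
      Pr := D.Pr
      fr := fun k z hz => ⟨D.L_iso k hz, D.L_J k hz, D.Pr_eq k hz⟩
      compat := fun k l z hz hl => D.compat k l hz hl
      emb := D.emb
      Lam := D.Lam
      emb_sm := D.emb_sm
      Lam_sm := D.Lam_sm
      Pr_Lam := fun x v => D.Pr_Pr x _
      Lam_emb := fun k z hz => D.Lam_emb k hz }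
  exact ⟨m, A, D.Ix, Ipx, fun k => (D.c k).ch, fun k z hz a => D.L_g k hz a, hI1, hI2, D.Ix_J⟩

end Crest.Agent.R240
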