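import Crest.Agent.R240.A3
import Crest.Agent.R240.B3

/-! Block C1: basic facts on the atlas and on smooth functions. -/

set_option autoImplicit false
set_option maxSynthPendingDepth 3
set_option linter.unusedSectionVars false
set_option linter.unusedVariables false
open MeasureTheory Filter Set Metric
open scoped ENNReal NNReal Topology ContDiff InnerProductSpace InnerProduct

noncomputable section
namespace Crest.Agent.R240

namespace Atl
variable {M F ι : Type*} [MetricSpace M] [CompactSpace M] [NormedAddCommGroup F] [InnerProductSpace ℝ F]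
  [FiniteDimensional ℝ F] [Fintype ι] (A : Atl M F ι)
  {G G' : Type*} [NormedAddCommGroup G] [NormedSpace ℝ G] [FiniteDimensional ℝ G]
  [NormedAddCommGroup G'] [NormedSpace ℝ G'] [FiniteDimensional ℝ G']

theorem _root_.Crest.Agent.R240.V_open : IsOpen V := isOpen_ball

theorem _root_.Crest.Agent.R240.mem_V {z : E4} : z ∈ V ↔ ‖z‖ < 3 := by simp [V]

theorem κ_cont (k : ι) : ContinuousOn (A.κ k) (A.U k) := by
  obtain ⟨C, hC, h⟩ := A.lip
  refine (LipschitzOnWith.of_dist_le_mul (K := ⟨C, by linarith⟩) fun x hx y hy => ?_).continuousOn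
  rw [dist_eq_norm]
  exact (h k x hx y hy).1

theorem ψ_cont (k : ι) : ContinuousOn (A.ψ k) V := by
  obtain ⟨C, hC, h⟩ := A.lip
  refine (LipschitzOnWith.of_dist_le_mul (K := ⟨C, by linarith⟩) fun z hz w hw => ?_).continuousOn
  have := (h k _ (A.ψ_mem k z hz) _ (A.ψ_mem k w hw)).2
  rwa [A.κψ k z hz, A.κψ k w hw, ← dist_eq_norm] at this

theorem ch_spec (x : M) : x ∈ A.U (A.ch x) ∧ ‖A.κ (A.ch x) x‖ ≤ 1 ∧ A.κ (A.ch x) x ∈ V ∧
    A.ψ (A.ch x) (A.κ (A.ch x) x) = x := by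
  obtain ⟨h1, h2⟩ := A.φ_supp _ x (Classical.choose_spec (A.exists_φ x))
  exact ⟨h1, h2, A.κ_mem _ x h1, A.ψκ _ x h1⟩

theorem ovl_open (k l : ι) : IsOpen (V ∩ A.ψ k ⁻¹' A.U l) :=
  (A.ψ_cont k).isOpen_inter_preimage V_open (A.U_open l)

theorem isCompact_ψ (k : ι) {ρ : ℝ} (hρ : ρ < 3) : IsCompact (A.ψ k '' closedBall 0 ρ) :=
  (isCompact_closedBall 0 ρ).image_of_continuousOn ((A.ψ_cont k).mono (closedBall_subset_ball hρ))

/-- Lebesgue number: the compact set `ψ '' closedBall 0 (11/4)` lies in the open set `U k`. -/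
theorem exists_r0 : ∃ r₀ : ℝ, 0 < r₀ ∧ ∀ k (z : E4), ‖z‖ ≤ 11 / 4 → ∀ y, dist (A.ψ k z) y < r₀ → y ∈ A.U k := by
  have h : ∀ k, ∀ᶠ r in 𝓝[>] (0 : ℝ), ∀ z : E4, ‖z‖ ≤ 11 / 4 → ∀ y, dist (A.ψ k z) y < r → y ∈ A.U k := by
    intro k
    obtain ⟨r, hr, h⟩ := (A.isCompact_ψ k (ρ := 11 / 4) (by norm_num)).exists_thickening_subset_open (A.U_open k)
      (by
        rintro _ ⟨z, hz, rfl⟩
        exact A.ψ_mem k z (closedBall_subset_ball (by norm_num) hz))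
    filter_upwards [Ioo_mem_nhdsGT hr] with s hs z hz y hy
    exact h (mem_thickening_iff.2 ⟨_, ⟨z, mem_closedBall_zero_iff.2 hz, rfl⟩, (dist_comm _ _).trans_lt
      (hy.trans hs.2)⟩)
  exact ((eventually_mem_nhdsWithin (s := Ioi (0 : ℝ))).and (eventually_all.2 h)).exists

theorem fr_at (x : M) : ∃ L, A.Fr (A.Pr x) L := by
  obtain ⟨-, -, h1, h2⟩ := A.ch_spec x
  have := A.fr (A.ch x) _ h1
  rw [h2] at this
  exact ⟨_, this⟩

theorem ext_ψ (k : ι) (u : E4 → G) {z : E4} (hz : z ∈ V) : A.ext k u (A.ψ k z) = u z :=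
  (if_pos (A.ψ_mem k z hz)).trans (by rw [A.κψ k z hz])

theorem ext_of_mem (k : ι) (u : E4 → G) {x : M} (hx : x ∈ A.U k) : A.ext k u x = u (A.κ k x) :=
  if_pos hx

theorem ext_of_notMem (k : ι) (u : E4 → G) {x : M} (hx : x ∉ A.U k) : A.ext k u x = 0 :=
  if_neg hx

theorem eq_ext (k : ι) {f : M → G} {u : E4 → G} (h0 : ∀ x, x ∉ A.U k → f x = 0)
    (h : ∀ z ∈ V, u z = f (A.ψ k z)) : f = A.ext k u := by
  funext x
  by_cases hx : x ∈ A.U k
  · rw [A.ext_of_mem k u hx, h _ (A.κ_mem k x hx), A.ψκ k x hx]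
  · rw [A.ext_of_notMem k u hx, h0 x hx]

theorem c1a_ext_lcz (k : ι) (f : M → G) (x : M) : A.ext k (A.lcz k f) x = A.φ k x ^ 2 • f x := by
  by_cases hx : x ∈ A.U k
  · rw [A.ext_of_mem k _ hx]
    exact (if_pos (A.κ_mem k x hx)).trans (by rw [A.ψκ k x hx])
  · rw [A.ext_of_notMem k _ hx, not_not.1 fun h => hx (A.φ_supp k x h).1]
    simp

theorem sum_ext_lcz (f : M → G) : ∑ k, A.ext k (A.lcz k f) = f := by
  funext x
  simp only [Finset.sum_apply, c1a_ext_lcz, ← Finset.sum_smul, A.φ_sum, one_smul]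

theorem ext_lcz (k : ι) (f : M → G) (x : M) : A.ext k (A.lcz k f) x = A.φ k x ^ 2 • f x :=
  A.c1a_ext_lcz k f x

variable {A}

theorem sm_of_local {f : M → G} (h : ∀ x, ∃ k, x ∈ A.U k ∧ ContDiffAt ℝ ∞ (f ∘ A.ψ k) (A.κ k x)) : A.Sm f := by
  intro l z hz
  obtain ⟨k, hk, hf⟩ := h (A.ψ l z)
  have hn : V ∩ A.ψ l ⁻¹' A.U k ∈ 𝓝 z := (A.ovl_open l k).mem_nhds ⟨hz, hk⟩
  have h1 : ContDiffAt ℝ ∞ (A.κ k ∘ A.ψ l) z := (A.trans l k).contDiffAt hn
  have h2 : ContDiffAt ℝ ∞ ((f ∘ A.ψ k) ∘ (A.κ k ∘ A.ψ l)) z := ContDiffAt.comp z hf h1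
  refine (h2.congr_of_eventuallyEq ?_).contDiffWithinAt
  filter_upwards [hn] with y hy
  simp only [Function.comp_apply, A.ψκ k _ hy.2]

theorem Sm.continuous {f : M → G} (h : A.Sm f) : Continuous f := by
  refine continuous_iff_continuousAt.2 fun x => ?_
  obtain ⟨hx, -, hV, -⟩ := A.ch_spec x
  have hn : A.U (A.ch x) ∈ 𝓝 x := (A.U_open _).mem_nhds hx
  have h1 : ContinuousAt (f ∘ A.ψ (A.ch x)) (A.κ (A.ch x) x) :=
    (h (A.ch x)).continuousOn.continuousAt (V_open.mem_nhds hV)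
  have h2 : ContinuousAt ((f ∘ A.ψ (A.ch x)) ∘ A.κ (A.ch x)) x :=
    ContinuousAt.comp h1 ((A.κ_cont _).continuousAt hn)
  refine h2.congr ?_
  filter_upwards [hn] with y hy
  simp only [Function.comp_apply, A.ψκ _ _ hy]

theorem Sm.bdd {f : M → G} (h : A.Sm f) : ∃ C : ℝ, 0 ≤ C ∧ ∀ x, ‖f x‖ ≤ C := by
  obtain ⟨C, hC⟩ := isCompact_univ.exists_bound_of_continuousOn h.continuous.continuousOn
  exact ⟨max C 0, le_max_right _ _, fun x => (hC x (mem_univ x)).trans (le_max_left _ _)⟩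

theorem sm_const (c : G) : A.Sm fun _ => c := by
  intro k
  exact contDiffOn_const

theorem Sm.add {f g : M → G} (hf : A.Sm f) (hg : A.Sm g) : A.Sm (f + g) := by
  intro k
  exact (hf k).add (hg k)

theorem Sm.sub {f g : M → G} (hf : A.Sm f) (hg : A.Sm g) : A.Sm (f - g) := by
  intro k
  exact (hf k).sub (hg k)

theorem Sm.csmul {f : M → G} (hf : A.Sm f) (c : ℝ) : A.Sm (c • f) := by
  intro k
  exact (hf k).const_smul c

theorem Sm.smul {a : M → ℝ} {f : M → G} (ha : A.Sm a) (hf : A.Sm f) : A.Sm fun x => a x • f x := by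
  intro k
  exact (ha k).smul (hf k)

theorem Sm.sum {κ : Type*} (s : Finset κ) {f : κ → M → G} (hf : ∀ i ∈ s, A.Sm (f i)) : A.Sm (∑ i ∈ s, f i) := by
  intro k
  refine (ContDiffOn.sum fun i hi => hf i hi k).congr fun z _ => ?_
  simp only [Function.comp_apply, Finset.sum_apply]

theorem Sm.app {a : M → G →L[ℝ] G'} {f : M → G} (ha : A.Sm a) (hf : A.Sm f) : A.Sm fun x => a x (f x) := by
  intro k
  exact (ha k).clm_apply (hf k)

theorem Sm.comp {f : M → G} (hf : A.Sm f) {Φ : G → G'} (hΦ : ContDiff ℝ ∞ Φ) : A.Sm fun x => Φ (f x) := by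
  intro k
  exact hΦ.comp_contDiffOn (hf k)

theorem Sm.prod {f : M → G} {g : M → G'} (hf : A.Sm f) (hg : A.Sm g) : A.Sm fun x => (f x, g x) := by
  intro k
  exact (hf k).prodMk (hg k)

theorem sm_of_apply {a : M → G →L[ℝ] G'} (h : ∀ v, A.Sm fun x => a x v) : A.Sm a := by
  intro k
  exact contDiffOn_clm_apply.2 fun v => h v k

theorem sm_ext (k : ι) {ρ : ℝ} (hρ : ρ < 3) {u : E4 → G} (hu : Tst ρ u) : A.Sm (A.ext k u) := by
  refine sm_of_local fun x => ?_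
  by_cases hx : x ∈ A.U k
  · refine ⟨k, hx, hu.1.contDiffAt.congr_of_eventuallyEq ?_⟩
    filter_upwards [V_open.mem_nhds (A.κ_mem k x hx)] with z hz
    exact A.ext_ψ k u hz
  · obtain ⟨hx', -, hV, hψ⟩ := A.ch_spec x
    refine ⟨A.ch x, hx', (contDiffAt_const (c := (0 : G))).congr_of_eventuallyEq ?_⟩
    have hK : (A.ψ k '' closedBall 0 ρ)ᶜ ∈ 𝓝 (A.ψ (A.ch x) (A.κ (A.ch x) x)) := by
      rw [hψ]
      refine (A.isCompact_ψ k hρ).isClosed.isOpen_compl.mem_nhds ?_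
      rintro ⟨z, hz, rfl⟩
      exact hx (A.ψ_mem k z (mem_V.2 ((mem_closedBall_zero_iff.1 hz).trans_lt hρ)))
    filter_upwards [((A.ψ_cont _).continuousAt (V_open.mem_nhds hV)).preimage_mem_nhds hK]
      with z hz
    by_cases hU : A.ψ (A.ch x) z ∈ A.U k
    · rw [Function.comp_apply, A.ext_of_mem k u hU]
      refine hu.2 _ (not_le.1 fun hle => hz ?_)
      exact ⟨_, mem_closedBall_zero_iff.2 hle, A.ψκ k _ hU⟩
    · exact A.ext_of_notMem k u hU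

theorem Sm.lcz {f : M → G} (hf : A.Sm f) (k : ι) : Tst 1 (A.lcz k f) := by
  have e : ∀ z ∈ V, A.lcz k f z = A.φ k (A.ψ k z) ^ 2 • f (A.ψ k z) := fun z hz => if_pos hz
  have h0 : ∀ z : E4, 1 < ‖z‖ → A.lcz k f z = 0 := by
    intro z hz
    by_cases hV : z ∈ V
    · have : A.φ k (A.ψ k z) = 0 := by
        by_contra hne
        have := (A.φ_supp k _ hne).2
        rw [A.κψ k z hV] at this
        linarith
      rw [e z hV, this]
      simp
    · exact if_neg hV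
  refine ⟨contDiff_iff_contDiffAt.2 fun z => ?_, h0⟩
  by_cases hV : z ∈ V
  · have h1 : ContDiffOn ℝ ∞ (fun z => A.φ k (A.ψ k z) ^ 2 • f (A.ψ k z)) V :=
      ((A.φ_sm k k).pow 2).smul (hf k)
    exact ((h1.congr e).contDiffAt (V_open.mem_nhds hV))
  · refine (contDiffAt_const (c := (0 : G))).congr_of_eventuallyEq ?_
    have h1 : 1 < ‖z‖ := by
      have := not_lt.1 (mt mem_V.2 hV)
      linarith
    filter_upwards [(isOpen_lt continuous_const continuous_norm).mem_nhds h1] with y hy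
    exact h0 y hy

variable (A)

theorem c1c_adj : ContDiff ℝ ∞ fun L : E4 →L[ℝ] F => (L†) := by
  refine IsBoundedLinearMap.contDiff ⟨⟨fun L L' => map_add _ _ _, fun c L => ?_⟩, 1, one_pos, fun L => ?_⟩
  · simp
  · simp

theorem c1c_det : ContDiff ℝ ∞ fun g : E4 →L[ℝ] E4 => g.det := by
  have e : (fun g : E4 →L[ℝ] E4 => g.det) = fun g : E4 →L[ℝ] E4 =>
      ∑ σ : Equiv.Perm (Fin 4), ((Equiv.Perm.sign σ : ℤ) : ℝ) * ∏ i, g (ee i) (σ i) := by
    funext g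
    rw [ContinuousLinearMap.det, ← LinearMap.det_toMatrix (EuclideanSpace.basisFun (Fin 4) ℝ).toBasis,
      Matrix.det_apply']
    simp [LinearMap.toMatrix_apply, ee]
  rw [e]
  refine ContDiff.sum fun σ _ => contDiff_const.mul (contDiff_prod fun i _ => ?_)
  exact (EuclideanSpace.proj (σ i) : E4 →L[ℝ] ℝ).contDiff.comp (contDiff_id.clm_apply contDiff_const)

theorem sm_basic : (∀ k, A.Sm (A.φ k)) ∧ A.Sm A.Pr ∧ A.Sm A.emb ∧ A.Sm A.Lam ∧ A.Sm A.pT ∧ A.Sm A.pM ∧ A.Sm A.pP := by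
  have hP : A.Sm A.Pr := fun k =>
    ((A.L_sm k).clm_comp (c1c_adj.comp_contDiffOn (A.L_sm k))).congr fun z hz => (A.fr k z hz).proj
  exact ⟨A.φ_sm, hP, A.emb_sm, A.Lam_sm, fun k => A.contDiff_pi.1.comp_contDiffOn (hP k),
    fun k => A.contDiff_pi.2.1.comp_contDiffOn (hP k), fun k => A.contDiff_pi.2.2.comp_contDiffOn (hP k)⟩

theorem I_sm (k : ι) : ContDiffOn ℝ ∞ (A.I k) V ∧ ContDiffOn ℝ ∞ (A.Ip k) V ∧ ContDiffOn ℝ ∞ (A.rho k) V :=
  ⟨(A.L_sm k).clm_comp (A.g_sm k), (A.gi_sm k).clm_comp (c1c_adj.comp_contDiffOn (A.L_sm k)),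
    c1c_det.comp_contDiffOn (A.g_sm k)⟩

theorem Ip_I (k : ι) {z : E4} (hz : z ∈ V) (a : E4) : A.Ip k z (A.I k z a) = a := by
  simp only [Ip, I, ContinuousLinearMap.comp_apply, (A.fr k z hz).adj_L, A.gi_g k z hz]

theorem I_Ip (k : ι) {z : E4} (hz : z ∈ V) (v : F) : A.I k z (A.Ip k z v) = A.Pr (A.ψ k z) v := by
  simp only [Ip, I, ContinuousLinearMap.comp_apply, (A.fr k z hz).P_eq, A.g_gi k z hz]

theorem Pr_I (k : ι) {z : E4} (hz : z ∈ V) (a : E4) : A.Pr (A.ψ k z) (A.I k z a) = A.I k z a :=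
  (A.fr k z hz).P_L _

theorem Ip_Pr (k : ι) {z : E4} (hz : z ∈ V) (v : F) : A.Ip k z (A.Pr (A.ψ k z) v) = A.Ip k z v := by
  simp only [Ip, ContinuousLinearMap.comp_apply, (A.fr k z hz).P_eq, (A.fr k z hz).adj_L]

theorem norm_I (k : ι) {z : E4} (hz : z ∈ V) (a : E4) : ‖A.I k z a‖ = ‖A.g k z a‖ :=
  (A.fr k z hz).norm_L _

theorem I_trans (k l : ι) {z : E4} (hz : z ∈ V) (hl : A.ψ k z ∈ A.U l) (a : E4) :
    A.I k z a = A.I l (A.κ l (A.ψ k z)) (fderiv ℝ (A.κ l ∘ A.ψ k) z a) :=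
  A.compat k l z hz hl a

theorem Ip_trans (k l : ι) {z : E4} (hz : z ∈ V) (hl : A.ψ k z ∈ A.U l) (v : F) :
    fderiv ℝ (A.κ l ∘ A.ψ k) z (A.Ip k z v) = A.Ip l (A.κ l (A.ψ k z)) v := by
  have hw := A.κ_mem l _ hl
  rw [← A.Ip_I l hw (fderiv ℝ (A.κ l ∘ A.ψ k) z (A.Ip k z v)), ← A.I_trans k l hz hl, A.I_Ip k hz,
    ← A.Ip_Pr l hw v, A.ψκ l _ hl]

/-- `g_k = u ∘ g_l ∘ Dτ` with `u = L_k† L_l` orthogonal, so `|det u| = 1`. -/
theorem rho_trans (k l : ι) {z : E4} (hz : z ∈ V) (hl : A.ψ k z ∈ A.U l) :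
    A.rho k z = A.rho l (A.κ l (A.ψ k z)) * |(fderiv ℝ (A.κ l ∘ A.ψ k) z).det| ∧
      (fderiv ℝ (A.κ l ∘ A.ψ k) z).det ≠ 0 := by
  have hw := A.κ_mem l _ hl
  set w := A.κ l (A.ψ k z)
  set D := fderiv ℝ (A.κ l ∘ A.ψ k) z
  have h1 := (A.g k z).toLinearMap.normDet_sq_eq_det_gram (EuclideanSpace.basisFun (Fin 4) ℝ)
  have h2 := ((A.g l w).toLinearMap ∘ₗ D.toLinearMap).normDet_sq_eq_det_gram (EuclideanSpace.basisFun (Fin 4) ℝ)
  have h3 : (A.g k z).toLinearMap.normDet ^ 2 = ((A.g l w).toLinearMap ∘ₗ D.toLinearMap).normDet ^ 2 := by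
    refine h1.trans (Eq.trans (congrArg Matrix.det ?_) h2.symm)
    ext i j
    simp only [Matrix.gram_apply, ContinuousLinearMap.coe_coe, LinearMap.comp_apply]
    rw [← (A.fr k z hz).iso, A.compat k l z hz hl, A.compat k l z hz hl, (A.fr l w hw).iso]
  rw [sq_eq_sq₀ (LinearMap.normDet_nonneg _) (LinearMap.normDet_nonneg _), LinearMap.normDet_eq_abs_det,
    LinearMap.normDet_eq_abs_det, LinearMap.det_comp, abs_mul] at h3
  have p1 : 0 < A.rho k z := A.det_pos k z hz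
  have p2 : 0 < A.rho l w := A.det_pos l w hw
  have h4 : A.rho k z = A.rho l w * |D.det| := by
    rw [← abs_of_pos p1, ← abs_of_pos p2]
    exact h3
  refine ⟨h4, fun h0 => ?_⟩
  rw [h0, abs_zero, mul_zero] at h4
  exact p1.ne' h4

end Atl
end Crest.Agent.R240
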