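import Crest.Agent.R240.C1
import Crest.Agent.R240.A2

/-! Block C2: the tangential derivative, Lipschitz bounds, global Sobolev norms. -/

set_option autoImplicit false
set_option maxSynthPendingDepth 3
set_option linter.unusedSectionVars false
set_option linter.unusedVariables false
open MeasureTheory Filter Set Metric
open scoped ENNReal NNReal Topology ContDiff InnerProductSpace InnerProduct

noncomputable section
namespace Crest.Agent.R240

namespace Atl
variable {M F ι : Type*} [MetricSpace M] [CompactSpace M] [NormedAddCommGroup F] [InnerProductSpace ℝ F]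
  [FiniteDimensional ℝ F] [Fintype ι] (A : Atl M F ι)
  {G G' : Type*} [NormedAddCommGroup G] [NormedSpace ℝ G] [FiniteDimensional ℝ G]
  [NormedAddCommGroup G'] [NormedSpace ℝ G'] [FiniteDimensional ℝ G']

variable {A}

/-- Chain rule through the transition map and `Ip_trans`. -/
theorem Sm.dF_eq {f : M → G} (hf : A.Sm f) (k : ι) {z : E4} (hz : z ∈ V) :
    A.dF f (A.ψ k z) = (fderiv ℝ (f ∘ A.ψ k) z).comp (A.Ip k z) := by
  obtain ⟨h1, -, h3, -⟩ := A.ch_spec (A.ψ k z)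
  have hn := (A.ovl_open k (A.ch (A.ψ k z))).mem_nhds (show z ∈ V ∩ A.ψ k ⁻¹' _ from ⟨hz, h1⟩)
  have e : f ∘ A.ψ k =ᶠ[𝓝 z] (f ∘ A.ψ (A.ch (A.ψ k z))) ∘ (A.κ (A.ch (A.ψ k z)) ∘ A.ψ k) := by
    filter_upwards [hn] with w hw
    simp only [Function.comp_apply, A.ψκ _ _ hw.2]
  rw [e.fderiv_eq, fderiv_comp z (((hf _).contDiffAt (V_open.mem_nhds h3)).differentiableAt (by simp))
    (((A.trans k _).contDiffAt hn).differentiableAt (by simp))]
  ext v
  simp only [dF, ContinuousLinearMap.comp_apply, A.Ip_trans k _ hz h1, Function.comp_apply]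

theorem Sm.fderiv_eq {f : M → G} (hf : A.Sm f) (k : ι) {z : E4} (hz : z ∈ V) (a : E4) :
    fderiv ℝ (f ∘ A.ψ k) z a = A.dF f (A.ψ k z) (A.I k z a) := by
  rw [hf.dF_eq k hz, ContinuousLinearMap.comp_apply, A.Ip_I k hz]

theorem dF_Pr (f : M → G) (x : M) (v : F) : A.dF f x (A.Pr x v) = A.dF f x v := by
  obtain ⟨-, -, h3, h4⟩ := A.ch_spec x
  have := A.Ip_Pr (A.ch x) h3 v
  rw [h4] at this
  simp only [dF, ContinuousLinearMap.comp_apply, this]

theorem Sm.dF' {f : M → G} (hf : A.Sm f) : A.Sm (A.dF f) := fun k =>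
  (((hf k).fderiv_of_isOpen V_open (m := ∞) (by simp)).clm_comp (A.I_sm k).2.1).congr fun z hz => hf.dF_eq k hz

/-- For `dist x y` small use the chart `ch x`, `exists_r0`, `lip` and the mean value inequality on `closedBall 0 2`; otherwise boundedness. -/
theorem Sm.lip {f : M → G} (hf : A.Sm f) : ∃ C : ℝ, 0 ≤ C ∧ ∀ x y, ‖f x - f y‖ ≤ C * dist x y := by
  have sub : closedBall (0 : E4) 2 ⊆ V := closedBall_subset_ball (by norm_num)
  choose D hD using fun k => (isCompact_closedBall (0 : E4) 2).exists_bound_of_continuousOn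
    (((hf k).continuousOn_fderiv_of_isOpen V_open (by simp)).mono sub)
  obtain ⟨D₀, hD₀⟩ := (Set.finite_range D).bddAbove
  obtain ⟨C, hC, hl⟩ := A.lip
  obtain ⟨r, hr, hU⟩ := A.exists_r0
  obtain ⟨B, hB, hfB⟩ := hf.bdd
  have hC0 : 0 < C := one_pos.trans_le hC
  have hρ : 0 < min r C⁻¹ := lt_min hr (inv_pos.2 hC0)
  refine ⟨|D₀| * C + 2 * B / min r C⁻¹, by positivity, fun x y => ?_⟩
  rw [add_mul]
  rcases lt_or_ge (dist x y) (min r C⁻¹) with h | h
  · obtain ⟨h1, h2, h3, h4⟩ := A.ch_spec x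
    have hy : y ∈ A.U (A.ch x) := hU _ _ (h2.trans (by norm_num)) y (by rw [h4]; exact h.trans_le (min_le_left _ _))
    have h5 := (hl _ x h1 y hy).1
    have h6 : C * dist x y ≤ 1 := by
      have := mul_le_mul_of_nonneg_left (h.le.trans (min_le_right _ _)) hC0.le
      rwa [mul_inv_cancel₀ hC0.ne'] at this
    have h7 : ‖A.κ (A.ch x) y‖ ≤ 2 := by
      have := norm_sub_norm_le (A.κ (A.ch x) y) (A.κ (A.ch x) x)
      rw [norm_sub_rev] at this
      linarith
    have h8 := (convex_closedBall (0 : E4) 2).norm_image_sub_le_of_norm_fderiv_le (𝕜 := ℝ) (f := f ∘ A.ψ (A.ch x))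
      (C := |D₀|) (fun z hz => ((hf _).contDiffAt (V_open.mem_nhds (sub hz))).differentiableAt (by simp))
      (fun z hz => (hD _ z hz).trans ((hD₀ (mem_range_self _)).trans (le_abs_self _)))
      (mem_closedBall_zero_iff.2 h7) (mem_closedBall_zero_iff.2 (h2.trans one_le_two))
    simp only [Function.comp_apply, h4, A.ψκ _ _ hy] at h8
    have h9 := mul_le_mul_of_nonneg_left h5 (abs_nonneg D₀)
    have : 0 ≤ 2 * B / min r C⁻¹ * dist x y := by positivity
    rw [mul_assoc]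
    linarith
  · have h1 := norm_sub_le (f x) (f y)
    have h2 : 2 * B ≤ 2 * B / min r C⁻¹ * dist x y := by
      have := mul_le_mul_of_nonneg_left h (show 0 ≤ 2 * B / min r C⁻¹ by positivity)
      rwa [div_mul_cancel₀ _ hρ.ne'] at this
    have : 0 ≤ |D₀| * C * dist x y := by positivity
    linarith [hfB x, hfB y]

variable (A)

theorem Lam_dF (x : M) (v : F) : A.Lam x (A.dF A.emb x v) = A.Pr x v := by
  obtain ⟨-, -, h3, h4⟩ := A.ch_spec x
  have h1 := (A.Lam_emb _ _ h3 (A.Ip _ _ v)).trans (A.I_Ip (A.ch x) h3 v)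
  rwa [h4] at h1

theorem c2b_ext (n : ℕ) (k l : ι) :
    ∃ C : ℝ, 0 ≤ C ∧ ∀ v : E4 → G, Tst 2 v → hs n 1 (A.lcz l (A.ext k v)) ≤ C * hs n 1 v := by
  classical
  let χ : ContDiffBump (0 : E4) := ⟨2, 5 / 2, by norm_num, by norm_num⟩
  have hsub : closedBall (0 : E4) 1 ⊆ V := closedBall_subset_ball (by norm_num)
  have hK : IsCompact (closedBall (0 : E4) 1 ∩ A.ψ l ⁻¹' (A.ψ k '' closedBall 0 (5 / 2))) :=
    (isCompact_closedBall 0 1).of_isClosed_subset
      (((A.ψ_cont l).mono hsub).preimage_isClosed_of_isClosed isClosed_closedBall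
        (A.isCompact_ψ k (by norm_num)).isClosed) inter_subset_left
  have hKO : closedBall (0 : E4) 1 ∩ A.ψ l ⁻¹' (A.ψ k '' closedBall 0 (5 / 2)) ⊆ V ∩ A.ψ l ⁻¹' A.U k := by
    rintro z ⟨h1, w, hw, e⟩
    refine ⟨hsub h1, ?_⟩
    rw [mem_preimage, ← e]
    exact A.ψ_mem k w (closedBall_subset_ball (by norm_num) hw)
  obtain ⟨C, hC, h⟩ := hs_comp (G₁ := G) (G₂ := G) n (A.ovl_open l k) hK hKO (A.trans l k)
    (fun z hz w hw e => by
      rw [← A.κψ l z hz.1, ← A.κψ l w hw.1, ← A.ψκ k _ hz.2, ← A.ψκ k _ hw.2]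
      exact congrArg (fun t => A.κ l (A.ψ k t)) e)
    (fun z hz => (A.rho_trans l k hz.1 hz.2).2)
    (a := fun z => if z ∈ V ∩ A.ψ l ⁻¹' A.U k then
      (A.φ l (A.ψ l z) ^ 2 * χ (A.κ k (A.ψ l z))) • ContinuousLinearMap.id ℝ G else 0)
    (by
      refine ContDiffOn.congr (f := fun z => (A.φ l (A.ψ l z) ^ 2 * χ (A.κ k (A.ψ l z))) •
        ContinuousLinearMap.id ℝ G) ?_ fun z hz => if_pos hz
      exact ((((A.φ_sm l l).mono inter_subset_left).pow 2).mul
        (χ.contDiff.comp_contDiffOn (A.trans l k))).smul contDiffOn_const)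
    (fun z hz => by
      split_ifs with h
      · by_cases h1 : A.φ l (A.ψ l z) = 0
        · simp [h1]
        · have h2 := (A.φ_supp l _ h1).2
          rw [A.κψ l z h.1] at h2
          have h3 : χ (A.κ k (A.ψ l z)) = 0 := by
            refine χ.zero_of_le_dist (not_lt.1 fun hl => hz ⟨mem_closedBall_zero_iff.2 h2, _, ?_, A.ψκ k _ h.2⟩)
            exact mem_closedBall.2 hl.le
          simp [h3]
      · rfl)
  refine ⟨C, hC, fun v hv => le_of_eq_of_le ?_ (h v (hv.mono (by norm_num))).2⟩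
  congr 1
  funext z
  by_cases hz : z ∈ V
  · by_cases hU : A.ψ l z ∈ A.U k
    · have hm : z ∈ V ∩ A.ψ l ⁻¹' A.U k := ⟨hz, hU⟩
      simp only [lcz, LinearMap.coe_mk, AddHom.coe_mk, hz, if_true, A.ext_of_mem k v hU, if_pos hm,
        Function.comp_apply, smul_apply, ContinuousLinearMap.id_apply, mul_smul]
      congr 1
      by_cases h2 : ‖A.κ k (A.ψ l z)‖ ≤ 2
      · rw [χ.one_of_mem_closedBall (mem_closedBall_zero_iff.2 h2), one_smul]
      · rw [hv.2 _ (not_le.1 h2), smul_zero]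
    · have hm : z ∉ V ∩ A.ψ l ⁻¹' A.U k := fun h => hU h.2
      simp only [lcz, LinearMap.coe_mk, AddHom.coe_mk, hz, if_true, A.ext_of_notMem k v hU, if_neg hm,
        smul_zero, zero_apply]
  · have hm : z ∉ V ∩ A.ψ l ⁻¹' A.U k := fun h => hz h.1
    simp only [lcz, LinearMap.coe_mk, AddHom.coe_mk, hz, if_false, if_neg hm, zero_apply]

/-- `lcz l (ext k v) z = a z (v (κ_k (ψ_l z)))` with `a = φ_l² · (χ ∘ τ) • id` on the overlap, `χ` a bump equal to `1` on `closedBall 0 2`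
with `rOut = 5/2`; `hs_comp`. -/
theorem NS_ext (n : ℕ) : ∃ C : ℝ, 0 ≤ C ∧ ∀ k (v : E4 → G), Tst 2 v → A.NS n (A.ext k v) ≤ C * hs n 1 v := by
  choose C hC h using fun k l => A.c2b_ext (G := G) n k l
  refine ⟨∑ k, ∑ l, C k l, Finset.sum_nonneg fun k _ => Finset.sum_nonneg fun l _ => hC k l, fun k v hv => ?_⟩
  calc A.NS n (A.ext k v) ≤ ∑ l, C k l * hs n 1 v := Finset.sum_le_sum fun l _ => h k l v hv
    _ = (∑ l, C k l) * hs n 1 v := (Finset.sum_mul _ _ _).symm
    _ ≤ _ := mul_le_mul_of_nonneg_right (Finset.single_le_sum (f := fun k => ∑ l, C k l)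
      (fun k _ => Finset.sum_nonneg fun l _ => hC k l) (Finset.mem_univ k)) (hs_nonneg n zero_le_one v)

theorem NS_app (n : ℕ) {a : M → G →L[ℝ] G'} (ha : A.Sm a) :
    ∃ C : ℝ, 0 ≤ C ∧ ∀ f, A.Sm f → A.NS n (fun x => a x (f x)) ≤ C * A.NS n f := by
  choose C hC h using fun k => hs_mul n (ha k)
  refine ⟨∑ k, C k, Finset.sum_nonneg fun k _ => hC k, fun f hf => ?_⟩
  rw [NS, NS, Finset.mul_sum]
  refine Finset.sum_le_sum fun k _ => ?_
  have e : A.lcz k (fun x => a x (f x)) = fun z => (a ∘ A.ψ k) z (A.lcz k f z) := by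
    funext z
    by_cases hz : z ∈ V <;> simp [lcz, hz]
  rw [e]
  exact (h k 1 ⟨zero_le_one, le_rfl⟩ _ ((hf.lcz k).mono (by norm_num))).trans
    (mul_le_mul_of_nonneg_right (Finset.single_le_sum (fun k _ => hC k) (Finset.mem_univ k))
      (hs_nonneg n zero_le_one _))

theorem NS_basic (n : ℕ) {f g : M → G} (hf : A.Sm f) (hg : A.Sm g) (c : ℝ) :
    0 ≤ A.NS n f ∧ A.NS n (f + g) ≤ A.NS n f + A.NS n g ∧ A.NS n (c • f) = |c| * A.NS n f ∧
      A.NS n f ≤ A.NS (n + 1) f ∧ ∀ k, hs n 1 (A.lcz k f) ≤ A.NS n f := by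
  refine ⟨Finset.sum_nonneg fun k _ => hs_nonneg n zero_le_one _, ?_, ?_,
    Finset.sum_le_sum fun k _ => hs_mono (Nat.le_succ n) zero_le_one _, fun k =>
      Finset.single_le_sum (f := fun k => hs n 1 (A.lcz k f)) (fun k _ => hs_nonneg n zero_le_one _)
        (Finset.mem_univ k)⟩
  · rw [NS, NS, NS, ← Finset.sum_add_distrib]
    refine Finset.sum_le_sum fun k _ => ?_
    rw [map_add]
    exact hs_add_le n zero_le_one (hf.lcz k) (hg.lcz k)
  · rw [NS, NS, Finset.mul_sum]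
    refine Finset.sum_congr rfl fun k _ => ?_
    rw [map_smul]
    exact hs_smul n 1 (hf.lcz k) c

theorem sup_le_NS : ∃ C : ℝ, 0 ≤ C ∧ ∀ f : M → G, A.Sm f → ∀ x, ‖f x‖ ≤ C * A.NS 4 f := by
  obtain ⟨C, hC, h⟩ := sup_le_hs (G := G)
  refine ⟨C, hC, fun f hf x => ?_⟩
  rw [← congrFun (A.sum_ext_lcz f) x, Finset.sum_apply, NS, Finset.mul_sum]
  refine norm_sum_le_of_le _ fun k _ => ?_
  by_cases hx : x ∈ A.U k
  · rw [A.ext_of_mem k _ hx]
    exact h _ ((hf.lcz k).mono (by norm_num)) _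
  · rw [A.ext_of_notMem k _ hx, norm_zero]
    exact mul_nonneg hC (hs_nonneg _ zero_le_one _)

/-- `tsum_tst` in each chart; `f = ∑' i, u i` pointwise, `lcz k f = ∑' lcz k (u i)`, `f = ∑ k, ext k (lcz k f)`. -/
theorem NS_complete {u : ℕ → M → G} (hu : ∀ i, A.Sm (u i)) (hs' : ∀ n, Summable fun i => A.NS n (u i)) :
    A.Sm (fun x => ∑' i, u i x) ∧ (∀ x, Summable fun i => u i x) ∧ ∀ n,
      Tendsto (fun N => A.NS n ((fun x => ∑' i, u i x) - ∑ i ∈ Finset.range N, u i)) atTop (𝓝 0) := by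
  haveI := FiniteDimensional.complete ℝ G
  obtain ⟨C, -, hC⟩ := A.sup_le_NS (G := G)
  have h1 : ∀ x, Summable fun i => u i x := fun x =>
    Summable.of_norm_bounded ((hs' 4).mul_left C) fun i => hC _ (hu i) x
  have h2 := fun k => tsum_tst (by norm_num) (fun i => (hu i).lcz k) fun n =>
    Summable.of_nonneg_of_le (fun i => hs_nonneg n zero_le_one _)
      (fun i => (A.NS_basic n (hu i) (hu i) 0).2.2.2.2 k) (hs' n)
  have h3 : ∀ k, (fun z => ∑' i, A.lcz k (u i) z) = A.lcz k fun x => ∑' i, u i x := fun k => by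
    funext z
    by_cases hz : z ∈ V
    · exact (tsum_congr fun i => if_pos hz).trans (((h1 _).tsum_const_smul _).trans (if_pos hz).symm)
    · exact (tsum_congr fun i => if_neg hz).trans (tsum_zero.trans (if_neg hz).symm)
  simp only [h3] at h2
  refine ⟨?_, h1, fun n => ?_⟩
  · rw [← A.sum_ext_lcz fun x => ∑' i, u i x]
    exact Sm.sum _ fun k _ => sm_ext k (by norm_num) (h2 k).1
  · simpa only [NS, map_sub, map_sum, Finset.sum_const_zero] using
      tendsto_finset_sum Finset.univ fun k _ => (h2 k).2.2 n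

end Atl
end Crest.Agent.R240
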