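import Crest.Agent.R240.C2
import Crest.Agent.R240.A10

/-! Block C3: forms. -/

set_option autoImplicit false
set_option maxSynthPendingDepth 3
set_option linter.unusedSectionVars false
set_option linter.unusedVariables false
open MeasureTheory Filter Set Metric
open scoped ENNReal NNReal Topology ContDiff InnerProductSpace InnerProduct

noncomputable section
namespace Crest.Agent.R240

namespace Atl
variable {M F ι : Type*} [MetricSpace M] [CompactSpace M] [NormedAddCommGroup F] [InnerProductSpace ℝ F]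
  [FiniteDimensional ℝ F] [Fintype ι] (A : Atl M F ι)
  {G G' : Type*} [NormedAddCommGroup G] [NormedSpace ℝ G] [FiniteDimensional ℝ G]
  [NormedAddCommGroup G'] [NormedSpace ℝ G'] [FiniteDimensional ℝ G']

variable {A}

theorem Form.skew {b : M → Bil F} (h : A.Form b) (x : M) (u v : F) : b x u v = -b x v u := by
  obtain ⟨L, hL⟩ := A.fr_at x
  exact ((hL.piT_eq_iff (b x)).1 (h.2 x)).1 u v

theorem Form.tang {b : M → Bil F} (h : A.Form b) (x : M) (u v : F) : b x (A.Pr x u) (A.Pr x v) = b x u v := by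
  obtain ⟨L, hL⟩ := A.fr_at x
  exact ((hL.piT_eq_iff (b x)).1 (h.2 x)).2 u v

theorem form_of {b : M → Bil F} (hs : A.Sm b) (h1 : ∀ x u v, b x u v = -b x v u)
    (h2 : ∀ x u v, b x (A.Pr x u) (A.Pr x v) = b x u v) : A.Form b := by
  refine ⟨hs, fun x => ?_⟩
  obtain ⟨L, hL⟩ := A.fr_at x
  exact (hL.piT_eq_iff (b x)).2 ⟨h1 x, h2 x⟩

theorem form_zero : A.Form 0 := by
  exact ⟨sm_const 0, fun x => map_zero _⟩

theorem Form.add {b b' : M → Bil F} (h : A.Form b) (h' : A.Form b') : A.Form (b + b') := by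
  refine ⟨h.1.add h'.1, fun x => ?_⟩
  rw [Pi.add_apply, map_add, h.2 x, h'.2 x]

theorem Form.csmul {b : M → Bil F} (h : A.Form b) (c : ℝ) : A.Form (c • b) := by
  refine ⟨h.1.csmul c, fun x => ?_⟩
  rw [Pi.smul_apply, map_smul, h.2 x]

theorem Form.smul {a : M → ℝ} {b : M → Bil F} (ha : A.Sm a) (h : A.Form b) : A.Form fun x => a x • b x := by
  refine ⟨ha.smul h.1, fun x => ?_⟩
  rw [map_smul, h.2 x]

theorem Form.sum {κ : Type*} (s : Finset κ) {b : κ → M → Bil F} (h : ∀ i ∈ s, A.Form (b i)) :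
    A.Form (∑ i ∈ s, b i) := by
  refine ⟨Sm.sum s fun i hi => (h i hi).1, fun x => ?_⟩
  rw [Finset.sum_apply, map_sum]
  exact Finset.sum_congr rfl fun i hi => (h i hi).2 x

theorem Sm.form_pM {b : M → Bil F} (h : A.Sm b) : A.Form fun x => A.pM x (b x) := by
  refine ⟨Sm.app A.sm_basic.2.2.2.2.2.1 h, fun x => ?_⟩
  obtain ⟨L, hL⟩ := A.fr_at x
  exact hL.piT_piM (b x)

theorem Sm.loc {b : M → Bil F} (h : A.Sm b) (k : ι) : ContDiffOn ℝ ∞ (A.loc k b) V := by
  exact (contDiff_pb.comp_contDiffOn (A.I_sm k).1).clm_apply (h k)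

theorem Form.up_loc {b : M → Bil F} (h : A.Form b) (k : ι) {z : E4} (hz : z ∈ V) :
    A.up k (A.loc k b) z = b (A.ψ k z) := by
  ext u v
  simp only [up, Atl.loc, pb_apply]
  rw [A.I_Ip k hz, A.I_Ip k hz, h.tang]

theorem loc_ext_up (k : ι) (η : E4 → Bil E4) {z : E4} (hz : z ∈ V) : A.loc k (A.ext k (A.up k η)) z = η z := by
  ext u v
  simp only [loc, pb_apply]
  rw [A.ext_ψ k _ hz]
  simp only [up, pb_apply]
  rw [A.Ip_I k hz, A.Ip_I k hz]

theorem tst_up (k : ι) {ρ : ℝ} (hρ : ρ < 3) {η : E4 → Bil E4} (h : Tst ρ η) : Tst ρ (A.up k η) := by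
  exact Tst.mul hρ (a := fun z => pb (A.Ip k z)) (contDiff_pb.comp_contDiffOn (A.I_sm k).2.1) h

theorem form_ext_up (k : ι) {ρ : ℝ} (hρ : ρ < 3) {η : E4 → Bil E4} (h : Tst ρ η) (hs : ∀ z a c, η z a c = -η z c a) :
    A.Form (A.ext k (A.up k η)) := by
  refine form_of (sm_ext k hρ (tst_up k hρ h)) (fun x u v => ?_) fun x u v => ?_
  · by_cases hx : x ∈ A.U k
    · rw [A.ext_of_mem k _ hx]
      simp only [up, pb_apply]
      exact hs _ _ _
    · rw [A.ext_of_notMem k _ hx]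
      simp
  · by_cases hx : x ∈ A.U k
    · rw [A.ext_of_mem k _ hx]
      simp only [up, pb_apply]
      have hz := A.κ_mem k x hx
      have h1 := fun w => A.Ip_Pr k hz w
      rw [A.ψκ k x hx] at h1
      rw [h1, h1]
    · rw [A.ext_of_notMem k _ hx]
      simp

theorem closed_zero : A.Closed 0 := by
  intro k z hz a c e
  have : A.loc k (0 : M → Bil F) = fun _ => 0 := by
    funext w
    simp [Atl.loc]
  rw [this]
  simp [dcyc]

theorem Closed.add {b b' : M → Bil F} (hb : A.Sm b) (hb' : A.Sm b') (h : A.Closed b) (h' : A.Closed b') :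
    A.Closed (b + b') := by
  intro k z hz a c e
  have h1 : A.loc k (b + b') = A.loc k b + A.loc k b' := by
    funext w
    simp [Atl.loc]
  have d1 : DifferentiableAt ℝ (A.loc k b) z :=
    ((hb.loc k).contDiffAt (V_open.mem_nhds hz)).differentiableAt (by simp)
  have d2 : DifferentiableAt ℝ (A.loc k b') z :=
    ((hb'.loc k).contDiffAt (V_open.mem_nhds hz)).differentiableAt (by simp)
  have e1 := h k z hz a c e
  have e2 := h' k z hz a c e
  rw [h1]
  simp only [dcyc] at e1 e2 ⊢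
  rw [fderiv_add d1 d2]
  simp only [add_apply]
  linarith

theorem Closed.csmul {b : M → Bil F} (hb : A.Sm b) (h : A.Closed b) (c : ℝ) : A.Closed (c • b) := by
  intro k z hz a d e
  have h1 : A.loc k (c • b) = c • A.loc k b := by
    funext w
    simp [Atl.loc]
  have d1 : DifferentiableAt ℝ (A.loc k b) z :=
    ((hb.loc k).contDiffAt (V_open.mem_nhds hz)).differentiableAt (by simp)
  have e1 := h k z hz a d e
  rw [h1]
  simp only [dcyc] at e1 ⊢
  rw [fderiv_const_smul d1]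
  simp only [smul_apply, smul_eq_mul]
  rw [← mul_add, ← mul_add, e1, mul_zero]

theorem Closed.sum {κ : Type*} (s : Finset κ) {b : κ → M → Bil F} (hb : ∀ i ∈ s, A.Sm (b i))
    (h : ∀ i ∈ s, A.Closed (b i)) : A.Closed (∑ i ∈ s, b i) := by
  classical
  induction s using Finset.induction_on with
  | empty => simpa using (closed_zero : A.Closed 0)
  | insert i s hi ih =>
    rw [Finset.sum_insert hi]
    exact Closed.add (hb i (Finset.mem_insert_self _ _))
      (Sm.sum s fun j hj => hb j (Finset.mem_insert_of_mem hj)) (h i (Finset.mem_insert_self _ _))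
      (ih (fun j hj => hb j (Finset.mem_insert_of_mem hj)) fun j hj => h j (Finset.mem_insert_of_mem hj))

theorem c3b_dcyc_congr {β β' : E4 → Bil E4} {z : E4} (h : β =ᶠ[𝓝 z] β') (a c e : E4) :
    dcyc β z a c e = dcyc β' z a c e := by
  simp only [dcyc, h.fderiv_eq]

/-- Near `z`, `loc k b = pb (Dτ) (loc l b ∘ τ)` (`I_trans`); `dcyc_pb`. -/
theorem closed_of_local {b : M → Bil F} (hb : A.Form b)
    (h : ∀ x, ∃ l, x ∈ A.U l ∧ ∀ a c e, dcyc (A.loc l b) (A.κ l x) a c e = 0) : A.Closed b := by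
  intro k z hz a c e
  obtain ⟨l, hl, h0⟩ := h (A.ψ k z)
  have ho : V ∩ A.ψ k ⁻¹' A.U l ∈ 𝓝 z := (A.ovl_open k l).mem_nhds ⟨hz, hl⟩
  have hev : A.loc k b =ᶠ[𝓝 z] fun w =>
      pb (fderiv ℝ (A.κ l ∘ A.ψ k) w) (A.loc l b ((A.κ l ∘ A.ψ k) w)) := by
    filter_upwards [ho] with w hw
    ext u v
    simp only [Atl.loc, pb_apply, Function.comp_apply]
    rw [A.ψκ l _ hw.2, A.I_trans k l hw.1 hw.2 u, A.I_trans k l hw.1 hw.2 v]
  have hτ : ContDiffAt ℝ ∞ (A.κ l ∘ A.ψ k) z := (A.trans k l).contDiffAt ho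
  have hβ : ContDiffAt ℝ ∞ (A.loc l b) ((A.κ l ∘ A.ψ k) z) :=
    (hb.1.loc l).contDiffAt (V_open.mem_nhds (A.κ_mem l _ hl))
  rw [c3b_dcyc_congr hev, dcyc_pb hτ hβ (fun u v => by
    simp only [Atl.loc, pb_apply]; exact hb.skew _ _ _)]
  exact h0 _ _ _

theorem dform_spec (k : ι) {γ : E4 → E4 →L[ℝ] ℝ} (h : Tst 2 γ) : A.Form (A.dform k γ) ∧ A.Closed (A.dform k γ) := by
  have hf : A.Form (A.dform k γ) :=
    form_ext_up k (by norm_num) h.d1' fun z a c => by rw [d1_apply, d1_apply]; ring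
  refine ⟨hf, closed_of_local hf fun x => ?_⟩
  by_cases hx : x ∈ A.U k
  · refine ⟨k, hx, fun a c e => ?_⟩
    have hev : A.loc k (A.dform k γ) =ᶠ[𝓝 (A.κ k x)] d1 γ := by
      filter_upwards [V_open.mem_nhds (A.κ_mem k x hx)] with w hw
      exact loc_ext_up k _ hw
    rw [c3b_dcyc_congr hev]
    exact dcyc_d1 h.1.contDiffAt a c e
  · obtain ⟨h1, -, h3, h4⟩ := A.ch_spec x
    refine ⟨A.ch x, h1, fun a c e => ?_⟩
    have hK : IsClosed (A.ψ k '' closedBall 0 2) := (A.isCompact_ψ k (by norm_num)).isClosed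
    have hxK : x ∉ A.ψ k '' closedBall 0 2 := by
      rintro ⟨w, hw, rfl⟩
      exact hx (A.ψ_mem k w (closedBall_subset_ball (by norm_num) hw))
    have hc : ContinuousAt (A.ψ (A.ch x)) (A.κ (A.ch x) x) :=
      (A.ψ_cont _).continuousAt (V_open.mem_nhds h3)
    have hn : (A.ψ k '' closedBall 0 2)ᶜ ∈ 𝓝 (A.ψ (A.ch x) (A.κ (A.ch x) x)) := by
      rw [h4]
      exact hK.isOpen_compl.mem_nhds hxK
    have hev : A.loc (A.ch x) (A.dform k γ) =ᶠ[𝓝 (A.κ (A.ch x) x)] fun _ => 0 := by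
      filter_upwards [hc hn] with w hw
      have : A.dform k γ (A.ψ (A.ch x) w) = 0 := by
        by_cases hy : A.ψ (A.ch x) w ∈ A.U k
        · rw [Atl.dform, A.ext_of_mem k _ hy]
          have h2 : 2 < ‖A.κ k (A.ψ (A.ch x) w)‖ := by
            by_contra h2
            exact hw ⟨_, mem_closedBall_zero_iff.2 (not_lt.1 h2), A.ψκ k _ hy⟩
          simp [Atl.up, h.d1'.2 _ h2]
        · exact A.ext_of_notMem k _ hy
      simp [Atl.loc, this]
    rw [c3b_dcyc_congr hev]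
    simp [dcyc]

theorem Ex.cl {S : Cur M F} (h : A.Ex S) : A.Cl S := fun k γ hγ =>
  h _ (dform_spec k hγ).1 (dform_spec k hγ).2

theorem Bdd.add {S S' : Cur M F} (h : A.Bdd S) (h' : A.Bdd S') : A.Bdd (S + S') := by
  obtain ⟨n, hn⟩ := h
  obtain ⟨m, hm⟩ := h'
  refine ⟨max n m, fun k => ?_⟩
  obtain ⟨C, hC⟩ := hn k
  obtain ⟨C', hC'⟩ := hm k
  refine ⟨|C| + |C'|, fun u hu => ?_⟩
  have e1 := hC u hu
  have e2 := hC' u hu
  have m1 : hs n 1 u ≤ hs (max n m) 1 u := hs_mono (le_max_left _ _) zero_le_one u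
  have m2 : hs m 1 u ≤ hs (max n m) 1 u := hs_mono (le_max_right _ _) zero_le_one u
  have p1 : 0 ≤ hs n 1 u := hs_nonneg n zero_le_one u
  have p2 : 0 ≤ hs m 1 u := hs_nonneg m zero_le_one u
  have b1 : C * hs n 1 u ≤ |C| * hs (max n m) 1 u :=
    mul_le_mul (le_abs_self _) m1 p1 (abs_nonneg _)
  have b2 : C' * hs m 1 u ≤ |C'| * hs (max n m) 1 u :=
    mul_le_mul (le_abs_self _) m2 p2 (abs_nonneg _)
  simp only [LinearMap.comp_apply, LinearMap.add_apply] at e1 e2 ⊢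
  refine (abs_add_le _ _).trans ?_
  rw [add_mul]
  linarith

/-- The wedge pairing in a chart. -/
theorem wedge4_loc {b b' : Bil F} (k : ι) {z : E4} (hz : z ∈ V) (hb : A.pT (A.ψ k z) b = b)
    (hb' : A.pT (A.ψ k z) b' = b') :
    wedge4 (pb (A.I k z) b) (pb (A.I k z) b') = A.rho k z * A.wG b b' := by
  have fr := A.fr k z hz
  have s1 := ((fr.piT_eq_iff b).1 hb).1
  have s2 := ((fr.piT_eq_iff b').1 hb').1
  have e1 : pb (A.I k z) b = pb (A.g k z) (pb (A.L k z) b) := rfl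
  have e2 : pb (A.I k z) b' = pb (A.g k z) (pb (A.L k z) b') := rfl
  rw [e1, e2, wedge4_pb _ (fun a c => by simp only [pb_apply]; exact s1 _ _)
    (fun a c => by simp only [pb_apply]; exact s2 _ _), fr.wG_eq_wedge4 hb hb']
  rfl

end Atl
end Crest.Agent.R240
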