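import Crest.Agent.R240.C1
import Crest.Agent.R240.A8

/-! Block C4: the volume measure. -/

set_option autoImplicit false
set_option maxSynthPendingDepth 3
set_option linter.unusedSectionVars false
set_option linter.unusedVariables false
open MeasureTheory Filter Set Metric
open scoped ENNReal NNReal Topology ContDiff InnerProductSpace InnerProduct

noncomputable section
namespace Crest.Agent.R240

namespace Atl
variable {M F ι : Type*} [MetricSpace M] [CompactSpace M] [NormedAddCommGroup F] [InnerProductSpace ℝ F]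
  [FiniteDimensional ℝ F] [Fintype ι] (A : Atl M F ι)
  {G G' : Type*} [NormedAddCommGroup G] [NormedSpace ℝ G] [FiniteDimensional ℝ G]
  [NormedAddCommGroup G'] [NormedSpace ℝ G'] [FiniteDimensional ℝ G']
  [MeasurableSpace M] [BorelSpace M] [MeasurableSpace F] [BorelSpace F]

theorem ext_measurable (k : ι) {u : E4 → ℝ≥0∞} (hu : Measurable u) :
    Measurable fun x => (A.U k).indicator (fun x => u (A.κ k x)) x := by
  classical
  have hU := (A.U_open k).measurableSet
  have h1 : Measurable ((A.U k).piecewise (A.κ k) fun _ => 0) :=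
    (A.κ_cont k).measurable_piecewise continuousOn_const hU
  have h2 := (hu.comp h1).indicator hU
  have e : (fun x => (A.U k).indicator (fun x => u (A.κ k x)) x) =
      (A.U k).indicator (u ∘ (A.U k).piecewise (A.κ k) fun _ => 0) := by
    funext x
    by_cases hx : x ∈ A.U k <;> simp [hx]
  rw [e]
  exact h2

theorem c4a_restrict {s t : Set E4} (hs : MeasurableSet s) (ht : MeasurableSet t) (hst : s ⊆ t)
    {f : E4 → ℝ≥0∞} (h : ∀ z ∈ t, z ∉ s → f z = 0) : ∫⁻ z in t, f z = ∫⁻ z in s, f z := by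
  rw [← lintegral_indicator hs, ← lintegral_indicator ht]
  congr 1
  funext z
  by_cases h1 : z ∈ s
  · simp [h1, hst h1]
  · by_cases h2 : z ∈ t
    · simp [h1, h2, h z h2 h1]
    · simp [h1, h2]

theorem c4a_cont (k l : ι) : ContinuousOn (fun z => A.φ l (A.ψ k z) ^ 2 * A.rho k z) V :=
  ((A.φ_sm l k).continuousOn.pow 2).mul (A.I_sm k).2.2.continuousOn

theorem c4a_meas (k l : ι) :
    AEMeasurable (fun z => ENNReal.ofReal (A.φ l (A.ψ k z) ^ 2 * A.rho k z)) (volume.restrict V) :=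
  ((A.c4a_cont k l).aemeasurable V_open.measurableSet).ennreal_ofReal

theorem c4a_term (k l : ι) {u : E4 → ℝ≥0∞} (hu : Measurable u) :
    ∫⁻ x, (A.U k).indicator (fun x => u (A.κ k x)) x ∂(((volume.restrict V).withDensity fun z =>
      ENNReal.ofReal (A.φ l (A.ψ l z) ^ 2 * A.rho l z)).map (A.ψ l)) =
    ∫⁻ z in V, ENNReal.ofReal (A.φ l (A.ψ k z) ^ 2 * A.rho k z) * u z := by
  have hV := V_open.measurableSet
  have hψ : AEMeasurable (A.ψ l) (volume.restrict V) := (A.ψ_cont l).aemeasurable hV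
  have hf := A.ext_measurable k hu
  rw [lintegral_map' hf.aemeasurable (hψ.mono_ac (withDensity_absolutelyContinuous _ _)),
    lintegral_withDensity_eq_lintegral_mul₀ (A.c4a_meas l l)
      (g := fun a => (A.U k).indicator (fun x => u (A.κ k x)) (A.ψ l a)) (hf.comp_aemeasurable hψ)]
  have hO := A.ovl_open l k
  have hO' := A.ovl_open k l
  have himg : (A.κ k ∘ A.ψ l) '' (V ∩ A.ψ l ⁻¹' A.U k) = V ∩ A.ψ k ⁻¹' A.U l := by
    ext y
    constructor
    · rintro ⟨z, ⟨hz, hz'⟩, rfl⟩
      refine ⟨A.κ_mem k _ hz', ?_⟩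
      simp only [mem_preimage, Function.comp_apply, A.ψκ k _ hz']
      exact A.ψ_mem l z hz
    · rintro ⟨hy, hy'⟩
      refine ⟨A.κ l (A.ψ k y), ⟨A.κ_mem l _ hy', ?_⟩, ?_⟩
      · simp only [mem_preimage, A.ψκ l _ hy']
        exact A.ψ_mem k y hy
      · simp only [Function.comp_apply, A.ψκ l _ hy', A.κψ k y hy]
  have hinj : InjOn (A.κ k ∘ A.ψ l) (V ∩ A.ψ l ⁻¹' A.U k) := by
    rintro z ⟨hz, hz'⟩ w ⟨hw, hw'⟩ h
    have h1 := congrArg (A.ψ k) h
    simp only [Function.comp_apply, A.ψκ k _ hz', A.ψκ k _ hw'] at h1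
    rw [← A.κψ l z hz, h1, A.κψ l w hw]
  have hder : ∀ z ∈ V ∩ A.ψ l ⁻¹' A.U k, HasFDerivWithinAt (A.κ k ∘ A.ψ l)
      (fderiv ℝ (A.κ k ∘ A.ψ l) z) (V ∩ A.ψ l ⁻¹' A.U k) z := fun z hz =>
    (((A.trans l k).contDiffAt (hO.mem_nhds hz)).differentiableAt
      (by simp)).hasFDerivAt.hasFDerivWithinAt
  rw [c4a_restrict hO.measurableSet hV inter_subset_left, c4a_restrict hO'.measurableSet hV
    inter_subset_left, ← himg,
    lintegral_image_eq_lintegral_abs_det_fderiv_mul volume hO.measurableSet hder hinj]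
  · refine setLIntegral_congr_fun hO.measurableSet fun z hz => ?_
    obtain ⟨hz, hz'⟩ := hz
    have hz'' : A.ψ l z ∈ A.U k := hz'
    simp only [Pi.mul_apply, Function.comp_apply, indicator_of_mem hz'', A.ψκ k _ hz'',
      (A.rho_trans l k hz hz'').1]
    rw [← mul_assoc (ENNReal.ofReal _), ← ENNReal.ofReal_mul (abs_nonneg _)]
    congr 2
    ring
  · intro z hz hz'
    have : A.φ l (A.ψ k z) = 0 := by
      by_contra h0
      exact hz' ⟨hz, (A.φ_supp l _ h0).1⟩
    simp [this]
  · intro z hz hz'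
    have : A.ψ l z ∉ A.U k := fun h0 => hz' ⟨hz, h0⟩
    simp [this]

/-- `lintegral_finset_sum_measure`, `lintegral_map'`, `lintegral_withDensity_eq_lintegral_mul`; in the chart `l` change variables by the transition
map on the overlap (`lintegral_image_eq_lintegral_abs_det_fderiv_mul`, `rho_trans`), and `∑ φ² = 1`. -/
theorem lintegral_ext (k : ι) {u : E4 → ℝ≥0∞} (hu : Measurable u) :
    ∫⁻ x, (A.U k).indicator (fun x => u (A.κ k x)) x ∂A.vol = ∫⁻ z in V, ENNReal.ofReal (A.rho k z) * u z := by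
  rw [vol, lintegral_finsetSum_measure]
  simp only [A.c4a_term k _ hu]
  rw [← lintegral_finsetSum' (f := fun l z => ENNReal.ofReal (A.φ l (A.ψ k z) ^ 2 * A.rho k z) * u z)
    _ fun l _ => (A.c4a_meas k l).mul hu.aemeasurable]
  refine setLIntegral_congr_fun V_open.measurableSet fun z hz => ?_
  simp only [← Finset.sum_mul]
  have h0 : 0 ≤ A.rho k z := (A.det_pos k z hz).le
  rw [← ENNReal.ofReal_sum_of_nonneg fun l _ => mul_nonneg (sq_nonneg _) h0,
    ← Finset.sum_mul, A.φ_sum, one_mul]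

theorem vol_finite : IsFiniteMeasure A.vol := by
  have h : ∀ k, IsFiniteMeasure (((volume.restrict V).withDensity fun z =>
      ENNReal.ofReal (A.φ k (A.ψ k z) ^ 2 * A.rho k z)).map (A.ψ k)) := by
    intro k
    have h1 : IntegrableOn (fun z => A.φ k (A.ψ k z) ^ 2 * A.rho k z) V := by
      refine IntegrableOn.of_forall_sdiff_eq_zero (s := closedBall 0 1)
        (((A.c4a_cont k k).mono (closedBall_subset_ball (by norm_num))).integrableOn_compact
          (isCompact_closedBall _ _)) V_open.measurableSet fun z hz => ?_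
      have : A.φ k (A.ψ k z) = 0 := by
        by_contra h0
        have := (A.φ_supp k _ h0).2
        rw [A.κψ k z hz.1] at this
        exact hz.2 (mem_closedBall_zero_iff.2 this)
      simp [this]
    have := isFiniteMeasure_withDensity_ofReal h1.2
    exact Measure.isFiniteMeasure_map _ _
  unfold vol
  infer_instance

theorem c4b_cont (k : ι) {u : E4 → G} (hu : Continuous u) (h0 : ∀ z, 5 / 2 < ‖z‖ → u z = 0) :
    Continuous (A.ext k u) := by
  refine continuous_iff_continuousAt.2 fun x => ?_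
  by_cases hx : x ∈ A.U k
  · refine (hu.continuousAt.comp ((A.κ_cont k).continuousAt ((A.U_open k).mem_nhds hx))).congr ?_
    filter_upwards [(A.U_open k).mem_nhds hx] with y hy using (A.ext_of_mem k u hy).symm
  · have hc := (A.isCompact_ψ k (ρ := 5 / 2) (by norm_num)).isClosed.isOpen_compl
    refine (continuousAt_const (y := (0 : G))).congr ?_
    have hm : x ∈ (A.ψ k '' closedBall 0 (5 / 2))ᶜ := by
      rintro ⟨z, hz, rfl⟩
      exact hx (A.ψ_mem k z (closedBall_subset_ball (by norm_num) hz))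
    filter_upwards [hc.mem_nhds hm] with y hy
    by_cases hyU : y ∈ A.U k
    · rw [A.ext_of_mem k u hyU, h0]
      by_contra hn
      exact hy ⟨_, mem_closedBall_zero_iff.2 (not_lt.1 hn), A.ψκ k y hyU⟩
    · rw [A.ext_of_notMem k u hyU]

theorem c4b_map (k : ι) : (A.vol.restrict (A.U k)).map (A.κ k) =
    (volume.restrict V).withDensity fun z => ENNReal.ofReal (A.rho k z) := by
  have hU := (A.U_open k).measurableSet
  ext S hS
  rw [← lintegral_indicator_one hS, lintegral_map' (measurable_one.indicator hS).aemeasurable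
    ((A.κ_cont k).aemeasurable hU), ← lintegral_indicator hU, A.lintegral_ext k (measurable_one.indicator hS),
    withDensity_apply _ hS, ← lintegral_indicator hS]
  congr 1
  funext z
  by_cases hz : z ∈ S <;> simp [hz]

/-- `vol.restrict (U k) = map ψ ((volume.restrict V).withDensity rho)` from `lintegral_ext`; `ψ` is a measurable embedding of `V`
(or use `integral_map` with `AEStronglyMeasurable` of the continuous function `ext k u`). -/
theorem integral_ext (k : ι) {u : E4 → G} (hu : Continuous u) (h0 : ∀ z, 5 / 2 < ‖z‖ → u z = 0) :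
    Continuous (A.ext k u) ∧ ∫ x, A.ext k u x ∂A.vol = ∫ z, A.rho k z • u z := by
  refine ⟨A.c4b_cont k hu h0, ?_⟩
  have hU := (A.U_open k).measurableSet
  have hV := V_open.measurableSet
  rw [← setIntegral_eq_integral_of_forall_compl_eq_zero (s := A.U k) fun x hx => A.ext_of_notMem k u hx,
    setIntegral_congr_fun hU (g := fun x => u (A.κ k x)) fun x hx => A.ext_of_mem k u hx,
    ← integral_map ((A.κ_cont k).aemeasurable hU) hu.aestronglyMeasurable, A.c4b_map,
    integral_withDensity_eq_integral_toReal_smul₀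
      (((A.I_sm k).2.2.continuousOn.aemeasurable hV).ennreal_ofReal) (Eventually.of_forall fun _ => ENNReal.ofReal_lt_top),
    ← setIntegral_eq_integral_of_forall_compl_eq_zero (s := V) (f := fun z => A.rho k z • u z) fun z hz => by
      rw [h0 z (by rw [mem_V] at hz; linarith), smul_zero]]
  exact setIntegral_congr_fun hV fun z hz => by
    simp only [ENNReal.toReal_ofReal (show 0 ≤ A.rho k z from (A.det_pos k z hz).le)]

theorem c4b_rho : ∃ C : ℝ, 1 ≤ C ∧ ∀ k (z : E4), ‖z‖ ≤ 5 / 2 → A.rho k z ≤ C ^ 2 ∧ 1 ≤ C ^ 2 * A.rho k z := by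
  have h : ∀ k, ∀ᶠ C : ℝ in atTop, ∀ z : E4, ‖z‖ ≤ 5 / 2 → A.rho k z ≤ C ^ 2 ∧ 1 ≤ C ^ 2 * A.rho k z := by
    intro k
    have hs : closedBall (0 : E4) (5 / 2) ⊆ V := closedBall_subset_ball (by norm_num)
    have hc := (A.I_sm k).2.2.continuousOn.mono hs
    have hp : ∀ z ∈ closedBall (0 : E4) (5 / 2), 0 < A.rho k z := fun z hz => A.det_pos k z (hs hz)
    obtain ⟨B, hB⟩ := (isCompact_closedBall _ _).exists_bound_of_continuousOn hc
    obtain ⟨B', hB'⟩ := (isCompact_closedBall _ _).exists_bound_of_continuousOn (hc.inv₀ fun z hz => (hp z hz).ne')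
    filter_upwards [eventually_ge_atTop 1, eventually_ge_atTop B, eventually_ge_atTop B'] with C h1 h2 h3 z hz
    have hz' := mem_closedBall_zero_iff.2 hz
    have h4 : C ≤ C ^ 2 := by nlinarith
    refine ⟨(le_abs_self _).trans ((hB z hz').trans (h2.trans h4)), ?_⟩
    rw [← inv_le_iff_one_le_mul₀ (hp z hz')]
    exact (le_abs_self _).trans ((hB' z hz').trans (h3.trans h4))
  exact ((eventually_ge_atTop 1).and (eventually_all.2 h)).exists

theorem c4b_le {X Y : Type*} [MeasurableSpace X] [MeasurableSpace Y] {μ : Measure X} {ν : Measure Y} {f : X → G}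
    {g : Y → G} (hf : AEStronglyMeasurable f μ) (hg : MemLp g 2 ν) {C : ℝ} (hC : 0 ≤ C)
    (h : ∫⁻ x, ‖f x‖ₑ ^ (2 : ℝ) ∂μ ≤ ENNReal.ofReal C ^ (2 : ℝ) * ∫⁻ y, ‖g y‖ₑ ^ (2 : ℝ) ∂ν) :
    lpNorm f 2 μ ≤ C * lpNorm g 2 ν := by
  rw [← toReal_eLpNorm hf, ← toReal_eLpNorm hg.1, ← ENNReal.toReal_ofReal hC, ← ENNReal.toReal_mul]
  refine ENNReal.toReal_mono (ENNReal.mul_ne_top ENNReal.ofReal_ne_top hg.2.ne) ?_
  rw [eLpNorm_eq_lintegral_rpow_enorm_toReal two_ne_zero ENNReal.ofNat_ne_top,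
    eLpNorm_eq_lintegral_rpow_enorm_toReal two_ne_zero ENNReal.ofNat_ne_top, ENNReal.toReal_ofNat]
  refine (ENNReal.rpow_le_rpow h (by norm_num)).trans (le_of_eq ?_)
  rw [ENNReal.mul_rpow_of_nonneg _ _ (by norm_num), ← ENNReal.rpow_mul]
  norm_num

theorem lpNorm_ext : ∃ C : ℝ, 1 ≤ C ∧ ∀ k (u : E4 → G), Continuous u → (∀ z, 5 / 2 < ‖z‖ → u z = 0) →
    lpNorm (A.ext k u) 2 A.vol ≤ C * lpNorm u 2 volume ∧ lpNorm u 2 volume ≤ C * lpNorm (A.ext k u) 2 A.vol := by
  obtain ⟨C, hC, h⟩ := A.c4b_rho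
  refine ⟨C, hC, fun k u hu h0 => ?_⟩
  have := A.vol_finite
  have hC0 : 0 ≤ C := zero_le_one.trans hC
  have hc := A.c4b_cont k hu h0
  have m1 : MemLp (A.ext k u) 2 A.vol := hc.memLp_of_hasCompactSupport (HasCompactSupport.of_compactSpace _)
  have m2 : MemLp u 2 volume := hu.memLp_of_hasCompactSupport
    (HasCompactSupport.intro (isCompact_closedBall 0 (5 / 2)) fun z hz => h0 z (by simpa using hz))
  have e1 : ∫⁻ x, ‖A.ext k u x‖ₑ ^ (2 : ℝ) ∂A.vol = ∫⁻ z in V, ENNReal.ofReal (A.rho k z) * ‖u z‖ₑ ^ (2 : ℝ) := by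
    rw [← A.lintegral_ext k (hu.enorm.measurable.pow_const _)]
    congr 1
    funext x
    by_cases hx : x ∈ A.U k
    · rw [A.ext_of_mem k u hx, indicator_of_mem hx]
    · rw [A.ext_of_notMem k u hx, indicator_of_notMem hx]; simp
  have e2 : ENNReal.ofReal C ^ (2 : ℝ) = ENNReal.ofReal (C ^ 2) := by
    rw [ENNReal.ofReal_pow hC0, ENNReal.rpow_ofNat]
  have z0 : ∀ z : E4, ¬ ‖z‖ ≤ 5 / 2 → ‖u z‖ₑ ^ (2 : ℝ) = 0 := fun z hz => by simp [h0 z (not_le.1 hz)]
  refine ⟨c4b_le m1.1 m2 hC0 ?_, c4b_le m2.1 m1 hC0 ?_⟩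
  · rw [e1, e2, ← lintegral_const_mul' _ _ ENNReal.ofReal_ne_top]
    refine (setLIntegral_le_lintegral _ _).trans (lintegral_mono fun z => ?_)
    by_cases hz : ‖z‖ ≤ 5 / 2
    · exact mul_le_mul' (ENNReal.ofReal_le_ofReal (h k z hz).1) le_rfl
    · simp only [z0 z hz, mul_zero, le_refl]
  · rw [e1, e2, ← lintegral_const_mul' _ _ ENNReal.ofReal_ne_top, ← lintegral_indicator V_open.measurableSet]
    refine lintegral_mono fun z => ?_
    by_cases hz : ‖z‖ ≤ 5 / 2
    · rw [indicator_of_mem (mem_V.2 (by linarith)), ← mul_assoc, ← ENNReal.ofReal_mul (sq_nonneg C)]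
      exact le_mul_of_one_le_left' (ENNReal.one_le_ofReal.2 (h k z hz).2)
    · simp only [z0 z hz, zero_le]

theorem c4c_rho : ∃ m : ℝ, 0 < m ∧ ∀ k (z : E4), ‖z‖ ≤ 2 → m ≤ A.rho k z ∧ A.rho k z ≤ m⁻¹ := by
  have h : ∀ k, ∀ᶠ m in 𝓝[>] (0 : ℝ), ∀ z : E4, ‖z‖ ≤ 2 → m ≤ A.rho k z ∧ A.rho k z ≤ m⁻¹ := by
    intro k
    have hsub : closedBall (0 : E4) 2 ⊆ V := closedBall_subset_ball (by norm_num)
    have hc : ContinuousOn (A.rho k) (closedBall (0 : E4) 2) := (A.I_sm k).2.2.continuousOn.mono hsub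
    have hK := isCompact_closedBall (0 : E4) 2
    have hne : (closedBall (0 : E4) 2).Nonempty := ⟨0, by simp⟩
    obtain ⟨a, ha, ha'⟩ := hK.exists_isMinOn hne hc
    obtain ⟨b, hb, hb'⟩ := hK.exists_isMaxOn hne hc
    have ha0 : 0 < A.rho k a := A.det_pos k a (hsub ha)
    have hb0 : 0 < A.rho k b := A.det_pos k b (hsub hb)
    have h1 : ∀ᶠ m in 𝓝[>] (0 : ℝ), m ∈ Ioo 0 (min (A.rho k a) (A.rho k b)⁻¹) :=
      Ioo_mem_nhdsGT (lt_min ha0 (inv_pos.2 hb0))
    filter_upwards [h1] with m hm z hz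
    have hz' : z ∈ closedBall (0 : E4) 2 := mem_closedBall_zero_iff.2 hz
    refine ⟨(hm.2.le.trans (min_le_left _ _)).trans (ha' hz'), (hb' hz').trans ?_⟩
    exact (le_inv_comm₀ hb0 hm.1).2 (hm.2.le.trans (min_le_right _ _))
  obtain ⟨m, hm, hm0⟩ := ((eventually_all.2 h).and self_mem_nhdsWithin).exists
  exact ⟨m, hm0, hm⟩

theorem c4c_vol (z : E4) {s : ℝ} (hs : 0 ≤ s) :
    volume (closedBall z s) = ENNReal.ofReal (s ^ 4) * volume (closedBall (0 : E4) 1) := by
  rw [Measure.addHaar_closedBall' volume z hs]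
  simp

theorem c4c_eq (k : ι) (z : E4) (hz : ‖z‖ ≤ 1) {s : ℝ} (hs1 : s ≤ 1) :
    A.vol (A.U k ∩ A.κ k ⁻¹' closedBall z s) =
      ∫⁻ w in closedBall z s, ENNReal.ofReal (A.rho k w) := by
  have hB : MeasurableSet (closedBall z s) := isClosed_closedBall.measurableSet
  have hu : Measurable ((closedBall z s).indicator fun _ => (1 : ℝ≥0∞)) := measurable_const.indicator hB
  have h1 := A.lintegral_ext k hu
  have hm : MeasurableSet (A.U k ∩ A.κ k ⁻¹' closedBall z s) := by
    have h2 := A.ext_measurable k hu (measurableSet_singleton 1)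
    convert h2 using 1
    ext x
    by_cases hx : x ∈ A.U k <;> by_cases hx' : A.κ k x ∈ closedBall z s <;> simp [hx, hx', -mem_closedBall]
  have hsub : closedBall z s ⊆ V := by
    intro w hw
    rw [mem_V]
    have := norm_le_of_mem_closedBall hw
    linarith
  rw [← lintegral_indicator_one hm]
  rw [c4a_restrict hB V_open.measurableSet hsub (fun w _ hw => by simp [hw, -mem_closedBall])] at h1
  rw [← setLIntegral_congr_fun hB (f := fun w => ENNReal.ofReal (A.rho k w) *
    (closedBall z s).indicator (fun _ => (1 : ℝ≥0∞)) w) (fun w hw => by simp [hw, -mem_closedBall]), ← h1]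
  congr 1
  funext x
  by_cases hx : x ∈ A.U k <;> by_cases hx' : A.κ k x ∈ closedBall z s <;> simp [hx, hx', -mem_closedBall]

theorem vol_ball_le : ∃ c : ℝ, 0 ≤ c ∧ ∀ (x : M) (r : ℝ), 0 < r →
    A.vol (closedBall x r) ≤ ENNReal.ofReal (c * r ^ 4) := by
  obtain ⟨m, hm, hρ⟩ := c4c_rho A
  obtain ⟨C, hC, hl⟩ := A.lip
  obtain ⟨r₀, hr₀, hU⟩ := A.exists_r0
  have := A.vol_finite
  have hC0 : 0 < C := by linarith
  set δ := min (r₀ / 2) C⁻¹ with hδ
  have hδ0 : 0 < δ := lt_min (by linarith) (inv_pos.2 hC0)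
  set om := (volume (closedBall (0 : E4) 1)).toReal with hom
  have hom0 : 0 ≤ om := ENNReal.toReal_nonneg
  have hom1 : volume (closedBall (0 : E4) 1) = ENNReal.ofReal om :=
    (ENNReal.ofReal_toReal measure_closedBall_lt_top.ne).symm
  set T := (A.vol univ).toReal with hT
  have hT0 : 0 ≤ T := ENNReal.toReal_nonneg
  refine ⟨m⁻¹ * C ^ 4 * om + T / δ ^ 4, by positivity, fun x r hr => ?_⟩
  rcases le_or_gt r δ with h | h
  · obtain ⟨h1, h2, h3, h4⟩ := A.ch_spec x
    set k := A.ch x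
    have hCr : C * r ≤ 1 := by
      have := mul_le_mul_of_nonneg_left (h.trans (min_le_right _ _)) hC0.le
      rwa [mul_inv_cancel₀ hC0.ne'] at this
    have hsub : closedBall x r ⊆ A.U k ∩ A.κ k ⁻¹' closedBall (A.κ k x) (C * r) := by
      intro y hy
      have hy' : dist y x ≤ r := hy
      have hyU : y ∈ A.U k := by
        refine hU k (A.κ k x) (by linarith) y ?_
        rw [h4, dist_comm]
        have := h.trans (min_le_left _ _)
        linarith
      refine ⟨hyU, ?_⟩
      rw [mem_preimage, mem_closedBall, dist_eq_norm]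
      exact (hl k y hyU x h1).1.trans (mul_le_mul_of_nonneg_left hy' hC0.le)
    refine (measure_mono hsub).trans ?_
    rw [c4c_eq A k _ h2 hCr]
    calc ∫⁻ w in closedBall (A.κ k x) (C * r), ENNReal.ofReal (A.rho k w)
        ≤ ∫⁻ w in closedBall (A.κ k x) (C * r), ENNReal.ofReal m⁻¹ := by
          refine setLIntegral_mono' isClosed_closedBall.measurableSet fun w hw => ?_
          refine ENNReal.ofReal_le_ofReal (hρ k w ?_).2
          have := norm_le_of_mem_closedBall hw
          linarith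
      _ = ENNReal.ofReal (m⁻¹ * C ^ 4 * om * r ^ 4) := by
          rw [setLIntegral_const, c4c_vol _ (by positivity), hom1, ← ENNReal.ofReal_mul (by positivity),
            ← ENNReal.ofReal_mul (by positivity)]
          congr 1
          ring
      _ ≤ _ := by
          refine ENNReal.ofReal_le_ofReal ?_
          have : 0 ≤ T / δ ^ 4 * r ^ 4 := by positivity
          nlinarith
  · calc A.vol (closedBall x r) ≤ A.vol univ := measure_mono (subset_univ _)
      _ = ENNReal.ofReal T := (ENNReal.ofReal_toReal (measure_ne_top _ _)).symm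
      _ ≤ _ := by
          refine ENNReal.ofReal_le_ofReal ?_
          have h1 : δ ^ 4 ≤ r ^ 4 := pow_le_pow_left₀ hδ0.le h.le 4
          have h2 : T ≤ T / δ ^ 4 * r ^ 4 := by
            calc T = T / δ ^ 4 * δ ^ 4 := by field_simp
              _ ≤ _ := mul_le_mul_of_nonneg_left h1 (by positivity)
          have h3 : 0 ≤ m⁻¹ * C ^ 4 * om * r ^ 4 := by positivity
          nlinarith

theorem vol_ball_ge : ∃ c r₀ : ℝ, 0 < c ∧ 0 < r₀ ∧ ∀ (x : M), ∀ r ∈ Ioo 0 r₀,
    c * r ^ 4 ≤ A.vol.real (closedBall x r) := by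
  obtain ⟨m, hm, hρ⟩ := c4c_rho A
  obtain ⟨C, hC, hl⟩ := A.lip
  have := A.vol_finite
  have hC0 : 0 < C := by linarith
  set om := (volume (closedBall (0 : E4) 1)).toReal with hom
  have hom0 : 0 < om := ENNReal.toReal_pos (measure_closedBall_pos _ _ one_pos).ne' measure_closedBall_lt_top.ne
  have hom1 : volume (closedBall (0 : E4) 1) = ENNReal.ofReal om :=
    (ENNReal.ofReal_toReal measure_closedBall_lt_top.ne).symm
  refine ⟨m * C⁻¹ ^ 4 * om, 1, by positivity, one_pos, fun x r hr => ?_⟩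
  obtain ⟨h1, h2, h3, h4⟩ := A.ch_spec x
  set k := A.ch x
  have hr0 := hr.1
  have hCr : C⁻¹ * r ≤ 1 := mul_le_one₀ (inv_le_one_of_one_le₀ hC) hr0.le hr.2.le
  have hsub : A.U k ∩ A.κ k ⁻¹' closedBall (A.κ k x) (C⁻¹ * r) ⊆ closedBall x r := by
    rintro y ⟨hyU, hy⟩
    rw [mem_preimage, mem_closedBall, dist_eq_norm] at hy
    refine ((hl k y hyU x h1).2.trans (mul_le_mul_of_nonneg_left hy hC0.le)).trans_eq ?_
    field_simp
  rw [Measure.real, ← ENNReal.ofReal_le_iff_le_toReal (measure_ne_top _ _)]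
  refine le_trans ?_ (measure_mono hsub)
  rw [c4c_eq A k _ h2 hCr]
  calc ENNReal.ofReal (m * C⁻¹ ^ 4 * om * r ^ 4)
      = ∫⁻ w in closedBall (A.κ k x) (C⁻¹ * r), ENNReal.ofReal m := by
        rw [setLIntegral_const, c4c_vol _ (by positivity), hom1, ← ENNReal.ofReal_mul (by positivity),
          ← ENNReal.ofReal_mul (by positivity)]
        congr 1
        ring
    _ ≤ _ := by
        refine setLIntegral_mono' isClosed_closedBall.measurableSet fun w hw => ?_
        refine ENNReal.ofReal_le_ofReal (hρ k w ?_).1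
        have := norm_le_of_mem_closedBall hw
        linarith

theorem _root_.Crest.Agent.R240.c4d_meas {v : E4 → ℝ} (hv : ContinuousOn v V) :
    Measurable (V.indicator v) := by
  classical
  exact hv.measurable_piecewise continuousOn_const V_open.measurableSet

theorem c4d_measM (k : ι) {v : E4 → ℝ} (hv : Measurable v) :
    Measurable ((A.U k).indicator fun x => v (A.κ k x)) := by
  classical
  have h := (A.κ_cont k).measurable_piecewise (g := fun _ => 0) continuousOn_const
    (A.U_open k).measurableSet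
  have e : ((A.U k).indicator fun x => v (A.κ k x)) =
      (A.U k).indicator fun x => v ((A.U k).piecewise (A.κ k) (fun _ => 0) x) :=
    indicator_congr fun x hx => by simp [hx]
  rw [e]
  exact (hv.comp h).indicator (A.U_open k).measurableSet

theorem c4d_lint (k : ι) {v : E4 → ℝ} (hv : Measurable v) :
    ∫⁻ x, ENNReal.ofReal ((A.U k).indicator (fun x => v (A.κ k x)) x) ∂A.vol =
      ∫⁻ z in V, ENNReal.ofReal (A.rho k z * v z) := by
  have h := A.lintegral_ext k (u := fun z => ENNReal.ofReal (v z)) hv.ennreal_ofReal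
  have e : (fun x => ENNReal.ofReal ((A.U k).indicator (fun x => v (A.κ k x)) x)) =
      fun x => (A.U k).indicator (fun x => ENNReal.ofReal (v (A.κ k x))) x := by
    funext x; by_cases hx : x ∈ A.U k <;> simp [hx]
  rw [e, h]
  exact setLIntegral_congr_fun V_open.measurableSet fun z hz =>
    (ENNReal.ofReal_mul (A.det_pos k z hz).le).symm

/-- Transfer of an `L²` function from a chart: `τ = indicator (U k) (φ² ‖t ∘ κ‖ / rho ∘ κ)` for a measurable representative of `‖t‖`. -/
theorem exists_dom (k : ι) {t : E4 → G →L[ℝ] ℝ} (ht : MemLp t 2 volume) :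
    ∃ τ : M → ℝ, Measurable τ ∧ (∀ x, 0 ≤ τ x) ∧ MemLp τ 2 A.vol ∧
      ∀ f : M → G, Continuous f → |∫ z, t z (A.lcz k f z)| ≤ ∫ x, τ x * ‖f x‖ ∂A.vol := by
  classical
  set s : E4 → ℝ := fun z => ‖ht.1.mk t z‖ with hs
  have hsm : Measurable s := ht.1.stronglyMeasurable_mk.norm.measurable
  have hst : ∀ᵐ z, s z = ‖t z‖ := ht.1.ae_eq_mk.mono fun z hz => by rw [hs, hz]
  have hs0 : ∀ z, 0 ≤ s z := fun z => norm_nonneg _
  have hρ : ∀ z ∈ V, 0 < A.rho k z := A.det_pos k
  have hφc : ContinuousOn (fun z => A.φ k (A.ψ k z)) V := (A.φ_sm k k).continuousOn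
  have hρc : ContinuousOn (A.rho k) V := (A.I_sm k).2.2.continuousOn
  set w : E4 → ℝ := V.indicator fun z => A.φ k (A.ψ k z) ^ 2 / A.rho k z with hw
  have hwm : Measurable w := c4d_meas ((hφc.pow 2).div hρc fun z hz => (hρ z hz).ne')
  have hw0 : ∀ z, 0 ≤ w z := fun z =>
    indicator_nonneg (fun z hz => div_nonneg (sq_nonneg _) (hρ z hz).le) z
  have hsub : closedBall (0 : E4) 1 ⊆ V := closedBall_subset_ball (by norm_num)
  obtain ⟨C, hC⟩ := (isCompact_closedBall (0 : E4) 1).exists_bound_of_continuousOn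
    (((hφc.pow 4).div hρc fun z hz => (hρ z hz).ne').mono hsub)
  have hC0 : 0 ≤ C := (norm_nonneg _).trans (hC 0 (by simp))
  have hwC : ∀ z ∈ V, A.rho k z * w z ^ 2 ≤ C := by
    intro z hz
    rw [hw, indicator_of_mem hz]
    by_cases h : A.φ k (A.ψ k z) = 0
    · simpa [h] using hC0
    · have h1 := (A.φ_supp k _ h).2
      rw [A.κψ k z hz] at h1
      refine le_trans (le_of_eq ?_) ((le_abs_self _).trans (hC z (mem_closedBall_zero_iff.2 h1)))
      have := (hρ z hz).ne'
      simp only [Pi.div_apply, Pi.pow_apply]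
      field_simp
  set τ : M → ℝ := (A.U k).indicator fun x => w (A.κ k x) * s (A.κ k x) with hτ
  have hτm : Measurable τ := A.c4d_measM k (hwm.mul hsm)
  have hτ0 : ∀ x, 0 ≤ τ x := fun x => indicator_nonneg (fun x _ => mul_nonneg (hw0 _) (hs0 _)) x
  have hτ2 : MemLp τ 2 A.vol := by
    refine (memLp_two_iff_integrable_sq hτm.aestronglyMeasurable).2
      ⟨(hτm.pow_const 2).aestronglyMeasurable, ?_⟩
    rw [hasFiniteIntegral_iff_ofReal (ae_of_all _ fun x => sq_nonneg _)]
    have e : (fun x => τ x ^ 2) = (A.U k).indicator fun x => (w (A.κ k x) * s (A.κ k x)) ^ 2 := by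
      funext x; by_cases h : x ∈ A.U k <;> simp [hτ, h]
    have h1 := A.c4d_lint k (v := fun z => (w z * s z) ^ 2) ((hwm.mul hsm).pow_const 2)
    rw [← e] at h1
    rw [h1]
    have h2 : Integrable (fun z => C * ‖t z‖ ^ 2) :=
      ((memLp_two_iff_integrable_sq_norm ht.1).1 ht).const_mul C
    have h3 := (hasFiniteIntegral_iff_ofReal (ae_of_all _ fun z => by positivity)).1 h2.2
    refine lt_of_le_of_lt ?_ h3
    refine le_trans (lintegral_mono_ae ?_) (setLIntegral_le_lintegral V _)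
    filter_upwards [ae_restrict_mem V_open.measurableSet, ae_restrict_of_ae hst] with z hz h4
    refine ENNReal.ofReal_le_ofReal ?_
    rw [mul_pow, ← mul_assoc, h4]
    exact mul_le_mul_of_nonneg_right (hwC z hz) (sq_nonneg _)
  refine ⟨τ, hτm, hτ0, hτ2, fun f hf => ?_⟩
  have := A.vol_finite
  obtain ⟨B, hB⟩ := isCompact_univ.exists_bound_of_continuousOn hf.continuousOn
  have hint : Integrable (fun x => τ x * ‖f x‖) A.vol :=
    (hτ2.integrable one_le_two).mul_bdd (c := B) hf.norm.aestronglyMeasurable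
      (ae_of_all _ fun x => by simpa using hB x (mem_univ x))
  have hpos : 0 ≤ᵐ[A.vol] fun x => τ x * ‖f x‖ :=
    ae_of_all _ fun x => mul_nonneg (hτ0 x) (norm_nonneg _)
  set n : E4 → ℝ := V.indicator fun z => ‖f (A.ψ k z)‖ with hn
  have hnm : Measurable n := c4d_meas (hf.norm.comp_continuousOn (A.ψ_cont k))
  have e : (fun x => τ x * ‖f x‖) =
      (A.U k).indicator fun x => w (A.κ k x) * s (A.κ k x) * n (A.κ k x) := by
    funext x
    by_cases h : x ∈ A.U k
    · simp [hτ, hn, h, A.κ_mem k x h, A.ψκ k x h]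
    · simp [hτ, h]
  have h1 := A.c4d_lint k (v := fun z => w z * s z * n z) ((hwm.mul hsm).mul hnm)
  rw [← e] at h1
  rw [← ENNReal.ofReal_le_ofReal_iff (integral_nonneg_of_ae hpos),
    ofReal_integral_eq_lintegral_ofReal hint hpos, h1, ← Real.norm_eq_abs, ofReal_norm,
    ← lintegral_indicator V_open.measurableSet]
  refine (enorm_integral_le_lintegral_enorm _).trans (lintegral_mono_ae ?_)
  filter_upwards [hst] with z h4
  by_cases hz : z ∈ V
  · rw [indicator_of_mem hz, ← ofReal_norm]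
    refine ENNReal.ofReal_le_ofReal (((t z).le_opNorm _).trans (le_of_eq ?_))
    have := (hρ z hz).ne'
    have e1 : A.lcz k f z = A.φ k (A.ψ k z) ^ 2 • f (A.ψ k z) := by simp [lcz, hz]
    rw [e1, norm_smul, h4, hw, hn, indicator_of_mem hz, indicator_of_mem hz,
      Real.norm_of_nonneg (sq_nonneg _)]
    field_simp
  · have e1 : A.lcz k f z = 0 := by simp [lcz, hz]
    simp [e1]

end Atl
end Crest.Agent.R240
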