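import Crest.Agent.R240.A7
import Crest.Agent.R240.C3
import Crest.Agent.R240.A5

/-! Block C5: the section `sv` and the kernels as functions on `M × M`. -/

set_option autoImplicit false
set_option maxSynthPendingDepth 3
set_option linter.unusedSectionVars false
set_option linter.unusedVariables false
open MeasureTheory Filter Set Metric
open scoped ENNReal NNReal Topology ContDiff InnerProductSpace InnerProduct

noncomputable section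
namespace Crest.Agent.R240

namespace Atl
variable {M F ι : Type*} [MetricSpace M] [CompactSpace M] [NormedAddCommGroup F] [InnerProductSpace ℝ F]
  [FiniteDimensional ℝ F] [Fintype ι] (A : Atl M F ι)
  {G G' : Type*} [NormedAddCommGroup G] [NormedSpace ℝ G] [FiniteDimensional ℝ G]
  [NormedAddCommGroup G'] [NormedSpace ℝ G'] [FiniteDimensional ℝ G']

/-- Smooth functions on `M × M`. -/
def Sm2 (K : M → M → G) : Prop :=
  ∀ k l, ContDiffOn ℝ ∞ (fun p : E4 × E4 => K (A.ψ k p.1) (A.ψ l p.2)) (V ×ˢ V)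

/-- Support near the diagonal. -/
def Near (r : ℝ) (K : M → M → G) : Prop := ∀ x y, r < dist x y → K x y = 0

variable {A}

theorem Sm2.continuous {K : M → M → G} (h : A.Sm2 K) : Continuous (Function.uncurry K) := by
  refine continuous_iff_continuousAt.2 fun q => ?_
  obtain ⟨a1, -, a3, -⟩ := A.ch_spec q.1
  obtain ⟨b1, -, b3, -⟩ := A.ch_spec q.2
  have n1 := (A.U_open _).mem_nhds a1
  have n2 := (A.U_open _).mem_nhds b1
  have c1 : ContinuousAt (fun p : M × M => (A.κ (A.ch q.1) p.1, A.κ (A.ch q.2) p.2)) q :=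
    (ContinuousAt.comp (f := Prod.fst) ((A.κ_cont _).continuousAt n1) continuousAt_fst).prodMk
      (ContinuousAt.comp (f := Prod.snd) ((A.κ_cont _).continuousAt n2) continuousAt_snd)
  have c2 : ContinuousAt (fun p : E4 × E4 => K (A.ψ (A.ch q.1) p.1) (A.ψ (A.ch q.2) p.2))
      (A.κ (A.ch q.1) q.1, A.κ (A.ch q.2) q.2) :=
    (h _ _).continuousOn.continuousAt ((V_open.prod V_open).mem_nhds ⟨a3, b3⟩)
  refine (ContinuousAt.comp (f := fun p : M × M => (A.κ (A.ch q.1) p.1, A.κ (A.ch q.2) p.2)) c2 c1).congr ?_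
  filter_upwards [continuousAt_fst.preimage_mem_nhds n1, continuousAt_snd.preimage_mem_nhds n2] with p h1 h2
  simp only [Function.comp, Function.uncurry]
  rw [A.ψκ _ _ h1, A.ψκ _ _ h2]

theorem Sm2.right {K : M → M → G} (h : A.Sm2 K) (x : M) : A.Sm (K x) := by
  intro l
  obtain ⟨-, -, a3, a4⟩ := A.ch_spec x
  have := (h (A.ch x) l).comp (f := fun z : E4 => (A.κ (A.ch x) x, z))
    (contDiffOn_const.prodMk contDiffOn_id) fun z hz => ⟨a3, hz⟩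
  refine this.congr fun z _ => ?_
  simp only [Function.comp, a4]

theorem Sm2.left {K : M → M → G} (h : A.Sm2 K) (y : M) : A.Sm fun x => K x y := by
  intro k
  obtain ⟨-, -, a3, a4⟩ := A.ch_spec y
  have := (h k (A.ch y)).comp (f := fun z : E4 => (z, A.κ (A.ch y) y))
    (contDiffOn_id.prodMk contDiffOn_const) fun z hz => ⟨hz, a3⟩
  refine this.congr fun z _ => ?_
  simp only [Function.comp, a4]

theorem Sm2.swap {K : M → M → G} (h : A.Sm2 K) : A.Sm2 fun x y => K y x := by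
  intro k l
  exact (h l k).comp (f := fun p : E4 × E4 => (p.2, p.1)) (contDiffOn_snd.prodMk contDiffOn_fst)
    fun p hp => ⟨hp.2, hp.1⟩

theorem Sm.fst {f : M → G} (h : A.Sm f) : A.Sm2 fun x _ => f x := by
  intro k l
  exact (h k).comp contDiffOn_fst fun p hp => hp.1

theorem Sm.snd {f : M → G} (h : A.Sm f) : A.Sm2 fun _ y => f y := by
  intro k l
  exact (h l).comp contDiffOn_snd fun p hp => hp.2

theorem Sm2.comp {K : M → M → G} (h : A.Sm2 K) {Φ : G → G'} (hΦ : ContDiff ℝ ∞ Φ) : A.Sm2 fun x y => Φ (K x y) := by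
  intro k l
  exact hΦ.comp_contDiffOn (h k l)

theorem Sm2.prod {K : M → M → G} {K' : M → M → G'} (h : A.Sm2 K) (h' : A.Sm2 K') :
    A.Sm2 fun x y => (K x y, K' x y) := by
  intro k l
  exact (h k l).prodMk (h' k l)

theorem Sm2.app {K : M → M → G →L[ℝ] G'} {K' : M → M → G} (h : A.Sm2 K) (h' : A.Sm2 K') :
    A.Sm2 fun x y => K x y (K' x y) := by
  intro k l
  exact (h k l).clm_apply (h' k l)

theorem Sm2.smul {K : M → M → ℝ} {K' : M → M → G} (h : A.Sm2 K) (h' : A.Sm2 K') :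
    A.Sm2 fun x y => K x y • K' x y := by
  intro k l
  exact (h k l).smul (h' k l)

theorem Sm2.add {K K' : M → M → G} (h : A.Sm2 K) (h' : A.Sm2 K') : A.Sm2 fun x y => K x y + K' x y := by
  intro k l
  exact (h k l).add (h' k l)

variable (A)

theorem sm2_geo : A.Sm2 A.sv ∧ A.Sm2 A.Ah ∧ A.Sm2 A.Bh ∧ ∀ e, A.Sm fun x => A.Kh x e := by
  obtain ⟨-, hP, hE, hL, -⟩ := A.sm_basic
  have d : A.Sm2 fun x y => A.emb y - A.emb x := fun k l => (hE.snd k l).sub (hE.fst k l)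
  have fl : ContDiff ℝ ∞ fun T : F →L[ℝ] F →L[ℝ] F => T.flip :=
    (ContinuousLinearMap.flipₗᵢ ℝ F F F).contDiff
  refine ⟨hL.fst.app d, fun k l => ?_, fun k l => ?_, fun e k => ?_⟩
  · exact (hP.fst k l).sub ((hP.fst k l).clm_comp (((hL.dF'.comp fl).fst.app d) k l))
  · exact (hL.fst k l).clm_comp (hE.dF'.snd k l)
  · exact (hP k).clm_comp (((hP.dF'.comp fl).app (sm_const e)) k)

theorem geo_tang (x y : M) (v e : F) : A.Pr x (A.sv x y) = A.sv x y ∧ A.Pr x (A.Ah x y v) = A.Ah x y v ∧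
    A.Ah x y (A.Pr x v) = A.Ah x y v ∧ A.Pr x (A.Bh x y v) = A.Bh x y v ∧ A.Bh x y (A.Pr y v) = A.Bh x y v ∧
    A.Pr x (A.Kh x e v) = A.Kh x e v ∧ A.Kh x e (A.Pr x v) = A.Kh x e v := by
  obtain ⟨L, hL⟩ := A.fr_at x
  refine ⟨A.Pr_Lam _ _, ?_, ?_, A.Pr_Lam _ _, ?_, ?_, ?_⟩
  · simp [Ah, hL.P_P]
  · simp [Ah, hL.P_P, dF_Pr]
  · simp [Bh, dF_Pr]
  · simp [Kh, hL.P_P]
  · simp [Kh, dF_Pr]

theorem geo_diag (x : M) : A.sv x x = 0 ∧ A.Ah x x = A.Pr x ∧ A.Bh x x = A.Pr x := by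
  refine ⟨by simp [sv], by simp [Ah], ?_⟩
  ext v
  simp [Bh, A.Lam_dF]

theorem geo_bound : ∃ C : ℝ, 1 ≤ C ∧ ∀ x y, ‖A.sv x y‖ ≤ C * dist x y ∧ ‖A.Ah x y - A.Pr x‖ ≤ C * dist x y ∧
    ‖A.Bh x y - A.Pr x‖ ≤ C * dist x y ∧ ‖A.Bh x y - A.Pr y‖ ≤ C * dist x y ∧ ‖A.Ah x y‖ ≤ C ∧ ‖A.Bh x y‖ ≤ C ∧
    ∀ e, ‖A.Kh x e‖ ≤ C * ‖e‖ := by
  obtain ⟨-, hP, hE, hL, -⟩ := A.sm_basic
  obtain ⟨p, p0, hp⟩ := hP.bdd
  obtain ⟨l, l0, hl⟩ := hL.bdd
  obtain ⟨dl, dl0, hdl⟩ := hL.dF'.bdd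
  obtain ⟨dp, dp0, hdp⟩ := hP.dF'.bdd
  obtain ⟨de, de0, hde⟩ := hE.dF'.bdd
  obtain ⟨e, e0, he⟩ := hE.lip
  obtain ⟨f, f0', hf⟩ := hE.dF'.lip
  obtain ⟨g, g0, hg⟩ := hL.lip
  obtain ⟨a, ha⟩ := isCompact_univ.exists_bound_of_continuousOn A.sm2_geo.2.1.continuous.continuousOn
  have m1 := mul_nonneg l0 e0
  have m2 := mul_nonneg p0 (mul_nonneg dl0 e0)
  have m3 := mul_nonneg l0 f0'
  have m4 := mul_nonneg g0 de0
  have m5 := abs_nonneg a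
  have m6 := mul_nonneg l0 de0
  have m7 := mul_nonneg p0 dp0
  set C := 1 + l * e + p * (dl * e) + l * f + g * de + |a| + l * de + p * dp with hC
  refine ⟨C, by linarith, fun x y => ?_⟩
  have d0 : 0 ≤ dist x y := dist_nonneg
  have he' : ‖A.emb y - A.emb x‖ ≤ e * dist x y := by rw [norm_sub_rev]; exact he x y
  refine ⟨?_, ?_, ?_, ?_, ?_, ?_, fun v => ?_⟩
  · calc ‖A.sv x y‖ ≤ ‖A.Lam x‖ * ‖A.emb y - A.emb x‖ := (A.Lam x).le_opNorm _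
      _ ≤ l * (e * dist x y) := by gcongr; exact hl x
      _ = l * e * dist x y := by ring
      _ ≤ C * dist x y := by gcongr; linarith
  · calc ‖A.Ah x y - A.Pr x‖ = ‖(A.Pr x).comp ((A.dF A.Lam x).flip (A.emb y - A.emb x))‖ := by
          rw [Ah, sub_sub_cancel_left, norm_neg]
      _ ≤ ‖A.Pr x‖ * (‖(A.dF A.Lam x).flip‖ * ‖A.emb y - A.emb x‖) :=
          (ContinuousLinearMap.opNorm_comp_le _ _).trans (by gcongr; exact ContinuousLinearMap.le_opNorm _ _)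
      _ ≤ p * (dl * (e * dist x y)) := by
          rw [ContinuousLinearMap.opNorm_flip]
          gcongr
          · exact hp x
          · exact hdl x
      _ = p * (dl * e) * dist x y := by ring
      _ ≤ C * dist x y := by gcongr; linarith
  · calc ‖A.Bh x y - A.Pr x‖ = ‖(A.Lam x).comp (A.dF A.emb y - A.dF A.emb x)‖ := by
          rw [← (A.geo_diag x).2.2, Bh, Bh, ContinuousLinearMap.comp_sub]
      _ ≤ ‖A.Lam x‖ * ‖A.dF A.emb y - A.dF A.emb x‖ := ContinuousLinearMap.opNorm_comp_le _ _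
      _ ≤ l * (f * dist x y) := by
          gcongr
          · exact hl x
          · rw [norm_sub_rev]; exact hf x y
      _ = l * f * dist x y := by ring
      _ ≤ C * dist x y := by gcongr; linarith
  · calc ‖A.Bh x y - A.Pr y‖ = ‖(A.Lam x - A.Lam y).comp (A.dF A.emb y)‖ := by
          rw [← (A.geo_diag y).2.2, Bh, Bh, ContinuousLinearMap.sub_comp]
      _ ≤ ‖A.Lam x - A.Lam y‖ * ‖A.dF A.emb y‖ := ContinuousLinearMap.opNorm_comp_le _ _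
      _ ≤ g * dist x y * de := by
          gcongr
          · exact hg x y
          · exact hde y
      _ = g * de * dist x y := by ring
      _ ≤ C * dist x y := by gcongr; linarith
  · have := (ha (x, y) (mem_univ _)).trans (le_abs_self a)
    exact this.trans (by linarith)
  · calc ‖A.Bh x y‖ ≤ ‖A.Lam x‖ * ‖A.dF A.emb y‖ := ContinuousLinearMap.opNorm_comp_le _ _
      _ ≤ l * de := by
          gcongr
          · exact hl x
          · exact hde y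
      _ ≤ C := by linarith
  · calc ‖A.Kh x v‖ ≤ ‖A.Pr x‖ * (‖(A.dF A.Pr x).flip‖ * ‖v‖) :=
          (ContinuousLinearMap.opNorm_comp_le _ _).trans (by gcongr; exact ContinuousLinearMap.le_opNorm _ _)
      _ ≤ p * (dp * ‖v‖) := by
          rw [ContinuousLinearMap.opNorm_flip]
          gcongr
          · exact hp x
          · exact hdp x
      _ = p * dp * ‖v‖ := by ring
      _ ≤ C * ‖v‖ := by gcongr; linarith

theorem c5b_hasFDerivAt (k : ι) {q : E4 × E4} (hq : q ∈ V ×ˢ V) :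
    HasFDerivAt (fun q : E4 × E4 => A.sv (A.ψ k q.1) (A.ψ k q.2))
      ((A.Lam (A.ψ k q.1)).comp ((fderiv ℝ (A.emb ∘ A.ψ k) q.2).comp (ContinuousLinearMap.snd ℝ E4 E4) -
        (fderiv ℝ (A.emb ∘ A.ψ k) q.1).comp (ContinuousLinearMap.fst ℝ E4 E4)) +
        ((fderiv ℝ (A.Lam ∘ A.ψ k) q.1).comp (ContinuousLinearMap.fst ℝ E4 E4)).flip
          (A.emb (A.ψ k q.2) - A.emb (A.ψ k q.1))) q := by
  have e1 : DifferentiableAt ℝ (A.emb ∘ A.ψ k) q.1 :=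
    ((A.emb_sm k).contDiffAt (V_open.mem_nhds hq.1)).differentiableAt (by simp)
  have e2 : DifferentiableAt ℝ (A.emb ∘ A.ψ k) q.2 :=
    ((A.emb_sm k).contDiffAt (V_open.mem_nhds hq.2)).differentiableAt (by simp)
  have l1 : DifferentiableAt ℝ (A.Lam ∘ A.ψ k) q.1 :=
    ((A.Lam_sm k).contDiffAt (V_open.mem_nhds hq.1)).differentiableAt (by simp)
  have := (l1.hasFDerivAt.comp q hasFDerivAt_fst).clm_apply
    ((e2.hasFDerivAt.comp q hasFDerivAt_snd).sub (e1.hasFDerivAt.comp q hasFDerivAt_fst))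
  exact this

/-- Derivatives of the section in charts. -/
theorem fderiv_sv (k : ι) {p : E4 × E4} (hp : p ∈ V ×ˢ V) (a : E4) :
    fderiv ℝ (fun q : E4 × E4 => A.sv (A.ψ k q.1) (A.ψ k q.2)) p (0, a) = A.Bh (A.ψ k p.1) (A.ψ k p.2) (A.I k p.2 a) ∧
    A.Pr (A.ψ k p.1) (fderiv ℝ (fun q : E4 × E4 => A.sv (A.ψ k q.1) (A.ψ k q.2)) p (a, 0)) =
      -A.Ah (A.ψ k p.1) (A.ψ k p.2) (A.I k p.1 a) ∧
    fderiv ℝ (fun q : E4 × E4 => A.sv (A.ψ k q.1) (A.ψ k q.2) - A.I k q.2 (q.2 - q.1)) (p.1, p.1) = 0 := by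
  have key : ∀ {q : E4 × E4}, q ∈ V ×ˢ V → ∀ Y : E4 × E4,
      fderiv ℝ (fun q : E4 × E4 => A.sv (A.ψ k q.1) (A.ψ k q.2)) q Y =
        A.Lam (A.ψ k q.1) (A.dF A.emb (A.ψ k q.2) (A.I k q.2 Y.2) - A.dF A.emb (A.ψ k q.1) (A.I k q.1 Y.1)) +
          A.dF A.Lam (A.ψ k q.1) (A.I k q.1 Y.1) (A.emb (A.ψ k q.2) - A.emb (A.ψ k q.1)) :=
    fun hq Y => by rw [(A.c5b_hasFDerivAt k hq).fderiv]; simp [A.sm_basic.2.2.1.fderiv_eq k hq.1,
      A.sm_basic.2.2.1.fderiv_eq k hq.2, A.sm_basic.2.2.2.1.fderiv_eq k hq.1]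
  refine ⟨?_, ?_, ?_⟩
  · rw [key hp]; simp [Bh]
  · rw [key hp]
    obtain ⟨L, hL⟩ := A.fr_at (A.ψ k p.1)
    simp [Ah, A.Lam_dF, hL.P_P]
    abel
  · have hq : (p.1, p.1) ∈ V ×ˢ V := ⟨hp.1, hp.1⟩
    have hI : DifferentiableAt ℝ (A.I k) p.1 :=
      ((A.I_sm k).1.contDiffAt (V_open.mem_nhds hp.1)).differentiableAt (by simp)
    have h1 : HasFDerivAt (fun q : E4 × E4 => A.I k q.2 (q.2 - q.1)) _ (p.1, p.1) :=
      (HasFDerivAt.comp (p.1, p.1) (f := Prod.snd) hI.hasFDerivAt hasFDerivAt_snd).clm_apply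
        (hasFDerivAt_snd.sub hasFDerivAt_fst)
    have h2 := (A.c5b_hasFDerivAt k hq).differentiableAt.hasFDerivAt
    rw [(h2.fun_sub h1).fderiv]
    ext1 <;> ext1 a <;> simp [key hq, A.Lam_dF, A.Pr_I k hp.1]

/-- In the chart `ch x`: `sv (ψ z) (ψ w) = I z (w - z) + O(‖w - z‖²)` and `‖w - z‖ ≤ C ‖I z (w - z)‖`. -/
theorem c0_spec : 0 < A.c0 ∧ ∃ C : ℝ, 0 < C ∧ ∀ x y, dist x y ≤ 2 * A.c0 → dist x y ≤ C * ‖A.sv x y‖ := by
  refine Classical.epsilon_spec (p := fun c : ℝ =>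
    0 < c ∧ ∃ C : ℝ, 0 < C ∧ ∀ x y, dist x y ≤ 2 * c → dist x y ≤ C * ‖A.sv x y‖) ?_
  obtain ⟨B₀, hB₀⟩ := A.gi_bd
  obtain ⟨L, hL, hl⟩ := A.lip
  obtain ⟨r₀, hr₀, hr⟩ := A.exists_r0
  set B := max B₀ 1 with hB
  have hB1 : 1 ≤ B := le_max_right _ _
  have key : ∀ k, ∀ᶠ δ in 𝓝[>] (0 : ℝ), ∀ z w : E4, ‖z‖ ≤ 5 / 2 → ‖w‖ ≤ 5 / 2 → ‖z - w‖ = δ →
      δ ≤ 2 * B * ‖A.sv (A.ψ k z) (A.ψ k w)‖ := by
    intro k
    have hD : ContDiffOn ℝ ∞ (fun q : E4 × E4 => A.sv (A.ψ k q.1) (A.ψ k q.2) - A.I k q.2 (q.2 - q.1)) (V ×ˢ V) :=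
      (A.sm2_geo.1 k k).sub (((A.I_sm k).1.comp contDiffOn_snd fun q hq => hq.2).clm_apply
        (contDiffOn_snd.sub contDiffOn_fst))
    obtain ⟨C, hC⟩ := (bd_div2 hD (fun z hz => by simp [(A.geo_diag _).1])
      fun z hz => (A.fderiv_sv k (p := (z, z)) ⟨hz, hz⟩ 0).2.2).bd0 1
    have ev : ∀ᶠ δ in 𝓝[>] (0 : ℝ), 2 * B * C * δ < 1 := by
      have : Tendsto (fun δ : ℝ => 2 * B * C * δ) (𝓝[>] 0) (𝓝 (2 * B * C * 0)) :=
        (continuous_const.mul continuous_id).continuousAt.mono_left nhdsWithin_le_nhds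
      exact this.eventually (gt_mem_nhds (by simp))
    filter_upwards [hC, ev, self_mem_nhdsWithin] with δ h1 h2 h3 z w hz hw e
    have h3 : 0 < δ := h3
    have hwV : w ∈ V := mem_V.2 (by linarith)
    have a1 := h1 (z, w) hz hw (by simp [e])
    rw [norm_smul, Real.norm_eq_abs, abs_of_pos (by positivity), inv_mul_le_iff₀ (by positivity)] at a1
    have a2 : δ ≤ B * ‖A.I k w (w - z)‖ := by
      rw [A.norm_I k hwV, ← e, norm_sub_rev]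
      conv_lhs => rw [← A.gi_g k w hwV (w - z)]
      exact ((A.gi k w).le_opNorm _).trans (by gcongr; exact (hB₀ k w hwV).trans (le_max_left _ _))
    have a3 : ‖A.I k w (w - z)‖ ≤ ‖A.sv (A.ψ k z) (A.ψ k w)‖ + δ ^ 2 * C := by
      have := norm_sub_le (A.sv (A.ψ k z) (A.ψ k w)) (A.sv (A.ψ k z) (A.ψ k w) - A.I k w (w - z))
      rw [sub_sub_cancel] at this
      linarith
    nlinarith
  obtain ⟨η, hη, hs⟩ := mem_nhdsGT_iff_exists_Ioo_subset.1 (eventually_all.2 key)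
  have hη : 0 < η := hη
  refine ⟨min (r₀ / 4) (min η 1 / (4 * L)), by positivity, L * (2 * B), by positivity, fun x y h => ?_⟩
  obtain ⟨c1, c2, c3, c4⟩ := A.ch_spec x
  have m1 := min_le_left (r₀ / 4) (min η 1 / (4 * L))
  have m2 := min_le_right (r₀ / 4) (min η 1 / (4 * L))
  have hy : y ∈ A.U (A.ch x) := hr _ (A.κ (A.ch x) x) (by linarith) y (by rw [c4]; linarith)
  obtain ⟨l1, l2⟩ := hl _ x c1 y hy
  have l3 : ‖A.κ (A.ch x) x - A.κ (A.ch x) y‖ ≤ min η 1 / 2 := by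
    refine l1.trans ?_
    calc L * dist x y ≤ L * (2 * (min η 1 / (4 * L))) := by gcongr; linarith
      _ = _ := by field_simp; ring
  have m3 := min_le_left η 1
  have m4 := min_le_right η 1
  have m5 : 0 < min η 1 := by positivity
  rcases (norm_nonneg (A.κ (A.ch x) x - A.κ (A.ch x) y)).eq_or_lt with h0 | h0
  · rw [← h0] at l2
    have : 0 ≤ L * (2 * B) * ‖A.sv x y‖ := by positivity
    linarith
  · have hw : ‖A.κ (A.ch x) y‖ ≤ 5 / 2 := by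
      have := norm_sub_le (A.κ (A.ch x) x) (A.κ (A.ch x) x - A.κ (A.ch x) y)
      rw [sub_sub_cancel] at this
      linarith
    have := hs ⟨h0, by linarith⟩ (A.ch x) _ _ (by linarith) hw rfl
    rw [c4, A.ψκ _ y hy] at this
    calc dist x y ≤ L * (2 * B * ‖A.sv x y‖) := l2.trans (by gcongr)
      _ = _ := by ring

theorem cf_near : ∃ C : ℝ, 1 ≤ C ∧ ∀ f : ℝ → ℝ, (∀ t, 1 ≤ t → f t = 0) → ∀ δ, 0 < δ → Near (C * δ) (A.cf f δ) := by
  obtain ⟨h0, C, hC, h⟩ := A.c0_spec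
  refine ⟨max C 1, le_max_right _ _, fun f hf δ hδ x y hxy => ?_⟩
  unfold cf
  split_ifs with hd
  · refine hf _ ?_
    have h1 := h x y (by linarith)
    have h2 : C * δ ≤ max C 1 * δ := mul_le_mul_of_nonneg_right (le_max_left _ _) hδ.le
    have h3 : δ ≤ ‖A.sv x y‖ := le_of_mul_le_mul_left (by linarith) hC
    rw [le_div_iff₀ (by positivity), one_mul]
    exact pow_le_pow_left₀ hδ.le h3 2
  · rfl

theorem cf_bound : ∃ C : ℝ, 1 ≤ C ∧ ∀ δ x y, 0 ≤ A.cf f0 δ x y ∧ A.cf f0 δ x y ≤ C ∧ 0 ≤ A.cf f1 δ x y ∧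
    A.cf f1 δ x y ≤ C := by
  obtain ⟨-, -, p0, p1, -, -, -, ⟨C, hC⟩, -⟩ := prof
  refine ⟨max C 1, le_max_right _ _, fun δ x y => ?_⟩
  have h1 : (0 : ℝ) ≤ max C 1 := zero_le_one.trans (le_max_right _ _)
  unfold cf
  split_ifs with hd
  · exact ⟨p0 _, (hC _).1.trans (le_max_left _ _), p1 _, (hC _).2.trans (le_max_left _ _)⟩
  · exact ⟨le_rfl, h1, le_rfl, h1⟩

theorem cf_lower : ∃ c : ℝ, 0 < c ∧ c ≤ 1 ∧ ∀ᶠ δ in 𝓝[>] (0 : ℝ), ∀ x y, dist x y ≤ c * δ →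
    c ≤ A.cf f0 δ x y ∧ c ≤ A.cf f1 δ x y := by
  obtain ⟨-, -, -, -, -, -, ⟨c, hc, hl⟩, -, -⟩ := prof
  obtain ⟨C, hC, hg⟩ := A.geo_bound
  have hm : min c (1 / (2 * C)) ≤ 1 / (2 * C) := min_le_right _ _
  have hm0 : 0 < min c (1 / (2 * C)) := by positivity
  have hm1 : min c (1 / (2 * C)) ≤ 1 := hm.trans (by rw [div_le_one (by positivity)]; linarith)
  refine ⟨min c (1 / (2 * C)), hm0, hm1, ?_⟩
  filter_upwards [a7a_small 1 A.c0_spec.1, self_mem_nhdsWithin] with δ h1 h2 x y hxy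
  have hδ : 0 < δ := h2
  have hd : dist x y < A.c0 := by nlinarith
  have hs : ‖A.sv x y‖ ≤ δ / 2 := by
    refine (hg x y).1.trans ?_
    calc C * dist x y ≤ C * (1 / (2 * C) * δ) := by
          gcongr
          exact hxy.trans (by gcongr)
      _ = δ / 2 := by field_simp
  have ht : ‖A.sv x y‖ ^ 2 / δ ^ 2 ∈ Icc (0 : ℝ) (1 / 4) := by
    refine ⟨by positivity, ?_⟩
    rw [div_le_iff₀ (by positivity)]
    nlinarith [norm_nonneg (A.sv x y)]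
  unfold cf
  rw [if_pos hd, if_pos hd]
  exact ⟨(min_le_left _ _).trans (hl _ ht).1, (min_le_left _ _).trans (hl _ ht).2⟩

/-- The sets `dist < c0` and `C δ < dist` are open and cover. -/
theorem sm2_cf {f : ℝ → ℝ} (hf : ContDiff ℝ ∞ f) (h0 : ∀ t, 1 ≤ t → f t = 0) :
    ∀ᶠ δ in 𝓝[>] (0 : ℝ), A.Sm2 (A.cf f δ) := by
  obtain ⟨C, hC, hn⟩ := A.cf_near
  filter_upwards [a7a_small C A.c0_spec.1, self_mem_nhdsWithin] with δ h1 h2 k l p hp
  have hδ : 0 < δ := h2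
  have hc : ContinuousAt (fun q : E4 × E4 => dist (A.ψ k q.1) (A.ψ l q.2)) p :=
    (((A.ψ_cont k).continuousAt (V_open.mem_nhds hp.1)).comp continuousAt_fst).dist
      (((A.ψ_cont l).continuousAt (V_open.mem_nhds hp.2)).comp continuousAt_snd)
  rcases lt_or_ge (dist (A.ψ k p.1) (A.ψ l p.2)) A.c0 with hd | hd
  · have hs : ContDiffWithinAt ℝ ∞ (fun q : E4 × E4 => f (‖A.sv (A.ψ k q.1) (A.ψ l q.2)‖ ^ 2 / δ ^ 2))
        (V ×ˢ V) p :=
      hf.contDiffAt.comp_contDiffWithinAt p (((A.sm2_geo.1 k l p hp).norm_sq ℝ).div_const _)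
    have he : (fun q : E4 × E4 => A.cf f δ (A.ψ k q.1) (A.ψ l q.2)) =ᶠ[𝓝 p]
        fun q : E4 × E4 => f (‖A.sv (A.ψ k q.1) (A.ψ l q.2)‖ ^ 2 / δ ^ 2) := by
      filter_upwards [hc.eventually (gt_mem_nhds hd)] with q hq
      exact if_pos hq
    exact hs.congr_of_eventuallyEq (he.filter_mono nhdsWithin_le_nhds) he.eq_of_nhds
  · have he : (fun q : E4 × E4 => A.cf f δ (A.ψ k q.1) (A.ψ l q.2)) =ᶠ[𝓝 p] fun _ => 0 := by
      filter_upwards [hc.eventually (lt_mem_nhds (h1.trans_le hd))] with q hq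
      exact hn f h0 δ hδ _ _ hq
    exact contDiffWithinAt_const.congr_of_eventuallyEq (he.filter_mono nhdsWithin_le_nhds) he.eq_of_nhds

theorem c5c_th (δ : ℝ) (x y : M) (a b c d : F) : A.th δ x y a b c d =
    (δ ^ 4)⁻¹ * A.cf f0 δ x y * A.W (A.Ah x y a) (A.Ah x y b) (A.Bh x y c) (A.Bh x y d) +
      (δ ^ 2)⁻¹ * A.cf f1 δ x y *
        ∑ α, A.W (A.Kh x (eF α) a) (A.Kh x (eF α) b) (A.Bh x y c) (A.Bh x y d) := by
  simp only [th, add_apply, smul_apply, sum_apply,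
    Cx.q4_apply, smul_eq_mul]

theorem c5c_W {s : Set (E4 × E4)} {u v c d : E4 × E4 → F} (hu : ContDiffOn ℝ ∞ u s) (hv : ContDiffOn ℝ ∞ v s)
    (hc : ContDiffOn ℝ ∞ c s) (hd : ContDiffOn ℝ ∞ d s) :
    ContDiffOn ℝ ∞ (fun p => A.W (u p) (v p) (c p) (d p)) s := by
  have key : ∀ {u v : E4 × E4 → F}, ContDiffOn ℝ ∞ u s → ContDiffOn ℝ ∞ v s →
      ContDiffOn ℝ ∞ (fun p => A.om (u p) (v p)) s := fun hu hv =>
    (A.om.contDiff.comp_contDiffOn hu).clm_apply hv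
  exact (((key hu hv).mul (key hc hd)).sub ((key hu hc).mul (key hv hd))).add ((key hu hd).mul (key hv hc))

theorem c5c_wd {s : Set (E4 × E4)} {u : E4 × E4 → F} (hu : ContDiffOn ℝ ∞ u s) :
    ContDiffOn ℝ ∞ (fun p => wd (innerSL ℝ (u p)) (A.om (u p))) s := by
  have := contDiff_wd.comp_contDiffOn (((innerSL ℝ (E := F)).contDiff.comp_contDiffOn hu).prodMk
    (A.om.contDiff.comp_contDiffOn hu))
  exact this

theorem c5c_Xi {s : Set (E4 × E4)} {u v : E4 × E4 → F} (hu : ContDiffOn ℝ ∞ u s) (hv : ContDiffOn ℝ ∞ v s) :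
    ContDiffOn ℝ ∞ (fun p => A.Xi (u p) (v p)) s := by
  have := A.contDiff_Xi.comp_contDiffOn (hu.prodMk hv)
  exact this

theorem sm2_ker : ∀ᶠ δ in 𝓝[>] (0 : ℝ), A.Sm2 (A.th δ) ∧ A.Sm2 (A.nk δ) ∧ A.Sm2 (A.dk δ) ∧
    ∀ a, A.Sm2 fun x y => A.hk δ x y a := by
  obtain ⟨s0, s1, -, -, z, -⟩ := prof
  obtain ⟨g1, g2, g3, g4⟩ := A.sm2_geo
  filter_upwards [A.sm2_cf s0 fun t ht => (z t ht).1, A.sm2_cf s1 fun t ht => (z t ht).2] with δ h0 h1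
  have hpb : ∀ k l, ContDiffOn ℝ ∞ (fun p : E4 × E4 => pb (A.Bh (A.ψ k p.1) (A.ψ l p.2))) (V ×ˢ V) :=
    fun k l => contDiff_pb.comp_contDiffOn (g3 k l)
  have hnk : A.Sm2 (A.nk δ) := fun k l =>
    (contDiffOn_const.mul (h1 k l)).smul ((hpb k l).clm_apply contDiffOn_const)
  refine ⟨fun k l => ?_, hnk, fun k l => ?_, fun a k l => ?_⟩
  · refine contDiffOn_clm_apply.2 fun a => contDiffOn_clm_apply.2 fun b => contDiffOn_clm_apply.2 fun c =>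
      contDiffOn_clm_apply.2 fun d => ?_
    simp only [c5c_th]
    have hB := fun v : F => (g3 k l).clm_apply (contDiffOn_const (c := v))
    have hA := fun v : F => (g2 k l).clm_apply (contDiffOn_const (c := v))
    have hK := fun e v : F => ((g4 e).fst k l).clm_apply (contDiffOn_const (c := v))
    exact ((contDiffOn_const.mul (h0 k l)).mul (A.c5c_W (hA a) (hA b) (hB c) (hB d))).add
      ((contDiffOn_const.mul (h1 k l)).mul
        (ContDiffOn.sum fun α _ => A.c5c_W (hK _ a) (hK _ b) (hB c) (hB d)))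
  · refine ((hnk k l).const_smul (2 : ℝ)).sub ((contDiffOn_const.mul (h0 k l)).smul ((hpb k l).clm_apply ?_))
    exact A.c5c_wd (g1 k l)
  · refine (contDiffOn_const.mul (h0 k l)).smul ((hpb k l).clm_apply ?_)
    exact A.c5c_Xi (g1 k l) ((g2 k l).clm_apply contDiffOn_const)

theorem near_ker : ∃ C : ℝ, 1 ≤ C ∧ ∀ δ, 0 < δ → Near (C * δ) (A.th δ) ∧ Near (C * δ) (A.nk δ) ∧
    Near (C * δ) (A.dk δ) ∧ ∀ a, Near (C * δ) fun x y => A.hk δ x y a := by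
  obtain ⟨-, -, -, -, z, -⟩ := prof
  obtain ⟨C, hC, hn⟩ := A.cf_near
  refine ⟨C, hC, fun δ hδ => ?_⟩
  have h0 := hn f0 (fun t ht => (z t ht).1) δ hδ
  have h1 := hn f1 (fun t ht => (z t ht).2) δ hδ
  refine ⟨fun x y h => ?_, fun x y h => ?_, fun x y h => ?_, fun a x y h => ?_⟩
  · ext a b c d
    rw [c5c_th, h0 x y h, h1 x y h]
    simp
  · rw [nk, h1 x y h, mul_zero, zero_smul]
  · rw [dk, nk, h0 x y h, h1 x y h, mul_zero, mul_zero, zero_smul, zero_smul, smul_zero, sub_zero]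
  · change A.hk δ x y a = 0
    rw [hk, h0 x y h, mul_zero, zero_smul]

theorem th_alg (δ : ℝ) (x y : M) (a b : F) : A.pT y (A.th δ x y a b) = A.th δ x y a b ∧
    A.th δ x y a b = -A.th δ x y b a ∧ A.th δ x y (A.Pr x a) (A.Pr x b) = A.th δ x y a b := by
  obtain ⟨L, hL⟩ := A.fr_at y
  refine ⟨(hL.piT_eq_iff _).2 ⟨fun u v => ?_, fun u v => ?_⟩, ?_, ?_⟩
  · rw [c5c_th, c5c_th, A.W_swap34 _ _ (A.Bh x y u)]
    simp only [A.W_swap34 _ _ (A.Bh x y u), Finset.sum_neg_distrib]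
    ring
  · rw [c5c_th, c5c_th, (A.geo_tang x y u 0).2.2.2.2.1, (A.geo_tang x y v 0).2.2.2.2.1]
  · ext c d
    rw [neg_apply, neg_apply, c5c_th, c5c_th,
      A.W_swap12 (A.Ah x y a)]
    have : ∀ α, A.W (A.Kh x (eF α) b) (A.Kh x (eF α) a) (A.Bh x y c) (A.Bh x y d) =
        -A.W (A.Kh x (eF α) a) (A.Kh x (eF α) b) (A.Bh x y c) (A.Bh x y d) := fun α => A.W_swap12 _ _ _ _
    simp only [this, Finset.sum_neg_distrib]
    ring
  · ext c d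
    rw [c5c_th, c5c_th, (A.geo_tang x y a 0).2.2.1, (A.geo_tang x y b 0).2.2.1]
    have : ∀ e v, A.Kh x e (A.Pr x v) = A.Kh x e v := fun e v => (A.geo_tang x y v e).2.2.2.2.2.2
    simp only [this]

set_option maxSynthPendingDepth 5 in
theorem c5d_data : ∃ K : ℝ, 1 ≤ K ∧ ∀ δ ∈ Ioc (0 : ℝ) 1, ∀ x y, |A.cf f0 δ x y| ≤ K ∧ |A.cf f1 δ x y| ≤ K ∧
    ‖A.Ah x y‖ ≤ K ∧ ‖A.Bh x y‖ ≤ K ∧ ‖A.Pr x‖ ≤ K ∧ ‖A.Pr y‖ ≤ K ∧ ‖A.om‖ ≤ K ∧
    ‖∑ α, A.q4 (A.Kh x (eF α)) (A.Bh x y)‖ ≤ K ∧ ((A.cf f0 δ x y = 0 ∧ A.cf f1 δ x y = 0) ∨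
      (‖A.sv x y‖ ≤ K * δ ∧ ‖A.Ah x y - A.Pr x‖ ≤ K * δ ∧ ‖A.Bh x y - A.Pr x‖ ≤ K * δ ∧
        ‖A.Bh x y - A.Pr y‖ ≤ K * δ)) := by
  obtain ⟨C₁, h1, g⟩ := A.geo_bound
  obtain ⟨C₂, h2, n⟩ := A.cf_near
  obtain ⟨C₃, h3, b⟩ := A.cf_bound
  set S : ℝ := Module.finrank ℝ F * (3 * (C₁ ^ 2 * C₁ ^ 2)) with hS
  have hS0 : 0 ≤ S := by positivity
  have h12 : C₁ ≤ C₁ * C₂ := le_mul_of_one_le_right (by linarith) h2
  have ho := norm_nonneg A.om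
  have hP : ∀ x, ‖A.Pr x‖ ≤ 1 := fun x => (A.fr_at x).elim fun L hL =>
    ContinuousLinearMap.opNorm_le_bound _ zero_le_one fun v => by simpa using hL.norm_P_le v
  refine ⟨C₁ * C₂ + C₃ + ‖A.om‖ + S, by linarith, fun δ hδ x y => ?_⟩
  obtain ⟨g1, g2, g3, g4, g5, g6, g7⟩ := g x y
  obtain ⟨b1, b2, b3, b4⟩ := b δ x y
  refine ⟨by rw [abs_of_nonneg b1]; linarith, by rw [abs_of_nonneg b3]; linarith, by linarith, by linarith,
    by linarith [hP x], by linarith [hP y], by linarith, ?_, ?_⟩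
  · have : ‖∑ α, A.q4 (A.Kh x (eF α)) (A.Bh x y)‖ ≤ S := by
      refine (norm_sum_le_of_le _ (n := fun _ => 3 * (C₁ ^ 2 * C₁ ^ 2)) fun α _ => ?_).trans ?_
      swap
      · simp [hS]
      have := g7 (eF α)
      rw [show ‖(eF α : F)‖ = 1 from (stdOrthonormalBasis ℝ F).orthonormal.1 α, mul_one] at this
      exact (A.norm_q4_le _ _).trans (by gcongr)
    linarith
  · rcases lt_or_ge (C₂ * δ) (dist x y) with c | c
    · exact Or.inl ⟨n f0 (fun t ht => (prof.2.2.2.2.1 t ht).1) δ hδ.1 x y c,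
        n f1 (fun t ht => (prof.2.2.2.2.1 t ht).2) δ hδ.1 x y c⟩
    · have : C₁ * dist x y ≤ (C₁ * C₂ + C₃ + ‖A.om‖ + S) * δ :=
        calc C₁ * dist x y ≤ C₁ * (C₂ * δ) := by gcongr
          _ = C₁ * C₂ * δ := by ring
          _ ≤ _ := by have := hδ.1; gcongr; linarith
      exact Or.inr ⟨g1.trans this, g2.trans this, g3.trans this, g4.trans this⟩

theorem c5d_pM (y : M) (B : F →L[ℝ] F) {b : Bil F} (hb : pb A.J b = b) :
    ‖A.pM y (pb B b)‖ ≤ ‖B - A.Pr y‖ * (‖B‖ + ‖A.Pr y‖) * ‖b‖ := by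
  obtain ⟨L, hL⟩ := A.fr_at y
  have : A.pM y (pb B b) = A.pM y (pb B b - pb (A.Pr y) b) := by
    rw [map_sub, pM, hL.piM_pb, hL.piM_of_inv hb, sub_zero]
  rw [this]
  exact (hL.norm_pi_le _).2.1.trans (norm_pb_sub_le _ _ _)

theorem c5d_smul {c f K t T : ℝ} (hc : 0 ≤ c) (hf : |f| ≤ K) {v : G} (hv : ‖v‖ ≤ T) (h : c * (K * T) ≤ t) :
    ‖(c * f) • v‖ ≤ t := by
  rw [norm_smul, Real.norm_eq_abs, abs_mul, abs_of_nonneg hc, mul_assoc]
  exact le_trans (by have := (abs_nonneg f).trans hf; gcongr) h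

set_option maxSynthPendingDepth 5 in
/-- Size of the kernels and of their anti-invariant parts (`norm_pb_sub_le`, `Fr.piM_pb`, `Fr.piM_of_inv`). -/
theorem ker_bound : ∃ C : ℝ, 1 ≤ C ∧ ∀ δ ∈ Ioc (0 : ℝ) 1, ∀ x y, ‖A.th δ x y‖ ≤ C * (δ ^ 4)⁻¹ ∧
    ‖A.nk δ x y‖ ≤ C * (δ ^ 2)⁻¹ ∧ ‖A.dk δ x y‖ ≤ C * (δ ^ 2)⁻¹ ∧ ‖A.pM y (A.nk δ x y)‖ ≤ C * δ⁻¹ ∧
    ‖A.pM y (A.dk δ x y)‖ ≤ C * δ⁻¹ ∧ ∀ a, ‖A.hk δ x y a‖ ≤ C * (δ ^ 3)⁻¹ * ‖a‖ := by
  obtain ⟨K, hK, h⟩ := A.c5d_data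
  have p : ∀ {i j : ℕ}, i ≤ j → K ^ i ≤ K ^ j := pow_le_pow_right₀ hK
  refine ⟨8 * K ^ 8, by linarith [one_le_pow₀ (n := 8) hK], fun δ hδ x y => ?_⟩
  obtain ⟨c0, c1, hA, hB, hx, hy, ho, hS, h | ⟨s1, s2, s3, s4⟩⟩ := h δ hδ x y
  · have := hδ.1
    simp only [th, nk, dk, hk, h.1, h.2, mul_zero, zero_smul, smul_zero, add_zero, sub_zero, norm_zero, map_zero]
    refine ⟨?_, ?_, ?_, ?_, ?_, fun a => ?_⟩ <;> positivity
  have h0 := hδ.1
  have K0 : 0 < K := by linarith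
  have i24 : (δ ^ 2)⁻¹ ≤ (δ ^ 4)⁻¹ := inv_anti₀ (by positivity) (pow_le_pow_of_le_one h0.le hδ.2 (by norm_num))
  have J1 : pb A.J A.om = A.om := by ext u v; simp [A.inner_J]
  have J2 : pb A.J (wd (innerSL ℝ (A.sv x y)) (A.om (A.sv x y))) = wd (innerSL ℝ (A.sv x y)) (A.om (A.sv x y)) := by
    ext u v
    simp only [pb_apply, wd_apply, innerSL_apply_apply, Cx.om_apply, A.inner_J]
    rw [A.inner_J_left, A.inner_J_left]
    ring
  have w : ‖wd (innerSL ℝ (A.sv x y)) (A.om (A.sv x y))‖ ≤ 2 * (K * δ * (K * (K * δ))) := by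
    refine (norm_wd_le _ _).trans ?_
    rw [innerSL_apply_norm]
    gcongr
    exact (A.om.le_opNorm _).trans (by gcongr)
  have n1 : ‖A.nk δ x y‖ ≤ K ^ 4 * (δ ^ 2)⁻¹ :=
    c5d_smul (T := K ^ 2 * K) (by positivity) c1 ((norm_pb_le _ _).trans (by gcongr)) (le_of_eq (by ring))
  have n2 : ‖A.pM y (A.nk δ x y)‖ ≤ 2 * K ^ 4 * δ⁻¹ := by
    rw [nk, map_smul]
    exact c5d_smul (T := K * δ * (K + K) * K) (by positivity) c1 ((A.c5d_pM y _ J1).trans (by gcongr))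
      (le_of_eq (by field_simp; ring))
  have two : ∀ v : Bil F, ‖(2 : ℝ) • v‖ = 2 * ‖v‖ := fun v => by rw [norm_smul, Real.norm_two]
  refine ⟨(norm_add_le _ _).trans ?_, n1.trans ?_, (norm_sub_le _ _).trans ?_, n2.trans ?_, ?_, fun a => ?_⟩
  · have a1 := c5d_smul (c := (δ ^ 4)⁻¹) (T := 3 * (K ^ 2 * K ^ 2)) (t := 3 * K ^ 8 * (δ ^ 4)⁻¹) (by positivity) c0
      ((A.norm_q4_le (A.Ah x y) (A.Bh x y)).trans (by gcongr))
      ((le_of_eq (by ring)).trans (show 3 * K ^ 5 * (δ ^ 4)⁻¹ ≤ _ by gcongr; omega))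
    have a2 := c5d_smul (c := (δ ^ 2)⁻¹) (t := K ^ 8 * (δ ^ 4)⁻¹) (by positivity) c1 hS
      ((le_of_eq (by ring)).trans (show K ^ 2 * (δ ^ 2)⁻¹ ≤ _ by gcongr; omega))
    have : 0 ≤ K ^ 8 * (δ ^ 4)⁻¹ := by positivity
    linarith
  · gcongr
    linarith [p (show 4 ≤ 8 by omega), pow_pos K0 8]
  · have a1 := c5d_smul (c := (δ ^ 4)⁻¹) (T := K ^ 2 * (2 * (K * δ * (K * (K * δ))))) (t := 2 * K ^ 8 * (δ ^ 2)⁻¹)
      (by positivity) c0 ((norm_pb_le (A.Bh x y) _).trans (by gcongr))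
      ((le_of_eq (by field_simp)).trans (show 2 * K ^ 6 * (δ ^ 2)⁻¹ ≤ _ by gcongr; omega))
    have a2 : K ^ 4 * (δ ^ 2)⁻¹ ≤ K ^ 8 * (δ ^ 2)⁻¹ := by gcongr; omega
    have : 0 ≤ K ^ 8 * (δ ^ 2)⁻¹ := by positivity
    rw [two]
    linarith
  · gcongr <;> norm_num
  · rw [dk, map_sub, map_smul, map_smul]
    refine (norm_sub_le _ _).trans ?_
    have a1 := c5d_smul (c := (δ ^ 4)⁻¹) (T := K * δ * (K + K) * (2 * (K * δ * (K * (K * δ)))))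
      (t := 4 * K ^ 8 * δ⁻¹) (by positivity) c0 ((A.c5d_pM y (A.Bh x y) J2).trans (by gcongr))
      ((le_of_eq (by field_simp; ring)).trans (show 4 * K ^ 6 * δ⁻¹ ≤ _ by gcongr; omega))
    have a2 : K ^ 4 * δ⁻¹ ≤ K ^ 8 * δ⁻¹ := by gcongr; omega
    rw [two]
    linarith
  · have xi : ‖A.Xi (A.sv x y) (A.Ah x y a)‖ ≤ 3 * (K * δ * (K * ‖a‖)) := by
      refine ContinuousLinearMap.opNorm_le_bound₂ _ (by positivity) fun u v => (A.abs_Xi_le _ _ _ _).trans ?_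
      have := ((A.Ah x y).le_opNorm a).trans (mul_le_mul_of_nonneg_right hA (norm_nonneg a))
      calc _ ≤ 3 * (K * δ * (K * ‖a‖) * ‖u‖ * ‖v‖) := by gcongr
        _ = _ := by ring
    exact c5d_smul (T := K ^ 2 * (3 * (K * δ * (K * ‖a‖)))) (by positivity) c0
      ((norm_pb_le _ _).trans (by gcongr)) ((le_of_eq (by field_simp)).trans
        (show 3 * K ^ 5 * (δ ^ 3)⁻¹ * ‖a‖ ≤ _ by gcongr <;> norm_num))

set_option maxSynthPendingDepth 5 in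
/-- The mixed component of `th` gains one power of `δ` (`Fr.piM_ip_q4` on the diagonal, `geo_bound`). -/
theorem ker_bound_mixed : ∃ C : ℝ, 1 ≤ C ∧ ∀ δ ∈ Ioc (0 : ℝ) 1, ∀ x y η,
    ‖A.pM y (ipG (A.th δ x y) (A.pP x η))‖ ≤ C * (δ ^ 3)⁻¹ * ‖η‖ := by
  obtain ⟨K, hK, h⟩ := A.c5d_data
  obtain ⟨C, hC, hp⟩ := A.pair_bound (G := Bil F)
  obtain ⟨Λ, hΛ⟩ := ((A.contDiff_q4.of_le (m := 1) (by simp)).locallyLipschitz.locallyLipschitzOn
    (s := closedBall 0 K)).exists_lipschitzOnWith_of_compact (isCompact_closedBall _ _)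
  have K2 : 1 ≤ K ^ 2 := one_le_pow₀ hK
  refine ⟨C * ((Λ + 1) * K ^ 2) * 2, ?_, fun δ hδ x y η => ?_⟩
  · have : 1 ≤ C * ((Λ + 1) * K ^ 2) :=
      one_le_mul_of_one_le_of_one_le hC (one_le_mul_of_one_le_of_one_le (by simp) K2)
    linarith
  have h0 := hδ.1
  obtain ⟨c0, c1, hA, hB, hx, hy, ho, hS, h | ⟨s1, s2, s3, s4⟩⟩ := h δ hδ x y
  · simp only [th, h.1, h.2, mul_zero, zero_smul, add_zero]
    rw [← zero_smul ℝ (0 : F →L[ℝ] F →L[ℝ] Bil F), ipG_smul]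
    simp only [zero_smul, zero_apply, map_zero, norm_zero]
    positivity
  obtain ⟨L, hL⟩ := A.fr_at x
  obtain ⟨L', hL'⟩ := A.fr_at y
  have e0 : A.pM y (ipG (A.q4 (A.Pr x) (A.Pr x)) (A.pP x η)) = 0 := by
    refine hL'.piM_of_inv (hL.inv_of_piM (hL.piT_eq_iff _ |>.2 ⟨fun u v => ?_, fun u v => ?_⟩) (hL.piM_ip_q4 η))
    · simp only [ipG_apply, smul_apply, sum_apply, Cx.q4_apply, A.W_swap34 _ _ (A.Pr x u), smul_neg,
        Finset.sum_neg_distrib, neg_neg]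
    · simp only [ipG_apply, smul_apply, sum_apply, Cx.q4_apply, hL.P_P]
  set θ := ((δ ^ 4)⁻¹ * A.cf f0 δ x y) • (A.q4 (A.Ah x y) (A.Bh x y) - A.q4 (A.Pr x) (A.Pr x)) +
    ((δ ^ 2)⁻¹ * A.cf f1 δ x y) • ∑ α, A.q4 (A.Kh x (eF α)) (A.Bh x y) with hθ
  have e1 : A.th δ x y = ((δ ^ 4)⁻¹ * A.cf f0 δ x y) • A.q4 (A.Pr x) (A.Pr x) + θ := by
    rw [hθ, th, smul_sub]; abel
  have q : ‖A.q4 (A.Ah x y) (A.Bh x y) - A.q4 (A.Pr x) (A.Pr x)‖ ≤ Λ * (K * δ) := by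
    have := hΛ.norm_sub_le (x := (A.Ah x y, A.Bh x y)) (y := (A.Pr x, A.Pr x))
      (mem_closedBall_zero_iff.2 (max_le hA hB)) (mem_closedBall_zero_iff.2 (max_le hx hx))
    exact this.trans (mul_le_mul_of_nonneg_left (max_le s2 s3) Λ.2)
  have n : ‖θ‖ ≤ (Λ + 1) * K ^ 2 * (δ ^ 3)⁻¹ := by
    have a1 := c5d_smul (c := (δ ^ 4)⁻¹) (t := Λ * K ^ 2 * (δ ^ 3)⁻¹) (by positivity) c0 q
      (le_of_eq (by field_simp))
    have i23 : (δ ^ 2)⁻¹ ≤ (δ ^ 3)⁻¹ := inv_anti₀ (by positivity) (pow_le_pow_of_le_one h0.le hδ.2 (by norm_num))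
    have a2 := c5d_smul (c := (δ ^ 2)⁻¹) (t := K ^ 2 * (δ ^ 3)⁻¹) (by positivity) c1 hS
      ((le_of_eq (by ring)).trans (show K ^ 2 * (δ ^ 2)⁻¹ ≤ _ by gcongr))
    refine (norm_add_le _ _).trans ?_
    linarith
  rw [e1, ipG_add, ipG_smul, add_apply, smul_apply, map_add, map_smul, e0, smul_zero, zero_add]
  refine (hL'.norm_pi_le _).2.1.trans ((hp _ _).1.trans ?_)
  have := (hL.norm_pi_le η).2.2
  calc C * ‖θ‖ * ‖A.pP x η‖ ≤ C * ((Λ + 1) * K ^ 2 * (δ ^ 3)⁻¹) * (2 * ‖η‖) := by gcongr; exact this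
    _ = _ := by ring

end Atl
end Crest.Agent.R240
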