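import Crest.Agent.R240.C5
import Crest.Agent.R240.A9

/-! Block C6: the kernels belong to the class `Bd`. -/

set_option autoImplicit false
set_option maxSynthPendingDepth 3
set_option linter.unusedSectionVars false
set_option linter.unusedVariables false
open MeasureTheory Filter Set Metric
open scoped ENNReal NNReal Topology ContDiff InnerProductSpace InnerProduct

noncomputable section
namespace Crest.Agent.R240

namespace Atl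
variable {M F ι : Type*} [MetricSpace M] [CompactSpace M] [NormedAddCommGroup F] [InnerProductSpace ℝ F]
  [FiniteDimensional ℝ F] [Fintype ι] (A : Atl M F ι)
  {G G' : Type*} [NormedAddCommGroup G] [NormedSpace ℝ G] [FiniteDimensional ℝ G]
  [NormedAddCommGroup G'] [NormedSpace ℝ G'] [FiniteDimensional ℝ G']

/-- Kernels on `M × M` that are of class `Bd` in every chart. -/
def KB (C₀ : ℝ) (K : ℝ → M → M → G) : Prop :=
  (∀ᶠ δ in 𝓝[>] (0 : ℝ), A.Sm2 (K δ) ∧ Near (C₀ * δ) (K δ)) ∧ ∀ k, Bd (A.ck k K)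

variable {A}

theorem c6a_lip (A : Atl M F ι) : ∃ C : ℝ, 1 ≤ C ∧ ∀ k, ∀ z ∈ V, ∀ w ∈ V,
    ‖z - w‖ ≤ C * dist (A.ψ k z) (A.ψ k w) ∧ dist (A.ψ k z) (A.ψ k w) ≤ C * ‖z - w‖ := by
  obtain ⟨C, hC, h⟩ := A.lip
  refine ⟨C, hC, fun k z hz w hw => ?_⟩
  have := h k _ (A.ψ_mem k z hz) _ (A.ψ_mem k w hw)
  rwa [A.κψ k z hz, A.κψ k w hw] at this

theorem c6a_ck (A : Atl M F ι) (k : ι) (K : ℝ → M → M → G) (δ : ℝ) {p : E4 × E4} (hp : p ∈ V ×ˢ V) :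
    A.ck k K δ p = K δ (A.ψ k p.1) (A.ψ k p.2) := if_pos hp.2

theorem c6a_nsq (δ : ℝ) (v : G) : ‖δ⁻¹ • v‖ ^ 2 = ‖v‖ ^ 2 / δ ^ 2 := by
  rw [norm_smul, mul_pow, norm_inv, inv_pow, Real.norm_eq_abs, sq_abs, div_eq_inv_mul]

theorem KB.sup {C₀ : ℝ} (hC : 0 ≤ C₀) {K : ℝ → M → M → G} (h : A.KB C₀ K) :
    ∃ C₁ : ℝ, 0 ≤ C₁ ∧ ∀ k, Sup C₁ (A.ck k K) := by
  obtain ⟨C, hC1, hl⟩ := c6a_lip A
  refine ⟨C * C₀, by positivity, fun k => ?_⟩
  filter_upwards [h.1] with δ hδ p h1 h2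
  by_cases hp : p.2 ∈ V
  · have hp1 : p.1 ∈ V := mem_V.2 (by linarith)
    rw [c6a_ck A k K δ ⟨hp1, hp⟩]
    refine hδ.2 _ _ ?_
    have := (hl k _ hp1 _ hp).1
    rw [mul_assoc] at h2
    exact lt_of_mul_lt_mul_left (h2.trans_le this) (by linarith)
  · exact if_neg hp

theorem Sm2.bd {D : M → M → G} (h : A.Sm2 D) (k : ι) : Bd (A.ck k fun _ => D) := by
  exact (bd_const (h k k)).congr' (Eventually.of_forall fun δ p hp => c6a_ck A k _ δ hp)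

theorem Sm2.bd_div {D : M → M → G} (h : A.Sm2 D) (h0 : ∀ x, D x x = 0) (k : ι) :
    Bd (A.ck k fun δ x y => δ⁻¹ • D x y) := by
  exact (Crest.Agent.R240.bd_div (h k k) fun z _ => h0 _).congr'
    (Eventually.of_forall fun δ p hp => c6a_ck A k _ δ hp)

variable (A)

/-- `cf f δ = Φ (δ⁻¹ • sv)` near the diagonal, `Φ z = f (‖z‖²)`; `Bd.comp`, `Bd.congr`. -/
theorem bd_cf {f : ℝ → ℝ} (hf : ContDiff ℝ ∞ f) (h0 : ∀ t, 1 ≤ t → f t = 0) (k : ι) : Bd (A.ck k (A.cf f)) := by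
  obtain ⟨C, hC1, hl⟩ := c6a_lip A
  have hΦ : ContDiff ℝ ∞ fun z : F => f (‖z‖ ^ 2) := hf.comp (contDiff_norm_sq ℝ)
  have h1 := (Sm2.bd_div A.sm2_geo.1 (fun x => (A.geo_diag x).1) k).comp hΦ
  have hc : 0 < A.c0 / C := div_pos A.c0_spec.1 (by linarith)
  refine h1.congr hc ?_ (Eventually.of_forall fun δ p hp hd => ?_)
  · filter_upwards [A.sm2_cf hf h0] with δ hδ
    exact (hδ k k).congr fun p hp => c6a_ck A k _ δ hp
  · rw [c6a_ck A k _ δ hp, c6a_ck A k _ δ hp, c6a_nsq]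
    refine if_pos ((hl k _ hp.1 _ hp.2).2.trans_lt ?_)
    rwa [lt_div_iff₀' (by linarith)] at hd

def kI (δ : ℝ) (x y : M) : Bil F →L[ℝ] Bil F := δ ^ 4 • (A.pM y).comp (ipG (A.th δ x y))
def kP (δ : ℝ) (x y : M) : Bil F →L[ℝ] Bil F := δ ^ 3 • ((A.pM y).comp (ipG (A.th δ x y))).comp (A.pP x)
def kW (δ : ℝ) (x y : M) : Bil F →L[ℝ] Bil F := δ ^ 4 • ((A.pM y).comp (A.wG (A.th δ x y))).comp (A.pM x)
def kD (δ : ℝ) (x y : M) : ℝ →L[ℝ] Bil F := (1 : ℝ →L[ℝ] ℝ).smulRight (δ • A.pM y (A.dk δ x y))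

theorem c6b_congr {k : ι} {K K' : ℝ → M → M → G} (h : Bd (A.ck k K))
    (he : ∀ δ, 0 < δ → ∀ x y, K' δ x y = K δ x y) : Bd (A.ck k K') :=
  h.congr' <| by
    filter_upwards [self_mem_nhdsWithin] with δ hδ p _
    simp only [ck, he δ hδ]

theorem c6b_bil {G'' : Type*} [NormedAddCommGroup G''] [NormedSpace ℝ G''] [FiniteDimensional ℝ G'']
    {k : ι} {K : ℝ → M → M → G} {K' : ℝ → M → M → G'} (B : G →L[ℝ] G' →L[ℝ] G'')
    (h : Bd (A.ck k K)) (h' : Bd (A.ck k K')) : Bd (A.ck k fun δ x y => B (K δ x y) (K' δ x y)) :=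
  (h.bilin B h').congr' (Eventually.of_forall fun δ p hp => by simp only [ck, if_pos hp.2])

theorem c6b_smul {k : ι} {K : ℝ → M → M → ℝ} {K' : ℝ → M → M → G}
    (h : Bd (A.ck k K)) (h' : Bd (A.ck k K')) : Bd (A.ck k fun δ x y => K δ x y • K' δ x y) :=
  (h.smul h').congr' (Eventually.of_forall fun δ p hp => by simp only [ck, if_pos hp.2])

theorem c6b_add {k : ι} {K K' : ℝ → M → M → G}
    (h : Bd (A.ck k K)) (h' : Bd (A.ck k K')) : Bd (A.ck k fun δ x y => K δ x y + K' δ x y) :=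
  (h.add h').congr' (Eventually.of_forall fun δ p hp => by simp only [ck, if_pos hp.2])

theorem c6b_delta {k : ι} {K : ℝ → M → M → G} (h : Bd (A.ck k K)) :
    Bd (A.ck k fun δ x y => δ • K δ x y) :=
  h.delta.congr' (Eventually.of_forall fun δ p hp => by simp only [ck, if_pos hp.2])

theorem c6b_comp {k : ι} {K : ℝ → M → M → G} (h : Bd (A.ck k K)) {Φ : G → G'} (hΦ : ContDiff ℝ ∞ Φ) :
    Bd (A.ck k fun δ x y => Φ (K δ x y)) :=
  (h.comp hΦ).congr' (Eventually.of_forall fun δ p hp => by simp only [ck, if_pos hp.2])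

theorem c6b_sm2_comp {G'' : Type*} [NormedAddCommGroup G''] [NormedSpace ℝ G'']
    {K : M → M → G' →L[ℝ] G''} {K' : M → M → G →L[ℝ] G'} (h : A.Sm2 K) (h' : A.Sm2 K') :
    A.Sm2 fun x y => (K x y).comp (K' x y) := fun k l => (h k l).clm_comp (h' k l)

theorem c6b_cf (k : ι) : Bd (A.ck k (A.cf f0)) ∧ Bd (A.ck k (A.cf f1)) :=
  ⟨A.bd_cf prof.1 (fun t ht => (prof.2.2.2.2.1 t ht).1) k,
    A.bd_cf prof.2.1 (fun t ht => (prof.2.2.2.2.1 t ht).2) k⟩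

theorem c6b_th {C₀ : ℝ} (hC : ∀ δ, 0 < δ → Near (C₀ * δ) (A.th δ))
    (T : M → M → (F →L[ℝ] F →L[ℝ] Bil F) → G)
    (hadd : ∀ x y θ θ', T x y (θ + θ') = T x y θ + T x y θ')
    (hsmul : ∀ x y (c : ℝ) θ, T x y (c • θ) = c • T x y θ)
    (hsm : ∀ D, A.Sm2 D → A.Sm2 fun x y => T x y (D x y)) :
    A.KB C₀ (fun δ x y => δ ^ 4 • T x y (A.th δ x y)) ∧
      ((∀ x, T x x (A.q4 (A.Pr x) (A.Pr x)) = 0) →
        A.KB C₀ fun δ x y => δ ^ 3 • T x y (A.th δ x y)) := by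
  obtain ⟨-, hA, hB, hK⟩ := A.sm2_geo
  have h0 := hsm _ ((hA.prod hB).comp A.contDiff_q4)
  have h1 := hsm (fun x y => ∑ α, A.q4 (A.Kh x (eF α)) (A.Bh x y)) fun k l =>
    ContDiffOn.sum fun α _ => (((hK (eF α)).fst.prod hB).comp A.contDiff_q4) k l
  have hn : ∀ n : ℕ, ∀ᶠ δ in 𝓝[>] (0 : ℝ), A.Sm2 (fun x y => δ ^ n • T x y (A.th δ x y)) ∧
      Near (C₀ * δ) fun x y => δ ^ n • T x y (A.th δ x y) := fun n => by
    filter_upwards [self_mem_nhdsWithin, A.sm2_ker] with δ hδ hs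
    refine ⟨fun k l => (hsm _ hs.1 k l).const_smul _, fun x y hxy => ?_⟩
    have this : T x y 0 = 0 := by
      have h2 := hadd x y 0 0
      have h3 : (0 : F →L[ℝ] F →L[ℝ] Bil F) + 0 = 0 := by ext; simp
      rw [h3] at h2
      exact left_eq_add.mp h2
    simp only [hC δ hδ x y hxy, this, smul_zero]
  refine ⟨⟨hn 4, fun k => ?_⟩, fun hd => ⟨hn 3, fun k => ?_⟩⟩
  · refine A.c6b_congr (A.c6b_add (A.c6b_smul (A.c6b_cf k).1 (h0.bd k))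
      (A.c6b_delta (A.c6b_delta (A.c6b_smul (A.c6b_cf k).2 (h1.bd k))))) fun δ hδ x y => ?_
    simp only [th, hadd, hsmul, smul_add, smul_smul]
    congr 2 <;> field_simp
  · refine A.c6b_congr (A.c6b_add (A.c6b_smul (A.c6b_cf k).1 (h0.bd_div (fun x => ?_) k))
      (A.c6b_delta (A.c6b_smul (A.c6b_cf k).2 (h1.bd k)))) fun δ hδ x y => ?_
    · simp only [(A.geo_diag x).2.1, (A.geo_diag x).2.2, hd]
    · simp only [th, hadd, hsmul, smul_add, smul_smul]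
      congr 2 <;> field_simp

/-- `δ⁴ th = cf f0 • D₀ + δ² cf f1 • D₁` with `D₀, D₁` independent of `δ`; for `kP` the `D₀` part vanishes on the diagonal (`Fr.piM_ip_q4`). -/
theorem kb_th : ∃ C₀ : ℝ, 1 ≤ C₀ ∧ A.KB C₀ A.kI ∧ A.KB C₀ A.kP ∧ A.KB C₀ A.kW := by
  obtain ⟨C₀, hC1, hC⟩ := A.near_ker
  obtain ⟨-, -, -, -, -, hM, hP⟩ := A.sm_basic
  have hN := fun δ hδ => (hC δ hδ).1
  have hc := A.toCx.contDiff_pair (G := Bil F)
  refine ⟨C₀, hC1, ?_, ?_, ?_⟩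
  · exact (A.c6b_th hN (fun _ y θ => (A.pM y).comp (ipG θ))
      (fun x y θ θ' => by rw [ipG_add, ContinuousLinearMap.comp_add])
      (fun x y c θ => by rw [ipG_smul, ContinuousLinearMap.comp_smul])
      fun D hD => A.c6b_sm2_comp hM.snd (hD.comp hc.1)).1
  · refine (A.c6b_th hN (fun x y θ => ((A.pM y).comp (ipG θ)).comp (A.pP x))
      (fun x y θ θ' => by rw [ipG_add, ContinuousLinearMap.comp_add, ContinuousLinearMap.add_comp])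
      (fun x y c θ => by rw [ipG_smul, ContinuousLinearMap.comp_smul, ContinuousLinearMap.smul_comp])
      fun D hD => A.c6b_sm2_comp (A.c6b_sm2_comp hM.snd (hD.comp hc.1)) hP.fst).2 fun x => ?_
    obtain ⟨L, hL⟩ := A.fr_at x
    exact ContinuousLinearMap.ext fun η => hL.piM_ip_q4 η
  · exact (A.c6b_th hN (fun x y θ => ((A.pM y).comp (A.wG θ)).comp (A.pM x))
      (fun x y θ θ' => by rw [A.wG_add, ContinuousLinearMap.comp_add, ContinuousLinearMap.add_comp])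
      (fun x y c θ => by rw [A.wG_smul, ContinuousLinearMap.comp_smul, ContinuousLinearMap.smul_comp])
      fun D hD => A.c6b_sm2_comp (A.c6b_sm2_comp hM.snd (hD.comp hc.2)) hM.fst).1

theorem c6b_inv (x y : M) {η : Bil F} (h : pb A.J η = η) :
    A.pM y (pb (A.Bh x y) η) = (A.pM y).comp (pb (A.Bh x y) - pb (A.Pr y)) η := by
  obtain ⟨L, hL⟩ := A.fr_at y
  have : A.pM y (pb (A.Pr y) η) = 0 := (hL.piM_pb η).trans (hL.piM_of_inv h)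
  rw [ContinuousLinearMap.comp_apply, sub_apply, map_sub, this, sub_zero]

/-- `pM y (pb B η) = (pM y ∘ (pb B - pb (Pr y))) η` for invariant `η`; the operator vanishes on the diagonal;
`η = om` and `η = wd ⟪z, ·⟫ (om z)` with `z = δ⁻¹ • sv`. -/
theorem kb_dk : ∃ C₀ : ℝ, 1 ≤ C₀ ∧ A.KB C₀ A.kD := by
  obtain ⟨C₀, hC1, hC⟩ := A.near_ker
  obtain ⟨-, hPr, -, -, -, hM, -⟩ := A.sm_basic
  obtain ⟨hs, -, hB, -⟩ := A.sm2_geo
  have hΦ : ContDiff ℝ ∞ fun b : Bil F => (1 : ℝ →L[ℝ] ℝ).smulRight b :=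
    (ContinuousLinearMap.smulRightL ℝ ℝ (Bil F) 1).contDiff
  refine ⟨C₀, hC1, ?_, fun k => ?_⟩
  · filter_upwards [self_mem_nhdsWithin, A.sm2_ker] with δ hδ hk
    refine ⟨Sm2.comp (K := fun x y => δ • A.pM y (A.dk δ x y))
      (fun k l => (hM.snd.app hk.2.2.1 k l).const_smul δ) hΦ, fun x y hxy => ?_⟩
    simp [kD, (hC δ hδ).2.2.1 x y hxy]
  have hE : A.Sm2 fun x y => (A.pM y).comp (pb (A.Bh x y) - pb (A.Pr y)) :=
    A.c6b_sm2_comp hM.snd fun k l => (hB.comp contDiff_pb k l).sub (hPr.snd.comp contDiff_pb k l)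
  have hE' := hE.bd_div (fun x => by simp [(A.geo_diag x).2.2]) k
  have hΨ : ContDiff ℝ ∞ fun z : F => wd (innerSL ℝ z) (A.om z) :=
    contDiff_wd.comp ((innerSL ℝ).contDiff.prodMk A.om.contDiff)
  have h1 := A.c6b_comp (hs.bd_div (fun x => (A.geo_diag x).1) k) hΨ
  have h2 := A.c6b_bil (ContinuousLinearMap.id ℝ (Bil F →L[ℝ] Bil F)) hE' h1
  have h3 := A.c6b_comp hE' (ContinuousLinearMap.apply ℝ (Bil F) ((2 : ℝ) • A.om)).contDiff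
  have h4 := A.c6b_add (A.c6b_smul (A.c6b_cf k).2 h3)
    (A.c6b_comp (A.c6b_smul (A.c6b_cf k).1 h2) contDiff_neg)
  refine A.c6b_congr (A.c6b_comp h4 hΦ) fun δ hδ x y => ?_
  have e1 : pb A.J A.om = A.om := by
    ext u v
    simp [A.inner_J]
  have e2 : pb A.J (wd (innerSL ℝ (A.sv x y)) (A.om (A.sv x y))) =
      wd (innerSL ℝ (A.sv x y)) (A.om (A.sv x y)) := by
    ext u v
    simp only [pb_apply, wd_apply, innerSL_apply_apply, Cx.om_apply, A.inner_J, A.inner_J_left]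
    ring
  have e3 : wd (innerSL ℝ (δ⁻¹ • A.sv x y)) (A.om (δ⁻¹ • A.sv x y)) =
      (δ⁻¹ * δ⁻¹) • wd (innerSL ℝ (A.sv x y)) (A.om (A.sv x y)) := by
    ext u v
    simp
    ring
  rw [kD]
  congr 1
  rw [e3]
  simp only [dk, nk, map_sub, map_smul, A.c6b_inv x y e1, A.c6b_inv x y e2,
    ContinuousLinearMap.apply_apply, ContinuousLinearMap.id_apply, smul_apply,
    smul_sub, smul_smul, ← sub_eq_add_neg]
  congr 2 <;> field_simp

/-- The chart kernel of `pM ∘ Rt ∘ pM`. -/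
def kR (k : ι) : KF (Bil F →L[ℝ] Bil F) := fun δ p => A.rho k p.1 • A.ck k A.kW δ p

open Classical in
/-- The frozen kernel. -/
def kz (k : ι) : KF ℝ := fun δ p =>
  if p.2 ∈ V then A.rho k p.2 * f0 (‖A.g k p.2 (p.2 - p.1)‖ ^ 2 / δ ^ 2) else 0

theorem kz_spec (k : ι) : ∃ C₀ : ℝ, 0 ≤ C₀ ∧ Bd (A.kz k) ∧
    (∀ δ, 0 < δ → ∀ p : E4 × E4, C₀ * δ < ‖p.1 - p.2‖ → A.kz k δ p = 0) ∧
    ∀ δ, 0 < δ → ∀ y ∈ V, ∫ x, (δ ^ 4)⁻¹ * A.kz k δ (x, y) = 1 := by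
  obtain ⟨C, hC⟩ := A.gi_bd
  refine ⟨max C 1, by positivity, ?_, fun δ hδ p hp => ?_, fun δ hδ y hy => ?_⟩
  · have hΦ : ContDiff ℝ ∞ fun z : E4 => f0 (‖z‖ ^ 2) := prof.1.comp (contDiff_norm_sq ℝ)
    have hm : MapsTo (Prod.snd : E4 × E4 → E4) (V ×ˢ V) V := fun p hp => hp.2
    have hg : ContDiffOn ℝ ∞ (fun p : E4 × E4 => A.g k p.2 (p.2 - p.1)) (V ×ˢ V) :=
      ((A.g_sm k).comp contDiffOn_snd hm).clm_apply (contDiffOn_snd.sub contDiffOn_fst)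
    have hr : ContDiffOn ℝ ∞ (fun p : E4 × E4 => A.rho k p.2) (V ×ˢ V) :=
      (A.I_sm k).2.2.comp contDiffOn_snd hm
    have h1 := (bd_const hr).smul ((bd_div hg fun z _ => by simp).comp hΦ)
    refine h1.congr' (Eventually.of_forall fun δ p hp => ?_)
    rw [c6a_nsq, smul_eq_mul]
    exact if_pos hp.2
  · by_cases h2 : p.2 ∈ V
    · have h3 : ‖p.1 - p.2‖ ≤ max C 1 * ‖A.g k p.2 (p.2 - p.1)‖ := by
        rw [norm_sub_rev]
        conv_lhs => rw [← A.gi_g k p.2 h2 (p.2 - p.1)]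
        exact ((A.gi k p.2).le_opNorm _).trans
          (mul_le_mul_of_nonneg_right ((hC k _ h2).trans (le_max_left _ _)) (norm_nonneg _))
      have h4 : δ < ‖A.g k p.2 (p.2 - p.1)‖ := lt_of_mul_lt_mul_left (hp.trans_le h3) (by positivity)
      have h5 : f0 (‖A.g k p.2 (p.2 - p.1)‖ ^ 2 / δ ^ 2) = 0 := by
        refine (prof.2.2.2.2.1 _ ?_).1
        rw [le_div_iff₀ (by positivity), one_mul]
        exact pow_le_pow_left₀ hδ.le h4.le 2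
      have h6 : A.kz k δ p = A.rho k p.2 * f0 (‖A.g k p.2 (p.2 - p.1)‖ ^ 2 / δ ^ 2) := if_pos h2
      rw [h6, h5, mul_zero]
    · exact if_neg h2
  · rw [← integral_f0 (A.g_gi k y hy) (A.det_pos k y hy) hδ y]
    refine integral_congr_ae (Eventually.of_forall fun x => ?_)
    have h6 : A.kz k δ (x, y) = A.rho k y * f0 (‖A.g k y (y - x)‖ ^ 2 / δ ^ 2) := if_pos hy
    simp only [h6, rho]

/-- With `s = sv`, `s₀ = I y (y - x)` (`norm_I`), `Φ z = f0 (‖z‖²)`, `D₀ (x, y) = rho x • pM y ∘ wG (q4 Ah Bh) ∘ pM x`, `D₀ (y, y) = rho y • pM y`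
(`Fr.wG_q4`): `kR - kz • pM = (Φ(s/δ) - Φ(s₀/δ)) D₀ + Φ(s₀/δ) (D₀ (x,y) - D₀ (y,y)) + δ² cf f1 D₁`; `Bd.diff`, `bd_div2` (`fderiv_sv`), `bd_div`. -/
theorem kR_diff (k : ι) : Bd (A.kR k) ∧
    Bd fun δ p => δ⁻¹ • (A.kR k δ p - A.kz k δ p • A.pM (A.ψ k p.2)) := by
  obtain ⟨C₀, -, -, -, hW⟩ := A.kb_th
  obtain ⟨C₁, -, hz, -⟩ := A.kz_spec k
  obtain ⟨s0, s1, -, -, z, -⟩ := prof
  obtain ⟨L, hL, hl⟩ := A.lip
  have hc0 := A.c0_spec.1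
  have r1 : ContDiffOn ℝ ∞ (fun p : E4 × E4 => A.rho k p.1) (V ×ˢ V) :=
    (A.I_sm k).2.2.comp contDiffOn_fst fun p hp => hp.1
  have r2 : ContDiffOn ℝ ∞ (fun p : E4 × E4 => A.rho k p.2) (V ×ˢ V) :=
    (A.I_sm k).2.2.comp contDiffOn_snd fun p hp => hp.2
  have m1 : ContDiffOn ℝ ∞ (fun p : E4 × E4 => A.pM (A.ψ k p.1)) (V ×ˢ V) := A.sm_basic.2.2.2.2.2.1.fst k k
  have m2 : ContDiffOn ℝ ∞ (fun p : E4 × E4 => A.pM (A.ψ k p.2)) (V ×ˢ V) := A.sm_basic.2.2.2.2.2.1.snd k k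
  have hR : Bd (A.kR k) := (bd_const r1).smul (hW.2 k)
  refine ⟨hR, ?_⟩
  obtain ⟨gS, gA, gB, gK⟩ := A.sm2_geo
  set S : E4 × E4 → F := fun p => A.sv (A.ψ k p.1) (A.ψ k p.2) with hS
  set S₀ : E4 × E4 → F := fun p => A.I k p.2 (p.2 - p.1) with hS₀
  have sS : ContDiffOn ℝ ∞ S (V ×ˢ V) := gS k k
  have sS₀ : ContDiffOn ℝ ∞ S₀ (V ×ˢ V) :=
    ((A.I_sm k).1.comp contDiffOn_snd fun q hq => hq.2).clm_apply (contDiffOn_snd.sub contDiffOn_fst)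
  set D₀ : E4 × E4 → Bil F →L[ℝ] Bil F := fun p => A.rho k p.1 • ((A.pM (A.ψ k p.2)).comp
    (A.wG (A.q4 (A.Ah (A.ψ k p.1) (A.ψ k p.2)) (A.Bh (A.ψ k p.1) (A.ψ k p.2))))).comp (A.pM (A.ψ k p.1)) with hD₀
  set D₁ : E4 × E4 → Bil F →L[ℝ] Bil F := fun p => A.rho k p.1 • ((A.pM (A.ψ k p.2)).comp
    (A.wG (∑ α, A.q4 (A.Kh (A.ψ k p.1) (eF α)) (A.Bh (A.ψ k p.1) (A.ψ k p.2))))).comp (A.pM (A.ψ k p.1)) with hD₁
  have sD₀ : ContDiffOn ℝ ∞ D₀ (V ×ˢ V) :=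
    r1.smul ((m2.clm_comp (A.contDiff_pair.2.comp_contDiffOn
      (A.contDiff_q4.comp_contDiffOn ((gA k k).prodMk (gB k k))))).clm_comp m1)
  have sD₁ : ContDiffOn ℝ ∞ D₁ (V ×ˢ V) :=
    r1.smul ((m2.clm_comp (A.contDiff_pair.2.comp_contDiffOn (ContDiffOn.sum fun α _ =>
      A.contDiff_q4.comp_contDiffOn (((gK (eF α)).fst k k).prodMk (gB k k))))).clm_comp m1)
  have b1 := bd_div sS fun z hz => (A.geo_diag _).1
  have b2 := bd_div sS₀ fun z hz => by simp [hS₀]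
  have b3 : Bd fun δ p => δ⁻¹ • (δ⁻¹ • S p - δ⁻¹ • S₀ p) :=
    (bd_div2 (sS.sub sS₀) (fun z hz => by simp [hS, hS₀, (A.geo_diag _).1])
      fun z hz => (A.fderiv_sv k (p := (z, z)) ⟨hz, hz⟩ 0).2.2).congr' (Eventually.of_forall fun δ p _ => by
        rw [← smul_sub, smul_smul, sq, mul_inv])
  have hΦ : ContDiff ℝ ∞ fun z : F => f0 (‖z‖ ^ 2) := s0.comp (contDiff_norm_sq ℝ)
  have b4 := (b1.diff b2 b3 hΦ).smul (bd_const sD₀)
  have b5 := (b2.comp hΦ).smul (bd_div (sD₀.sub (r2.smul m2)) fun z hz => by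
    obtain ⟨L', hL'⟩ := A.fr_at (A.ψ k z)
    rw [sub_eq_zero]
    simp only [hD₀, (A.geo_diag _).2.1, (A.geo_diag _).2.2]
    congr 1
    ext1 η
    simp only [ContinuousLinearMap.comp_apply, pM, hL'.wG_q4, hL'.piM_piM])
  have b6 := ((A.bd_cf s1 (fun t ht => (z t ht).2) k).smul (bd_const sD₁)).delta
  refine ((b4.add b5).add b6).congr (c := A.c0 / L) (by positivity) ?_ ?_
  · filter_upwards [hR.1, hz.1] with δ h1 h2
    exact (h1.sub (h2.smul m2)).const_smul _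
  · filter_upwards [self_mem_nhdsWithin] with δ hδ p hp h
    have hδ : 0 < δ := hδ
    have h3 := (hl k _ (A.ψ_mem k _ hp.1) _ (A.ψ_mem k _ hp.2)).2
    rw [A.κψ k _ hp.1, A.κψ k _ hp.2] at h3
    have h4 : dist (A.ψ k p.1) (A.ψ k p.2) < A.c0 := by
      rw [lt_div_iff₀ (by positivity)] at h
      linarith
    have n1 : ∀ v : F, ‖δ⁻¹ • v‖ ^ 2 = ‖v‖ ^ 2 / δ ^ 2 := fun v => by
      rw [norm_smul, Real.norm_eq_abs, mul_pow, sq_abs]; field_simp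
    have e1 : A.cf f0 δ (A.ψ k p.1) (A.ψ k p.2) = f0 (‖δ⁻¹ • S p‖ ^ 2) := by rw [cf, if_pos h4, n1]
    have e2 : A.kz k δ p = A.rho k p.2 * f0 (‖δ⁻¹ • S₀ p‖ ^ 2) := by
      rw [kz, if_pos hp.2, n1, hS₀, A.norm_I k hp.2]
    have e3 : A.kR k δ p = f0 (‖δ⁻¹ • S p‖ ^ 2) • D₀ p + (δ ^ 2 * A.cf f1 δ (A.ψ k p.1) (A.ψ k p.2)) • D₁ p := by
      ext1 η
      simp only [kR, ck, if_pos hp.2, kW, th, hD₀, hD₁, e1, Cx.wG_add, Cx.wG_smul, add_apply, smul_apply,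
        ContinuousLinearMap.comp_apply, map_add, map_smul]
      match_scalars <;> field_simp
    rw [e2, e3]
    simp only [ck, if_pos hp.2, smul_eq_mul, Pi.smul_apply']
    match_scalars <;> field_simp <;> ring

theorem kR_Df (k : ι) : ∃ C₀ : ℝ, 0 ≤ C₀ ∧ ∀ n, ∃ C : ℝ, 0 ≤ C ∧ ∀ᶠ δ in 𝓝[>] (0 : ℝ),
    ∀ (u : E4 → Bil F) (ρ : ℝ), 0 ≤ ρ → ρ ≤ 2 → Tst ρ u →
      Tst (ρ + C₀ * δ) (Df (fun z => A.pM (A.ψ k z)) (A.kR k) δ u) ∧
        hs n 1 (Df (fun z => A.pM (A.ψ k z)) (A.kR k) δ u) ≤ C * hs n 1 u ∧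
        hs n 1 (Df (fun z => A.pM (A.ψ k z)) (A.kR k) δ u) ≤ C * δ * hs (n + 1) 1 u := by
  obtain ⟨C₀, hC₀, -, -, hW⟩ := A.kb_th
  obtain ⟨C₁, hC₁, hs⟩ := hW.sup (by linarith)
  obtain ⟨C₂, hC₂, hz, hz0, hz1⟩ := A.kz_spec k
  have hm1 := le_max_left C₁ C₂
  have hm2 := le_max_right C₁ C₂
  refine ⟨max C₁ C₂, by positivity, fun n => Df_hs n (by positivity) (A.sm_basic.2.2.2.2.2.1 k) (A.kR_diff k).1 ?_ hz ?_ ?_ ?_
    (A.kR_diff k).2⟩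
  · filter_upwards [hs k, self_mem_nhdsWithin] with δ h1 hδ p hp h
    have hδ : 0 < δ := hδ
    rw [kR, h1 p hp (lt_of_le_of_lt (by gcongr) h)]
    ext; simp
  · filter_upwards [self_mem_nhdsWithin] with δ hδ p _ h
    exact hz0 δ hδ p (lt_of_le_of_lt (mul_le_mul_of_nonneg_right hm2 (le_of_lt hδ)) h)
  · filter_upwards [self_mem_nhdsWithin] with δ hδ p _ h
    exact hz0 δ hδ p (lt_of_le_of_lt (mul_le_mul_of_nonneg_right hm2 (le_of_lt hδ)) h)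
  · filter_upwards [self_mem_nhdsWithin] with δ hδ y hy
    exact hz1 δ hδ y (mem_V.2 (by linarith))

end Atl
end Crest.Agent.R240
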