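import Mathlib

/-!
# Row 240 (S0371, tamed implies compatible): definitions.  FROZEN (ask helper54 before changing anything).
Blueprint of the whole proof: `Crest/Agent/R240/Blueprint.lean`.
-/

set_option autoImplicit false
set_option maxSynthPendingDepth 3
open MeasureTheory Filter Set Metric
open scoped ENNReal NNReal Topology ContDiff InnerProductSpace InnerProduct

noncomputable section
namespace Crest.Agent.R240

abbrev E4 : Type := EuclideanSpace ℝ (Fin 4)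
/-- The common target of all charts. -/
def V : Set E4 := ball 0 3
/-- Coordinate vectors. -/
def ee (μ : Fin 4) : E4 := EuclideanSpace.single μ 1
/-- Bilinear forms. -/
abbrev Bil (E : Type*) [NormedAddCommGroup E] [NormedSpace ℝ E] : Type _ := E →L[ℝ] E →L[ℝ] ℝ

section Euclid
variable {G G₁ G₂ H : Type*} [NormedAddCommGroup G] [NormedSpace ℝ G] [NormedAddCommGroup G₁]
  [NormedSpace ℝ G₁] [NormedAddCommGroup G₂] [NormedSpace ℝ G₂] [NormedAddCommGroup H] [NormedSpace ℝ H]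

/-- Partial derivative. -/
def pd (μ : Fin 4) (u : E4 → G) : E4 → G := fun z => fderiv ℝ u z (ee μ)

/-- Test functions supported in the closed ball of radius `ρ`. -/
def Tst (ρ : ℝ) (u : E4 → G) : Prop := ContDiff ℝ ∞ u ∧ ∀ z, ρ < ‖z‖ → u z = 0

/-- Sobolev norm of order `n` at scale `ε`. -/
def hs : ℕ → ℝ → (E4 → G) → ℝ
  | 0, _, u => lpNorm u 2 volume
  | n + 1, ε, u => lpNorm u 2 volume + ε * ∑ μ : Fin 4, hs n ε (pd μ u)

/-- A distribution of order `n` on the ball of radius `2`. -/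
def HB (n : ℕ) (T : (E4 → G) →ₗ[ℝ] ℝ) : Prop := ∃ C : ℝ, ∀ u, Tst 2 u → |T u| ≤ C * hs n 1 u

/-- Smooth families of test functions with parameter in `O`. -/
def Fam (O : Set H) (Ψ : H × E4 → G) : Prop :=
  ContDiffOn ℝ ∞ Ψ (O ×ˢ univ) ∧ ∀ x ∈ O, ∀ y : E4, 2 < ‖y‖ → Ψ (x, y) = 0

/-- Kernel families `k δ (x, y)`. -/
abbrev KF (G : Type*) : Type _ := ℝ → E4 × E4 → G

def dY (μ : Fin 4) (k : KF G) : KF G := fun δ p => δ • fderiv ℝ (k δ) p (0, ee μ)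
def dD (μ : Fin 4) (k : KF G) : KF G := fun δ p => fderiv ℝ (k δ) p (ee μ, ee μ)

def Bd0 (k : KF G) : Prop := ∀ C₀ : ℝ, ∃ C : ℝ, ∀ᶠ δ in 𝓝[>] (0 : ℝ), ∀ p : E4 × E4,
  ‖p.1‖ ≤ 5 / 2 → ‖p.2‖ ≤ 5 / 2 → ‖p.1 - p.2‖ ≤ C₀ * δ → ‖k δ p‖ ≤ C

def BdN : ℕ → KF G → Prop
  | 0, k => Bd0 k
  | n + 1, k => Bd0 k ∧ ∀ μ, BdN n (dY μ k) ∧ BdN n (dD μ k)

/-- Smooth kernels all of whose derivatives `δ ∂_y`, `∂_x + ∂_y` are bounded near the diagonal. -/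
def Bd (k : KF G) : Prop := (∀ᶠ δ in 𝓝[>] (0 : ℝ), ContDiffOn ℝ ∞ (k δ) (V ×ˢ V)) ∧ ∀ n, BdN n k

/-- Support within `C₀ δ` of the diagonal. -/
def Sup (C₀ : ℝ) (k : KF G) : Prop :=
  ∀ᶠ δ in 𝓝[>] (0 : ℝ), ∀ p : E4 × E4, ‖p.1‖ < 5 / 2 → C₀ * δ < ‖p.1 - p.2‖ → k δ p = 0

/-- The kernel operator against a measure. -/
def KM {X : Type*} [MeasurableSpace X] (k : KF (G₁ →L[ℝ] G₂)) (δ : ℝ) (ϖ : Measure X) (p : X → E4)
    (f : X → G₁) (y : E4) : G₂ := ∫ ξ, (δ ^ 4)⁻¹ • k δ (p ξ, y) (f ξ) ∂ϖ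

/-- The kernel operator against Lebesgue measure. -/
def KO (k : KF (G₁ →L[ℝ] G₂)) (δ : ℝ) (u : E4 → G₁) (y : E4) : G₂ :=
  ∫ x, (δ ^ 4)⁻¹ • k δ (x, y) (u x)

/-- Exterior derivative of a one-form. -/
def d1 (γ : E4 → E4 →L[ℝ] ℝ) (z : E4) : Bil E4 := fderiv ℝ γ z - (fderiv ℝ γ z).flip

/-- Exterior derivative of a skew two-form. -/
def dcyc (β : E4 → Bil E4) (z a c e : E4) : ℝ :=
  fderiv ℝ β z a c e + fderiv ℝ β z c e a + fderiv ℝ β z e a c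

/-- `(β ∧ β')(e₀, e₁, e₂, e₃)`. -/
def wedge4 (β β' : Bil E4) : ℝ :=
  β (ee 0) (ee 1) * β' (ee 2) (ee 3) - β (ee 0) (ee 2) * β' (ee 1) (ee 3) +
    β (ee 0) (ee 3) * β' (ee 1) (ee 2) + β (ee 1) (ee 2) * β' (ee 0) (ee 3) -
    β (ee 1) (ee 3) * β' (ee 0) (ee 2) + β (ee 2) (ee 3) * β' (ee 0) (ee 1)

/-- The profile functions of the kernel. -/
def Prof (f : (ℝ → ℝ) × (ℝ → ℝ)) : Prop :=
  ContDiff ℝ ∞ f.1 ∧ ContDiff ℝ ∞ f.2 ∧ (∀ t, 0 ≤ f.1 t) ∧ (∀ t, 0 ≤ f.2 t) ∧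
    (∀ t, 1 ≤ t → f.1 t = 0 ∧ f.2 t = 0) ∧ (∀ t, HasDerivAt f.2 (-(f.1 t) / 2) t) ∧
    (∃ c : ℝ, 0 < c ∧ ∀ t ∈ Icc (0 : ℝ) (1 / 4), c ≤ f.1 t ∧ c ≤ f.2 t) ∧
    (∃ C : ℝ, ∀ t, f.1 t ≤ C ∧ f.2 t ≤ C) ∧ ∫ z : E4, f.1 (‖z‖ ^ 2) = 1

def f0 : ℝ → ℝ := (Classical.epsilon Prof).1
def f1 : ℝ → ℝ := (Classical.epsilon Prof).2

/-- Mass of the `r`-neighbourhood of the diagonal. -/
def mm {X : Type*} [PseudoMetricSpace X] [MeasurableSpace X] (μ ν : Measure X) (r : ℝ) : ℝ :=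
  (μ.prod ν).real {p | dist p.1 p.2 ≤ r}

end Euclid

section Alg
variable {E E' G : Type*} [NormedAddCommGroup E] [NormedSpace ℝ E] [NormedAddCommGroup E']
  [NormedSpace ℝ E'] [NormedAddCommGroup G] [NormedSpace ℝ G]

/-- Pull-back of bilinear forms. -/
def pb (A : E →L[ℝ] E') : Bil E' →L[ℝ] Bil E :=
  (ContinuousLinearMap.compL ℝ E (E' →L[ℝ] ℝ) (E →L[ℝ] ℝ)
    ((ContinuousLinearMap.compL ℝ E E' ℝ).flip A)).comp
    ((ContinuousLinearMap.compL ℝ E E' (E' →L[ℝ] ℝ)).flip A)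

@[simp] theorem pb_apply (A : E →L[ℝ] E') (b : Bil E') (u v : E) : pb A b u v = b (A u) (A v) := rfl

/-- Transposition. -/
def flp : Bil E →L[ℝ] Bil E :=
  (ContinuousLinearMap.flipₗᵢ ℝ E E ℝ).toContinuousLinearEquiv.toContinuousLinearMap

@[simp] theorem flp_apply (b : Bil E) (u v : E) : flp b u v = b v u := rfl

/-- Evaluation. -/
def evB (u v : E) : Bil E →L[ℝ] ℝ :=
  (ContinuousLinearMap.apply ℝ ℝ v).comp (ContinuousLinearMap.apply ℝ (E →L[ℝ] ℝ) u)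

@[simp] theorem evB_apply (u v : E) (b : Bil E) : evB u v b = b u v := rfl

/-- Wedge product of one-forms. -/
def wd (a c : E →L[ℝ] ℝ) : Bil E := a.smulRight c - c.smulRight a

@[simp] theorem wd_apply (a c : E →L[ℝ] ℝ) (u v : E) : wd a c u v = a u * c v - c u * a v := rfl

/-- Skew and tangential part. -/
def piT (P : E →L[ℝ] E) : Bil E →L[ℝ] Bil E := (1 / 2 : ℝ) • (pb P - flp.comp (pb P))

end Alg

/-- An orthogonal complex structure. -/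
structure Cx (F : Type*) [NormedAddCommGroup F] [InnerProductSpace ℝ F] where
  J : F →L[ℝ] F
  JJ : ∀ v, J (J v) = -v
  inner_J : ∀ u v, ⟪J u, J v⟫_ℝ = ⟪u, v⟫_ℝ

/-- The standard complex structure of `E4`. -/
def J0 : E4 →L[ℝ] E4 :=
  (EuclideanSpace.proj (0 : Fin 4)).smulRight (ee 1) - (EuclideanSpace.proj (1 : Fin 4)).smulRight (ee 0) +
    (EuclideanSpace.proj (2 : Fin 4)).smulRight (ee 3) - (EuclideanSpace.proj (3 : Fin 4)).smulRight (ee 2)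

section CxAlg
variable {F G : Type*} [NormedAddCommGroup F] [InnerProductSpace ℝ F] [FiniteDimensional ℝ F]
  [NormedAddCommGroup G] [NormedSpace ℝ G]

/-- A fixed orthonormal basis. -/
def eF (i : Fin (Module.finrank ℝ F)) : F := stdOrthonormalBasis ℝ F i

/-- Euclidean pairing of a `G`-valued form with a real form. -/
def ipG (θ : F →L[ℝ] F →L[ℝ] G) : Bil F →L[ℝ] G :=
  (1 / 2 : ℝ) • ∑ i, ∑ j, (evB (eF i) (eF j)).smulRight (θ (eF i) (eF j))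

namespace Cx
variable (X : Cx F)

/-- The Kähler form. -/
def om : Bil F := (innerSL ℝ).comp X.J

omit [FiniteDimensional ℝ F] in
@[simp] theorem om_apply (u v : F) : X.om u v = ⟪X.J u, v⟫_ℝ := rfl

/-- `ω ∧ ω / 2`. -/
def W (u v c d : F) : ℝ := X.om u v * X.om c d - X.om u c * X.om v d + X.om u d * X.om v c

/-- `W` as a continuous four-linear map. -/
def stW : F →L[ℝ] F →L[ℝ] Bil F :=
  ((ContinuousLinearMap.smulRightL ℝ F (Bil F)).flip X.om).comp X.om -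
    (ContinuousLinearMap.smulRightL ℝ F (F →L[ℝ] ℝ)).bilinearComp X.om X.om +
    ((ContinuousLinearMap.smulRightL ℝ F (F →L[ℝ] ℝ)).bilinearComp X.om X.om).flip

omit [FiniteDimensional ℝ F] in
@[simp] theorem stW_apply (u v c d : F) : X.stW u v c d = X.W u v c d := by
  simp [stW, W, mul_comm]

/-- `(a, b, c, d) ↦ W (A a, A b, B c, B d)`. -/
def q4 (A B : F →L[ℝ] F) : F →L[ℝ] F →L[ℝ] Bil F :=
  (ContinuousLinearMap.compL ℝ F (Bil F) (Bil F) (pb B)).comp (X.stW.bilinearComp A A)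

omit [FiniteDimensional ℝ F] in
@[simp] theorem q4_apply (A B : F →L[ℝ] F) (a b c d : F) :
    X.q4 A B a b c d = X.W (A a) (A b) (B c) (B d) := by
  simp [q4]

/-- Anti-invariant part of the tangential skew part. -/
def piM (P : F →L[ℝ] F) : Bil F →L[ℝ] Bil F := (1 / 2 : ℝ) • (piT P - (pb X.J).comp (piT P))
/-- Invariant part of the tangential skew part. -/
def piP (P : F →L[ℝ] F) : Bil F →L[ℝ] Bil F := piT P - X.piM P

/-- Trace against the Kähler form. -/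
def trG (θ : F →L[ℝ] F →L[ℝ] G) : G := (1 / 2 : ℝ) • ∑ i, θ (eF i) (X.J (eF i))

/-- The wedge pairing `θ ∧ η / vol` (valid for skew forms tangential to a complex plane). -/
def wG (θ : F →L[ℝ] F →L[ℝ] G) : Bil F →L[ℝ] G :=
  ((1 / 2 : ℝ) • ∑ i, evB (eF i) (X.J (eF i))).smulRight (X.trG θ) - (ipG θ).comp (pb X.J)

/-- Complex Gram determinant. -/
def gam (u b : F) : ℝ := ‖u‖ ^ 2 * ‖b‖ ^ 2 - ⟪u, b⟫_ℝ ^ 2 - ⟪u, X.J b⟫_ℝ ^ 2
def ang (u b : F) : ℝ := Real.sqrt (X.gam u b)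

/-- `(⟪z, ·⟫ ∧ ω)(u, ·, ·)`. -/
def Xi (z u : F) : Bil F := ⟪z, u⟫_ℝ • X.om - wd (innerSL ℝ z) (X.om u)

/-- A unitary frame of the range of `P`. -/
structure Fr (P : F →L[ℝ] F) (L : E4 →L[ℝ] F) : Prop where
  iso : ∀ a b, ⟪L a, L b⟫_ℝ = ⟪a, b⟫_ℝ
  comm : ∀ a, L (J0 a) = X.J (L a)
  proj : P = L.comp (L†)

end Cx
end CxAlg

/-- Atlas of a compact Hermitian almost complex four-manifold whose tangent bundle is realised as the
subbundle `range (Pr x)` of the trivial bundle with fibre `F`. -/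
structure Atl (M F ι : Type*) [MetricSpace M] [NormedAddCommGroup F] [InnerProductSpace ℝ F]
    [FiniteDimensional ℝ F] [Fintype ι] extends Cx F where
  U : ι → Set M
  κ : ι → M → E4
  ψ : ι → E4 → M
  U_open : ∀ k, IsOpen (U k)
  κ_mem : ∀ k, ∀ x ∈ U k, κ k x ∈ V
  ψ_mem : ∀ k, ∀ z ∈ V, ψ k z ∈ U k
  κψ : ∀ k, ∀ z ∈ V, κ k (ψ k z) = z
  ψκ : ∀ k, ∀ x ∈ U k, ψ k (κ k x) = x
  lip : ∃ C : ℝ, 1 ≤ C ∧ ∀ k, ∀ x ∈ U k, ∀ y ∈ U k,
    ‖κ k x - κ k y‖ ≤ C * dist x y ∧ dist x y ≤ C * ‖κ k x - κ k y‖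
  trans : ∀ k l, ContDiffOn ℝ ∞ (κ l ∘ ψ k) (V ∩ ψ k ⁻¹' U l)
  φ : ι → M → ℝ
  φ_sm : ∀ k l, ContDiffOn ℝ ∞ (φ k ∘ ψ l) V
  φ_supp : ∀ k x, φ k x ≠ 0 → x ∈ U k ∧ ‖κ k x‖ ≤ 1
  φ_sum : ∀ x, ∑ k, φ k x ^ 2 = 1
  L : ι → E4 → E4 →L[ℝ] F
  g : ι → E4 → E4 →L[ℝ] E4
  gi : ι → E4 → E4 →L[ℝ] E4
  L_sm : ∀ k, ContDiffOn ℝ ∞ (L k) V
  g_sm : ∀ k, ContDiffOn ℝ ∞ (g k) V
  gi_sm : ∀ k, ContDiffOn ℝ ∞ (gi k) V
  g_gi : ∀ k, ∀ z ∈ V, ∀ a, g k z (gi k z a) = a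
  gi_g : ∀ k, ∀ z ∈ V, ∀ a, gi k z (g k z a) = a
  gi_bd : ∃ C : ℝ, ∀ k, ∀ z ∈ V, ‖gi k z‖ ≤ C
  det_pos : ∀ k, ∀ z ∈ V, 0 < (g k z).det
  Pr : M → F →L[ℝ] F
  fr : ∀ k, ∀ z ∈ V, toCx.Fr (Pr (ψ k z)) (L k z)
  compat : ∀ k l, ∀ z ∈ V, ψ k z ∈ U l → ∀ a,
    L k z (g k z a) = L l (κ l (ψ k z)) (g l (κ l (ψ k z)) (fderiv ℝ (κ l ∘ ψ k) z a))
  emb : M → F
  Lam : M → F →L[ℝ] F
  emb_sm : ∀ k, ContDiffOn ℝ ∞ (emb ∘ ψ k) V
  Lam_sm : ∀ k, ContDiffOn ℝ ∞ (Lam ∘ ψ k) V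
  Pr_Lam : ∀ x v, Pr x (Lam x v) = Lam x v
  Lam_emb : ∀ k, ∀ z ∈ V, ∀ a, Lam (ψ k z) (fderiv ℝ (emb ∘ ψ k) z a) = L k z (g k z a)

namespace Atl
variable {M F ι : Type*} [MetricSpace M] [NormedAddCommGroup F] [InnerProductSpace ℝ F]
  [FiniteDimensional ℝ F] [Fintype ι] (A : Atl M F ι)
  {G : Type*} [NormedAddCommGroup G] [NormedSpace ℝ G]

/-- Coordinate vectors as elements of `F`. -/
def I (k : ι) (z : E4) : E4 →L[ℝ] F := (A.L k z).comp (A.g k z)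
/-- The left inverse of `I`. -/
def Ip (k : ι) (z : E4) : F →L[ℝ] E4 := (A.gi k z).comp ((A.L k z)†)
/-- Volume density. -/
def rho (k : ι) (z : E4) : ℝ := (A.g k z).det
/-- Smooth functions on `M`. -/
def Sm (f : M → G) : Prop := ∀ k, ContDiffOn ℝ ∞ (f ∘ A.ψ k) V

theorem exists_φ (x : M) : ∃ k, A.φ k x ≠ 0 := by
  by_contra h
  push Not at h
  have := A.φ_sum x
  simp [h] at this

/-- A chart containing `x` in its unit ball. -/
def ch (x : M) : ι := Classical.choose (A.exists_φ x)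

/-- Tangential derivative. -/
def dF (f : M → G) (x : M) : F →L[ℝ] G :=
  (fderiv ℝ (f ∘ A.ψ (A.ch x)) (A.κ (A.ch x) x)).comp (A.Ip (A.ch x) (A.κ (A.ch x) x))

open Classical in
/-- Extension by zero from a chart. -/
def ext (k : ι) : (E4 → G) →ₗ[ℝ] (M → G) where
  toFun u x := if x ∈ A.U k then u (A.κ k x) else 0
  map_add' u v := by funext x; by_cases h : x ∈ A.U k <;> simp [h]
  map_smul' c u := by funext x; by_cases h : x ∈ A.U k <;> simp [h]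

open Classical in
/-- Localisation by the partition of unity. -/
def lcz (k : ι) : (M → G) →ₗ[ℝ] (E4 → G) where
  toFun f z := if z ∈ V then A.φ k (A.ψ k z) ^ 2 • f (A.ψ k z) else 0
  map_add' u v := by funext x; by_cases h : x ∈ V <;> simp [h]
  map_smul' c u := by funext x; by_cases h : x ∈ V <;> simp [h, smul_comm c]

/-- Global Sobolev norm. -/
def NS (n : ℕ) (f : M → G) : ℝ := ∑ k, hs n 1 (A.lcz k f)

def pT (x : M) : Bil F →L[ℝ] Bil F := piT (A.Pr x)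
def pM (x : M) : Bil F →L[ℝ] Bil F := A.piM (A.Pr x)
def pP (x : M) : Bil F →L[ℝ] Bil F := A.piP (A.Pr x)

/-- Smooth two-forms. -/
def Form (b : M → Bil F) : Prop := A.Sm b ∧ ∀ x, A.pT x (b x) = b x
/-- Coordinate expression of a two-form. -/
def loc (k : ι) (b : M → Bil F) (z : E4) : Bil E4 := pb (A.I k z) (b (A.ψ k z))
/-- From coordinate forms to `F`-valued forms. -/
def up (k : ι) (η : E4 → Bil E4) (z : E4) : Bil F := pb (A.Ip k z) (η z)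
def Closed (b : M → Bil F) : Prop := ∀ k, ∀ z ∈ V, ∀ a c e, dcyc (A.loc k b) z a c e = 0
/-- The exterior derivative of a one-form supported in a chart. -/
def dform (k : ι) (γ : E4 → E4 →L[ℝ] ℝ) : M → Bil F := A.ext k (A.up k (d1 γ))
/-- Positive forms. -/
def Pos (b : M → Bil F) : Prop := ∀ x w, A.Pr x w = w → w ≠ 0 → 0 < b x w (A.J w)

/-- The section vanishing on the diagonal. -/
def sv (x y : M) : F := A.Lam x (A.emb y - A.emb x)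
def Bh (x y : M) : F →L[ℝ] F := (A.Lam x).comp (A.dF A.emb y)
def Ah (x y : M) : F →L[ℝ] F := A.Pr x - (A.Pr x).comp ((A.dF A.Lam x).flip (A.emb y - A.emb x))
/-- Second fundamental form: `Kh x e a = Pr (∂_a Pr) e`. -/
def Kh (x : M) (e : F) : F →L[ℝ] F := (A.Pr x).comp ((A.dF A.Pr x).flip e)

/-- Radius below which `sv` controls the distance. -/
def c0 : ℝ := Classical.epsilon fun c : ℝ =>
  0 < c ∧ ∃ C : ℝ, 0 < C ∧ ∀ x y, dist x y ≤ 2 * c → dist x y ≤ C * ‖A.sv x y‖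

open Classical in
/-- Rescaled profile, cut off away from the diagonal. -/
def cf (f : ℝ → ℝ) (δ : ℝ) (x y : M) : ℝ := if dist x y < A.c0 then f (‖A.sv x y‖ ^ 2 / δ ^ 2) else 0

/-- The `(2,2)`-component of the Mathai-Quillen kernel. -/
def th (δ : ℝ) (x y : M) : F →L[ℝ] F →L[ℝ] Bil F :=
  ((δ ^ 4)⁻¹ * A.cf f0 δ x y) • A.q4 (A.Ah x y) (A.Bh x y) +
    ((δ ^ 2)⁻¹ * A.cf f1 δ x y) • ∑ α, A.q4 (A.Kh x (eF α)) (A.Bh x y)

/-- The kernel evaluated on the complex line through `w` in the second point. -/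
def thv (δ : ℝ) (z x : M) (w : F) : Bil F :=
  (ContinuousLinearMap.compL ℝ F (Bil F) ℝ (evB w (A.J w))).comp (A.th δ z x)

/-- Coordinate components of the kernel. -/
def thc (k : ι) (δ : ℝ) (a b c d : E4) (p : E4 × E4) : ℝ :=
  A.th δ (A.ψ k p.1) (A.ψ k p.2) (A.I k p.1 a) (A.I k p.1 b) (A.I k p.2 c) (A.I k p.2 d)

/-- Density kernel. -/
def nk (r : ℝ) (x y : M) : Bil F := ((r ^ 2)⁻¹ * A.cf f1 r x y) • pb (A.Bh x y) A.om
/-- The exact form of the monotonicity formula. -/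
def dk (r : ℝ) (x y : M) : Bil F :=
  (2 : ℝ) • A.nk r x y -
    ((r ^ 4)⁻¹ * A.cf f0 r x y) • pb (A.Bh x y) (wd (innerSL ℝ (A.sv x y)) (A.om (A.sv x y)))
/-- Kernel of the derivative of the density. -/
def hk (r : ℝ) (x y : M) (a : F) : Bil F :=
  ((r ^ 4)⁻¹ * A.cf f0 r x y) • pb (A.Bh x y) (A.Xi (A.sv x y) (A.Ah x y a))

open Classical in
/-- A kernel on `M × M` read in a chart. -/
def ck (k : ι) (K : ℝ → M → M → G) : KF G := fun δ p =>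
  if p.2 ∈ V then K δ (A.ψ k p.1) (A.ψ k p.2) else 0

/-- Currents. -/
abbrev Cur (M F : Type*) [NormedAddCommGroup F] [InnerProductSpace ℝ F] : Type _ :=
  (M → Bil F) →ₗ[ℝ] ℝ

def Bdd (S : Cur M F) : Prop := ∃ n, ∀ k, HB n (S ∘ₗ A.ext (G := Bil F) k)
def Cl (S : Cur M F) : Prop := ∀ k γ, Tst 2 γ → S (A.dform k γ) = 0
def Ex (S : Cur M F) : Prop := ∀ b, A.Form b → A.Closed b → S b = 0
/-- Anti-invariant currents of order `n`. -/
def IsT (n : ℕ) (T : Cur M F) : Prop :=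
  (∀ b, T b = T fun x => A.pM x (b x)) ∧ ∀ k, HB n (T ∘ₗ A.ext (G := Bil F) k)
/-- Bound at scale `ε`. -/
def AB (T : Cur M F) (s : ℕ) (ε c : ℝ) : Prop :=
  ∀ k u, Tst (2 - ε) u → |T (A.ext k u)| ≤ c * hs s ε u

/-- Regularisation of a current. -/
def R (S : Cur M F) (δ : ℝ) (x : M) : Bil F :=
  ∑ i, ∑ j, S (fun y => A.th δ x y (eF i) (eF j)) • (innerSL ℝ (eF i)).smulRight (innerSL ℝ (eF j))

variable [MeasurableSpace M]

/-- The Riemannian volume. -/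
def vol : Measure M := ∑ k, ((volume.restrict V).withDensity fun z =>
  ENNReal.ofReal (A.φ k (A.ψ k z) ^ 2 * A.rho k z)).map (A.ψ k)

/-- The transposed regularisation of a form. -/
def Rt (δ : ℝ) (σ : M → Bil F) (y : M) : Bil F := ∫ x, A.wG (A.th δ x y) (σ x) ∂A.vol

/-- `T` is dominated by the `L²` function `τ`. -/
def TL (T : Cur M F) (τ : M → ℝ) : Prop :=
  Measurable τ ∧ (∀ x, 0 ≤ τ x) ∧ MemLp τ 2 A.vol ∧
    ∀ b, A.Sm b → |T b| ≤ ∫ x, τ x * ‖A.pM x (b x)‖ ∂A.vol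

variable [MeasurableSpace F]

/-- `P` is the positive current of the measure `lam` on the unit sphere bundle. -/
def IsP (lam : Measure (M × F)) (P : Cur M F) : Prop :=
  IsFiniteMeasure lam ∧ (∀ᵐ q ∂lam, A.Pr q.1 q.2 = q.2 ∧ ‖q.2‖ = 1) ∧
    ∀ b, Continuous b → P b = ∫ q, b q.1 q.2 (A.J q.2) ∂lam

/-- The deviation from radial cones at scale `r`. -/
def gm (lam : Measure (M × F)) (r : ℝ) (x : M) : ℝ :=
  ∫ q, (r ^ 4)⁻¹ * A.cf f0 r x q.1 * A.gam (A.sv x q.1) (A.Bh x q.1 q.2) ∂lam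

/-- Angle energy of nearby pairs. -/
def angE (lam lam' : Measure (M × F)) (r : ℝ) : ℝ :=
  ∫ p in {p : (M × F) × (M × F) | dist p.1.1 p.2.1 ≤ r}, A.gam p.1.2 p.2.2 ∂(lam.prod lam')

/-- Size of the derivative of `f` along `P` and against `τ`. -/
def DD (lam : Measure (M × F)) (τ : M → ℝ) (f : M → ℝ) : ℝ :=
  ∫ q, (|A.dF f q.1 q.2| + |A.dF f q.1 (A.J q.2)|) ∂lam + ∫ x, τ x * ‖A.dF f x‖ ∂A.vol

end Atl
end Crest.Agent.R240
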