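import Crest.Agent.R240.R0
import Crest.Agent.R240.A11

/-! Block E0: two exact forms. -/

set_option autoImplicit false
set_option maxSynthPendingDepth 3
set_option linter.unusedSectionVars false
set_option linter.unusedVariables false
open MeasureTheory Filter Set Metric
open scoped ENNReal NNReal Topology ContDiff InnerProductSpace InnerProduct

noncomputable section
namespace Crest.Agent.R240

namespace Atl
variable {M F ι : Type*} [MetricSpace M] [CompactSpace M] [NormedAddCommGroup F] [InnerProductSpace ℝ F]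
  [FiniteDimensional ℝ F] [Fintype ι] (A : Atl M F ι)
  {G G' : Type*} [NormedAddCommGroup G] [NormedSpace ℝ G] [FiniteDimensional ℝ G]
  [NormedAddCommGroup G'] [NormedSpace ℝ G'] [FiniteDimensional ℝ G']
  [MeasurableSpace M] [BorelSpace M] [MeasurableSpace F] [BorelSpace F]

/-- A one-form on the chart, depending on the second variable, built from a smooth function near the diagonal. -/
theorem tst_cut {r : ℝ} (hr : A.Small r) (k : ι) {z : E4} (hz : ‖z‖ ≤ 1) {γ : E4 → G} (hγ : ContDiffOn ℝ ∞ γ V)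
    (h0 : ∀ w ∈ V, r < dist (A.ψ k z) (A.ψ k w) → γ w = 0) : Tst 2 (V.indicator γ) := by
  refine tst_of_contDiffOn (by norm_num) (hγ.congr fun w hw => indicator_of_mem hw _) fun w hw => ?_
  by_cases h : w ∈ V
  · rw [indicator_of_mem h]
    refine h0 w h (lt_of_not_ge fun hd => ?_)
    have h1 := (hr k z (by linarith) _ hd).2
    rw [A.κψ k w h] at h1
    have := norm_sub_norm_le w z
    linarith
  · exact indicator_of_notMem h _

/-- Two forms agree if they vanish off `U k` and have the same expression in the chart `k` (`Form.up_loc`). -/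
theorem form_ext {b b' : M → Bil F} (hb : ∀ x, A.pT x (b x) = b x) (hb' : ∀ x, A.pT x (b' x) = b' x) (k : ι)
    (h0 : ∀ y, y ∉ A.U k → b y = b' y)
    (h : ∀ w ∈ V, ∀ c d, b (A.ψ k w) (A.I k w c) (A.I k w d) = b' (A.ψ k w) (A.I k w c) (A.I k w d)) : b = b' := by
  funext y
  by_cases hy : y ∈ A.U k
  · obtain ⟨L, hL⟩ := A.fr_at y
    have hw := A.κ_mem k y hy
    have e := A.ψκ k y hy
    ext u v
    have := h _ hw (A.Ip k (A.κ k y) u) (A.Ip k (A.κ k y) v)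
    rw [A.I_Ip k hw, A.I_Ip k hw, e] at this
    rw [← ((hL.piT_eq_iff _).1 (hb y)).2, this, ((hL.piT_eq_iff _).1 (hb' y)).2]
  · exact h0 y hy

/-- Derivative of the cut-off profile: on `dist < c0` chain rule and `HasDerivAt f1 (-(f0 t)/2) t`; otherwise both sides vanish near `p` (`cf_near`). -/
theorem fderiv_cf : ∀ᶠ r in 𝓝[>] (0 : ℝ), ∀ k, ∀ p ∈ V ×ˢ V, ∀ Y : E4 × E4,
    fderiv ℝ (fun q : E4 × E4 => A.cf f1 r (A.ψ k q.1) (A.ψ k q.2)) p Y =
      -((r ^ 2)⁻¹ * A.cf f0 r (A.ψ k p.1) (A.ψ k p.2) *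
        ⟪A.sv (A.ψ k p.1) (A.ψ k p.2), fderiv ℝ (fun q : E4 × E4 => A.sv (A.ψ k q.1) (A.ψ k q.2)) p Y⟫_ℝ) := by
  obtain ⟨C, hC, hn⟩ := A.cf_near
  obtain ⟨hc0, -⟩ := A.c0_spec
  have ev : ∀ᶠ δ in 𝓝[>] (0 : ℝ), C * δ < A.c0 := by
    have : Tendsto (fun δ : ℝ => C * δ) (𝓝[>] 0) (𝓝 (C * 0)) :=
      (continuous_const.mul continuous_id).continuousAt.mono_left nhdsWithin_le_nhds
    exact this.eventually (gt_mem_nhds (by simpa using hc0))
  filter_upwards [ev, self_mem_nhdsWithin] with δ h1 h2 k p hp Y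
  have h2 : 0 < δ := h2
  obtain ⟨s0, s1, -, -, z, hd, -⟩ := prof
  have hc : ContinuousAt (fun q : E4 × E4 => dist (A.ψ k q.1) (A.ψ k q.2)) p :=
    (((A.ψ_cont k).continuousAt (V_open.mem_nhds hp.1)).comp continuousAt_fst).dist
      (((A.ψ_cont k).continuousAt (V_open.mem_nhds hp.2)).comp continuousAt_snd)
  by_cases h : dist (A.ψ k p.1) (A.ψ k p.2) < A.c0
  · have hs : DifferentiableAt ℝ (fun q : E4 × E4 => A.sv (A.ψ k q.1) (A.ψ k q.2)) p :=
      ((A.sm2_geo.1 k k).contDiffAt ((V_open.prod V_open).mem_nhds hp)).differentiableAt (by simp)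
    have h3 := (hd (‖A.sv (A.ψ k p.1) (A.ψ k p.2)‖ ^ 2 * (δ ^ 2)⁻¹)).comp_hasFDerivAt p
      (hs.hasFDerivAt.norm_sq.mul_const (δ ^ 2)⁻¹)
    have h4 : (fun q : E4 × E4 => A.cf f1 δ (A.ψ k q.1) (A.ψ k q.2)) =ᶠ[𝓝 p]
        f1 ∘ fun q : E4 × E4 => ‖A.sv (A.ψ k q.1) (A.ψ k q.2)‖ ^ 2 * (δ ^ 2)⁻¹ := by
      filter_upwards [hc.eventually (gt_mem_nhds h)] with q hq
      simp only [cf, if_pos hq, Function.comp, div_eq_mul_inv]
    rw [h4.fderiv_eq, h3.fderiv]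
    simp only [cf, if_pos h, div_eq_mul_inv]
    simp
    ring
  · have h4 : (fun q : E4 × E4 => A.cf f1 δ (A.ψ k q.1) (A.ψ k q.2)) =ᶠ[𝓝 p] fun _ => 0 := by
      filter_upwards [hc.eventually (lt_mem_nhds (lt_of_lt_of_le h1 (not_lt.1 h)))] with q hq
      exact hn f1 (fun t ht => (z t ht).2) δ h2 _ _ hq
    rw [h4.fderiv_eq]
    simp [cf, if_neg h]

theorem dk_exact_snd {f : E4 × E4 → G} (hf : ContDiffOn ℝ ∞ f (V ×ˢ V)) {z w : E4} (hz : z ∈ V) (hw : w ∈ V)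
    (a : E4) : fderiv ℝ (fun w => f (z, w)) w a = fderiv ℝ f (z, w) (0, a) := by
  have hd : DifferentiableAt ℝ f (z, w) :=
    (hf.contDiffAt ((V_open.prod V_open).mem_nhds (mk_mem_prod hz hw))).differentiableAt (by simp)
  have h : HasFDerivAt (fun w => f (z, w)) ((fderiv ℝ f (z, w)).comp (ContinuousLinearMap.inr ℝ E4 E4)) w :=
    HasFDerivAt.comp (g := f) (f := fun w : E4 => (z, w)) w hd.hasFDerivAt (hasFDerivAt_prodMk_right z w)
  rw [h.fderiv]
  simp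

/-- `k = ch x`, `z = κ x`, `γ = V.indicator (w ↦ (r⁻² cf f1 r x (ψ w)) • (om (sv x (ψ w))) ∘ Bh x (ψ w) ∘ I k w)`; `d2_pull` on `E4 × E4` (or in `w` only),
`fderiv_sv`, `fderiv_cf`, `form_ext`, `loc_ext_up`. -/
theorem dk_exact : ∀ᶠ r in 𝓝[>] (0 : ℝ), ∀ x, ∃ k γ, Tst 2 γ ∧ A.dk r x = A.dform k γ := by
  obtain ⟨C, hC, hn⟩ := A.cf_near
  obtain ⟨s0, s1, -, -, hz1, -⟩ := prof
  filter_upwards [A.small_ev C, A.fderiv_cf, A.sm2_cf s1 fun t ht => (hz1 t ht).2, self_mem_nhdsWithin]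
    with r hsm hfd hcf (hr : 0 < r) x
  obtain ⟨-, hz, hzV, e⟩ := A.ch_spec x
  set k := A.ch x
  set z := A.κ k x
  have n0 := hn f0 (fun t ht => (hz1 t ht).1) r hr
  have n1 := hn f1 (fun t ht => (hz1 t ht).2) r hr
  set s : E4 → F := fun w => A.sv x (A.ψ k w) with hs
  set φ : E4 → ℝ := fun w => (r ^ 2)⁻¹ * A.cf f1 r x (A.ψ k w) with hφ
  have hs1 : ContDiffOn ℝ ∞ s V := A.sm2_geo.1.right x k
  have hφ1 : ContDiffOn ℝ ∞ φ V := contDiffOn_const.mul (hcf.right x k)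
  have hs2 : ∀ w ∈ V, ∀ a, fderiv ℝ s w a = A.Bh x (A.ψ k w) (A.I k w a) := fun w hw a => by
    have := dk_exact_snd (A.sm2_geo.1 k k) hzV hw a
    rw [(A.fderiv_sv k (p := (z, w)) (mk_mem_prod hzV hw) a).1] at this
    simpa only [e] using this
  have hφ2 : ∀ w ∈ V, ∀ a, fderiv ℝ φ w a =
      -((r ^ 4)⁻¹ * A.cf f0 r x (A.ψ k w) * ⟪s w, A.Bh x (A.ψ k w) (A.I k w a)⟫_ℝ) := fun w hw a => by
    have := dk_exact_snd (hcf k k) hzV hw a
    rw [hfd k (z, w) (mk_mem_prod hzV hw), (A.fderiv_sv k (p := (z, w)) (mk_mem_prod hzV hw) a).1] at this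
    simp only [e] at this
    have hd : DifferentiableAt ℝ (fun w => A.cf f1 r x (A.ψ k w)) w :=
      ((hcf.right x k).contDiffAt (V_open.mem_nhds hw)).differentiableAt (by simp)
    rw [hφ, fderiv_const_mul hd]
    rw [smul_apply, smul_eq_mul]
    refine (congrArg _ this).trans ?_
    simp only [hs]
    field_simp
  set γ : E4 → E4 →L[ℝ] ℝ := fun w => φ w • (A.om (s w)).comp (fderiv ℝ s w) with hγ
  have hγ1 : ContDiffOn ℝ ∞ γ V :=
    hφ1.smul ((A.om.contDiff.comp_contDiffOn hs1).clm_comp (hs1.fderiv_of_isOpen V_open (by simp)))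
  have hT : Tst 2 (V.indicator γ) := A.tst_cut hsm k hz hγ1 fun w hw hd => by
    rw [e] at hd
    simp [hγ, hφ, n1 _ _ hd]
  refine ⟨k, _, hT, A.form_ext (fun y => ?_) (A.dform_spec k hT).1.2 k (fun y hy => ?_) fun w hw c d => ?_⟩
  · obtain ⟨L, hL⟩ := A.fr_at y
    refine (hL.piT_eq_iff _).2 ⟨fun u v => ?_, fun u v => ?_⟩
    · simp only [dk, nk, sub_apply, smul_apply, pb_apply, wd_apply, smul_eq_mul]
      rw [A.om_skew (A.Bh x y u)]
      ring
    · simp only [dk, nk, sub_apply, smul_apply, pb_apply, (A.geo_tang x y _ 0).2.2.2.2.1]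
  · have hd : C * r < dist x y := lt_of_not_ge fun hd => hy (hsm k z (by linarith) y (e ▸ hd)).1
    rw [dform, A.ext_of_notMem k _ hy]
    simp [dk, nk, n0 _ _ hd, n1 _ _ hd]
  · have h1 : A.dform k (V.indicator γ) (A.ψ k w) (A.I k w c) (A.I k w d) = d1 (V.indicator γ) w c d :=
      congrArg (fun b : Bil E4 => b c d) (A.loc_ext_up k (d1 (V.indicator γ)) hw)
    have h2 : V.indicator γ =ᶠ[𝓝 w] γ := by
      filter_upwards [V_open.mem_nhds hw] with q hq using indicator_of_mem hq _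
    have h3 : DifferentiableAt ℝ γ w := (hγ1.contDiffAt (V_open.mem_nhds hw)).differentiableAt (by simp)
    have h4 := d2_pull A.om_skew (hs1.contDiffAt (V_open.mem_nhds hw))
      ((hφ1.contDiffAt (V_open.mem_nhds hw)).differentiableAt (by simp)) c d
    rw [h1, d1_apply, h2.fderiv_eq, ← a10b_app h3, ← a10b_app h3]
    refine Eq.trans ?_ h4.symm
    rw [hφ2 w hw, hφ2 w hw, hs2 w hw, hs2 w hw]
    simp only [dk, nk, sub_apply, smul_apply, pb_apply, wd_apply, smul_eq_mul, innerSL_apply_apply, hs, hφ]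
    ring

theorem hk' (r : ℝ) (x y : M) (a : F) : A.hk r x y a =
    ((r ^ 4)⁻¹ * A.cf f0 r x y) • pb (A.Bh x y) (A.Xi (A.sv x y) (A.Ah x y a)) := rfl

/-- `k = ch x`, `z = κ x`, `v = Ip k z a`, `s p = sv (ψ p.1) (ψ p.2)`, `N p Y Y' = r⁻² cf f1 * om (Ds p Y) (Ds p Y')`,
`γ w = V.indicator (d ↦ N (z, w) (v, 0) (0, d))`; `d3_pull` with `Y₀ = (v,0)`, `Y₁ = (0,c)`, `Y₂ = (0,d)`, `fderiv_cf`, `fderiv_sv`; in the right-hand side
`Ds (v,0)` is paired only with tangential vectors, so it may be replaced by `Pr (Ds (v,0)) = -Ah (I v) = -Ah a` (`I_Ip`, `geo_tang`). -/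
theorem nk_deriv : ∀ᶠ r in 𝓝[>] (0 : ℝ), ∀ x a, ∃ k γ, Tst 2 γ ∧
    (fun y => A.dF (fun x' => A.nk r x' y) x a) = (fun y => A.hk r x y a) + A.dform k γ := by
  obtain ⟨C, hC, hn⟩ := A.near_ker
  obtain ⟨C', hC', hn'⟩ := A.cf_near
  obtain ⟨s0, s1, -, -, zz, -⟩ := prof
  filter_upwards [A.small_ev (max C C'), A.sm2_ker, A.fderiv_cf, A.sm2_cf s1 fun t ht => (zz t ht).2,
    self_mem_nhdsWithin] with r hr hk hf hcf hr0 x a
  have hr0 : 0 < r := hr0
  have le1 : C * r ≤ max C C' * r := by gcongr; exact le_max_left _ _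
  have le2 : C' * r ≤ max C C' * r := by gcongr; exact le_max_right _ _
  obtain ⟨c1, c2, c3, c4⟩ := A.ch_spec x
  set k := A.ch x with hk0
  set z := A.κ k x with hz
  set v := A.Ip k z a with hv
  set s : E4 × E4 → F := fun q => A.sv (A.ψ k q.1) (A.ψ k q.2) with hs
  set φ : E4 × E4 → ℝ := fun q => (r ^ 2)⁻¹ * A.cf f1 r (A.ψ k q.1) (A.ψ k q.2) with hφ
  have hO := V_open.prod V_open
  have ss : ContDiffOn ℝ ∞ s (V ×ˢ V) := A.sm2_geo.1 k k
  have sφ : ContDiffOn ℝ ∞ φ (V ×ˢ V) := contDiffOn_const.mul (hcf k k)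
  have sD : ContDiffOn ℝ ∞ (fderiv ℝ s) (V ×ˢ V) := ss.fderiv_of_isOpen hO (by simp)
  have sN : ∀ Y Y', ContDiffOn ℝ ∞ (fun q => φ q * A.om (fderiv ℝ s q Y) (fderiv ℝ s q Y')) (V ×ˢ V) := fun Y Y' =>
    sφ.mul ((contDiffOn_const.clm_apply (sD.clm_apply contDiffOn_const)).clm_apply (sD.clm_apply contDiffOn_const))
  set γ₀ : E4 → E4 →L[ℝ] ℝ := fun w => φ (z, w) • (A.om (fderiv ℝ s (z, w) (v, 0))).comp
    ((fderiv ℝ s (z, w)).comp (ContinuousLinearMap.inr ℝ E4 E4)) with hγ₀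
  have inc : ContDiffOn ℝ ∞ (fun w : E4 => (z, w)) V := contDiffOn_const.prodMk contDiffOn_id
  have mp : MapsTo (fun w : E4 => (z, w)) V (V ×ˢ V) := fun w hw => ⟨c3, hw⟩
  have sγ : ContDiffOn ℝ ∞ γ₀ V :=
    (sφ.comp inc mp).smul ((contDiffOn_const.clm_apply ((sD.comp inc mp).clm_apply contDiffOn_const)).clm_comp
      ((sD.comp inc mp).clm_comp contDiffOn_const))
  have tγ : Tst 2 (V.indicator γ₀) := A.tst_cut hr k c2 sγ fun w hw h => by
    simp only [hγ₀, hφ, hn' f1 (fun t ht => (zz t ht).2) r hr0 _ _ (lt_of_le_of_lt le2 h)]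
    simp
  refine ⟨k, _, tγ, ?_⟩
  have dn : ∀ y, DifferentiableAt ℝ ((fun x' => A.nk r x' y) ∘ A.ψ k) z := fun y =>
    ((hk.2.1.left y k).contDiffAt (V_open.mem_nhds c3)).differentiableAt (by simp)
  have ev : ∀ y (c d : F), A.dF (fun x' => A.nk r x' y) x a c d =
      fderiv ℝ (fun z' => A.nk r (A.ψ k z') y c d) z v := fun y c d => by
    have := ((evB c d).hasFDerivAt.comp z (dn y).hasFDerivAt).fderiv
    change _ = fderiv ℝ (evB c d ∘ (fun x' => A.nk r x' y) ∘ A.ψ k) z v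
    rw [this]; rfl
  refine A.form_ext (fun y => ?_) (fun y => ?_) k (fun y hy => ?_) fun w hw c d => ?_
  · obtain ⟨L, hL⟩ := A.fr_at y
    refine (hL.piT_eq_iff _).2 ⟨fun c d => ?_, fun c d => ?_⟩
    · rw [ev, ev, ← neg_apply, ← fderiv_fun_neg]
      congr 2
      funext z'
      simp only [nk, smul_apply, pb_apply, smul_eq_mul]
      rw [A.om_skew]; ring
    · rw [ev, ev]
      congr 2
      funext z'
      simp only [nk, smul_apply, pb_apply, (A.geo_tang _ y _ 0).2.2.2.2.1]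
  · obtain ⟨L, hL⟩ := A.fr_at y
    rw [Pi.add_apply, map_add, (dform_spec k tγ).1.2 y]
    congr 1
    refine (hL.piT_eq_iff _).2 ⟨fun c d => ?_, fun c d => ?_⟩
    · simp only [hk', smul_apply, pb_apply, smul_eq_mul, A.Xi_apply]
      rw [A.om_skew (A.Bh x y d)]; ring
    · simp only [hk', smul_apply, pb_apply, (A.geo_tang _ y _ 0).2.2.2.2.1]
  · have far : ∀ z' : E4, ‖z'‖ ≤ 5 / 2 → C * r < dist (A.ψ k z') y := fun z' h => by
      by_contra h2
      exact hy (hr k z' h y ((not_lt.1 h2).trans le1)).1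
    have e : (fun x' => A.nk r x' y) ∘ A.ψ k =ᶠ[𝓝 z] fun _ => 0 := by
      filter_upwards [continuous_norm.continuousAt.eventually (gt_mem_nhds (show ‖z‖ < 5 / 2 by linarith))] with z' h
      exact (hn r hr0).2.1 _ _ (far z' h.le)
    have e2 := far z (by linarith)
    rw [c4] at e2
    have e3 : A.hk r x y a = 0 := (hn r hr0).2.2.2 a _ _ e2
    rw [Pi.add_apply, e3, dform, A.ext_of_notMem k _ hy, dF, ← hk0, ← hz, e.fderiv_eq]
    simp
  · have hp : (z, w) ∈ V ×ˢ V := ⟨c3, hw⟩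
    have hpn := hO.mem_nhds hp
    have dN : ∀ Y Y', DifferentiableAt ℝ (fun q => φ q * A.om (fderiv ℝ s q Y) (fderiv ℝ s q Y')) (z, w) :=
      fun Y Y' => ((sN Y Y').contDiffAt hpn).differentiableAt (by simp)
    have l1 : A.dF (fun x' => A.nk r x' (A.ψ k w)) x a (A.I k w c) (A.I k w d) =
        fderiv ℝ (fun q => φ q * A.om (fderiv ℝ s q (0, c)) (fderiv ℝ s q (0, d))) (z, w) (v, 0) := by
      have e : (fun z' => A.nk r (A.ψ k z') (A.ψ k w) (A.I k w c) (A.I k w d)) =ᶠ[𝓝 z]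
          (fun q => φ q * A.om (fderiv ℝ s q (0, c)) (fderiv ℝ s q (0, d))) ∘ fun z' => (z', w) := by
        filter_upwards [V_open.mem_nhds c3] with z' hz'
        simp only [Function.comp, nk, smul_apply, pb_apply, smul_eq_mul, hφ, hs,
          (A.fderiv_sv k (p := (z', w)) ⟨hz', hw⟩ _).1]
      rw [ev, e.fderiv_eq, ((dN _ _).hasFDerivAt.comp z (hasFDerivAt_prodMk_left z w)).fderiv]
      simp
    have l2 : ∀ c d, fderiv ℝ (V.indicator γ₀) w c d =
        fderiv ℝ (fun q => φ q * A.om (fderiv ℝ s q (v, 0)) (fderiv ℝ s q (0, d))) (z, w) (0, c) := by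
      intro c d
      have e : V.indicator γ₀ =ᶠ[𝓝 w] γ₀ := by
        filter_upwards [V_open.mem_nhds hw] with w' hw' using indicator_of_mem hw' _
      have dγ : DifferentiableAt ℝ γ₀ w := (sγ.contDiffAt (V_open.mem_nhds hw)).differentiableAt (by simp)
      have a1 := (dγ.hasFDerivAt.clm_apply (hasFDerivAt_const d w)).fderiv
      have a2 := ((dN (v, 0) (0, d)).hasFDerivAt.comp w (hasFDerivAt_prodMk_right z w)).fderiv
      have a3 := congrArg (fun T : E4 →L[ℝ] ℝ => T c) (a1.symm.trans a2)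
      rw [e.fderiv_eq]
      simpa using a3
    have l3 : A.dform k (V.indicator γ₀) (A.ψ k w) (A.I k w c) (A.I k w d) = d1 (V.indicator γ₀) w c d :=
      congrArg (fun β : Bil E4 => β c d) (loc_ext_up (A := A) k (d1 (V.indicator γ₀)) hw)
    have l4 := d3_pull (w := A.om) A.om_skew (ss.contDiffAt hpn)
      ((sφ.contDiffAt hpn).differentiableAt (by simp)) ((v, 0) : E4 × E4) (0, c) (0, d)
    have l5 : ∀ Y, fderiv ℝ φ (z, w) Y = -((r ^ 4)⁻¹ * A.cf f0 r x (A.ψ k w) *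
        ⟪A.sv x (A.ψ k w), fderiv ℝ s (z, w) Y⟫_ℝ) := fun Y => by
      have dc : DifferentiableAt ℝ (fun q : E4 × E4 => A.cf f1 r (A.ψ k q.1) (A.ψ k q.2)) (z, w) :=
        ((hcf k k).contDiffAt hpn).differentiableAt (by simp)
      rw [hφ, fderiv_const_mul dc, smul_apply, hf k _ hp, smul_eq_mul]
      simp only [c4, ← hs]
      field_simp
    have f1 := fun b => (A.fderiv_sv k hp b).1
    have f2 := (A.fderiv_sv k hp v).2.1
    simp only [c4] at f1 f2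
    have f3 : A.Ah x (A.ψ k w) (A.I k z v) = A.Ah x (A.ψ k w) a := by
      rw [hv, A.I_Ip k c3, c4, (A.geo_tang _ _ _ 0).2.2.1]
    obtain ⟨L, hL⟩ := A.fr_at x
    have g1 : ⟪A.sv x (A.ψ k w), fderiv ℝ s (z, w) (v, 0)⟫_ℝ = -⟪A.sv x (A.ψ k w), A.Ah x (A.ψ k w) a⟫_ℝ := by
      rw [← (A.geo_tang x (A.ψ k w) 0 0).1, hL.inner_P, hL.inner_P, (A.geo_tang _ _ _ 0).2.1, hs, f2, f3,
        inner_neg_right]
    have g2 : ∀ b, A.om (fderiv ℝ s (z, w) (v, 0)) (A.Bh x (A.ψ k w) b) =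
        -A.om (A.Ah x (A.ψ k w) a) (A.Bh x (A.ψ k w) b) := fun b => by
      rw [Cx.om_apply, Cx.om_apply, ← (A.geo_tang x (A.ψ k w) b 0).2.2.2.1, ← hL.inner_P, hL.P_J, hs, f2, f3,
        map_neg, inner_neg_left, (A.geo_tang x (A.ψ k w) b 0).2.2.2.1]
    rw [Pi.add_apply, add_apply, add_apply, l1, l3, d1_apply, l2, l2]
    simp only [l5, g1] at l4
    simp only [hs, f1] at l4
    simp only [← hs, g2] at l4
    simp only [hk', smul_apply, pb_apply, smul_eq_mul, A.Xi_apply]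
    linear_combination l4

theorem cl_dk : ∀ᶠ r in 𝓝[>] (0 : ℝ), ∀ S : Cur M F, A.Cl S → ∀ x, S (A.dk r x) = 0 := by
  filter_upwards [A.dk_exact] with r h S hS x
  obtain ⟨k, γ, hγ, e⟩ := h x
  rw [e]; exact hS k γ hγ

/-- `glob_der`, `nk_deriv`. -/
theorem dnu_eq : ∀ᶠ r in 𝓝[>] (0 : ℝ), ∀ S : Cur M F, A.Bdd S → A.Sm (fun x => S (A.nk r x)) ∧ A.Sm (fun x => S (A.dk r x)) ∧
    (A.Cl S → ∀ x a, A.dF (fun x => S (A.nk r x)) x a = S fun y => A.hk r x y a) := by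
  obtain ⟨C, hC, hn⟩ := A.near_ker
  filter_upwards [A.small_ev C, A.sm2_ker, A.nk_deriv, self_mem_nhdsWithin] with r hr hk hd hr0 S hS
  have h1 := glob_der hr hk.2.1 (hn r hr0).2.1 hS
  refine ⟨h1.1, (glob_der hr hk.2.2.1 (hn r hr0).2.2.1 hS).1, fun hc x a => ?_⟩
  obtain ⟨k, γ, hγ, e⟩ := hd x a
  rw [h1.2, e, map_add, hc k γ hγ, add_zero]

end Atl
end Crest.Agent.R240
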