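import Crest.Agent.R240.P1
import Crest.Agent.R240.E0

/-! Block E1: the density ratio and the monotonicity formula. -/

set_option autoImplicit false
set_option maxSynthPendingDepth 3
set_option linter.unusedSectionVars false
set_option linter.unusedVariables false
open MeasureTheory Filter Set Metric
open scoped ENNReal NNReal Topology ContDiff InnerProductSpace InnerProduct

noncomputable section
namespace Crest.Agent.R240

namespace Atl
variable {M F ι : Type*} [MetricSpace M] [CompactSpace M] [NormedAddCommGroup F] [InnerProductSpace ℝ F]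
  [FiniteDimensional ℝ F] [Fintype ι] (A : Atl M F ι)
  {G G' : Type*} [NormedAddCommGroup G] [NormedSpace ℝ G] [FiniteDimensional ℝ G]
  [NormedAddCommGroup G'] [NormedSpace ℝ G'] [FiniteDimensional ℝ G']
  [MeasurableSpace M] [BorelSpace M] [MeasurableSpace F] [BorelSpace F]

theorem _root_.Crest.Agent.R240.Cx.e1a_inner (X : Cx F) {w u v : F} (hw : ‖w‖ = 1) (hu : ‖u - w‖ ≤ 1 / 5)
    (hv : ‖v - X.J w‖ ≤ 1 / 5) : 1 / 2 ≤ ⟪X.J u, v⟫_ℝ ∧ ⟪X.J u, v⟫_ℝ ≤ 2 := by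
  have e : ⟪X.J u, v⟫_ℝ = 1 + ⟪X.J w, v - X.J w⟫_ℝ + ⟪X.J (u - w), X.J w⟫_ℝ + ⟪X.J (u - w), v - X.J w⟫_ℝ := by
    simp only [map_sub, inner_sub_left, inner_sub_right, X.inner_J, real_inner_self_eq_norm_sq, hw]
    ring
  have h1 := abs_real_inner_le_norm (X.J w) (v - X.J w)
  have h2 := abs_real_inner_le_norm (X.J (u - w)) (X.J w)
  have h3 := abs_real_inner_le_norm (X.J (u - w)) (v - X.J w)
  simp only [X.norm_J, hw] at h1 h2 h3
  have h4 := mul_le_mul hu hv (norm_nonneg _) (by norm_num)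
  constructor <;> linarith [abs_le.1 h1, abs_le.1 h2, abs_le.1 h3]

/-- `nk r x y w (J w) = r⁻² cf f1 ⟪J (B w), B (J w)⟫` and the inner product lies in `[1/2, 2]` for `dist x y ≤ C r` small (`geo_bound`). -/
theorem nk_pt : ∃ c C : ℝ, 0 < c ∧ c ≤ 1 ∧ 1 ≤ C ∧ ∀ᶠ r in 𝓝[>] (0 : ℝ), ∀ x, ∀ q ∈ A.SM,
    c * (r ^ 2)⁻¹ * (closedBall x (c * r)).indicator 1 q.1 ≤ A.nk r x q.1 q.2 (A.J q.2) ∧
      A.nk r x q.1 q.2 (A.J q.2) ≤ C * (r ^ 2)⁻¹ * (closedBall x (C * r)).indicator 1 q.1 := by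
  obtain ⟨Cg, g1, hg⟩ := A.geo_bound
  obtain ⟨Cn, n1, hn⟩ := A.cf_near
  obtain ⟨Cb, b1, hb⟩ := A.cf_bound
  obtain ⟨c, c0, c1, hc⟩ := A.cf_lower
  refine ⟨c / 2, Cn + 2 * Cb, by positivity, by linarith, by linarith, ?_⟩
  filter_upwards [hc, Ioo_mem_nhdsGT (show (0 : ℝ) < 1 / (5 * (Cg * Cn)) by positivity)] with r hr ⟨r0, r1⟩ x q ⟨q1, q2⟩
  rw [lt_div_iff₀ (by positivity)] at r1
  obtain ⟨-, -, f0', f1'⟩ := hb r x q.1
  have e : A.nk r x q.1 q.2 (A.J q.2) =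
      (r ^ 2)⁻¹ * (A.cf f1 r x q.1 * ⟪A.J (A.Bh x q.1 q.2), A.Bh x q.1 (A.J q.2)⟫_ℝ) := by
    simp [nk, mul_assoc]
  have i0 : 0 < (r ^ 2)⁻¹ := by positivity
  rw [e, mul_comm (c / 2) (r ^ 2)⁻¹, mul_comm (Cn + 2 * Cb) (r ^ 2)⁻¹, mul_assoc, mul_assoc]
  by_cases hd : dist x q.1 ≤ Cn * r
  · obtain ⟨L, hL⟩ := A.fr_at q.1
    have hB : ‖A.Bh x q.1 - A.Pr q.1‖ ≤ 1 / 5 := (hg x q.1).2.2.2.1.trans (by
      linarith [mul_le_mul_of_nonneg_left hd (zero_le_one.trans g1)])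
    have hv : ∀ v, A.Pr q.1 v = v → ‖v‖ = 1 → ‖A.Bh x q.1 v - v‖ ≤ 1 / 5 := fun v h1 h2 => by
      simpa [h1, h2] using (A.Bh x q.1 - A.Pr q.1).le_of_opNorm_le hB v
    obtain ⟨i1, i2⟩ := A.toCx.e1a_inner q2 (hv _ q1 q2) (hv _ (by rw [hL.P_J, q1]) (by rw [A.norm_J, q2]))
    rw [indicator_of_mem (s := closedBall x ((Cn + 2 * Cb) * r)) (mem_closedBall'.2 (by
      linarith [mul_pos (zero_lt_one.trans_le b1) r0]))]
    refine ⟨mul_le_mul_of_nonneg_left ?_ i0.le, mul_le_mul_of_nonneg_left ?_ i0.le⟩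
    · by_cases h : q.1 ∈ closedBall x (c / 2 * r)
      · rw [indicator_of_mem h, Pi.one_apply]
        linarith [mul_le_mul (hr x q.1 (by linarith [mem_closedBall'.1 h, mul_pos c0 r0])).2 i1 (by norm_num) f0']
      · rw [indicator_of_notMem h, mul_zero]
        exact mul_nonneg f0' (by linarith)
    · rw [Pi.one_apply]
      linarith [mul_le_mul f1' i2 (by linarith) (zero_le_one.trans b1)]
  · rw [hn f1 (fun t ht => (prof.2.2.2.2.1 t ht).2) r r0 x q.1 (not_le.1 hd), zero_mul,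
      indicator_of_notMem (s := closedBall x (c / 2 * r)) fun h => hd ((mem_closedBall'.1 h).trans (by gcongr; linarith))]
    exact ⟨by simp, mul_le_mul_of_nonneg_left (mul_nonneg (by linarith) (indicator_nonneg (fun _ _ => zero_le_one) _)) i0.le⟩

theorem nu_bounds : ∃ c C : ℝ, 0 < c ∧ c ≤ 1 ∧ 1 ≤ C ∧ ∀ᶠ r in 𝓝[>] (0 : ℝ), ∀ (lam : Measure (M × F)) (P : Cur M F),
    A.IsP lam P → ∀ x, c * lam.fst.real (closedBall x (c * r)) / r ^ 2 ≤ P (A.nk r x) ∧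
      P (A.nk r x) ≤ C * lam.fst.real (closedBall x (C * r)) / r ^ 2 := by
  obtain ⟨c, C, c0, c1, C1, h⟩ := A.nk_pt
  refine ⟨c, C, c0, c1, C1, ?_⟩
  filter_upwards [h, A.sm2_ker] with r hr hs lam P hP x
  have := hP.1
  have hc := (hs.2.1.right x).continuous
  have hi : Integrable (fun q : M × F => A.nk r x q.1 q.2 (A.J q.2)) lam := hP.integrable (by fun_prop)
  have key : ∀ a s : ℝ, Integrable (fun q : M × F => a * (r ^ 2)⁻¹ * (closedBall x s).indicator (1 : M → ℝ) q.1) lam ∧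
      ∫ q, a * (r ^ 2)⁻¹ * (closedBall x s).indicator (1 : M → ℝ) q.1 ∂lam =
        a * lam.fst.real (closedBall x s) / r ^ 2 := fun a s => by
    have m : MeasurableSet (Prod.fst ⁻¹' closedBall x s : Set (M × F)) := measurableSet_closedBall.preimage measurable_fst
    refine ⟨((integrable_const (1 : ℝ)).indicator m).const_mul _, ?_⟩
    rw [integral_const_mul, measureReal_def, Measure.fst_apply measurableSet_closedBall, ← measureReal_def,
      ← integral_indicator_one m, mul_right_comm, div_eq_mul_inv]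
    rfl
  rw [hP.2.2 _ hc, ← (key _ _).2, ← (key _ _).2]
  exact ⟨integral_mono_ae (key _ _).1 hi (hP.ae.mono fun q hq => (hr x q hq).1),
    integral_mono_ae hi (key _ _).1 (hP.ae.mono fun q hq => (hr x q hq).2)⟩

theorem gm_props : ∀ᶠ r in 𝓝[>] (0 : ℝ), ∀ (lam : Measure (M × F)) (P : Cur M F), A.IsP lam P →
    Continuous (A.gm lam r) ∧ ∀ x, 0 ≤ A.gm lam r x := by
  obtain ⟨C, -, hb⟩ := A.cf_bound
  filter_upwards [A.sm2_cf prof.1 fun t ht => (prof.2.2.2.2.1 t ht).1] with r hr lam P hP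
  refine ⟨(hP.cont_int (f := fun p : M × (M × F) =>
    (r ^ 4)⁻¹ * A.cf f0 r p.1 p.2.1 * A.gam (A.sv p.1 p.2.1) (A.Bh p.1 p.2.1 p.2.2)) ?_).1, fun x =>
      integral_nonneg fun q => mul_nonneg (mul_nonneg (by positivity) (hb r x q.1).1) (A.gam_nonneg _ _)⟩
  have m : Continuous fun p : M × (M × F) => (p.1, p.2.1) := by fun_prop
  exact (continuous_const.mul (hr.continuous.comp m)).mul (A.continuous_gam.comp
    ((A.sm2_geo.1.continuous.comp m).prodMk ((A.sm2_geo.2.2.1.continuous.comp m).clm_apply (by fun_prop))))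

/-- Both branches of the `if` in `cf`. -/
theorem nk_hasDerivAt {r : ℝ} (hr : 0 < r) (x y : M) (w w' : F) :
    HasDerivAt (fun r => A.nk r x y w w')
      (r⁻¹ * ((r ^ 4)⁻¹ * A.cf f0 r x y * A.Xi (A.sv x y) (A.sv x y) (A.Bh x y w) (A.Bh x y w') - A.dk r x y w w')) r := by
  have h1 : HasDerivAt (fun r : ℝ => (r ^ 2)⁻¹) (-2 * (r ^ 3)⁻¹) r :=
    ((hasDerivAt_pow 2 r).inv (by positivity)).congr_deriv (by simp; field_simp)
  have h2 : HasDerivAt (fun r => A.cf f1 r x y) ((r ^ 3)⁻¹ * ‖A.sv x y‖ ^ 2 * A.cf f0 r x y) r := by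
    by_cases hd : dist x y < A.c0
    · simp only [cf, if_pos hd, div_eq_mul_inv]
      exact ((prof.2.2.2.2.2.1 _).comp r (h1.const_mul (‖A.sv x y‖ ^ 2))).congr_deriv (by ring)
    · simp only [cf, if_neg hd, mul_zero]
      exact hasDerivAt_const _ _
  refine ((h1.mul h2).mul_const (A.om (A.Bh x y w) (A.Bh x y w'))).congr_deriv ?_
  simp [dk, nk, Cx.Xi]
  field_simp
  ring

/-- `Xi_self` with `b = Bh w`, `e = Bh (J w) - J (Bh w)`, `‖e‖ ≤ C dist`, `‖sv‖ ≤ C dist`. -/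
theorem xi_gam : ∃ C : ℝ, 1 ≤ C ∧ ∀ᶠ r in 𝓝[>] (0 : ℝ), ∀ x, ∀ q ∈ A.SM,
    (r ^ 4)⁻¹ * A.cf f0 r x q.1 * A.gam (A.sv x q.1) (A.Bh x q.1 q.2) - C * r⁻¹ * (closedBall x (C * r)).indicator 1 q.1 ≤
      (r ^ 4)⁻¹ * A.cf f0 r x q.1 * A.Xi (A.sv x q.1) (A.sv x q.1) (A.Bh x q.1 q.2) (A.Bh x q.1 (A.J q.2)) := by
  obtain ⟨Cg, g1, hg⟩ := A.geo_bound
  obtain ⟨Cn, n1, hn⟩ := A.cf_near
  obtain ⟨Cb, b1, hb⟩ := A.cf_bound
  have K0 : 0 ≤ 6 * Cb * Cg ^ 4 * Cn ^ 3 := by positivity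
  refine ⟨Cn + 6 * Cb * Cg ^ 4 * Cn ^ 3, by linarith, ?_⟩
  filter_upwards [self_mem_nhdsWithin] with r (r0 : 0 < r) x q ⟨q1, q2⟩
  obtain ⟨f0', f1', -⟩ := hb r x q.1
  by_cases hd : dist x q.1 ≤ Cn * r
  · obtain ⟨L, hL⟩ := A.fr_at q.1
    obtain ⟨s1, -, -, s2, -, s3, -⟩ := hg x q.1
    have t := mul_le_mul_of_nonneg_left hd (zero_le_one.trans g1)
    have hv : ∀ v, A.Pr q.1 v = v → ‖v‖ = 1 → ‖A.Bh x q.1 v - v‖ ≤ Cg * (Cn * r) := fun v h1 h2 => by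
      simpa [h1, h2] using (A.Bh x q.1 - A.Pr q.1).le_of_opNorm_le (s2.trans t) v
    have e1 : ‖A.Bh x q.1 (A.J q.2) - A.J (A.Bh x q.1 q.2)‖ ≤ 2 * (Cg * (Cn * r)) := by
      have := norm_sub_le_norm_sub_add_norm_sub (A.Bh x q.1 (A.J q.2)) (A.J q.2) (A.J (A.Bh x q.1 q.2))
      rw [← map_sub A.J, A.norm_J, norm_sub_rev q.2] at this
      linarith [hv _ q1 q2, hv _ (by rw [hL.P_J, q1]) (by rw [A.norm_J, q2])]
    have e2 : ‖A.Bh x q.1 q.2‖ ≤ Cg := by simpa [q2] using (A.Bh x q.1).le_of_opNorm_le s3 q.2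
    have e3 := A.Xi_self (A.sv x q.1) (A.Bh x q.1 q.2) (A.Bh x q.1 (A.J q.2) - A.J (A.Bh x q.1 q.2))
    rw [add_sub_cancel] at e3
    have e4 := mul_le_mul_of_nonneg_left ((neg_le_abs _).trans (e3.trans
      (show _ ≤ 3 * ((Cg * (Cn * r)) ^ 2 * Cg * (2 * (Cg * (Cn * r)))) by gcongr; exact s1.trans t)))
      (show 0 ≤ (r ^ 4)⁻¹ * A.cf f0 r x q.1 by positivity)
    have e5 : (r ^ 4)⁻¹ * A.cf f0 r x q.1 * (3 * ((Cg * (Cn * r)) ^ 2 * Cg * (2 * (Cg * (Cn * r))))) ≤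
        6 * Cb * Cg ^ 4 * Cn ^ 3 * r⁻¹ :=
      (mul_le_mul_of_nonneg_right (mul_le_mul_of_nonneg_left f1' (by positivity)) (by positivity)).trans_eq
        (by field_simp; ring)
    rw [indicator_of_mem (s := closedBall x ((Cn + 6 * Cb * Cg ^ 4 * Cn ^ 3) * r)) (mem_closedBall'.2 (by
      linarith [mul_nonneg K0 r0.le])), Pi.one_apply]
    linarith [show 0 ≤ Cn * r⁻¹ by positivity]
  · rw [hn f0 (fun t ht => (prof.2.2.2.2.1 t ht).1) r r0 x q.1 (not_le.1 hd)]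
    simp only [mul_zero, zero_mul, zero_sub, neg_nonpos]
    exact mul_nonneg (by positivity) (indicator_nonneg (fun _ _ => zero_le_one) _)

theorem e1c_cont_Xi : Continuous fun p : M × (M × F) =>
    A.Xi (A.sv p.1 p.2.1) (A.sv p.1 p.2.1) (A.Bh p.1 p.2.1 p.2.2) (A.Bh p.1 p.2.1 (A.J p.2.2)) := by
  have c12 : Continuous fun p : M × (M × F) => (p.1, p.2.1) := by fun_prop
  have cs := A.sm2_geo.1.continuous.comp c12
  have cb := A.sm2_geo.2.2.1.continuous.comp c12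
  exact ((A.contDiff_Xi.continuous.comp (cs.prodMk cs)).clm_apply (cb.clm_apply (by fun_prop))).clm_apply
    (cb.clm_apply (by fun_prop))

/-- For `r ∈ (0, r₀)`: `∫ P (nk r x) dϖ = ∫ nk r p.1 p.2.1 p.2.2 (J p.2.2) d(ϖ.prod lam)` (`IsP.cont_int`);
`hasDerivAt_integral_of_dominated_loc_of_deriv_le`, `nk_hasDerivAt`, `xi_gam`, `mm_eq`. -/
theorem nu_deriv : ∃ C : ℝ, 1 ≤ C ∧ ∀ᶠ r in 𝓝[>] (0 : ℝ), ∀ (lam : Measure (M × F)) (P : Cur M F), A.IsP lam P →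
    ∀ (ϖ : Measure M) [IsFiniteMeasure ϖ], DifferentiableAt ℝ (fun r => ∫ x, P (A.nk r x) ∂ϖ) r ∧
      ∫ x, A.gm lam r x ∂ϖ - ∫ x, P (A.dk r x) ∂ϖ - C * r⁻¹ * mm ϖ lam.fst (C * r) ≤
        r * deriv (fun r => ∫ x, P (A.nk r x) ∂ϖ) r := by
  obtain ⟨C, hC, hx⟩ := A.xi_gam
  obtain ⟨Cb, hCb, hb⟩ := A.ker_bound
  obtain ⟨Cc, hCc, hc⟩ := A.cf_bound
  obtain ⟨Cs, hCs, hs⟩ : ∃ B : ℝ, 0 ≤ B ∧ ∀ x, ∀ q ∈ A.SM,
      |A.Xi (A.sv x q.1) (A.sv x q.1) (A.Bh x q.1 q.2) (A.Bh x q.1 (A.J q.2))| ≤ B := by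
    obtain ⟨B, hB⟩ := (isCompact_univ.prod A.isCompact_SM).exists_bound_of_continuousOn
      (A.e1c_cont_Xi.continuousOn)
    exact ⟨max B 0, le_max_right _ _, fun x q hq => (hB (x, q) ⟨trivial, hq⟩).trans (le_max_left _ _)⟩
  obtain ⟨s0, s1, -, -, zz, -⟩ := prof
  obtain ⟨r₀, hr₀, hs₀⟩ := mem_nhdsGT_iff_exists_Ioo_subset.1 A.sm2_ker
  refine ⟨C, hC, ?_⟩
  filter_upwards [hx, A.sm2_ker, A.sm2_cf s0 fun t ht => (zz t ht).1, Ioo_mem_nhdsGT (lt_min hr₀ one_pos)]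
    with r h1 hk hcf hr lam P hP ϖ _
  have := hP.1
  have hr0 := hr.1
  have c12 : Continuous fun p : M × (M × F) => (p.1, p.2.1) := by fun_prop
  have ev : ∀ {K : M → M → Bil F}, A.Sm2 K → Continuous fun p : M × (M × F) => K p.1 p.2.1 p.2.2 (A.J p.2.2) :=
    fun hK => ((hK.continuous.comp c12).clm_apply (by fun_prop)).clm_apply (by fun_prop)
  set Fn : ℝ → M × (M × F) → ℝ := fun r p => A.nk r p.1 p.2.1 p.2.2 (A.J p.2.2) with hFn
  set Fx : ℝ → M × (M × F) → ℝ := fun r p => (r ^ 4)⁻¹ * A.cf f0 r p.1 p.2.1 *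
    A.Xi (A.sv p.1 p.2.1) (A.sv p.1 p.2.1) (A.Bh p.1 p.2.1 p.2.2) (A.Bh p.1 p.2.1 (A.J p.2.2)) with hFx
  set Fd : ℝ → M × (M × F) → ℝ := fun r p => A.dk r p.1 p.2.1 p.2.2 (A.J p.2.2) with hFd
  have cx : Continuous (Fx r) := (continuous_const.mul (hcf.continuous.comp c12)).mul A.e1c_cont_Xi
  have cd : Continuous (Fd r) := ev hk.2.2.1
  have hI : Ioo (r / 2) (min r₀ 1) ∈ 𝓝 r := Ioo_mem_nhds (by linarith) hr.2
  have sub : ∀ r' ∈ Ioo (r / 2) (min r₀ 1), r' ∈ Ioo 0 r₀ := fun r' h =>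
    ⟨by linarith [h.1], h.2.trans_le (min_le_left _ _)⟩
  have e1 : (fun r => ∫ x, P (A.nk r x) ∂ϖ) =ᶠ[𝓝 r] fun r => ∫ p, Fn r p ∂(ϖ.prod lam) := by
    filter_upwards [hI] with r' h
    have hn := (hs₀ (sub r' h)).2.1
    rw [integral_prod _ ((hP.cont_int (ev hn)).2 ϖ)]
    exact integral_congr_ae (Eventually.of_forall fun x => hP.2.2 _ (hn.right x).continuous)
  have ae : ∀ᵐ p ∂(ϖ.prod lam), p.2 ∈ A.SM := Measure.quasiMeasurePreserving_snd.ae hP.ae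
  have key := hasDerivAt_integral_of_dominated_loc_of_deriv_le (μ := ϖ.prod lam) (F := Fn)
    (F' := fun r p => r⁻¹ * (Fx r p - Fd r p)) (x₀ := r)
    (bound := fun _ => (r / 2)⁻¹ * (((r / 2) ^ 4)⁻¹ * Cc * Cs + Cb * ((r / 2) ^ 2)⁻¹)) hI
    (by filter_upwards [hI] with r' h using (ev (hs₀ (sub r' h)).2.1).aestronglyMeasurable)
    ((hP.cont_int (ev hk.2.1)).2 ϖ) (continuous_const.mul (cx.sub cd)).aestronglyMeasurable
    (by
      filter_upwards [ae] with p hp r' h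
      have p0 : 0 < r / 2 := by linarith
      have p1 : 0 < r' := p0.trans h.1
      obtain ⟨b0, b1, -⟩ := hc r' p.1 p.2.1
      have b2 := (hb r' ⟨p1, (h.2.trans_le (min_le_right _ _)).le⟩ p.1 p.2.1).2.2.1
      have b3 : |Fd r' p| ≤ Cb * ((r / 2) ^ 2)⁻¹ := by
        have := (A.dk r' p.1 p.2.1).le_opNorm₂ p.2.2 (A.J p.2.2)
        rw [A.norm_J, hp.2, mul_one, mul_one] at this
        refine (this.trans b2).trans ?_
        gcongr
        exact h.1.le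
      have b4 : |Fx r' p| ≤ ((r / 2) ^ 4)⁻¹ * Cc * Cs := by
        rw [hFx]
        simp only [abs_mul, abs_of_nonneg b0, abs_of_pos (by positivity : 0 < (r' ^ 4)⁻¹)]
        have := hs p.1 p.2 hp
        gcongr
        exact h.1.le
      rw [Real.norm_eq_abs, abs_mul, abs_of_pos (inv_pos.2 p1)]
      have b5 := abs_sub (Fx r' p) (Fd r' p)
      gcongr
      · exact h.1.le
      · linarith)
    (integrable_const _)
    (Eventually.of_forall fun p r' h => A.nk_hasDerivAt (sub r' h).1 p.1 p.2.1 p.2.2 (A.J p.2.2))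
  have hd := key.2.congr_of_eventuallyEq e1
  refine ⟨hd.differentiableAt, ?_⟩
  have ix := (hP.cont_int cx).2 ϖ
  have id' := (hP.cont_int cd).2 ϖ
  rw [hd.deriv, integral_const_mul, ← mul_assoc, mul_inv_cancel₀ hr0.ne', one_mul, integral_sub ix id']
  have e2 : ∫ x, P (A.dk r x) ∂ϖ = ∫ p, Fd r p ∂(ϖ.prod lam) := by
    rw [integral_prod _ id']
    exact integral_congr_ae (Eventually.of_forall fun x => hP.2.2 _ (hk.2.2.1.right x).continuous)
  set Fg : M × (M × F) → ℝ := fun p => (r ^ 4)⁻¹ * A.cf f0 r p.1 p.2.1 *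
    A.gam (A.sv p.1 p.2.1) (A.Bh p.1 p.2.1 p.2.2) with hFg
  have cg : Continuous Fg := (continuous_const.mul (hcf.continuous.comp c12)).mul (A.continuous_gam.comp
    ((A.sm2_geo.1.continuous.comp c12).prodMk ((A.sm2_geo.2.2.1.continuous.comp c12).clm_apply (by fun_prop))))
  have ig := (hP.cont_int cg).2 ϖ
  have e3 : ∫ x, A.gm lam r x ∂ϖ = ∫ p, Fg p ∂(ϖ.prod lam) := by rw [integral_prod _ ig]; rfl
  set S : Set (M × (M × F)) := {p | dist p.1 p.2.1 ≤ C * r} with hS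
  have mS : MeasurableSet S := (isClosed_le (by fun_prop) continuous_const).measurableSet
  have iS : Integrable (S.indicator fun _ => (1 : ℝ)) (ϖ.prod lam) := (integrable_const _).indicator mS
  have e4 : mm ϖ lam.fst (C * r) = ∫ p, S.indicator (fun _ => (1 : ℝ)) p ∂(ϖ.prod lam) := by
    rw [integral_indicator mS, mm, Measure.fst, ← Measure.map_id (μ := ϖ),
      Measure.map_prod_map _ _ measurable_id measurable_fst, Measure.map_id, measureReal_def,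
      Measure.map_apply (measurable_id.prodMap measurable_fst) (isClosed_le (by fun_prop) continuous_const).measurableSet]
    simp [hS, measureReal_def, preimage]
  rw [e2, e3, e4, ← integral_const_mul, sub_right_comm, ← integral_sub ig (iS.const_mul _)]
  refine sub_le_sub_right (integral_mono_ae (ig.sub (iS.const_mul _)) ix ?_) _
  filter_upwards [ae] with p hp
  have := h1 p.1 p.2 hp
  have e5 : (closedBall p.1 (C * r)).indicator (1 : M → ℝ) p.2.1 = S.indicator (fun _ => (1 : ℝ)) p := by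
    simp only [indicator, hS, mem_closedBall', mem_setOf_eq, Pi.one_apply]
  rw [e5] at this
  exact this

end Atl
end Crest.Agent.R240
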