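import Crest.Agent.R240.T1

/-! Block T2: recovering `T` from `R T`; the scale iteration. -/

set_option autoImplicit false
set_option maxSynthPendingDepth 3
set_option linter.unusedSectionVars false
set_option linter.unusedVariables false
open MeasureTheory Filter Set Metric
open scoped ENNReal NNReal Topology ContDiff InnerProductSpace InnerProduct

noncomputable section
namespace Crest.Agent.R240

namespace Atl
variable {M F ι : Type*} [MetricSpace M] [CompactSpace M] [NormedAddCommGroup F] [InnerProductSpace ℝ F]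
  [FiniteDimensional ℝ F] [Fintype ι] (A : Atl M F ι)
  {G G' : Type*} [NormedAddCommGroup G] [NormedSpace ℝ G] [FiniteDimensional ℝ G]
  [NormedAddCommGroup G'] [NormedSpace ℝ G'] [FiniteDimensional ℝ G']
  [MeasurableSpace M] [BorelSpace M] [MeasurableSpace F] [BorelSpace F]

/-- For `y ∈ U k`: `integral_ext` for `z ↦ wG (th δ (ψ z) y) (pM (ψ z) (u z))` cut off by `if z ∈ V`, `pM y` commutes with the integral;
for `y ∉ U k` the integrand of `Rt` vanishes (`small_ev`, `near_ker`). -/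
theorem ext_KO : ∀ᶠ δ in 𝓝[>] (0 : ℝ), ∀ k (u : E4 → Bil F), Tst 2 u →
    A.ext k (KO (A.kR k) δ u) = fun y => A.pM y (A.Rt δ (fun x => A.pM x (A.ext k u x)) y) := by
  obtain ⟨C, hC, hn⟩ := A.near_ker
  filter_upwards [A.sm2_ker, A.small_ev C, self_mem_nhdsWithin] with δ hs hsm hδ k u hu
  have hδ : 0 < δ := hδ
  have hn := (hn δ hδ).1
  have hs := hs.1
  funext y
  have hW : A.Sm fun x => A.wG (A.th δ x y) (A.pM x (A.ext k u x)) :=
    Sm.app (Sm.comp (hs.left y) (A.toCx.contDiff_pair (G := Bil F)).2)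
      (Sm.app A.sm_basic.2.2.2.2.2.1 (sm_ext k (by norm_num) hu))
  by_cases hy : y ∈ A.U k
  · classical
    let w : E4 → Bil F := fun z =>
      if z ∈ V then A.wG (A.th δ (A.ψ k z) y) (A.pM (A.ψ k z) (A.ext k u (A.ψ k z))) else 0
    have hwV : ContDiffOn ℝ ∞ w V := (hW k).congr fun z hz => by simp only [w, if_pos hz]; rfl
    have hw0 : ∀ z, 2 < ‖z‖ → w z = 0 := fun z hz => by
      by_cases hV : z ∈ V
      · simp only [w, if_pos hV]
        rw [A.ext_ψ k u hV, hu.2 z hz, map_zero, map_zero]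
      · simp only [w, if_neg hV]
    have hw : Tst 2 w := tst_of_contDiffOn (by norm_num) hwV hw0
    have hρw : Tst 2 fun z => A.rho k z • w z :=
      tst_of_contDiffOn (by norm_num) ((A.I_sm k).2.2.smul hwV) fun z hz => by
        rw [hw0 z hz, smul_zero]
    have he : (fun x => A.wG (A.th δ x y) (A.pM x (A.ext k u x))) = A.ext k w :=
      A.eq_ext k (fun x hx => by rw [A.ext_of_notMem k u hx, map_zero, map_zero])
        fun z hz => by simp only [w, if_pos hz]
    have hi := (A.integral_ext k hw.1.continuous fun z hz => hw0 z (by linarith)).2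
    rw [A.ext_of_mem k _ hy]
    unfold Rt KO
    rw [he, hi, ← ContinuousLinearMap.integral_comp_comm _ hρw.integrable]
    refine integral_congr_ae (Eventually.of_forall fun z => ?_)
    by_cases hV : z ∈ V
    · have h4 : (δ ^ 4)⁻¹ * (A.rho k z * δ ^ 4) = A.rho k z := by field_simp
      simp only [w, if_pos hV, kR, ck, if_pos (A.κ_mem k y hy), A.ψκ k y hy, kW, A.ext_ψ k u hV,
        smul_apply, ContinuousLinearMap.comp_apply, map_smul, smul_smul, h4]
    · have : u z = 0 := hu.2 z (by rw [mem_V] at hV; linarith)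
      simp only [w, if_neg hV, this, map_zero, smul_zero]
  · rw [A.ext_of_notMem k _ hy]
    unfold Rt
    have : (fun x => A.wG (A.th δ x y) (A.pM x (A.ext k u x))) = fun _ => 0 := by
      funext x
      by_cases hx : x ∈ A.U k
      · by_cases hz : 2 < ‖A.κ k x‖
        · rw [A.ext_of_mem k u hx, hu.2 _ hz, map_zero, map_zero]
        · have h0 : A.th δ x y = 0 := by
            refine hn x y (not_le.1 fun hd => hy ?_)
            refine (hsm k (A.κ k x) (by linarith) y ?_).1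
            rwa [A.ψκ k x hx]
          have h1 : A.wG (0 : F →L[ℝ] F →L[ℝ] Bil F) = 0 := by
            simpa using A.toCx.wG_smul (G := Bil F) 0 0
          rw [h0, h1, zero_apply]
      · rw [A.ext_of_notMem k u hx, map_zero, map_zero]
    rw [this, integral_zero, map_zero]

/-- `ext_KO`, `IsT`, `form_Rt`, `Fr.wG_piM`, `Fr.ipG_piM`, `Fr.piM_piM`, `pair_bound`, Cauchy-Schwarz, `lpNorm_ext`. -/
theorem T_KO : ∃ C : ℝ, 1 ≤ C ∧ ∀ᶠ δ in 𝓝[>] (0 : ℝ), ∀ (T : Cur M F) (n : ℕ), A.IsT n T → ∀ k (u : E4 → Bil F), Tst 2 u →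
    |T (A.ext k (KO (A.kR k) δ u))| ≤ C * lpNorm (fun x => A.pM x (A.R T δ x)) 2 A.vol * lpNorm u 2 volume := by
  obtain ⟨C₁, hC₁, hp⟩ := A.toCx.pair_bound (G := ℝ)
  obtain ⟨C₂, hC₂, hl⟩ := A.lpNorm_ext (G := Bil F)
  refine ⟨C₁ * C₂, one_le_mul_of_one_le_of_one_le hC₁ hC₂, ?_⟩
  filter_upwards [A.ext_KO, A.form_R, A.form_Rt] with δ h1 h2 h3 T n hT k u hu
  have hsu : A.Sm (A.ext k u) := sm_ext k (by norm_num) hu
  have hσ : A.Sm fun x => A.pM x (A.ext k u x) := Sm.app A.sm_basic.2.2.2.2.2.1 hsu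
  have hR : A.Sm fun x => A.pM x (A.R T δ x) := Sm.app A.sm_basic.2.2.2.2.2.1 (h2 T hT.bdd).1
  rw [h1 k u hu, ← hT.1, (h3 _ hσ.continuous).2 T hT.bdd]
  have m1 := (A.memLp_cont hR.continuous).1
  have m2 := (A.memLp_cont hsu.continuous).1
  have hcs := integral_mul_le_lpNorm m1.norm m2.norm
  rw [lpNorm_norm m1.1, lpNorm_norm m2.1] at hcs
  have hi : Integrable (fun x => |‖A.pM x (A.R T δ x)‖ * ‖A.ext k u x‖|) A.vol :=
    (A.memLp_cont ((hR.continuous.norm.mul hsu.continuous.norm).abs)).2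
  have hb : ‖∫ x, A.wG (A.R T δ x) (A.pM x (A.ext k u x)) ∂A.vol‖ ≤
      ∫ x, C₁ * |‖A.pM x (A.R T δ x)‖ * ‖A.ext k u x‖| ∂A.vol := by
    refine norm_integral_le_of_norm_le (hi.const_mul C₁) (Eventually.of_forall fun x => ?_)
    obtain ⟨L, hL⟩ := A.fr_at x
    have e : A.wG (A.R T δ x) (A.pM x (A.ext k u x)) =
        ipG (A.pM x (A.R T δ x)) (A.pM x (A.ext k u x)) := by
      unfold pM
      rw [hL.wG_piM, hL.ipG_piM, hL.piM_piM]
    rw [e, abs_of_nonneg (by positivity), ← mul_assoc]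
    exact (hp _ _).1.trans (mul_le_mul_of_nonneg_left (hL.norm_pi_le _).2.1 (by positivity))
  rw [integral_const_mul, Real.norm_eq_abs] at hb
  have hl' := (hl k u hu.1.continuous fun z hz => hu.2 z (by linarith)).1
  have n1 : 0 ≤ lpNorm (fun x => A.pM x (A.R T δ x)) 2 A.vol := lpNorm_nonneg
  calc _ ≤ _ := hb
    _ ≤ C₁ * (lpNorm (fun x => A.pM x (A.R T δ x)) 2 A.vol * lpNorm (A.ext k u) 2 A.vol) :=
      mul_le_mul_of_nonneg_left hcs (by linarith)
    _ ≤ C₁ * (lpNorm (fun x => A.pM x (A.R T δ x)) 2 A.vol * (C₂ * lpNorm u 2 volume)) :=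
      mul_le_mul_of_nonneg_left (mul_le_mul_of_nonneg_left hl' n1) (by linarith)
    _ = _ := by ring

/-- `approx_iter` for `T ∘ₗ ext k`, `π z = pM (ψ k z)`, `kR_Df`, `T_KO`; finitely many charts. -/
theorem T_approx (s : ℕ) : ∃ C : ℝ, 1 ≤ C ∧ ∀ᶠ δ in 𝓝[>] (0 : ℝ), ∀ (T : Cur M F) (n : ℕ) (c : ℝ), A.IsT n T → 0 ≤ c →
    A.AB T s δ c → ∀ k (u : E4 → Bil F), Tst (2 - C * δ) u →
      |T (A.ext k u)| ≤ C * lpNorm (fun x => A.pM x (A.R T δ x)) 2 A.vol * lpNorm u 2 volume +
        C * c * δ ^ s * hs s 1 u := by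
  obtain ⟨C₁, hC₁, h₁⟩ := A.T_KO
  choose C₀ hC₀ hD using A.kR_Df
  choose C hC h₂ using fun k => approx_iter s (hC₀ k) (π := fun z => A.pM (A.ψ k z))
    (A.sm_basic.2.2.2.2.2.1 k) (hD k)
  have hS : 0 ≤ ∑ k, C k := Finset.sum_nonneg fun k _ => by linarith [hC k]
  refine ⟨(1 + ∑ k, C k) * C₁, by nlinarith, ?_⟩
  filter_upwards [h₁, eventually_all.2 h₂, self_mem_nhdsWithin] with δ h₁ h₂ hδ T n c hT hc hAB k u hu
  have hδ : 0 < δ := hδ
  have hk : C k ≤ 1 + ∑ k, C k := by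
    have := Finset.single_le_sum (f := C) (fun k _ => by linarith [hC k]) (Finset.mem_univ k)
    linarith
  have hk1 : C k * C₁ ≤ (1 + ∑ k, C k) * C₁ := mul_le_mul_of_nonneg_right hk (by linarith)
  have hk2 : C k ≤ (1 + ∑ k, C k) * C₁ := le_trans (le_mul_of_one_le_right (by linarith [hC k]) hC₁) hk1
  have hN : 0 ≤ lpNorm (fun x => A.pM x (A.R T δ x)) 2 A.vol := lpNorm_nonneg
  have h3 := h₂ k (T ∘ₗ A.ext k) (C₁ * lpNorm (fun x => A.pM x (A.R T δ x)) 2 A.vol) c (by positivity) hc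
    (fun v => by
      rw [LinearMap.comp_apply, LinearMap.comp_apply, hT.1]
      congr 1
      funext x
      by_cases hx : x ∈ A.U k <;> simp [ext, hx, A.ψκ])
    (fun v hv => hAB k v hv)
    (fun v hv => h₁ T n hT k v (hv.mono (by nlinarith [hC₀ k])))
    u (hu.mono (by nlinarith))
  refine h3.trans (add_le_add ?_ ?_)
  · rw [← mul_assoc]
    exact mul_le_mul_of_nonneg_right (mul_le_mul_of_nonneg_right hk1 hN) lpNorm_nonneg
  · have := hs_nonneg s zero_le_one u
    gcongr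

variable {A} {lam : Measure (M × F)} {P T : Cur M F} {n : ℕ}

/-- `iter_scale` with `Q ε c := AB T s |ε| c`, exponent `n + 1`, `s = n + 2`, `p ε = |ε|⁻¹ √(mm μ μ ε)`, `δ = ε / K`, `K ≥ max (4 C) C₀`
(`C` from `T_approx`, `C₀` from `RT_q`), `η = 1 / (4 C K^(n+1))`; `δ ^ s * hs s 1 u = K⁻ˢ ε ^ s hs s 1 u ≤ K⁻ˢ hs s ε u` (`hs_scale`),
`lpNorm u = hs 0 ε u ≤ hs s ε u` (`hs_mono`). -/
theorem Sit.AB_main (h : A.Sit lam P T n) : ∃ (s : ℕ) (C : ℝ), 1 ≤ s ∧ 0 ≤ C ∧ ∀ᶠ ε in 𝓝[>] (0 : ℝ),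
    A.AB T s ε (C * (ε⁻¹ * Real.sqrt (mm lam.fst lam.fst ε))) := by
  have := h.hP.1
  obtain ⟨C, hC, h₁⟩ := A.T_approx (n + 2)
  obtain ⟨C₀, hC₀, h₂⟩ := h.RT_q (n + 2)
  set K := max (4 * C) C₀ with hK
  have hK4 : 4 * C ≤ K := le_max_left _ _
  have hK0 : C₀ ≤ K := le_max_right _ _
  have hKp : 0 < K := by linarith
  obtain ⟨C₂, hC₂, h₂⟩ := h₂ (1 / (4 * C * K ^ (n + 1))) (by positivity)
  obtain ⟨ε₁, hε₁, h₃⟩ := mem_nhdsGT_iff_exists_Ioo_subset.1 (h₁.and h₂)
  have hε₁ : 0 < ε₁ := hε₁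
  choose B hB using h.hT.2
  have hmm := mm_mono lam.fst lam.fst
  have key := iter_scale (fun ε c => A.AB T (n + 2) |ε| c)
    (fun ε c hc k u hu => by
      have h0 := hs_nonneg (n + 2) (abs_nonneg ε) u
      refine le_of_forall_pos_le_add fun η hη => ?_
      have h1 := hc (c + η / (hs (n + 2) |ε| u + 1)) (lt_add_of_pos_right _ (by positivity)) k u hu
      have h2 : η / (hs (n + 2) |ε| u + 1) * hs (n + 2) |ε| u ≤ η := by
        rw [div_mul_eq_mul_div, div_le_iff₀ (by positivity)]; nlinarith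
      linarith [add_mul c (η / (hs (n + 2) |ε| u + 1)) (hs (n + 2) |ε| u)])
    (fun ε c c' hcc hc k u hu => (hc k u hu).trans
      (mul_le_mul_of_nonneg_right hcc (hs_nonneg _ (abs_nonneg ε) u)))
    (n := n + 1) (by omega) (K := K) (B := ∑ k, |B k|) (D := C * C₂ * K) (ε₀ := min ε₁ 1) (by linarith)
    (by positivity) (by positivity) (fun ε => |ε|⁻¹ * Real.sqrt (mm lam.fst lam.fst ε))
    (fun ε => by positivity)
    (fun ε hε => by
      have h0 : 0 < ε := hε.1
      rw [abs_of_pos (div_pos h0 hKp), abs_of_pos h0, inv_div, div_eq_mul_inv, mul_assoc]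
      gcongr
      exact hmm.1 (div_le_self h0.le (by linarith)))
    (fun ε hε k u hu => by
      have h0 : 0 < ε := hε.1
      have h1 : ε ≤ 1 := hε.2.le.trans (min_le_right _ _)
      rw [abs_of_pos h0] at hu ⊢
      have h2 := hB k u (hu.mono (by linarith))
      have h3 : B k ≤ ∑ k, |B k| := (le_abs_self _).trans
        (Finset.single_le_sum (f := fun k => |B k|) (fun _ _ => abs_nonneg _) (Finset.mem_univ k))
      have h4 : ε ^ (n + 1) * hs n 1 u ≤ hs (n + 2) ε u :=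
        (mul_le_mul_of_nonneg_left (hs_mono (Nat.le_succ n) zero_le_one u) (by positivity)).trans
          ((hs_scale (n + 1) h0 h1 u).trans (hs_mono (Nat.le_succ _) h0.le u))
      refine h2.trans ((mul_le_mul_of_nonneg_right h3 (hs_nonneg _ zero_le_one u)).trans ?_)
      rw [div_mul_eq_mul_div, mul_div_assoc]
      refine mul_le_mul_of_nonneg_left ?_ (by positivity)
      rw [le_div_iff₀ (by positivity), mul_comm]
      exact h4)
    (fun ε hε c hc hQ k u hu => by
      have h0 : 0 < ε := hε.1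
      have h1 : ε ≤ 1 := hε.2.le.trans (min_le_right _ _)
      have hδ0 : 0 < ε / K := div_pos h0 hKp
      have hδ1 : ε / K < ε₁ :=
        (div_le_self h0.le (by linarith)).trans_lt (hε.2.trans_le (min_le_left _ _))
      rw [abs_of_pos hδ0] at hQ
      rw [abs_of_pos h0] at hu ⊢
      obtain ⟨a1, a2⟩ := h₃ ⟨hδ0, hδ1⟩
      have hCK : ∀ D : ℝ, D ≤ K → D * (ε / K) ≤ ε := fun D hD => by
        rw [mul_div_assoc', div_le_iff₀ hKp]; nlinarith
      have b1 := a1 T n c h.hT hc hQ k u (hu.mono (by linarith [hCK C (by linarith)]))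
      have b2 := a2 c hc hQ
      have b3 : (ε / K)⁻¹ * Real.sqrt (mm lam.fst lam.fst (C₀ * (ε / K))) ≤
          K * (ε⁻¹ * Real.sqrt (mm lam.fst lam.fst ε)) := by
        rw [inv_div, div_eq_mul_inv, mul_assoc]
        gcongr
        exact hmm.1 (hCK C₀ hK0)
      have b4 : lpNorm u 2 volume ≤ hs (n + 2) ε u := hs_mono (Nat.zero_le _) h0.le u
      have b5 := hs_scale (n + 2) h0 h1 u
      have b6 := hs_nonneg (n + 2) h0.le u
      set p := ε⁻¹ * Real.sqrt (mm lam.fst lam.fst ε) with hp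
      have hp0 : 0 ≤ p := by positivity
      set H := hs (n + 2) ε u with hH
      have b7 : C * lpNorm (fun x => A.pM x (A.R T (ε / K) x)) 2 A.vol * lpNorm u 2 volume ≤
          (C * C₂ * K * p + c / (4 * K ^ (n + 1))) * H := by
        refine mul_le_mul ?_ b4 lpNorm_nonneg (by positivity)
        calc _ ≤ C * (C₂ * (K * p) + 1 / (4 * C * K ^ (n + 1)) * c) :=
              mul_le_mul_of_nonneg_left (b2.trans (add_le_add (mul_le_mul_of_nonneg_left b3 hC₂) le_rfl))
                (by linarith)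
          _ = _ := by field_simp
      have b8 : C * c * (ε / K) ^ (n + 2) * hs (n + 2) 1 u ≤ c / (4 * K ^ (n + 1)) * H := by
        calc _ = C * c / K ^ (n + 2) * (ε ^ (n + 2) * hs (n + 2) 1 u) := by rw [div_pow]; ring
          _ ≤ c / (4 * K ^ (n + 1)) * H := by
            refine mul_le_mul ?_ b5 (mul_nonneg (by positivity) (hs_nonneg _ zero_le_one u)) (by positivity)
            rw [div_le_div_iff₀ (by positivity) (by positivity), pow_succ K (n + 1)]
            have : 0 ≤ c * K ^ (n + 1) := by positivity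
            nlinarith
      refine b1.trans ((add_le_add b7 b8).trans (le_of_eq ?_))
      field_simp
      ring)
  refine ⟨n + 2, 2 * (C * C₂ * K), by omega, by positivity, ?_⟩
  filter_upwards [Ioo_mem_nhdsGT (lt_min hε₁ one_pos)] with ε hε
  have := key ε hε
  rwa [abs_of_pos hε.1] at this

end Atl
end Crest.Agent.R240
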