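import Crest.Agent.R240.E1
import Crest.Agent.R240.T2

/-! Block E2: the mass bound on average; `T` is an `L²` current. -/

set_option autoImplicit false
set_option maxSynthPendingDepth 3
set_option linter.unusedSectionVars false
set_option linter.unusedVariables false
open MeasureTheory Filter Set Metric
open scoped ENNReal NNReal Topology ContDiff InnerProductSpace InnerProduct

noncomputable section
namespace Crest.Agent.R240

namespace Atl
variable {M F ι : Type*} [MetricSpace M] [CompactSpace M] [NormedAddCommGroup F] [InnerProductSpace ℝ F]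
  [FiniteDimensional ℝ F] [Fintype ι] (A : Atl M F ι)
  {G G' : Type*} [NormedAddCommGroup G] [NormedSpace ℝ G] [FiniteDimensional ℝ G]
  [NormedAddCommGroup G'] [NormedSpace ℝ G'] [FiniteDimensional ℝ G']
  [MeasurableSpace M] [BorelSpace M] [MeasurableSpace F] [BorelSpace F]

variable {A} {lam : Measure (M × F)} {P T : Cur M F} {n : ℕ}

theorem Sit.dk_eq (h : A.Sit lam P T n) : ∀ᶠ r in 𝓝[>] (0 : ℝ), ∀ x, P (A.dk r x) = -T (A.dk r x) := by
  filter_upwards [A.cl_dk] with r h1 x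
  have := h1 _ h.ex.cl x
  rw [LinearMap.add_apply] at this
  linarith

/-- `gronwall_delay` with `m = mm μ μ`, `h r = ∫ P (nk r x) dμ`, `h' = deriv h`; `nu_bounds` integrated (`mm_eq`, `dnu_eq` for continuity), `nu_deriv`,
`gm_props`, `Sit.dk_eq`, `T_dk_meas` with the constant of `Sit.AB_main`: `|∫ T (dk r x) dμ| ≤ C mm (C r) ≤ C r⁻¹ mm (C r)`. -/
theorem Sit.mm_le (h : A.Sit lam P T n) : ∃ C : ℝ, 0 ≤ C ∧ ∀ r, 0 < r → mm lam.fst lam.fst r ≤ C * r ^ 2 := by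
  haveI := h.hP.1
  obtain ⟨c, C₁, hc, hc1, hC₁, h1⟩ := A.nu_bounds
  obtain ⟨C₂, hC₂, h2⟩ := A.nu_deriv
  obtain ⟨s, C₄, -, hC₄, h4⟩ := h.AB_main
  obtain ⟨C₃, hC₃, h3⟩ := A.T_dk_meas s
  obtain ⟨r₀, hr₀, hsub⟩ := mem_nhdsGT_iff_exists_Ioo_subset.1
    (((h1.and h2).and (h3.and h4)).and ((A.gm_props.and h.dk_eq).and (A.dnu_eq.and (Ioc_mem_nhdsGT one_pos))))
  obtain ⟨hmono, hbd⟩ := mm_mono lam.fst lam.fst
  have h34 : 0 ≤ C₃ * C₄ := by positivity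
  obtain ⟨C', hC'⟩ := gronwall_delay (C := C₁ + C₂ + C₃ + C₃ * C₄) hc hc1 (by linarith) (mem_Ioi.1 hr₀)
    (B := lam.fst.real univ * lam.fst.real univ) (by positivity)
  refine ⟨max C' 0, le_max_right _ _, fun r hr => ?_⟩
  refine (hC' (mm lam.fst lam.fst) (fun r => ∫ x, P (A.nk r x) ∂lam.fst)
    (deriv fun r => ∫ x, P (A.nk r x) ∂lam.fst) hmono hbd (fun t ht => ?_) r hr).trans
    (mul_le_mul_of_nonneg_right (le_max_left _ _) (sq_nonneg _))
  obtain ⟨⟨⟨e1, e2⟩, e3, e4⟩, ⟨e5, e6⟩, e7, e8⟩ := hsub ht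
  have ht0 := ht.1
  set K := C₁ + C₂ + C₃ + C₃ * C₄ with hK
  have hi : Integrable (fun x => P (A.nk t x)) lam.fst :=
    integrable_of_ae_compact isCompact_univ (by simp) (e7 P h.hP.bdd).1.continuous
  have mono : ∀ C : ℝ, C ≤ K → mm lam.fst lam.fst (C * t) ≤ mm lam.fst lam.fst (K * t) :=
    fun C hC => hmono (mul_le_mul_of_nonneg_right hC ht0.le)
  have hint : ∀ a : ℝ, Integrable (fun x => a * lam.fst.real (closedBall x (a * t)) / t ^ 2) lam.fst ∧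
      ∫ x, a * lam.fst.real (closedBall x (a * t)) / t ^ 2 ∂lam.fst = a * mm lam.fst lam.fst (a * t) / t ^ 2 := by
    intro a
    obtain ⟨-, m2, m3, -⟩ := mm_eq lam.fst lam.fst (a * t)
    exact ⟨(m2.const_mul a).div_const _, by rw [integral_div, integral_const_mul, m3]⟩
  obtain ⟨d1, d2⟩ := e2 lam P h.hP lam.fst
  have n1 := (hbd (K * t)).1
  refine ⟨d1.hasDerivAt, ?_, ?_, ?_⟩
  · rw [← (hint c).2]
    exact integral_mono (hint c).1 hi fun x => (e1 lam P h.hP x).1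
  · refine (integral_mono hi (hint C₁).1 fun x => (e1 lam P h.hP x).2).trans ?_
    rw [(hint C₁).2]
    exact div_le_div_of_nonneg_right (mul_le_mul (by linarith) (mono _ (by linarith)) (hbd _).1 (by linarith))
      (sq_nonneg _)
  · have g0 : 0 ≤ ∫ x, A.gm lam t x ∂lam.fst := integral_nonneg (e5 lam P h.hP).2
    have b0 := e3 T n _ h.hT (by positivity) e4 lam.fst
    have b1 : Real.sqrt (mm lam.fst lam.fst t) * Real.sqrt (mm lam.fst lam.fst (C₃ * t)) ≤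
        mm lam.fst lam.fst (K * t) := by
      have a1 := mono 1 (by linarith)
      rw [one_mul] at a1
      calc _ ≤ Real.sqrt (mm lam.fst lam.fst (K * t)) * Real.sqrt (mm lam.fst lam.fst (K * t)) :=
            mul_le_mul (Real.sqrt_le_sqrt a1) (Real.sqrt_le_sqrt (mono _ (by linarith))) (Real.sqrt_nonneg _)
              (Real.sqrt_nonneg _)
        _ = _ := Real.mul_self_sqrt n1
    have hinv : 1 ≤ t⁻¹ := one_le_inv_iff₀.2 ⟨ht0, e8.2⟩
    have b2 : ∫ x, P (A.dk t x) ∂lam.fst ≤ C₃ * C₄ * t⁻¹ * mm lam.fst lam.fst (K * t) := by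
      simp only [e6, integral_neg]
      refine (neg_le_abs _).trans (b0.trans ?_)
      calc C₃ * (C₄ * (t⁻¹ * Real.sqrt (mm lam.fst lam.fst t))) * t * Real.sqrt (mm lam.fst lam.fst (C₃ * t))
          = C₃ * C₄ * (Real.sqrt (mm lam.fst lam.fst t) * Real.sqrt (mm lam.fst lam.fst (C₃ * t))) := by
            field_simp
        _ ≤ C₃ * C₄ * mm lam.fst lam.fst (K * t) := mul_le_mul_of_nonneg_left b1 h34
        _ ≤ _ := by nlinarith [mul_nonneg h34 n1]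
    have b3 : C₂ * t⁻¹ * mm lam.fst lam.fst (C₂ * t) ≤ C₂ * t⁻¹ * mm lam.fst lam.fst (K * t) :=
      mul_le_mul_of_nonneg_left (mono _ (by linarith)) (by positivity)
    refine le_of_mul_le_mul_left ?_ ht0
    have e : t * (-(K * mm lam.fst lam.fst (K * t) / t ^ 2) - K) =
        -(K * t⁻¹ * mm lam.fst lam.fst (K * t)) - K * t := by
      field_simp
    rw [e]
    have b4 : 0 ≤ t⁻¹ * mm lam.fst lam.fst (K * t) := by positivity
    have b5 : 0 ≤ K * t := by positivity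
    nlinarith

theorem Sit.AB_unif (h : A.Sit lam P T n) : ∃ (s : ℕ) (C : ℝ), 1 ≤ s ∧ 0 ≤ C ∧ ∀ᶠ ε in 𝓝[>] (0 : ℝ), A.AB T s ε C := by
  obtain ⟨s, C, hs, hC, h1⟩ := h.AB_main
  obtain ⟨C', hC', h2⟩ := h.mm_le
  refine ⟨s, C * Real.sqrt C', hs, by positivity, ?_⟩
  filter_upwards [h1, self_mem_nhdsWithin] with ε e1 hε k u hu
  have hε0 : 0 < ε := hε
  refine (e1 k u hu).trans (mul_le_mul_of_nonneg_right (mul_le_mul_of_nonneg_left ?_ hC) (hs_nonneg _ hε0.le _))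
  rw [inv_mul_le_iff₀ hε0]
  refine (Real.sqrt_le_sqrt (h2 ε hε0)).trans (le_of_eq ?_)
  rw [Real.sqrt_mul hC', Real.sqrt_sq hε0.le, mul_comm]

/-- For `Tst 1 u`: `|T (ext k u)| ≤ C ‖u‖₂` (`hs_tendsto`); `exists_L2_rep`, `exists_dom`, `τ = ∑ τ_k`,
`T b = T (pM b) = ∑ k, T (ext k (lcz k (pM b)))` (`sum_ext_lcz`). -/
theorem Sit.exists_TL (h : A.Sit lam P T n) : ∃ τ, A.TL T τ := by
  haveI := A.vol_finite
  obtain ⟨s, C, hs, hC, h1⟩ := h.AB_unif
  have key : ∀ k, ∃ τ : M → ℝ, Measurable τ ∧ (∀ x, 0 ≤ τ x) ∧ MemLp τ 2 A.vol ∧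
      ∀ f : M → Bil F, A.Sm f → |T (A.ext k (A.lcz k f))| ≤ ∫ x, τ x * ‖f x‖ ∂A.vol := by
    intro k
    obtain ⟨t, ht, ht'⟩ := exists_L2_rep (ρ := 1) (C := C) (T := T ∘ₗ A.ext (G := Bil F) k) fun u hu => by
      refine ge_of_tendsto ((hs_tendsto s u).const_mul C) ?_
      filter_upwards [h1, Ioc_mem_nhdsGT one_pos] with ε e1 hε
      exact e1 k u (hu.mono (by linarith [hε.2]))
    obtain ⟨τ, m1, m2, m3, m4⟩ := A.exists_dom k ht
    refine ⟨τ, m1, m2, m3, fun f hf => ?_⟩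
    have := ht' _ (hf.lcz k)
    rw [LinearMap.comp_apply] at this
    rw [this]
    exact m4 f hf.continuous
  choose τ m1 m2 m3 m4 using key
  refine ⟨fun x => ∑ k, τ k x, Finset.measurable_fun_sum _ fun k _ => m1 k,
    fun x => Finset.sum_nonneg fun k _ => m2 k x, memLp_finsetSum _ fun k _ => m3 k, fun b hb => ?_⟩
  have hpm : A.Sm fun x => A.pM x (b x) := A.sm_basic.2.2.2.2.2.1.app hb
  obtain ⟨D, -, hD⟩ := hpm.bdd
  rw [h.hT.1 b, ← A.sum_ext_lcz fun x => A.pM x (b x), map_sum]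
  refine (Finset.abs_sum_le_sum_abs _ _).trans ((Finset.sum_le_sum fun k _ => m4 k _ hpm).trans (le_of_eq ?_))
  simp only [Finset.sum_mul]
  rw [integral_finsetSum]
  intro k _
  exact ((m3 k).integrable one_le_two).mul_bdd (c := D) hpm.continuous.norm.aestronglyMeasurable
    (Eventually.of_forall fun x => by simpa using hD x)

theorem e2_scale {a : ℝ} (ha : 0 < a) : Tendsto (fun r : ℝ => a * r) (𝓝[>] 0) (𝓝[>] 0) := by
  refine tendsto_nhdsWithin_iff.2 ⟨?_, ?_⟩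
  · have : Tendsto (fun r : ℝ => a * r) (𝓝 0) (𝓝 (a * 0)) := Continuous.tendsto (by fun_prop) 0
    rw [mul_zero] at this
    exact this.mono_left nhdsWithin_le_nhds
  · filter_upwards [self_mem_nhdsWithin] with r hr
    exact mul_pos ha hr

/-- `Sit.master` at scale `δ = C₀ r / c₀`. -/
theorem Sit.angE_le (h : A.Sit lam P T n) {C₀ : ℝ} (hC : 0 < C₀) : ∃ C : ℝ, 0 ≤ C ∧ ∀ᶠ r in 𝓝[>] (0 : ℝ),
    A.angE lam lam (C₀ * r) ≤ C * r ^ 4 := by
  obtain ⟨s, c, hs, hc, h1⟩ := h.AB_unif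
  obtain ⟨c₀, C₁, hc₀, hC₁, h2⟩ := h.master s
  obtain ⟨C₄, hC₄, h4⟩ := h.mm_le
  set q := Real.sqrt C₄ * C₁ with hq
  have hq0 : 0 ≤ q := by positivity
  refine ⟨c₀⁻¹ * (C₀ / c₀) ^ 4 * (C₁ * (q ^ 2 + q * c + c ^ 2)), by positivity, ?_⟩
  filter_upwards [(e2_scale (div_pos hC hc₀)).eventually ((h1.and h2).and (Ioc_mem_nhdsGT one_pos)),
    self_mem_nhdsWithin] with r e hr
  have hr0 : 0 < r := hr
  obtain ⟨⟨e1, e2⟩, e3⟩ := e
  set δ := C₀ / c₀ * r with hδ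
  have hδ0 : 0 < δ := e3.1
  have e4 := e2 c _ hc e1 rfl
  set p := δ⁻¹ * Real.sqrt (mm lam.fst lam.fst (C₁ * δ)) with hp
  have hp0 : 0 ≤ p := by positivity
  have hpq : p ≤ q := by
    rw [hp, inv_mul_le_iff₀ hδ0]
    refine (Real.sqrt_le_sqrt (h4 _ (by positivity))).trans (le_of_eq ?_)
    rw [Real.sqrt_mul hC₄, Real.sqrt_sq (by positivity), hq]
    ring
  have e5 : c₀ * δ = C₀ * r := by rw [hδ]; field_simp
  rw [e5] at e4
  have e6 : c₀ * (δ ^ 4)⁻¹ * A.angE lam lam (C₀ * r) ≤ C₁ * (q ^ 2 + q * c + c ^ 2) := by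
    refine le_trans (le_add_of_nonneg_left (sq_nonneg _)) (e4.trans ?_)
    have : δ ^ 2 ≤ 1 := pow_le_one₀ hδ0.le e3.2
    have : δ ^ 2 * c ^ 2 ≤ c ^ 2 := mul_le_of_le_one_left (sq_nonneg _) this
    gcongr
  calc A.angE lam lam (C₀ * r) = c₀⁻¹ * δ ^ 4 * (c₀ * (δ ^ 4)⁻¹ * A.angE lam lam (C₀ * r)) := by field_simp
    _ ≤ c₀⁻¹ * δ ^ 4 * (C₁ * (q ^ 2 + q * c + c ^ 2)) := mul_le_mul_of_nonneg_left e6 (by positivity)
    _ = _ := by rw [hδ]; ring

end Atl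
end Crest.Agent.R240
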