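import Crest.Agent.R240.E2

/-! Block F1: pointwise monotonicity and the density. -/

set_option autoImplicit false
set_option maxSynthPendingDepth 3
set_option linter.unusedSectionVars false
set_option linter.unusedVariables false
open MeasureTheory Filter Set Metric
open scoped ENNReal NNReal Topology ContDiff InnerProductSpace InnerProduct

noncomputable section
namespace Crest.Agent.R240

namespace Atl
variable {M F ι : Type*} [MetricSpace M] [CompactSpace M] [NormedAddCommGroup F] [InnerProductSpace ℝ F]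
  [FiniteDimensional ℝ F] [Fintype ι] (A : Atl M F ι)
  {G G' : Type*} [NormedAddCommGroup G] [NormedSpace ℝ G] [FiniteDimensional ℝ G]
  [NormedAddCommGroup G'] [NormedSpace ℝ G'] [FiniteDimensional ℝ G']
  [MeasurableSpace M] [BorelSpace M] [MeasurableSpace F] [BorelSpace F]

/-- `ν` is the density of `P`. -/
def IsNu (P : Cur M F) (ν : M → ℝ) : Prop :=
  Measurable ν ∧ (∀ x, 0 ≤ ν x) ∧ ∀ x, Tendsto (fun r => P (A.nk r x)) (𝓝[>] 0) (𝓝 (ν x))

variable {A} {lam : Measure (M × F)} {P T : Cur M F} {n : ℕ} {τ ν : M → ℝ}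

theorem TL.integrable (h : A.TL T τ) : Integrable τ A.vol := by
  haveI := A.vol_finite
  exact h.2.2.1.integrable one_le_two

theorem TL.ker_le (h : A.TL T τ) {b : M → Bil F} (hb : A.Sm b) {x : M} {r B : ℝ} (hB : 0 ≤ B)
    (h1 : ∀ y, ‖A.pM y (b y)‖ ≤ B) (h0 : ∀ y, r < dist x y → b y = 0) :
    |T b| ≤ B * ∫ y in closedBall x r, τ y ∂A.vol := by
  refine (h.2.2.2 b hb).trans ?_
  rw [← integral_const_mul, ← integral_indicator measurableSet_closedBall]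
  refine integral_mono_of_nonneg
    (Eventually.of_forall fun y => mul_nonneg (h.2.1 y) (norm_nonneg _))
    ((h.integrable.const_mul B).indicator measurableSet_closedBall) (Eventually.of_forall fun y => ?_)
  by_cases hy : y ∈ closedBall x r
  · simp only [indicator_of_mem hy]
    rw [mul_comm]
    exact mul_le_mul_of_nonneg_right (h1 y) (h.2.1 y)
  · simp only [indicator_of_notMem hy]
    rw [h0 y (by rwa [mem_closedBall', not_le] at hy)]
    simp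

/-- `TL.ker_le`, `ker_bound`, `near_ker`, `avg_le`. -/
theorem TL.nk_le (h : A.TL T τ) : ∃ C : ℝ, 1 ≤ C ∧ ∀ᶠ r in 𝓝[>] (0 : ℝ), ∀ x,
    |T (A.nk r x)| ≤ C * r ∧ |T (A.dk r x)| ≤ C * r := by
  haveI := A.vol_finite
  obtain ⟨C₁, hC₁, h1⟩ := A.ker_bound
  obtain ⟨C₂, hC₂, h2⟩ := A.near_ker
  obtain ⟨c, hc, h3⟩ := A.vol_ball_le
  have hN : 0 ≤ lpNorm τ 2 A.vol := lpNorm_nonneg
  refine ⟨1 + C₁ * (Real.sqrt c * C₂ ^ 2 * lpNorm τ 2 A.vol), le_add_of_nonneg_right (by positivity), ?_⟩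
  filter_upwards [A.sm2_ker, Ioc_mem_nhdsGT one_pos] with r hs hr x
  have hr0 := hr.1
  have ha := (avg_le hc h3 h.2.1 h.2.2.1 x (r := C₂ * r) (by positivity)).2
  have key : ∀ b : M → Bil F, A.Sm b → (∀ y, ‖A.pM y (b y)‖ ≤ C₁ * r⁻¹) →
      (∀ y, C₂ * r < dist x y → b y = 0) →
      |T b| ≤ (1 + C₁ * (Real.sqrt c * C₂ ^ 2 * lpNorm τ 2 A.vol)) * r := by
    intro b hb e1 e2
    refine (h.ker_le hb (by positivity) e1 e2).trans ?_
    calc C₁ * r⁻¹ * ∫ y in closedBall x (C₂ * r), τ y ∂A.vol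
        ≤ C₁ * r⁻¹ * (Real.sqrt c * (C₂ * r) ^ 2 * lpNorm τ 2 A.vol) :=
          mul_le_mul_of_nonneg_left ha (by positivity)
      _ = C₁ * (Real.sqrt c * C₂ ^ 2 * lpNorm τ 2 A.vol) * r := by field_simp
      _ ≤ _ := by nlinarith
  exact ⟨key _ (hs.2.1.right x) (fun y => (h1 r hr x y).2.2.2.1) ((h2 r hr0).2.1 x),
    key _ (hs.2.2.1.right x) (fun y => (h1 r hr x y).2.2.2.2.1) ((h2 r hr0).2.2.1 x)⟩

theorem f1_deriv (h : A.Sit lam P T n) : ∃ C : ℝ, 1 ≤ C ∧ ∀ᶠ r in 𝓝[>] (0 : ℝ), ∀ x,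
    HasDerivAt (fun r => P (A.nk r x)) (deriv (fun r => P (A.nk r x)) r) r ∧
      -(C * lam.fst.real (closedBall x (C * r)) / r ^ 2) - C ≤ deriv (fun r => P (A.nk r x)) r := by
  haveI := h.hP.1
  obtain ⟨τ, hτ⟩ := h.exists_TL
  obtain ⟨C₂, hC₂, h2⟩ := A.nu_deriv
  obtain ⟨C₃, hC₃, h3⟩ := hτ.nk_le
  refine ⟨C₂ + C₃, by linarith, ?_⟩
  filter_upwards [h2, h3, A.gm_props, h.dk_eq, self_mem_nhdsWithin] with r e2 e3 e4 e5 hr x
  have hr0 : 0 < r := hr
  obtain ⟨d1, d2⟩ := e2 lam P h.hP (Measure.dirac x)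
  simp only [integral_dirac] at d1 d2
  rw [(mm_eq (Measure.dirac x) lam.fst (C₂ * r)).2.2.1, integral_dirac, e5 x] at d2
  refine ⟨d1.hasDerivAt, ?_⟩
  have g0 := (e4 lam P h.hP).2 x
  have t0 := (abs_le.1 (e3 x).2).1
  have m0 : 0 ≤ lam.fst.real (closedBall x (C₂ * r)) := measureReal_nonneg
  have m1 : lam.fst.real (closedBall x (C₂ * r)) ≤ lam.fst.real (closedBall x ((C₂ + C₃) * r)) :=
    measureReal_mono (closedBall_subset_closedBall (by nlinarith))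
  refine le_of_mul_le_mul_left ?_ hr0
  have e : r * (-((C₂ + C₃) * lam.fst.real (closedBall x ((C₂ + C₃) * r)) / r ^ 2) - (C₂ + C₃)) =
      -((C₂ + C₃) * r⁻¹ * lam.fst.real (closedBall x ((C₂ + C₃) * r))) - (C₂ + C₃) * r := by
    field_simp
  rw [e]
  have m2 : C₂ * r⁻¹ * lam.fst.real (closedBall x (C₂ * r)) ≤
      (C₂ + C₃) * r⁻¹ * lam.fst.real (closedBall x ((C₂ + C₃) * r)) := by
    gcongr
    linarith
  nlinarith

/-- `gronwall_delay` (its constant does not depend on `x`) with `m r = μ.real (closedBall x r)`, `h r = P (nk r x)`; `nu_deriv` with `ϖ = dirac x`. -/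
theorem Sit.mu_ball (h : A.Sit lam P T n) : ∃ C : ℝ, 0 ≤ C ∧ ∀ x r, 0 < r →
    lam.fst.real (closedBall x r) ≤ C * r ^ 2 := by
  haveI := h.hP.1
  obtain ⟨c, C₁, hc, hc1, hC₁, h1⟩ := A.nu_bounds
  obtain ⟨C₂, hC₂, h2⟩ := f1_deriv h
  obtain ⟨r₀, hr₀, hsub⟩ := mem_nhdsGT_iff_exists_Ioo_subset.1 (h1.and h2)
  obtain ⟨C', hC'⟩ := gronwall_delay (C := C₁ + C₂) hc hc1 (by linarith) (mem_Ioi.1 hr₀)
    (B := lam.fst.real univ) measureReal_nonneg
  refine ⟨max C' 0, le_max_right _ _, fun x r hr => ?_⟩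
  refine (hC' (fun r => lam.fst.real (closedBall x r)) (fun r => P (A.nk r x))
    (deriv fun r => P (A.nk r x)) (fun a b hab => measureReal_mono (closedBall_subset_closedBall hab))
    (fun r => ⟨measureReal_nonneg, measureReal_mono (subset_univ _)⟩) (fun s hs => ?_) r hr).trans
    (mul_le_mul_of_nonneg_right (le_max_left _ _) (sq_nonneg _))
  obtain ⟨e1, e2⟩ := hsub hs
  have hs0 := hs.1
  have mono : ∀ C : ℝ, 0 ≤ C → C ≤ C₁ + C₂ → C * lam.fst.real (closedBall x (C * s)) / s ^ 2 ≤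
      (C₁ + C₂) * lam.fst.real (closedBall x ((C₁ + C₂) * s)) / s ^ 2 := by
    intro C h0 hC
    have m1 : lam.fst.real (closedBall x (C * s)) ≤ lam.fst.real (closedBall x ((C₁ + C₂) * s)) :=
      measureReal_mono (closedBall_subset_closedBall (by nlinarith))
    have m0 : 0 ≤ lam.fst.real (closedBall x (C * s)) := measureReal_nonneg
    exact div_le_div_of_nonneg_right (mul_le_mul hC m1 m0 (by linarith)) (sq_nonneg _)
  refine ⟨(e2 x).1, (e1 lam P h.hP x).1, (e1 lam P h.hP x).2.trans (mono _ (by linarith) (by linarith)), ?_⟩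
  have := mono C₂ (by linarith) (by linarith)
  linarith [(e2 x).2]

theorem Sit.nu_le (h : A.Sit lam P T n) : ∃ C : ℝ, 0 ≤ C ∧ ∀ᶠ r in 𝓝[>] (0 : ℝ),
    Continuous (fun x => P (A.nk r x)) ∧ ∀ x, 0 ≤ P (A.nk r x) ∧ P (A.nk r x) ≤ C := by
  obtain ⟨c, C₁, hc, hc1, hC₁, h1⟩ := A.nu_bounds
  obtain ⟨C₂, hC₂, h2⟩ := h.mu_ball
  refine ⟨C₁ * (C₂ * C₁ ^ 2), by positivity, ?_⟩
  filter_upwards [h1, A.dnu_eq, self_mem_nhdsWithin] with r e1 e2 hr
  have hr0 : 0 < r := hr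
  refine ⟨(e2 P h.hP.bdd).1.continuous, fun x => ⟨le_trans ?_ (e1 lam P h.hP x).1, (e1 lam P h.hP x).2.trans ?_⟩⟩
  · have : 0 ≤ lam.fst.real (closedBall x (c * r)) := measureReal_nonneg
    positivity
  · rw [div_le_iff₀ (by positivity)]
    calc C₁ * lam.fst.real (closedBall x (C₁ * r)) ≤ C₁ * (C₂ * (C₁ * r) ^ 2) :=
          mul_le_mul_of_nonneg_left (h2 x _ (by positivity)) (by linarith)
      _ = _ := by ring

/-- `exists_limit_of_deriv`; measurability as a limit along `r_j = r₀ / (j + 2)` (`measurable_of_tendsto_metrizable`). -/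
theorem Sit.exists_nu (h : A.Sit lam P T n) : ∃ ν, A.IsNu P ν := by
  obtain ⟨C₁, hC₁, h1⟩ := f1_deriv h
  obtain ⟨C₂, hC₂, h2⟩ := h.mu_ball
  obtain ⟨C₃, hC₃, h3⟩ := h.nu_le
  obtain ⟨r₀, hr₀, hsub⟩ := mem_nhdsGT_iff_exists_Ioo_subset.1 (h1.and h3)
  have key : ∀ x, ∃ l, 0 ≤ l ∧ Tendsto (fun r => P (A.nk r x)) (𝓝[>] 0) (𝓝 l) := by
    intro x
    refine exists_limit_of_deriv (h' := deriv fun r => P (A.nk r x)) (C := C₁ * (C₂ * C₁ ^ 2) + C₁)
      (mem_Ioi.1 hr₀) fun r hr => ?_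
    obtain ⟨e1, e2⟩ := hsub hr
    have hr0 := hr.1
    refine ⟨(e1 x).1, (e2.2 x).1, le_trans ?_ (e1 x).2⟩
    have : C₁ * lam.fst.real (closedBall x (C₁ * r)) / r ^ 2 ≤ C₁ * (C₂ * C₁ ^ 2) := by
      rw [div_le_iff₀ (by positivity)]
      calc C₁ * lam.fst.real (closedBall x (C₁ * r)) ≤ C₁ * (C₂ * (C₁ * r) ^ 2) :=
            mul_le_mul_of_nonneg_left (h2 x _ (by positivity)) (by linarith)
        _ = _ := by ring
    linarith
  choose ν h0 hν using key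
  refine ⟨ν, ?_, h0, hν⟩
  obtain ⟨u, hu, hu'⟩ := exists_seq_forall_of_frequently h3.frequently
  exact measurable_of_tendsto_metrizable (f := fun j x => P (A.nk (u j) x))
    (fun j => (hu' j).1.measurable) (tendsto_pi_nhds.2 fun x => (hν x).comp hu)

theorem f1_tendsto (h : A.Sit lam P T n) (hν : A.IsNu P ν) (ϖ : Measure M) [IsFiniteMeasure ϖ] :
    Integrable ν ϖ ∧ Tendsto (fun r => ∫ x, P (A.nk r x) ∂ϖ) (𝓝[>] 0) (𝓝 (∫ x, ν x ∂ϖ)) := by
  obtain ⟨C, hC, h1⟩ := h.nu_le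
  constructor
  · refine Integrable.of_bound hν.1.aestronglyMeasurable C (Eventually.of_forall fun x => ?_)
    rw [Real.norm_of_nonneg (hν.2.1 x)]
    exact le_of_tendsto (hν.2.2 x) (h1.mono fun r hr => (hr.2 x).2)
  · refine tendsto_integral_filter_of_dominated_convergence (fun _ => C)
      (h1.mono fun r hr => hr.1.aestronglyMeasurable)
      (h1.mono fun r hr => Eventually.of_forall fun x => ?_) (integrable_const _)
      (Eventually.of_forall hν.2.2)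
    rw [Real.norm_of_nonneg (hr.2 x).1]
    exact (hr.2 x).2

/-- `∫ ν_r dvol ≤ C r⁻² mm vol μ (C r) ≤ C r²` (`mm_eq`, `vol_ball_le`), dominated convergence. -/
theorem Sit.nu_ae (h : A.Sit lam P T n) (hν : A.IsNu P ν) : ∀ᵐ x ∂A.vol, ν x = 0 := by
  haveI := h.hP.1
  haveI := A.vol_finite
  obtain ⟨hi, ht⟩ := f1_tendsto h hν A.vol
  obtain ⟨c, C₁, hc, hc1, hC₁, h1⟩ := A.nu_bounds
  obtain ⟨C₃, hC₃, h3⟩ := h.nu_le
  obtain ⟨v, hv, h4⟩ := A.vol_ball_le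
  have h0 : ∫ x, ν x ∂A.vol ≤ 0 := by
    have hlim : Tendsto (fun r : ℝ => C₁ * (v * C₁ ^ 4 * lam.fst.real univ) * r ^ 2) (𝓝[>] 0) (𝓝 0) := by
      have : Tendsto (fun r : ℝ => C₁ * (v * C₁ ^ 4 * lam.fst.real univ) * r ^ 2) (𝓝 0)
          (𝓝 (C₁ * (v * C₁ ^ 4 * lam.fst.real univ) * 0 ^ 2)) :=
        Continuous.tendsto (by fun_prop) 0
      simpa using this.mono_left nhdsWithin_le_nhds
    refine le_of_tendsto_of_tendsto ht hlim ?_
    filter_upwards [h1, h3, self_mem_nhdsWithin] with r e1 e3 hr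
    have hr0 : 0 < r := hr
    obtain ⟨-, m2, m3, m4⟩ := mm_eq A.vol lam.fst (C₁ * r)
    obtain ⟨-, -, m5, -⟩ := mm_eq lam.fst A.vol (C₁ * r)
    have b1 : mm lam.fst A.vol (C₁ * r) ≤ v * (C₁ * r) ^ 4 * lam.fst.real univ := by
      rw [m5]
      refine (Real.le_norm_self _).trans (norm_integral_le_of_norm_le_const (μ := lam.fst)
        (Eventually.of_forall fun x => ?_))
      rw [Real.norm_of_nonneg measureReal_nonneg]
      exact ENNReal.toReal_le_of_le_ofReal (by positivity) (h4 x _ (by positivity))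
    calc ∫ x, P (A.nk r x) ∂A.vol ≤ ∫ x, C₁ / r ^ 2 * lam.fst.real (closedBall x (C₁ * r)) ∂A.vol := by
          refine integral_mono_of_nonneg (Eventually.of_forall fun x => (e3.2 x).1) (m2.const_mul _)
            (Eventually.of_forall fun x => (e1 lam P h.hP x).2.trans (le_of_eq ?_))
          simp only []
          ring
      _ = C₁ / r ^ 2 * mm lam.fst A.vol (C₁ * r) := by rw [integral_const_mul, ← m3, m4]
      _ ≤ C₁ / r ^ 2 * (v * (C₁ * r) ^ 4 * lam.fst.real univ) :=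
          mul_le_mul_of_nonneg_left b1 (by positivity)
      _ = _ := by field_simp
  exact (integral_eq_zero_iff_of_nonneg hν.2.1 hi).1 (le_antisymm h0 (integral_nonneg hν.2.1))

/-- `exists_seq_small` with `h r = ∫ P (nk r x) dμ → ∫ ν dμ` (dominated convergence), `nu_deriv`, `TL.nk_le`, `Sit.mm_le`. -/
theorem Sit.exists_seq (h : A.Sit lam P T n) :
    ∃ r : ℕ → ℝ, Tendsto r atTop (𝓝[>] 0) ∧ Tendsto (fun j => ∫ x, A.gm lam (r j) x ∂lam.fst) atTop (𝓝 0) := by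
  haveI := h.hP.1
  obtain ⟨ν, hν⟩ := h.exists_nu
  obtain ⟨τ, hτ⟩ := h.exists_TL
  obtain ⟨C₂, hC₂, h2⟩ := A.nu_deriv
  obtain ⟨C₃, hC₃, h3⟩ := hτ.nk_le
  obtain ⟨C₄, hC₄, h4⟩ := h.mm_le
  obtain ⟨r₀, hr₀, hsub⟩ := mem_nhdsGT_iff_exists_Ioo_subset.1 ((h2.and h3).and (A.gm_props.and h.dk_eq))
  refine exists_seq_small (h := fun r => ∫ x, P (A.nk r x) ∂lam.fst)
    (h' := deriv fun r => ∫ x, P (A.nk r x) ∂lam.fst) (γ := fun r => ∫ x, A.gm lam r x ∂lam.fst)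
    (C := C₃ * lam.fst.real univ + C₂ * (C₄ * C₂ ^ 2)) (mem_Ioi.1 hr₀) (fun r hr => ?_)
    (f1_tendsto h hν lam.fst).2
  obtain ⟨⟨e2, e3⟩, e4, e5⟩ := hsub hr
  have hr0 := hr.1
  obtain ⟨d1, d2⟩ := e2 lam P h.hP lam.fst
  refine ⟨d1.hasDerivAt, integral_nonneg (e4 lam P h.hP).2, le_trans ?_ d2⟩
  have b1 : ∫ x, P (A.dk r x) ∂lam.fst ≤ C₃ * r * lam.fst.real univ := by
    refine (Real.le_norm_self _).trans (norm_integral_le_of_norm_le_const (μ := lam.fst)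
      (Eventually.of_forall fun x => ?_))
    rw [e5 x, norm_neg]
    exact (e3 x).2
  have b2 : C₂ * r⁻¹ * mm lam.fst lam.fst (C₂ * r) ≤ C₂ * (C₄ * C₂ ^ 2) * r :=
    calc _ ≤ C₂ * r⁻¹ * (C₄ * (C₂ * r) ^ 2) :=
          mul_le_mul_of_nonneg_left (h4 _ (by positivity)) (by positivity)
      _ = _ := by field_simp
  nlinarith

end Atl
end Crest.Agent.R240
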