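import Crest.Agent.R240.F1

/-! Block G1: the derivative of the regularised density is small along the current. -/

set_option autoImplicit false
set_option maxSynthPendingDepth 3
set_option linter.unusedSectionVars false
set_option linter.unusedVariables false
open MeasureTheory Filter Set Metric
open scoped ENNReal NNReal Topology ContDiff InnerProductSpace InnerProduct

noncomputable section
namespace Crest.Agent.R240

namespace Atl
variable {M F ι : Type*} [MetricSpace M] [CompactSpace M] [NormedAddCommGroup F] [InnerProductSpace ℝ F]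
  [FiniteDimensional ℝ F] [Fintype ι] (A : Atl M F ι)
  {G G' : Type*} [NormedAddCommGroup G] [NormedSpace ℝ G] [FiniteDimensional ℝ G]
  [NormedAddCommGroup G'] [NormedSpace ℝ G'] [FiniteDimensional ℝ G']
  [MeasurableSpace M] [BorelSpace M] [MeasurableSpace F] [BorelSpace F]

/-- `Xi_bound` with `z = sv`, `u = Ah a`, `b = Bh w'`, `e = Bh (J w') - J b`; `ang u b ≤ C (ang w w' + r)` for `a = w` and `a = J w`
(`ang_le_add`, `ang_comm`, `ang_J`), `‖e‖, ‖z‖ ≤ C r` on the support. -/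
theorem hk_pt : ∃ C : ℝ, 1 ≤ C ∧ ∀ᶠ r in 𝓝[>] (0 : ℝ), ∀ q ∈ A.SM, ∀ q' ∈ A.SM, ∀ a, a = q.2 ∨ a = A.J q.2 →
    |A.hk r q.1 q'.1 a q'.2 (A.J q'.2)| ≤ C * ((r ^ 4)⁻¹ * A.cf f0 r q.1 q'.1) *
      (A.ang (A.sv q.1 q'.1) (A.Bh q.1 q'.1 q'.2) * (A.ang q.2 q'.2 + r) + r ^ 2 * (A.ang q.2 q'.2 + r)) := by
  obtain ⟨Cg, g1, hg⟩ := A.geo_bound
  obtain ⟨Cn, n1, hn⟩ := A.cf_near
  obtain ⟨Cb, -, hb⟩ := A.cf_bound
  obtain ⟨K, hK⟩ : ∃ K, K = Cg * Cn := ⟨_, rfl⟩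
  have K1 : 1 ≤ K := hK ▸ one_le_mul_of_one_le_of_one_le g1 n1
  have K3 : K ≤ K ^ 3 := le_self_pow₀ K1 (by norm_num)
  refine ⟨700 * K ^ 3, by linarith, ?_⟩
  filter_upwards [Ioo_mem_nhdsGT (show (0 : ℝ) < 1 / (2 * K) by positivity)] with r ⟨r0, r1⟩ q ⟨q1, q2⟩ q' ⟨p1, p2⟩ a ha
  rw [lt_div_iff₀ (by positivity)] at r1
  have c0 : 0 ≤ (r ^ 4)⁻¹ * A.cf f0 r q.1 q'.1 := mul_nonneg (by positivity) (hb r q.1 q'.1).1
  have e : A.hk r q.1 q'.1 a q'.2 (A.J q'.2) = (r ^ 4)⁻¹ * A.cf f0 r q.1 q'.1 *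
      A.Xi (A.sv q.1 q'.1) (A.Ah q.1 q'.1 a) (A.Bh q.1 q'.1 q'.2) (A.Bh q.1 q'.1 (A.J q'.2)) := rfl
  rw [e, abs_mul, abs_of_nonneg c0, mul_comm (700 * K ^ 3), mul_assoc _ (700 * K ^ 3)]
  by_cases hd : dist q.1 q'.1 ≤ Cn * r
  swap
  · simp [hn f0 (fun t ht => (prof.2.2.2.2.1 t ht).1) r r0 q.1 q'.1 (not_le.1 hd)]
  refine mul_le_mul_of_nonneg_left ?_ c0
  obtain ⟨L, hL⟩ := A.fr_at q.1
  obtain ⟨L', hL'⟩ := A.fr_at q'.1
  obtain ⟨s1, s2, -, s3, -⟩ := hg q.1 q'.1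
  have t : Cg * dist q.1 q'.1 ≤ K * r := by
    rw [hK, mul_assoc]
    gcongr
  have hv : ∀ v, A.Pr q'.1 v = v → ‖v‖ = 1 → ‖A.Bh q.1 q'.1 v - v‖ ≤ K * r := fun v h1 h2 => by
    simpa [h1, h2] using (A.Bh q.1 q'.1 - A.Pr q'.1).le_of_opNorm_le (s3.trans t) v
  obtain ⟨a1, a2, a3⟩ : A.Pr q.1 a = a ∧ ‖a‖ = 1 ∧ ∀ b, A.ang a b = A.ang q.2 b := by
    rcases ha with rfl | rfl
    exacts [⟨q1, q2, fun _ => rfl⟩, ⟨by rw [hL.P_J, q1], by rw [A.norm_J, q2], A.ang_J _⟩]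
  have u1 : ‖A.Ah q.1 q'.1 a - a‖ ≤ K * r := by
    simpa [a1, a2] using (A.Ah q.1 q'.1 - A.Pr q.1).le_of_opNorm_le (s2.trans t) a
  have b1 := hv _ p1 p2
  have e1 : ‖A.Bh q.1 q'.1 (A.J q'.2) - A.J (A.Bh q.1 q'.1 q'.2)‖ ≤ 2 * (K * r) := by
    have := norm_sub_le_norm_sub_add_norm_sub (A.Bh q.1 q'.1 (A.J q'.2)) (A.J q'.2) (A.J (A.Bh q.1 q'.1 q'.2))
    rw [← map_sub A.J, A.norm_J, norm_sub_rev q'.2] at this
    linarith [hv _ (by rw [hL'.P_J, p1]) (by rw [A.norm_J, p2])]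
  replace s1 := s1.trans t
  generalize A.sv q.1 q'.1 = z at *
  generalize A.Ah q.1 q'.1 a = u at *
  generalize A.Bh q.1 q'.1 (A.J q'.2) = b' at *
  generalize A.Bh q.1 q'.1 q'.2 = b at *
  obtain ⟨b2, b3⟩ := abs_le.1 ((abs_norm_sub_norm_le b q'.2).trans b1)
  have u2 : ‖u‖ ≤ 2 := by linarith [norm_sub_norm_le u a]
  have b4 : ‖b‖ ≤ 2 := by linarith
  have g0 := A.ang_nonneg q.2 q'.2
  have α0 := A.ang_nonneg z b
  have β0 := A.ang_nonneg u b
  have β1 : A.ang u b ≤ 3 * K * (A.ang q.2 q'.2 + r) := by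
    have h1 := A.ang_le_add u a b
    have h2 := A.ang_le_add b q'.2 q.2
    rw [a3, A.ang_comm q.2] at h1
    rw [q2, A.ang_comm q'.2] at h2
    linarith [mul_le_mul u1 b4 (norm_nonneg _) (by positivity), le_mul_of_one_le_left g0 K1]
  have h := A.Xi_bound (z := z) (u := u) (b := b) (e := b' - A.J b) (by linarith) b4
  rw [add_sub_cancel] at h
  refine h.trans ((show _ ≤ 100 * (A.ang z b * (3 * K * (A.ang q.2 q'.2 + r)) + 2 * (K * r) *
    (A.ang z b * 2 + K * r * (3 * K * (A.ang q.2 q'.2 + r)))) by gcongr).trans ?_)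
  linarith [mul_le_mul_of_nonneg_right K3 (show 0 ≤ A.ang z b * (A.ang q.2 q'.2 + r) by positivity),
    show 0 ≤ K * A.ang z b * A.ang q.2 q'.2 by positivity, show 0 ≤ K ^ 3 * r ^ 2 * (A.ang q.2 q'.2 + r) by positivity]

variable {A} {lam : Measure (M × F)} {P T : Cur M F} {n : ℕ} {τ ν : M → ℝ}

/-- With the weight `ω = r⁻⁴ cf f0` on `lam.prod lam`: `∫ ω (ang + r)² ≤ C r⁻⁴ (angE (C r) + r² mm (C r)) ≤ C`, `∫ ω ≤ C r⁻²`,
`∫ ω ang(sv, Bh w')² = ∫ gm dμ`; Cauchy-Schwarz (for instance in the form `2ab ≤ t a² + b²/t`). -/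
theorem Sit.PP_le (h : A.Sit lam P T n) : ∃ C : ℝ, 0 ≤ C ∧ ∀ᶠ r in 𝓝[>] (0 : ℝ), ∀ t : ℝ, 0 < t →
    ∫ q, (|P fun y => A.hk r q.1 y q.2| + |P fun y => A.hk r q.1 y (A.J q.2)|) ∂lam ≤
      C * (t + t⁻¹ * ∫ x, A.gm lam r x ∂lam.fst + r) := by
  obtain ⟨C, hC, hpt⟩ := A.hk_pt
  obtain ⟨C₁, hC₁, hn⟩ := A.cf_near
  obtain ⟨C₂, hC₂, hb⟩ := A.cf_bound
  obtain ⟨C₃, hC₃, hE⟩ := h.angE_le (C₀ := C₁) (by linarith)
  obtain ⟨C₄, hC₄, hm⟩ := h.mm_le
  obtain ⟨s0, s1, -, -, zz, -⟩ := prof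
  have hP := h.hP
  have := hP.1
  refine ⟨2 * C * (1 + C₂ * (C₃ + 2 * (C₄ * C₁ ^ 2))), by positivity, ?_⟩
  filter_upwards [hpt, hE, A.sm2_ker, A.sm2_cf s0 fun t ht => (zz t ht).1, A.gm_props, self_mem_nhdsWithin]
    with r h1 h2 hk hcf hg hr t ht
  have hr : 0 < r := hr
  set S : Set ((M × F) × (M × F)) := {p | dist p.1.1 p.2.1 ≤ C₁ * r} with hS
  have mS : MeasurableSet S := (isClosed_le (by fun_prop) continuous_const).measurableSet
  set Gf : (M × F) × (M × F) → ℝ := fun p => (r ^ 4)⁻¹ * A.cf f0 r p.1.1 p.2.1 *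
    A.gam (A.sv p.1.1 p.2.1) (A.Bh p.1.1 p.2.1 p.2.2) with hG
  have c11 : Continuous fun p : (M × F) × (M × F) => (p.1.1, p.2.1) := by fun_prop
  have cG : Continuous Gf :=
    (continuous_const.mul (hcf.continuous.comp c11)).mul (A.continuous_gam.comp
      ((A.sm2_geo.1.continuous.comp c11).prodMk ((A.sm2_geo.2.2.1.continuous.comp c11).clm_apply (by fun_prop))))
  have iG : Integrable Gf (lam.prod lam) := hP.integrable2 hP cG
  have i1 : Integrable (S.indicator fun p : (M × F) × (M × F) => A.gam p.1.2 p.2.2) (lam.prod lam) :=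
    (hP.integrable2 hP (A.continuous_gam.comp (f := fun p : (M × F) × (M × F) => (p.1.2, p.2.2)) (by fun_prop))).indicator mS
  have i2 : Integrable (S.indicator fun _ : (M × F) × (M × F) => (1 : ℝ)) (lam.prod lam) :=
    (integrable_const _).indicator mS
  set H : (M × F) × (M × F) → ℝ := fun p => C * (t⁻¹ / 2 * Gf p + C₂ * (r ^ 4)⁻¹ *
    ((t + r) * S.indicator (fun p => A.gam p.1.2 p.2.2) p + ((t + r) * r ^ 2 + r ^ 3 / 2) *
      S.indicator (fun _ => (1 : ℝ)) p)) with hH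
  have iH : Integrable H (lam.prod lam) :=
    ((iG.const_mul _).add (((i1.const_mul _).add (i2.const_mul _)).const_mul _)).const_mul _
  have pt : ∀ q ∈ A.SM, ∀ q' ∈ A.SM, ∀ a, a = q.2 ∨ a = A.J q.2 →
      |A.hk r q.1 q'.1 a q'.2 (A.J q'.2)| ≤ H (q, q') := by
    intro q hq q' hq' a ha
    refine (h1 q hq q' hq' a ha).trans ?_
    rw [mul_assoc]
    refine mul_le_mul_of_nonneg_left ?_ (by linarith)
    by_cases hd : (q, q') ∈ S
    · simp only [hG, indicator_of_mem hd, ← A.ang_sq]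
      obtain ⟨b0, b1, -⟩ := hb r q.1 q'.1
      set w := (r ^ 4)⁻¹ * A.cf f0 r q.1 q'.1 with hw
      have w0 : 0 ≤ w := by positivity
      have w1 : w ≤ C₂ * (r ^ 4)⁻¹ := by rw [hw, mul_comm]; gcongr
      set a₁ := A.ang (A.sv q.1 q'.1) (A.Bh q.1 q'.1 q'.2)
      set g := A.ang q.2 q'.2
      have e1 : a₁ * (g + r) ≤ t⁻¹ / 2 * a₁ ^ 2 + t * (g ^ 2 + r ^ 2) := by
        have : 0 ≤ t⁻¹ * (a₁ - t * (g + r)) ^ 2 := by positivity
        have e : t⁻¹ * (a₁ - t * (g + r)) ^ 2 = t⁻¹ * a₁ ^ 2 - 2 * (a₁ * (g + r)) + t * (g + r) ^ 2 := by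
          field_simp; ring
        nlinarith [mul_nonneg ht.le (sq_nonneg (g - r))]
      have e2 : r ^ 2 * (g + r) ≤ r * (g ^ 2 + r ^ 2) + r ^ 3 / 2 := by
        nlinarith [mul_nonneg hr.le (sq_nonneg (g - r / 2)), pow_pos hr 3]
      have e3 : 0 ≤ (t + r) * g ^ 2 + ((t + r) * r ^ 2 + r ^ 3 / 2) * 1 := by positivity
      calc w * (a₁ * (g + r) + r ^ 2 * (g + r))
          ≤ w * (t⁻¹ / 2 * a₁ ^ 2 + ((t + r) * g ^ 2 + ((t + r) * r ^ 2 + r ^ 3 / 2) * 1)) := by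
            refine mul_le_mul_of_nonneg_left ?_ w0
            linarith
        _ = t⁻¹ / 2 * (w * a₁ ^ 2) + w * ((t + r) * g ^ 2 + ((t + r) * r ^ 2 + r ^ 3 / 2) * 1) := by ring
        _ ≤ _ := by gcongr
    · have : A.cf f0 r q.1 q'.1 = 0 := hn f0 (fun t ht => (zz t ht).1) r hr _ _ (not_le.1 hd)
      simp [hG, indicator_of_notMem hd, this]
  have step : ∀ᵐ q ∂lam, |P fun y => A.hk r q.1 y q.2| + |P fun y => A.hk r q.1 y (A.J q.2)| ≤
      2 * ∫ q', H (q, q') ∂lam := by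
    filter_upwards [hP.ae, iH.prod_right_ae] with q hq hi
    have : ∀ a, a = q.2 ∨ a = A.J q.2 → |P fun y => A.hk r q.1 y a| ≤ ∫ q', H (q, q') ∂lam := by
      intro a ha
      rw [hP.2.2 _ ((hk.2.2.2 a).right q.1).continuous, ← Real.norm_eq_abs]
      exact norm_integral_le_of_norm_le hi (hP.ae.mono fun q' hq' => pt q hq q' hq' a ha)
    linarith [this _ (Or.inl rfl), this _ (Or.inr rfl)]
  refine (integral_mono_of_nonneg (Eventually.of_forall fun q => by positivity)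
    (iH.integral_prod_left.const_mul 2) step).trans ?_
  rw [integral_const_mul, ← integral_prod _ iH]
  have e1 : ∫ p, Gf p ∂(lam.prod lam) = ∫ x, A.gm lam r x ∂lam.fst := by
    rw [integral_prod _ iG, hP.integral_fst (hg lam P hP).1.measurable]
    rfl
  have e2 : ∫ p, S.indicator (fun p => A.gam p.1.2 p.2.2) p ∂(lam.prod lam) = A.angE lam lam (C₁ * r) :=
    integral_indicator mS
  have e3 : ∫ p, S.indicator (fun _ => (1 : ℝ)) p ∂(lam.prod lam) = mm lam.fst lam.fst (C₁ * r) := by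
    rw [mm_fst, integral_indicator mS]; simp [hS]
  have i12 : Integrable (fun p => (t + r) * S.indicator (fun p : (M × F) × (M × F) => A.gam p.1.2 p.2.2) p +
      ((t + r) * r ^ 2 + r ^ 3 / 2) * S.indicator (fun _ => (1 : ℝ)) p) (lam.prod lam) :=
    (i1.const_mul _).add (i2.const_mul _)
  rw [hH, integral_const_mul, integral_add (iG.const_mul _) (i12.const_mul _),
    integral_const_mul, integral_const_mul, integral_add (i1.const_mul _) (i2.const_mul _), integral_const_mul,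
    integral_const_mul, e1, e2, e3]
  have g0 : 0 ≤ ∫ x, A.gm lam r x ∂lam.fst := integral_nonneg (hg lam P hP).2
  have m1 := hm (C₁ * r) (by positivity)
  set γ := ∫ x, A.gm lam r x ∂lam.fst
  have b1 : C₂ * (r ^ 4)⁻¹ * ((t + r) * A.angE lam lam (C₁ * r) + ((t + r) * r ^ 2 + r ^ 3 / 2) *
      mm lam.fst lam.fst (C₁ * r)) ≤ C₂ * (r ^ 4)⁻¹ * ((t + r) * (C₃ * r ^ 4) + ((t + r) * r ^ 2 + r ^ 3 / 2) *
      (C₄ * (C₁ * r) ^ 2)) := by gcongr
  have b2 : C₂ * (r ^ 4)⁻¹ * ((t + r) * (C₃ * r ^ 4) + ((t + r) * r ^ 2 + r ^ 3 / 2) * (C₄ * (C₁ * r) ^ 2)) =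
      C₂ * ((t + r) * C₃ + (t + r + r / 2) * (C₄ * C₁ ^ 2)) := by field_simp
  have b3 : 0 ≤ t⁻¹ * γ := by positivity
  set K := C₄ * C₁ ^ 2 with hK
  have K0 : 0 ≤ K := by positivity
  have b4 : t⁻¹ / 2 * γ + C₂ * ((t + r) * C₃ + (t + r + r / 2) * K) ≤
      (1 + C₂ * (C₃ + 2 * K)) * (t + t⁻¹ * γ + r) := by
    have p1 : 0 ≤ C₂ * (C₃ + 2 * K) * (t⁻¹ * γ) := by positivity
    have p2 : 0 ≤ C₂ * K * t := by positivity
    have p3 : 0 ≤ C₂ * K * r := by positivity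
    nlinarith
  calc 2 * (C * _) ≤ 2 * (C * ((1 + C₂ * (C₃ + 2 * K)) * (t + t⁻¹ * γ + r))) := by
        gcongr
        linarith
    _ = _ := by ring

/-- `ker_bound`, `near_ker`, `IsP.norm_int_le`, `TL.ker_le`. -/
theorem hk_le (hP : A.IsP lam P) (hτ : A.TL T τ) : ∃ C : ℝ, 1 ≤ C ∧ ∀ᶠ r in 𝓝[>] (0 : ℝ), ∀ x a,
    |P fun y => A.hk r x y a| ≤ C * (r ^ 3)⁻¹ * ‖a‖ * lam.fst.real (closedBall x (C * r)) ∧
      |T fun y => A.hk r x y a| ≤ C * (r ^ 3)⁻¹ * ‖a‖ * ∫ y in closedBall x (C * r), τ y ∂A.vol := by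
  obtain ⟨C₁, c1, h1⟩ := A.ker_bound
  obtain ⟨C₂, c2, h2⟩ := A.near_ker
  refine ⟨C₁ + C₂, by linarith, ?_⟩
  filter_upwards [A.sm2_ker, Ioc_mem_nhdsGT one_pos] with r hs hr x a
  have r0 := hr.1
  have b1 : ∀ y, ‖A.hk r x y a‖ ≤ (C₁ + C₂) * (r ^ 3)⁻¹ * ‖a‖ := fun y =>
    ((h1 r hr x y).2.2.2.2.2 a).trans (by gcongr; linarith)
  have b0 : ∀ y, (C₁ + C₂) * r < dist x y → A.hk r x y a = 0 := fun y hy =>
    (h2 r r0).2.2.2 a x y (lt_of_le_of_lt (by gcongr; linarith) hy)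
  refine ⟨?_, hτ.ker_le ((hs.2.2.2 a).right x) (by positivity) (fun y => ?_) b0⟩
  · rw [hP.2.2 _ ((hs.2.2.2 a).right x).continuous, ← Real.norm_eq_abs]
    refine hP.norm_int_le (by positivity) (fun q hq => ?_) fun q _ hq => by simp [b0 _ hq]
    simpa [A.norm_J, hq.2] using ((A.hk r x q.1 a).le_opNorm₂ q.2 (A.J q.2)).trans
      (mul_le_mul_of_nonneg_right (mul_le_mul_of_nonneg_right (b1 q.1) (norm_nonneg _)) (norm_nonneg _))
  · obtain ⟨L, hL⟩ := A.fr_at y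
    exact (hL.norm_pi_le _).2.1.trans (b1 y)

/-- `hk` is linear in `a`: expand `a` in the basis `eF` (`sum_eF`), `glob_der`/`IsP.cont_int` for each basis vector. -/
theorem hk_cont (hP : A.IsP lam P) : ∀ᶠ r in 𝓝[>] (0 : ℝ),
    Continuous fun q : M × F => P fun y => A.hk r q.1 y q.2 := by
  filter_upwards [A.sm2_ker] with r hs
  have e : ∀ q : M × F, (P fun y => A.hk r q.1 y q.2) = ∑ i, ⟪eF i, q.2⟫_ℝ *
      ∫ p, A.hk r q.1 p.1 (eF i) p.2 (A.J p.2) ∂lam := fun q => by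
    let Φ : F →ₗ[ℝ] (M → Bil F) :=
      { toFun := fun a y => A.hk r q.1 y a
        map_add' := fun a b => by funext y; ext u v; simp [hk, Cx.Xi, inner_add_left, inner_add_right]; ring
        map_smul' := fun c a => by funext y; ext u v; simp [hk, Cx.Xi, inner_smul_left, inner_smul_right]; ring }
    change P (Φ q.2) = _
    conv_lhs => rw [← sum_eF q.2]
    simp only [map_sum, map_smul, smul_eq_mul]
    exact Finset.sum_congr rfl fun i _ => by rw [← hP.2.2 _ ((hs.2.2.2 _).right q.1).continuous]; rfl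
  simp only [e]
  refine continuous_finset_sum _ fun i _ => (continuous_const.inner continuous_snd).mul
    ((hP.cont_int (f := fun p : M × (M × F) => A.hk r p.1 p.2.1 (eF i) p.2.2 (A.J p.2.2)) ?_).1.comp continuous_fst)
  exact (((hs.2.2.2 (eF i)).continuous.comp (f := fun p : M × (M × F) => (p.1, p.2.1)) (by fun_prop)).clm_apply
    (by fun_prop)).clm_apply (by fun_prop)

/-- `dnu_eq`, `hk_le`, `swap_ball`. -/
theorem Sit.DD_le (h : A.Sit lam P T n) (hτ : A.TL T τ) : ∃ C C₀ : ℝ, 0 ≤ C ∧ 1 ≤ C₀ ∧ ∀ᶠ r in 𝓝[>] (0 : ℝ),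
    A.DD lam τ (fun x => (P + T) (A.nk r x)) ≤
      ∫ q, (|P fun y => A.hk r q.1 y q.2| + |P fun y => A.hk r q.1 y (A.J q.2)|) ∂lam +
        C * ∫ y, τ y * ((r ^ 3)⁻¹ * lam.fst.real (closedBall y (C₀ * r))) ∂A.vol +
        C * ((r ^ 3)⁻¹ * ∫ x, τ x * (∫ y in closedBall x (C₀ * r), τ y ∂A.vol) ∂A.vol) := by
  obtain ⟨C, hC, hk⟩ := hk_le h.hP hτ
  obtain ⟨c, hc, hvol⟩ := A.vol_ball_le
  haveI := A.vol_finite
  haveI := h.hP.1
  have hC0 : 0 < C := by linarith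
  refine ⟨3 * C, C, by positivity, hC, ?_⟩
  filter_upwards [hk, hk_cont h.hP, A.dnu_eq, self_mem_nhdsWithin] with r h1 h2 h3 hr
  have hr0 : 0 < r := hr
  have hd := (h3 (P + T) (h.hP.bdd.add h.hT.bdd)).2.2 h.ex.cl
  obtain ⟨s1, s2, s3⟩ := swap_ball (μ := lam.fst) hτ.integrable (C * r)
  have s4 := (cross3_tendsto hc hC0 hvol hτ.2.1 hτ.2.2.1).1 (C * r) (by positivity)
  set K : M → ℝ := fun x => ∫ y in closedBall x (C * r), τ y ∂A.vol with hK
  set m : M → ℝ := fun x => lam.fst.real (closedBall x (C * r)) with hm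
  have hK0 : ∀ x, 0 ≤ K x := fun x => integral_nonneg fun y => hτ.2.1 y
  have s5 : Integrable (fun q : M × F => K q.1) lam :=
    (integrable_map_measure s1.aestronglyMeasurable measurable_fst.aemeasurable).1 s1
  have s6 : ∫ q : M × F, K q.1 ∂lam = ∫ y, τ y * m y ∂A.vol := by
    rw [← s3]
    exact (integral_map measurable_fst.aemeasurable s1.aestronglyMeasurable).symm
  have i1 : Integrable (fun q : M × F =>
      |P fun y => A.hk r q.1 y q.2| + |P fun y => A.hk r q.1 y (A.J q.2)|) lam :=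
    h.hP.integrable (h2.abs.add (h2.comp (continuous_fst.prodMk (A.J.continuous.comp continuous_snd))).abs)
  have b1 : ∫ q, (|A.dF (fun x => (P + T) (A.nk r x)) q.1 q.2| +
      |A.dF (fun x => (P + T) (A.nk r x)) q.1 (A.J q.2)|) ∂lam ≤
      ∫ q, ((|P fun y => A.hk r q.1 y q.2| + |P fun y => A.hk r q.1 y (A.J q.2)|) +
        2 * C * (r ^ 3)⁻¹ * K q.1) ∂lam := by
    refine integral_mono_of_nonneg (Eventually.of_forall fun q => by positivity) (i1.add (s5.const_mul _)) ?_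
    filter_upwards [h.hP.ae] with q hq
    have a1 := (h1 q.1 q.2).2
    have a2 := (h1 q.1 (A.J q.2)).2
    rw [A.norm_J] at a2
    rw [hq.2] at a1 a2
    rw [hd, hd, LinearMap.add_apply, LinearMap.add_apply]
    have a3 := abs_add_le (P fun y => A.hk r q.1 y q.2) (T fun y => A.hk r q.1 y q.2)
    have a4 := abs_add_le (P fun y => A.hk r q.1 y (A.J q.2)) (T fun y => A.hk r q.1 y (A.J q.2))
    linarith
  have b2 : ∫ x, τ x * ‖A.dF (fun x => (P + T) (A.nk r x)) x‖ ∂A.vol ≤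
      ∫ x, (C * (r ^ 3)⁻¹ * (τ x * m x) + C * (r ^ 3)⁻¹ * (τ x * K x)) ∂A.vol := by
    refine integral_mono_of_nonneg (Eventually.of_forall fun x => mul_nonneg (hτ.2.1 x) (norm_nonneg _))
      ((s2.const_mul _).add (s4.const_mul _)) (Eventually.of_forall fun x => ?_)
    have a1 : ‖A.dF (fun x => (P + T) (A.nk r x)) x‖ ≤ C * (r ^ 3)⁻¹ * m x + C * (r ^ 3)⁻¹ * K x := by
      have hm0 : 0 ≤ m x := measureReal_nonneg
      have := hK0 x
      refine ContinuousLinearMap.opNorm_le_bound _ (by positivity) fun a => ?_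
      rw [hd, LinearMap.add_apply, Real.norm_eq_abs]
      have a3 := abs_add_le (P fun y => A.hk r x y a) (T fun y => A.hk r x y a)
      linarith [(h1 x a).1, (h1 x a).2]
    have := mul_le_mul_of_nonneg_left a1 (hτ.2.1 x)
    linarith
  rw [integral_add i1 (s5.const_mul _), integral_const_mul, s6] at b1
  rw [integral_add (s2.const_mul _) (s4.const_mul _), integral_const_mul, integral_const_mul] at b2
  have e : ∫ y, τ y * ((r ^ 3)⁻¹ * m y) ∂A.vol = (r ^ 3)⁻¹ * ∫ y, τ y * m y ∂A.vol := by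
    rw [← integral_const_mul]
    exact integral_congr_ae (Eventually.of_forall fun y => by ring)
  have p : 0 ≤ C * ((r ^ 3)⁻¹ * ∫ x, τ x * K x ∂A.vol) :=
    mul_nonneg hC0.le (mul_nonneg (by positivity) (integral_nonneg fun x => mul_nonneg (hτ.2.1 x) (hK0 x)))
  rw [DD, e]
  linarith

/-- `Sit.exists_seq`, `Sit.PP_le`, `Sit.DD_le`, `cross_tendsto`, `cross3_tendsto`, `Sit.mu_ball`, `vol_ball_le`. -/
theorem Sit.DD_tendsto (h : A.Sit lam P T n) (hτ : A.TL T τ) : ∃ r : ℕ → ℝ, Tendsto r atTop (𝓝[>] 0) ∧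
    Tendsto (fun j => A.DD lam τ fun x => (P + T) (A.nk (r j) x)) atTop (𝓝 0) := by
  obtain ⟨r, hr, hg⟩ := h.exists_seq
  obtain ⟨C₁, hC₁, hP⟩ := h.PP_le
  obtain ⟨C, C₀, hC, hC₀, hD⟩ := h.DD_le hτ
  obtain ⟨c, hc, hvol⟩ := A.vol_ball_le
  obtain ⟨c', hc', hμ⟩ := h.mu_ball
  haveI := A.vol_finite
  haveI := h.hP.1
  have hC0 : 0 < C₀ := by linarith
  have t1 := (cross_tendsto (μ := lam.fst) (c := c + c') (by positivity) hC0
    (fun x ρ hρ => (hvol x ρ hρ).trans (ENNReal.ofReal_le_ofReal (by gcongr; linarith)))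
    (fun x ρ hρ => (hμ x ρ hρ).trans (by gcongr; linarith)) hτ.2.1 hτ.2.2.1).comp hr
  have t2 := (cross3_tendsto hc hC0 hvol hτ.2.1 hτ.2.2.1).2.comp hr
  have t3 : Tendsto r atTop (𝓝 0) := hr.mono_right nhdsWithin_le_nhds
  refine ⟨r, hr, tendsto_order.2 ⟨fun a ha => Eventually.of_forall fun j => ha.trans_le ?_, fun ε hε => ?_⟩⟩
  · exact add_nonneg (integral_nonneg fun q => by positivity)
      (integral_nonneg fun x => mul_nonneg (hτ.2.1 x) (norm_nonneg _))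
  · have ht : 0 < ε / (C₁ + 1) := by positivity
    have t4 := (((((hg.const_mul (ε / (C₁ + 1))⁻¹).const_add (ε / (C₁ + 1))).add t3).const_mul C₁).add
      (t1.const_mul C)).add (t2.const_mul C)
    have hlt : C₁ * (ε / (C₁ + 1) + (ε / (C₁ + 1))⁻¹ * 0 + 0) + C * 0 + C * 0 < ε := by
      have : (C₁ + 1) * (ε / (C₁ + 1)) = ε := by field_simp
      linarith
    filter_upwards [hr.eventually hP, hr.eventually hD, t4.eventually (gt_mem_nhds hlt)] with j h1 h2 h3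
    have := h1 _ ht
    simp only [Function.comp_apply] at h3
    linarith

end Atl
end Crest.Agent.R240
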