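import Crest.Agent.R240.G1

/-! Block G2: the part of the current where the density vanishes is closed. -/

set_option autoImplicit false
set_option maxSynthPendingDepth 3
set_option linter.unusedSectionVars false
set_option linter.unusedVariables false
open MeasureTheory Filter Set Metric
open scoped ENNReal NNReal Topology ContDiff InnerProductSpace InnerProduct

noncomputable section
namespace Crest.Agent.R240

namespace Atl
variable {M F ι : Type*} [MetricSpace M] [CompactSpace M] [NormedAddCommGroup F] [InnerProductSpace ℝ F]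
  [FiniteDimensional ℝ F] [Fintype ι] (A : Atl M F ι)
  {G G' : Type*} [NormedAddCommGroup G] [NormedSpace ℝ G] [FiniteDimensional ℝ G]
  [NormedAddCommGroup G'] [NormedSpace ℝ G'] [FiniteDimensional ℝ G']
  [MeasurableSpace M] [BorelSpace M] [MeasurableSpace F] [BorelSpace F]

variable {A} {lam : Measure (M × F)} {P T : Cur M F} {n : ℕ} {τ ν : M → ℝ}

theorem dF_comp {f : M → ℝ} (hf : A.Sm f) {Φ : ℝ → ℝ} (hΦ : Differentiable ℝ Φ) (x : M) :
    A.dF (fun x => Φ (f x)) x = deriv Φ (f x) • A.dF f x := by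
  obtain ⟨-, -, h3, h4⟩ := A.ch_spec x
  have hd : DifferentiableAt ℝ (f ∘ A.ψ (A.ch x)) (A.κ (A.ch x) x) :=
    ((hf (A.ch x)).contDiffAt (V_open.mem_nhds h3)).differentiableAt (by simp)
  have h5 := (hΦ (f (A.ψ (A.ch x) (A.κ (A.ch x) x)))).hasDerivAt.comp_hasFDerivAt (A.κ (A.ch x) x)
    hd.hasFDerivAt
  have h6 : fderiv ℝ ((fun x => Φ (f x)) ∘ A.ψ (A.ch x)) (A.κ (A.ch x) x) = _ := h5.fderiv
  unfold dF
  rw [h6, h4, ContinuousLinearMap.smul_comp]

theorem g2_int (hP : A.IsP lam P) (hτ : A.TL T τ) {f : M → ℝ} (hf : A.Sm f) :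
    Integrable (fun q : M × F => |A.dF f q.1 q.2| + |A.dF f q.1 (A.J q.2)|) lam ∧
      Integrable (fun x => τ x * ‖A.dF f x‖) A.vol := by
  have hc := hf.dF'.continuous
  obtain ⟨B, -, hB⟩ := hf.dF'.bdd
  refine ⟨hP.integrable (by fun_prop), ?_⟩
  exact hτ.integrable.mul_bdd (c := B) hc.norm.aestronglyMeasurable
    (Eventually.of_forall fun x => by simpa using hB x)

theorem DD_comp (hP : A.IsP lam P) (hτ : A.TL T τ) {f : M → ℝ} (hf : A.Sm f) {Φ : ℝ → ℝ} (hΦ : ContDiff ℝ ∞ Φ) {L : ℝ}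
    (hL : ∀ x, |deriv Φ (f x)| ≤ L) : A.DD lam τ (fun x => Φ (f x)) ≤ L * A.DD lam τ f := by
  obtain ⟨i1, i2⟩ := g2_int hP hτ hf
  have hd : Differentiable ℝ Φ := hΦ.differentiable (by simp)
  unfold DD
  rw [mul_add, ← integral_const_mul, ← integral_const_mul]
  refine add_le_add ?_ ?_
  · refine integral_mono_of_nonneg (Eventually.of_forall fun q => by positivity) (i1.const_mul L)
      (Eventually.of_forall fun q => ?_)
    simp only [dF_comp hf hd, smul_apply, smul_eq_mul, abs_mul]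
    rw [← mul_add]
    exact mul_le_mul_of_nonneg_right (hL _) (by positivity)
  · refine integral_mono_of_nonneg (Eventually.of_forall fun x => mul_nonneg (hτ.2.1 x) (norm_nonneg _))
      (i2.const_mul L) (Eventually.of_forall fun x => ?_)
    simp only [dF_comp hf hd, norm_smul, Real.norm_eq_abs]
    have := mul_le_mul_of_nonneg_right (hL x) (mul_nonneg (hτ.2.1 x) (norm_nonneg (A.dF f x)))
    linarith

/-- `d1_smul`: with `γ' = ext k (z ↦ γ z ∘ Ip k z)`, `dform k ((f ∘ ψ) • γ) = f • dform k γ + wd (dF f) γ'` (`Sm.dF_eq`, `Tst.mul`). -/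
theorem dform_smul (k : ι) {γ : E4 → E4 →L[ℝ] ℝ} (hγ : Tst 2 γ) : ∃ γ' : M → F →L[ℝ] ℝ, A.Sm γ' ∧ ∀ f : M → ℝ, A.Sm f →
    Tst 2 (fun z => f (A.ψ k z) • γ z) ∧
      A.dform k (fun z => f (A.ψ k z) • γ z) = (fun x => f x • A.dform k γ x) + fun x => wd (A.dF f x) (γ' x) := by
  have ht : Tst 2 fun z => (γ z).comp (A.Ip k z) :=
    Tst.mul (a := fun z => (ContinuousLinearMap.compL ℝ F E4 ℝ).flip (A.Ip k z)) (by norm_num)
      ((ContinuousLinearMap.compL ℝ F E4 ℝ).flip.contDiff.comp_contDiffOn (A.I_sm k).2.1) hγ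
  refine ⟨A.ext k fun z => (γ z).comp (A.Ip k z), A.sm_ext k (by norm_num) ht, fun f hf => ⟨?_, ?_⟩⟩
  · exact Tst.mul (a := fun z => f (A.ψ k z) • ContinuousLinearMap.id ℝ (E4 →L[ℝ] ℝ)) (by norm_num)
      (ContDiffOn.smul (hf k) contDiffOn_const) hγ
  · funext x
    by_cases hx : x ∈ A.U k
    · obtain ⟨z, hz, rfl⟩ : ∃ z ∈ V, A.ψ k z = x := ⟨_, A.κ_mem k x hx, A.ψκ k x hx⟩
      have hd : DifferentiableAt ℝ (f ∘ A.ψ k) z :=
        ((hf k).contDiffAt (V_open.mem_nhds hz)).differentiableAt (by simp)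
      have h1 := d1_smul (γ := γ) hd (hγ.1.differentiable (by simp) z)
      simp only [Function.comp_apply] at h1
      simp only [dform, Pi.add_apply, A.ext_ψ k _ hz, up, h1, hf.dF_eq k hz]
      ext u v
      simp
    · simp only [dform, Pi.add_apply, A.ext_of_notMem k _ hx]
      ext u v
      simp

theorem Sit.mul_dform (h : A.Sit lam P T n) (hτ : A.TL T τ) (k : ι) {γ : E4 → E4 →L[ℝ] ℝ} (hγ : Tst 2 γ) :
    ∃ C : ℝ, 0 ≤ C ∧ ∀ f : M → ℝ, A.Sm f → |(P + T) fun x => f x • A.dform k γ x| ≤ C * A.DD lam τ f := by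
  obtain ⟨γ', hγ', h1⟩ := dform_smul (A := A) k hγ
  obtain ⟨B, hB0, hB⟩ := hγ'.bdd
  refine ⟨2 * B, by positivity, fun f hf => ?_⟩
  obtain ⟨i1, i2⟩ := g2_int h.hP hτ hf
  obtain ⟨t1, t2⟩ := h1 f hf
  have h0 := h.ex.cl k _ t1
  rw [t2, map_add] at h0
  have hs : A.Sm fun x => wd (A.dF f x) (γ' x) := (hf.dF'.prod hγ').comp contDiff_wd
  rw [eq_neg_of_add_eq_zero_left h0, abs_neg, LinearMap.add_apply]
  refine (abs_add_le _ _).trans ?_
  unfold DD
  rw [mul_add, ← integral_const_mul, ← integral_const_mul]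
  refine add_le_add ?_ ((hτ.2.2.2 _ hs).trans ?_)
  · rw [h.hP.2.2 _ hs.continuous]
    refine (Real.norm_eq_abs _).symm.trans_le (norm_integral_le_of_norm_le (i1.const_mul _) ?_)
    filter_upwards [h.hP.ae] with q hq
    have e1 : |γ' q.1 q.2| ≤ B := by
      have := (γ' q.1).le_opNorm q.2
      rw [hq.2, mul_one] at this
      exact this.trans (hB _)
    have e2 : |γ' q.1 (A.J q.2)| ≤ B := by
      have := (γ' q.1).le_opNorm (A.J q.2)
      rw [A.norm_J, hq.2, mul_one] at this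
      exact this.trans (hB _)
    rw [wd_apply, Real.norm_eq_abs]
    refine (abs_sub _ _).trans ?_
    rw [abs_mul, abs_mul]
    have a1 := abs_nonneg (A.dF f q.1 q.2)
    have a2 := abs_nonneg (A.dF f q.1 (A.J q.2))
    nlinarith [mul_le_mul_of_nonneg_left e2 a1, mul_le_mul_of_nonneg_left e1 a2]
  · refine integral_mono_of_nonneg (Eventually.of_forall fun x => mul_nonneg (hτ.2.1 x) (norm_nonneg _))
      (i2.const_mul _) (Eventually.of_forall fun x => ?_)
    obtain ⟨L, hL⟩ := A.fr_at x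
    have e1 : ‖A.pM x (wd (A.dF f x) (γ' x))‖ ≤ 2 * (‖A.dF f x‖ * B) :=
      ((hL.norm_pi_le _).2.1.trans (norm_wd_le _ _)).trans (by gcongr; exact hB x)
    have := mul_le_mul_of_nonneg_left e1 (hτ.2.1 x)
    simp only []
    linarith

/-- Dominated convergence for `P`; `|T ((f j - 1) • b)| ≤ ∫ τ |f j - 1| ‖pM b‖ → 0`. -/
theorem mul_tendsto (hP : A.IsP lam P) (hτ : A.TL T τ) {b : M → Bil F} (hb : A.Sm b) {f : ℕ → M → ℝ} {g : M → ℝ} {B : ℝ}
    (hf : ∀ᶠ j in atTop, A.Sm (f j) ∧ ∀ x, |f j x| ≤ B) (hg : ∀ x, Tendsto (fun j => f j x) atTop (𝓝 (g x)))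
    (h1 : ∀ᵐ x ∂A.vol, g x = 1) :
    Tendsto (fun j => (P + T) fun x => f j x • b x) atTop (𝓝 (∫ q, g q.1 * b q.1 q.2 (A.J q.2) ∂lam + T b)) := by
  have hbc := hb.continuous
  have hpm : A.Sm fun x => A.pM x (b x) := A.sm_basic.2.2.2.2.2.1.app hb
  obtain ⟨D, -, hD⟩ := hpm.bdd
  have i1 : Integrable (fun q : M × F => b q.1 q.2 (A.J q.2)) lam := hP.integrable (by fun_prop)
  have i2 : Integrable (fun x => τ x * ‖A.pM x (b x)‖) A.vol :=
    hτ.integrable.mul_bdd (c := D) hpm.continuous.norm.aestronglyMeasurable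
      (Eventually.of_forall fun x => by simpa using hD x)
  have t1 : Tendsto (fun j => ∫ q, f j q.1 * b q.1 q.2 (A.J q.2) ∂lam) atTop
      (𝓝 (∫ q, g q.1 * b q.1 q.2 (A.J q.2) ∂lam)) := by
    refine tendsto_integral_filter_of_dominated_convergence (fun q => B * ‖b q.1 q.2 (A.J q.2)‖)
      (hf.mono fun j hj => ?_) (hf.mono fun j hj => Eventually.of_forall fun q => ?_)
      (i1.norm.const_mul B) (Eventually.of_forall fun q => (hg q.1).mul_const _)
    · exact ((hj.1.continuous.comp continuous_fst).aestronglyMeasurable).mul i1.1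
    · rw [norm_mul]
      exact mul_le_mul_of_nonneg_right (hj.2 _) (norm_nonneg _)
  have t2 : Tendsto (fun j => ∫ x, |f j x - 1| * (τ x * ‖A.pM x (b x)‖) ∂A.vol) atTop (𝓝 0) := by
    have := tendsto_integral_filter_of_dominated_convergence (μ := A.vol) (l := atTop)
      (F := fun j x => |f j x - 1| * (τ x * ‖A.pM x (b x)‖)) (f := fun _ => 0)
      (fun x => (B + 1) * ‖τ x * ‖A.pM x (b x)‖‖)
      (hf.mono fun j hj => ?_) (hf.mono fun j hj => Eventually.of_forall fun x => ?_)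
      (i2.norm.const_mul _) ?_
    · simpa using this
    · exact ((hj.1.continuous.sub continuous_const).abs.aestronglyMeasurable).mul i2.1
    · rw [norm_mul, Real.norm_eq_abs, abs_abs]
      refine mul_le_mul_of_nonneg_right ((abs_sub _ _).trans ?_) (norm_nonneg _)
      rw [abs_one]
      linarith [hj.2 x]
    · filter_upwards [h1] with x hx
      have := (((hg x).sub_const 1).abs).mul_const (τ x * ‖A.pM x (b x)‖)
      simpa [hx] using this
  have t3 : Tendsto (fun j => T fun x => f j x • b x) atTop (𝓝 (T b)) := by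
    rw [tendsto_iff_norm_sub_tendsto_zero]
    refine squeeze_zero' (Eventually.of_forall fun j => norm_nonneg _) (hf.mono fun j hj => ?_) t2
    have e : (T fun x => f j x • b x) - T b = T fun x => (f j x - 1) • b x := by
      rw [← map_sub]
      congr 1
      funext x
      simp [sub_smul]
    rw [e]
    refine (hτ.2.2.2 _ ((hj.1.sub (A.sm_const 1)).smul hb)).trans (le_of_eq ?_)
    refine integral_congr_ae (Eventually.of_forall fun x => ?_)
    simp only [map_smul, norm_smul, Real.norm_eq_abs, Pi.sub_apply]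
    ring
  refine (t1.add t3).congr' (hf.mono fun j hj => ?_)
  simp only [LinearMap.add_apply]
  rw [hP.2.2 _ (hj.1.smul hb).continuous]
  simp

/-- `f j = exp (-m ν̂_j)`, `ν̂_j x = (P + T) (nk (r j) x) ≥ -1`, `ν̂_j → ν`; `Sit.DD_tendsto`, `DD_comp`, `Sit.mul_dform`, `mul_tendsto`, `Sit.nu_ae`. -/
theorem Sit.exp_zero (h : A.Sit lam P T n) (hν : A.IsNu P ν) (k : ι) {γ : E4 → E4 →L[ℝ] ℝ} (hγ : Tst 2 γ) (m : ℕ) :
    ∫ q, Real.exp (-(m * ν q.1)) * A.dform k γ q.1 q.2 (A.J q.2) ∂lam + T (A.dform k γ) = 0 := by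
  obtain ⟨τ, hτ⟩ := h.exists_TL
  obtain ⟨r, hr, hD⟩ := h.DD_tendsto hτ
  obtain ⟨C₁, hC₁, h1⟩ := hτ.nk_le
  obtain ⟨C₂, hC₂, h2⟩ := h.nu_le
  obtain ⟨C₃, hC₃, h3⟩ := h.mul_dform hτ k hγ
  have hbd : A.Bdd (P + T) := h.hP.bdd.add h.hT.bdd
  have hΦ : ContDiff ℝ ∞ fun t : ℝ => Real.exp (-(m * t)) := by fun_prop
  have hder : ∀ t : ℝ, deriv (fun t : ℝ => Real.exp (-(m * t))) t = Real.exp (-(m * t)) * -m := by
    intro t
    have := ((hasDerivAt_id t).const_mul (m : ℝ)).neg.exp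
    simpa using this.deriv
  have hsm : ∀ᶠ s in 𝓝[>] (0 : ℝ), C₁ * s ≤ 1 := by
    filter_upwards [Ioc_mem_nhdsGT (show (0 : ℝ) < C₁⁻¹ by positivity)] with s hs
    have := mul_le_mul_of_nonneg_left hs.2 (show 0 ≤ C₁ by linarith)
    rwa [mul_inv_cancel₀ (by linarith)] at this
  have hev : ∀ᶠ j in atTop, A.Sm (fun x => (P + T) (A.nk (r j) x)) ∧
      ∀ x, Real.exp (-(m * (P + T) (A.nk (r j) x))) ≤ Real.exp m := by
    filter_upwards [hr.eventually h1, hr.eventually h2, hr.eventually hsm, hr.eventually A.dnu_eq]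
      with j e1 e2 e3 e4
    refine ⟨(e4 _ hbd).1, fun x => Real.exp_le_exp.2 ?_⟩
    rw [LinearMap.add_apply]
    have a1 := (abs_le.1 (e1 x).1).1
    have a2 := (e2.2 x).1
    have a3 : (0 : ℝ) ≤ m := Nat.cast_nonneg m
    nlinarith
  have t1 := mul_tendsto (f := fun j x => Real.exp (-(m * (P + T) (A.nk (r j) x))))
    (g := fun x => Real.exp (-(m * ν x))) (B := Real.exp m) h.hP hτ (A.dform_spec k hγ).1.1
    (hev.mono fun j hj => ⟨hj.1.comp hΦ, fun x => by rw [abs_of_pos (Real.exp_pos _)]; exact hj.2 x⟩)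
    (fun x => ?_) ?_
  · refine tendsto_nhds_unique t1 ?_
    have t2 := hD.const_mul (C₃ * (Real.exp m * m))
    rw [mul_zero] at t2
    refine squeeze_zero_norm' (hev.mono fun j hj => ?_) t2
    refine (h3 _ (hj.1.comp hΦ)).trans ?_
    rw [mul_assoc]
    refine mul_le_mul_of_nonneg_left (DD_comp h.hP hτ hj.1 hΦ fun x => ?_) hC₃
    rw [hder, abs_mul, abs_neg, abs_of_pos (Real.exp_pos _), Nat.abs_cast]
    exact mul_le_mul_of_nonneg_right (hj.2 x) (Nat.cast_nonneg m)
  · have t3 : Tendsto (fun s => T (A.nk s x)) (𝓝[>] 0) (𝓝 0) := by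
      have : Tendsto (fun s : ℝ => C₁ * s) (𝓝 0) (𝓝 (C₁ * 0)) := Continuous.tendsto (by fun_prop) 0
      rw [mul_zero] at this
      exact squeeze_zero_norm' (h1.mono fun s hs => (hs x).1) (this.mono_left nhdsWithin_le_nhds)
    have t4 := ((hν.2.2 x).add t3).comp hr
    rw [add_zero] at t4
    exact (hΦ.continuous.tendsto _).comp t4
  · filter_upwards [h.nu_ae hν] with x hx
    simp [hx]

/-- `m → ∞` in `Sit.exp_zero` (dominated convergence, `integral_indicator`). -/
theorem Sit.cl_Z (h : A.Sit lam P T n) (hν : A.IsNu P ν) {PZ : Cur M F}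
    (hZ : A.IsP (lam.restrict (Prod.fst ⁻¹' {x | ν x = 0})) PZ) : A.Cl (PZ + T) := by
  intro k γ hγ
  have hb := (A.dform_spec k hγ).1.1.continuous
  have hm : MeasurableSet (Prod.fst ⁻¹' {x | ν x = 0} : Set (M × F)) :=
    measurable_fst (hν.1 (measurableSet_singleton 0))
  have i1 : Integrable (fun q : M × F => A.dform k γ q.1 q.2 (A.J q.2)) lam := h.hP.integrable (by fun_prop)
  rw [LinearMap.add_apply, hZ.2.2 _ hb, ← integral_indicator hm]
  have t1 : Tendsto (fun m : ℕ => ∫ q, Real.exp (-(m * ν q.1)) * A.dform k γ q.1 q.2 (A.J q.2) ∂lam) atTop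
      (𝓝 (∫ q, (Prod.fst ⁻¹' {x | ν x = 0}).indicator (fun q : M × F => A.dform k γ q.1 q.2 (A.J q.2)) q ∂lam)) := by
    refine tendsto_integral_of_dominated_convergence (fun q => ‖A.dform k γ q.1 q.2 (A.J q.2)‖)
      (fun m => ?_) i1.norm (fun m => Eventually.of_forall fun q => ?_) (Eventually.of_forall fun q => ?_)
    · have := hν.1
      exact (Measurable.aestronglyMeasurable (by fun_prop)).mul i1.1
    · rw [norm_mul, Real.norm_of_nonneg (Real.exp_pos _).le]
      refine mul_le_of_le_one_left (norm_nonneg _) (Real.exp_le_one_iff.2 ?_)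
      have := mul_nonneg (Nat.cast_nonneg (α := ℝ) m) (hν.2.1 q.1)
      linarith
    · by_cases hq : ν q.1 = 0
      · rw [indicator_of_mem (by simpa using hq)]
        simp [hq]
      · rw [indicator_of_notMem (by simpa using hq)]
        have hp : 0 < ν q.1 := lt_of_le_of_ne (hν.2.1 _) (Ne.symm hq)
        have := (Real.tendsto_exp_neg_atTop_nhds_zero.comp
          (tendsto_natCast_atTop_atTop.atTop_mul_const hp)).mul_const (A.dform k γ q.1 q.2 (A.J q.2))
        simpa using this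
  refine tendsto_nhds_unique (t1.add_const _) ?_
  simp only [h.exp_zero hν k hγ]
  exact tendsto_const_nhds

end Atl
end Crest.Agent.R240
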