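import Crest.Agent.R240.G2

/-! Block H1: `T = 0`. -/

set_option autoImplicit false
set_option maxSynthPendingDepth 3
set_option linter.unusedSectionVars false
set_option linter.unusedVariables false
open MeasureTheory Filter Set Metric
open scoped ENNReal NNReal Topology ContDiff InnerProductSpace InnerProduct

noncomputable section
namespace Crest.Agent.R240

namespace Atl
variable {M F ι : Type*} [MetricSpace M] [CompactSpace M] [NormedAddCommGroup F] [InnerProductSpace ℝ F]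
  [FiniteDimensional ℝ F] [Fintype ι] (A : Atl M F ι)
  {G G' : Type*} [NormedAddCommGroup G] [NormedSpace ℝ G] [FiniteDimensional ℝ G]
  [NormedAddCommGroup G'] [NormedSpace ℝ G'] [FiniteDimensional ℝ G']
  [MeasurableSpace M] [BorelSpace M] [MeasurableSpace F] [BorelSpace F]

variable {A} {lam : Measure (M × F)} {P T : Cur M F} {n : ℕ} {τ ν : M → ℝ}

/-- `R_apply`, `TL.ker_le`, `ker_bound`; for `g = pP x (R T δ x)`: `‖g‖² ≤ 2 ipG g g = 2 T (y ↦ ipG (th δ x y) (pP x g))`, `ker_bound_mixed`. -/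
theorem TL.RT_le (hτ : A.TL T τ) : ∃ C : ℝ, 1 ≤ C ∧ ∀ᶠ δ in 𝓝[>] (0 : ℝ), ∀ x,
    ‖A.R T δ x‖ ≤ C * (δ ^ 4)⁻¹ * ∫ y in closedBall x (C * δ), τ y ∂A.vol ∧
      ‖A.pP x (A.R T δ x)‖ ≤ C * (δ ^ 3)⁻¹ * ∫ y in closedBall x (C * δ), τ y ∂A.vol := by
  obtain ⟨C₁, hC₁, hn⟩ := A.near_ker
  obtain ⟨C₂, hC₂, hb⟩ := A.ker_bound
  obtain ⟨C₃, hC₃, hm⟩ := A.ker_bound_mixed
  set C := max C₁ (max C₂ (2 * C₃)) with hC
  have l1 : C₁ ≤ C := le_max_left _ _
  have l2 : C₂ ≤ C := (le_max_left _ _).trans (le_max_right _ _)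
  have l3 : 2 * C₃ ≤ C := (le_max_right _ _).trans (le_max_right _ _)
  refine ⟨C, hC₁.trans l1, ?_⟩
  filter_upwards [A.sm2_ker, Ioc_mem_nhdsGT one_pos] with δ hk hδ x
  have h0 := hδ.1
  have far : ∀ y, C * δ < dist x y → A.th δ x y = 0 := fun y h =>
    (hn δ h0).1 _ _ (lt_of_le_of_lt (by gcongr) h)
  have i0 : 0 ≤ ∫ y in closedBall x (C * δ), τ y ∂A.vol := integral_nonneg hτ.2.1
  have sm := hk.1.right x
  constructor
  · refine ContinuousLinearMap.opNorm_le_bound₂ _ (by positivity) fun a b => ?_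
    rw [A.R_apply, Real.norm_eq_abs]
    refine (hτ.ker_le (B := C * (δ ^ 4)⁻¹ * ‖a‖ * ‖b‖) ((sm.app (sm_const a)).app (sm_const b)) (by positivity)
      (fun y => ?_) fun y h => by rw [far y h]; rfl).trans (le_of_eq (by ring))
    obtain ⟨L, hL⟩ := A.fr_at y
    refine (hL.norm_pi_le _).2.1.trans (((A.th δ x y).le_opNorm₂ a b).trans ?_)
    have := (hb δ hδ x y).1
    gcongr
    exact this.trans (by gcongr)
  · obtain ⟨L, hL⟩ := A.fr_at x
    set g := A.pP x (A.R T δ x) with hg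
    have e1 : ipG g g = T fun y => ipG (A.th δ x y) (A.pP x g) := by
      rw [← A.ipG_R]
      exact hL.ipG_piP _ _
    have e2 : |T fun y => ipG (A.th δ x y) (A.pP x g)| ≤
        C₃ * (δ ^ 3)⁻¹ * ‖g‖ * ∫ y in closedBall x (C * δ), τ y ∂A.vol :=
      hτ.ker_le ((sm.comp A.contDiff_pair.1).app (sm_const _)) (by positivity) (fun y => hm δ hδ x y g) fun y h => by
        rw [far y h, ipG_apply]; simp
    have e3 := norm_sq_le_ipG g
    rcases (norm_nonneg g).eq_or_lt with z | z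
    · rw [← z]; positivity
    · refine le_of_mul_le_mul_left ?_ z
      have e4 := le_abs_self (T fun y => ipG (A.th δ x y) (A.pP x g))
      have e5 : 2 * (C₃ * (δ ^ 3)⁻¹ * ‖g‖ * ∫ y in closedBall x (C * δ), τ y ∂A.vol) ≤
          ‖g‖ * (C * (δ ^ 3)⁻¹ * ∫ y in closedBall x (C * δ), τ y ∂A.vol) := by
        calc _ = ‖g‖ * (2 * C₃ * (δ ^ 3)⁻¹ * ∫ y in closedBall x (C * δ), τ y ∂A.vol) := by ring
          _ ≤ _ := by gcongr
      nlinarith

/-- `Fr.wG_split`, `RP_bound`, `TL.RT_le`, `cross2_tendsto`. -/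
theorem cross_RP_RT (hP : A.IsP lam P) (hT : A.Bdd T) (hτ : A.TL T τ) {c : ℝ} (hc : 0 ≤ c)
    (hμ : ∀ x r, 0 < r → lam.fst.real (closedBall x r) ≤ c * r ^ 2) :
    Tendsto (fun δ => ∫ x, A.wG (A.R P δ x) (A.R T δ x) ∂A.vol) (𝓝[>] 0) (𝓝 0) := by
  obtain ⟨C₁, hC₁, h1⟩ := A.RP_bound
  obtain ⟨C₂, hC₂, h2⟩ := hτ.RT_le
  obtain ⟨C₃, hC₃, h3⟩ := A.pair_bound (G := ℝ)
  obtain ⟨c', hc', hv⟩ := A.vol_ball_le
  have := hP.1
  have := A.vol_finite
  set C := max C₁ C₂ with hC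
  have l1 : C₁ ≤ C := le_max_left _ _
  have l2 : C₂ ≤ C := le_max_right _ _
  obtain ⟨hi, ht⟩ := cross2_tendsto (ν := A.vol) (μ := lam.fst) (c := max c c') (C₀ := C) (by positivity) (by linarith)
    (fun x r hr => (hv x r hr).trans (ENNReal.ofReal_le_ofReal (by gcongr; exact le_max_right _ _)))
    (fun x r hr => (hμ x r hr).trans (by gcongr; exact le_max_left _ _)) hτ.2.1 hτ.2.2.1
  have ht' := ht.const_mul (3 * C₃ * C₁ * C₂)
  rw [mul_zero] at ht'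
  refine squeeze_zero_norm' ?_ ht'
  filter_upwards [h1, h2, A.form_R, self_mem_nhdsWithin] with δ a1 a2 a3 hδ
  have hδ : 0 < δ := hδ
  rw [← integral_const_mul, ← integral_const_mul]
  refine norm_integral_le_of_norm_le (((hi _).const_mul _).const_mul _) (Eventually.of_forall fun x => ?_)
  obtain ⟨L, hL⟩ := A.fr_at x
  obtain ⟨b1, b2⟩ := a1 lam P hP x
  obtain ⟨b3, b4⟩ := a2 x
  have m1 : lam.fst.real (closedBall x (C₁ * δ)) ≤ lam.fst.real (closedBall x (C * δ)) :=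
    measureReal_mono (closedBall_subset_closedBall (by gcongr))
  have m2 : ∫ y in closedBall x (C₂ * δ), τ y ∂A.vol ≤ ∫ y in closedBall x (C * δ), τ y ∂A.vol :=
    setIntegral_mono_set hτ.integrable.integrableOn (Eventually.of_forall hτ.2.1)
      (closedBall_subset_closedBall (by gcongr)).eventuallyLE
  have m3 : 0 ≤ ∫ y in closedBall x (C * δ), τ y ∂A.vol := integral_nonneg hτ.2.1
  have m4 : 0 ≤ lam.fst.real (closedBall x (C * δ)) := measureReal_nonneg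
  set m := lam.fst.real (closedBall x (C * δ))
  set t := ∫ y in closedBall x (C * δ), τ y ∂A.vol
  have n1 : ‖A.piP (A.Pr x) (A.R P δ x)‖ ≤ 2 * (C₁ * (δ ^ 4)⁻¹ * m) :=
    (hL.norm_pi_le _).2.2.trans (by gcongr; exact b1.trans (by gcongr))
  have n2 : ‖A.piP (A.Pr x) (A.R T δ x)‖ ≤ C₂ * (δ ^ 3)⁻¹ * t := b4.trans (by gcongr)
  have n3 : ‖A.piM (A.Pr x) (A.R P δ x)‖ ≤ C₁ * (δ ^ 3)⁻¹ * m := b2.trans (by gcongr)
  have n4 : ‖A.piM (A.Pr x) (A.R T δ x)‖ ≤ C₂ * (δ ^ 4)⁻¹ * t :=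
    (hL.norm_pi_le _).2.1.trans (b3.trans (by gcongr))
  rw [hL.wG_split ((a3 P hP.bdd).2 x) ((a3 T hT).2 x)]
  refine (norm_add_le _ _).trans ?_
  calc _ ≤ C₃ * (2 * (C₁ * (δ ^ 4)⁻¹ * m)) * (C₂ * (δ ^ 3)⁻¹ * t) +
        C₃ * (C₁ * (δ ^ 3)⁻¹ * m) * (C₂ * (δ ^ 4)⁻¹ * t) :=
        add_le_add ((h3 _ _).2.trans (by gcongr)) ((h3 _ _).1.trans (by gcongr))
    _ = _ := by field_simp; ring

/-- `mm μ μ_Z r = ∫_Z μ (B (x, r)) dμ` (`mm_eq`), `δ⁻² μ (B (x, C δ)) ≤ C' P (nk (C δ / c) x) → 0` on `Z` (`nu_bounds`), dominated convergence (`Sit.mu_ball`). -/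
theorem Sit.mmZ_tendsto (h : A.Sit lam P T n) (hν : A.IsNu P ν) {C : ℝ} (hC : 0 < C) :
    Tendsto (fun δ => (δ ^ 2)⁻¹ * mm lam.fst (lam.fst.restrict {x | ν x = 0}) (C * δ)) (𝓝[>] 0) (𝓝 0) := by
  obtain ⟨c, C₁, hc, -, -, hb⟩ := A.nu_bounds
  obtain ⟨B, hB, hm⟩ := h.mu_ball
  have := h.hP.1
  have mZ : MeasurableSet {x | ν x = 0} := hν.1 (measurableSet_singleton 0)
  have e : ∀ δ : ℝ, (δ ^ 2)⁻¹ * mm lam.fst (lam.fst.restrict {x | ν x = 0}) (C * δ) =
      ∫ x, (δ ^ 2)⁻¹ * lam.fst.real (closedBall x (C * δ)) ∂(lam.fst.restrict {x | ν x = 0}) := fun δ => by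
    rw [(mm_eq _ _ _).2.2.2, (mm_eq _ _ _).2.2.1, integral_const_mul]
  simp only [e]
  have sc : Tendsto (fun δ : ℝ => C / c * δ) (𝓝[>] 0) (𝓝[>] 0) := by
    refine tendsto_nhdsWithin_iff.2 ⟨?_, ?_⟩
    · have : Tendsto (fun δ : ℝ => C / c * δ) (𝓝 0) (𝓝 (C / c * 0)) := (continuous_const.mul continuous_id).tendsto 0
      rw [mul_zero] at this
      exact this.mono_left nhdsWithin_le_nhds
    · filter_upwards [self_mem_nhdsWithin] with δ hδ
      have hδ : 0 < δ := hδ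
      exact mem_Ioi.2 (by positivity)
  have := tendsto_integral_filter_of_dominated_convergence (μ := lam.fst.restrict {x | ν x = 0}) (l := 𝓝[>] (0 : ℝ))
    (F := fun δ x => (δ ^ 2)⁻¹ * lam.fst.real (closedBall x (C * δ))) (f := fun _ => (0 : ℝ)) (fun _ => B * C ^ 2)
    (Eventually.of_forall fun δ => ((mm_eq lam.fst lam.fst _).1.const_mul _).aestronglyMeasurable)
    (by
      filter_upwards [self_mem_nhdsWithin] with δ hδ
      have hδ : 0 < δ := hδ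
      refine Eventually.of_forall fun x => ?_
      rw [Real.norm_eq_abs, abs_of_nonneg (by positivity), inv_mul_le_iff₀ (by positivity)]
      exact (hm x _ (by positivity)).trans (le_of_eq (by ring)))
    (integrable_const _)
    (by
      filter_upwards [ae_restrict_mem mZ] with x hx
      have h1 := ((hν.2.2 x).comp sc).const_mul (C ^ 2 / c ^ 3)
      rw [show ν x = 0 from hx, mul_zero] at h1
      refine squeeze_zero' (Eventually.of_forall fun δ => by positivity) ?_ h1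
      filter_upwards [sc.eventually hb, self_mem_nhdsWithin] with δ a1 hδ
      have hδ : 0 < δ := hδ
      have a2 := (a1 lam P h.hP x).1
      rw [show c * (C / c * δ) = C * δ by field_simp] at a2
      refine le_trans (le_of_eq ?_) (mul_le_mul_of_nonneg_left a2 (by positivity))
      field_simp)
  simpa using this

/-- `pair_expand` with `P' = PZ` (`IsP.restrict`, `Sit.cl_Z`), `RP_pos`, `angE_props`, `Sit.mmZ_tendsto`, `cross_RP_RT` twice, `wG_int_bounds`, `RT_L2` with `Sit.AB_unif`. -/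
theorem Sit.RT_tendsto (h : A.Sit lam P T n) :
    Tendsto (fun δ => lpNorm (fun x => A.pM x (A.R T δ x)) 2 A.vol) (𝓝[>] 0) (𝓝 0) := by
  obtain ⟨ν, hν⟩ := h.exists_nu
  obtain ⟨τ, hτ⟩ := h.exists_TL
  obtain ⟨B, hB, hm⟩ := h.mu_ball
  obtain ⟨s, c, -, hc, hAB⟩ := h.AB_unif
  obtain ⟨C₁, hC₁, h1⟩ := A.RT_L2 s
  obtain ⟨C₂, hC₂, h2⟩ := A.wG_int_bounds
  obtain ⟨c₃, C₃, hc₃, hC₃, h3⟩ := A.RP_pos
  have := h.hP.1
  have mZ : MeasurableSet {x | ν x = 0} := hν.1 (measurableSet_singleton 0)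
  obtain ⟨⟨PZ, hZ⟩, eZ⟩ := h.hP.restrict mZ
  have t1 := cross_RP_RT h.hP h.hT.bdd hτ hB hm
  have t2 := cross_RP_RT hZ h.hT.bdd hτ hB fun x r hr => by
    rw [eZ]
    exact (ENNReal.toReal_mono (measure_ne_top _ _) (Measure.restrict_le_self _)).trans (hm x r hr)
  have t3 := (h.mmZ_tendsto hν (C := C₃) (by linarith)).const_mul C₃
  have t4 : Tendsto (fun δ : ℝ => C₂ * (C₁ * δ * c) ^ 2) (𝓝[>] 0) (𝓝 (C₂ * (C₁ * 0 * c) ^ 2)) :=
    (by fun_prop : Continuous fun δ : ℝ => C₂ * (C₁ * δ * c) ^ 2).continuousAt.mono_left nhdsWithin_le_nhds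
  have t5 := (((t3.sub t1).sub t2).add t4).const_mul 2
  have t6 : Tendsto (fun δ => lpNorm (fun x => A.pM x (A.R T δ x)) 2 A.vol ^ 2) (𝓝[>] 0) (𝓝 0) := by
    refine squeeze_zero' (Eventually.of_forall fun δ => sq_nonneg _) ?_ (by simpa using t5)
    filter_upwards [h1, h3, hAB, A.pair_expand, A.form_R, self_mem_nhdsWithin] with δ a1 a3 a4 a5 a6 hδ
    have hδ : 0 < δ := hδ
    have b1 := (a1 T n c h.hT hc a4).2
    have b2 := (h2 _ _ (a6 T h.hT.bdd) (a6 T h.hT.bdd)).1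
    have b3 := a3 _ _ _ _ h.hP hZ
    have b4 := a5 P PZ T h.hP.bdd hZ.bdd h.hT.bdd h.ex (h.cl_Z hν hZ)
    have b5 : 0 ≤ c₃ * (δ ^ 4)⁻¹ * A.angE lam (lam.restrict (Prod.fst ⁻¹' {x | ν x = 0})) (c₃ * δ) :=
      mul_nonneg (by positivity) ((A.angE_props h.hP hZ).1 _)
    have b6 : C₂ * lpNorm (fun x => A.pP x (A.R T δ x)) 2 A.vol ^ 2 ≤ C₂ * (C₁ * δ * c) ^ 2 := by
      gcongr
      exact lpNorm_nonneg
    rw [eZ] at b3
    linarith
  have t7 := t6.sqrt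
  simpa [Real.sqrt_sq lpNorm_nonneg] using t7

/-- `T_approx`, `Sit.AB_unif`, `Sit.RT_tendsto` give `T (ext k u) = 0` for `Tst 1 u`; `sum_ext_lcz`. -/
theorem Sit.T_zero (h : A.Sit lam P T n) {b : M → Bil F} (hb : A.Sm b) : T b = 0 := by
  obtain ⟨s, c, hs1, hc, hAB⟩ := h.AB_unif
  obtain ⟨C, hC, h1⟩ := A.T_approx s
  have key : ∀ k (u : E4 → Bil F), Tst 1 u → T (A.ext k u) = 0 := by
    intro k u hu
    have t1 := ((h.RT_tendsto.const_mul C).mul_const (lpNorm u 2 volume))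
    have t2 : Tendsto (fun δ : ℝ => C * c * δ ^ s * hs s 1 u) (𝓝[>] 0) (𝓝 (C * c * 0 ^ s * hs s 1 u)) :=
      (by fun_prop : Continuous fun δ : ℝ => C * c * δ ^ s * hs s 1 u).continuousAt.mono_left nhdsWithin_le_nhds
    have t3 := t1.add t2
    rw [zero_pow (by omega)] at t3
    have ev : ∀ᶠ δ in 𝓝[>] (0 : ℝ), C * δ < 1 := by
      have : Tendsto (fun δ : ℝ => C * δ) (𝓝[>] 0) (𝓝 (C * 0)) :=
        (continuous_const.mul continuous_id).continuousAt.mono_left nhdsWithin_le_nhds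
      exact this.eventually (gt_mem_nhds (by simp))
    have : |T (A.ext k u)| ≤ 0 := by
      refine ge_of_tendsto (by simpa using t3) ?_
      filter_upwards [h1, hAB, ev] with δ a1 a2 a3
      exact a1 T n c h.hT hc a2 k u (hu.mono (by linarith))
    exact abs_nonpos_iff.1 this
  rw [← A.sum_ext_lcz b, map_sum]
  exact Finset.sum_eq_zero fun k _ => key k _ (hb.lcz k)

end Atl
end Crest.Agent.R240
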