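import Crest.Agent.R240.O2

/-! Block O3: the scalar parametrix. -/

set_option autoImplicit false
set_option maxSynthPendingDepth 3
set_option linter.unusedSectionVars false
set_option linter.unusedVariables false
open MeasureTheory Filter Set Metric
open scoped ENNReal NNReal Topology ContDiff InnerProductSpace InnerProduct

noncomputable section
namespace Crest.Agent.R240


/-- Symbols that come from functions homogeneous of degree `-2` in `(s, ζ)`. -/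
def o3aC (H : E4 × (ℝ × E4) → ℝ) : Prop :=
  ContDiffOn ℝ ∞ H {q | q.2 ≠ 0} ∧ (∀ z p, 2 < ‖z‖ → H (z, p) = 0) ∧
    ∀ z p (l : ℝ), 0 < l → H (z, l • p) = (l ^ 2)⁻¹ * H (z, p)

theorem o3a_open : IsOpen {q : E4 × (ℝ × E4) | q.2 ≠ 0} :=
  isOpen_ne_fun continuous_snd continuous_const

theorem o3a_d {H : E4 × (ℝ × E4) → ℝ} (h : o3aC H) (μ : Fin 4) :
    o3aC fun q => pd μ (fun w => H (w, q.2)) q.1 := by
  refine ⟨?_, fun z p hz => ?_, fun z p l hl => ?_⟩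
  · refine ((h.1.fderiv_of_isOpen (m := ∞) o3a_open (by simp)).clm_apply
      (contDiffOn_const (c := ((ee μ, 0) : E4 × (ℝ × E4))))).congr fun q hq => ?_
    have h1 : DifferentiableAt ℝ H q :=
      (h.1.contDiffAt (o3a_open.mem_nhds hq)).differentiableAt (by simp)
    have h2 := (h1.hasFDerivAt.comp q.1 (hasFDerivAt_prodMk_left (𝕜 := ℝ) q.1 q.2)).fderiv
    exact congrArg (fun T : E4 →L[ℝ] ℝ => T (ee μ)) h2
  · have h1 : (fun w => H (w, p)) =ᶠ[𝓝 z] fun _ => 0 := by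
      filter_upwards [(isOpen_lt continuous_const continuous_norm).mem_nhds hz] with w hw
      exact h.2.1 w p hw
    simp only [pd, h1.fderiv_eq, fderiv_fun_const, Pi.zero_apply, ContinuousLinearMap.zero_apply]
  · have h1 : (fun w => H (w, l • p)) = (l ^ 2)⁻¹ • fun w => H (w, p) :=
      funext fun w => h.2.2 w p l hl
    simp only [pd, h1, fderiv_const_smul_field]
    rfl

theorem o3a_sy0 {H : E4 × (ℝ × E4) → ℝ} (h : o3aC H) : Sy0 fun z ξ => H (z, (1, ξ)) := by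
  have hne : ∀ ξ : E4, ((1 : ℝ), ξ) ≠ 0 := fun ξ h => one_ne_zero (congrArg Prod.fst h)
  refine ⟨?_, fun ξ => ⟨?_, fun z hz => h.2.1 z _ hz⟩, ?_⟩
  · exact h.1.continuousOn.comp_continuous (f := fun q : E4 × E4 => (q.1, ((1 : ℝ), q.2)))
      (by fun_prop) fun q => hne q.2
  · exact h.1.comp_contDiff (f := fun z : E4 => (z, ((1 : ℝ), ξ))) (by fun_prop) fun z => hne ξ
  · have hK : IsCompact (closedBall (0 : E4) 2 ×ˢ sphere (0 : ℝ × E4) 1) :=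
      (isCompact_closedBall _ _).prod (isCompact_sphere _ _)
    obtain ⟨C, hC⟩ := hK.exists_bound_of_continuousOn (h.1.continuousOn.mono fun q hq h0 => by
      have h1 := hq.2
      rw [h0] at h1
      simp at h1)
    refine ⟨2 * max C 0, fun z ξ => ?_⟩
    rcases le_or_gt ‖z‖ 2 with hz | hz
    · obtain ⟨r, hr⟩ : ∃ r, r = ‖((1 : ℝ), ξ)‖ := ⟨_, rfl⟩
      have r0 : 0 < r := by rw [hr]; exact norm_pos_iff.2 (hne ξ)
      have r1 : 1 ≤ r := by rw [hr]; simpa using norm_fst_le ((1 : ℝ), ξ)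
      have r2 : ‖ξ‖ ≤ r := by rw [hr]; exact norm_snd_le ((1 : ℝ), ξ)
      have h1 := h.2.2 z (r⁻¹ • ((1 : ℝ), ξ)) r r0
      rw [smul_inv_smul₀ r0.ne'] at h1
      have h2 := hC (z, r⁻¹ • ((1 : ℝ), ξ)) ⟨mem_closedBall_zero_iff.2 hz, by
        rw [mem_sphere_zero_iff_norm, norm_smul, ← hr, norm_inv, Real.norm_eq_abs, abs_of_pos r0,
          inv_mul_cancel₀ r0.ne']⟩
      have h3 : 1 + ‖ξ‖ ^ 2 ≤ 2 * r ^ 2 := by nlinarith [norm_nonneg ξ]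
      show |H (z, (1, ξ))| ≤ _
      rw [h1, abs_mul, abs_of_pos (by positivity), le_div_iff₀ (by positivity)]
      calc _ ≤ (r ^ 2)⁻¹ * max C 0 * (2 * r ^ 2) := by
            have h4 : |H (z, r⁻¹ • ((1 : ℝ), ξ))| ≤ max C 0 := le_trans h2 (le_max_left _ _)
            gcongr
        _ = _ := by field_simp
    · show |H (z, (1, ξ))| ≤ _
      rw [h.2.1 z _ hz, abs_zero]
      positivity

theorem o3a_sy {H : E4 × (ℝ × E4) → ℝ} (h : o3aC H) : Sy fun z ξ => H (z, (1, ξ)) := by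
  intro n
  induction n generalizing H with
  | zero => exact o3a_sy0 h
  | succ n ih => exact ⟨o3a_sy0 h, fun μ => ih (o3a_d h μ)⟩

/-- `a z ξ = χ z / (1 + 4π² Q_z(ξ,ξ))`, `χ` a bump with `rIn = 1`, `rOut = 2`.  Write
`a z ξ = (1 + ‖ξ‖²)⁻¹ Hh (z, (t, ζ))` with `t = (1+‖ξ‖²)⁻¹`, `ζ = √t • ξ`, `Hh (z, t, ζ) = χ z / (t + 4π² Q_z(ζ,ζ))`.  Induct over the class of all
`a` of this form with `Hh` smooth on the open set `{z ∈ V, t + 4π² Q_z(ζ,ζ) > 0}` and zero for `2 < ‖z‖` (read `a z ξ = 0` off `V`);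
the parameters `(t, ζ)` run in the compact set `t + ‖ζ‖² = 1, 0 ≤ t`. -/
theorem exists_symbol {Q : E4 → Bil E4} (hQ : ContDiffOn ℝ ∞ Q V) (hp : ∀ z ∈ V, ∀ ξ, ξ ≠ 0 → 0 < Q z ξ ξ) :
    ∃ (a : E4 → E4 → ℝ) (χ : E4 → ℝ), Sy a ∧ (∀ z, ‖z‖ ≤ 1 → χ z = 1) ∧
      ∀ z ∈ V, ∀ ξ, a z ξ * (1 + 4 * Real.pi ^ 2 * Q z ξ ξ) = χ z := by
  let χ : ContDiffBump (0 : E4) := ⟨1, 2, one_pos, one_lt_two⟩
  have hχ : ∀ z : E4, 2 < ‖z‖ → χ z = 0 := fun z hz =>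
    χ.zero_of_le_dist (by simpa [χ] using hz.le)
  have hpos : ∀ z ∈ V, ∀ p : ℝ × E4, p ≠ 0 → 0 < p.1 ^ 2 + 4 * Real.pi ^ 2 * Q z p.2 p.2 := by
    intro z hz p hp0
    by_cases h2 : p.2 = 0
    · have h1 : p.1 ≠ 0 := fun h1 => hp0 (Prod.ext h1 h2)
      simp only [h2, map_zero, mul_zero, add_zero]
      positivity
    · have := hp z hz _ h2
      have := Real.pi_pos
      positivity
  have hH : o3aC fun q : E4 × (ℝ × E4) =>
      χ q.1 / (q.2.1 ^ 2 + 4 * Real.pi ^ 2 * Q q.1 q.2.2 q.2.2) := by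
    refine ⟨fun q hq => ContDiffAt.contDiffWithinAt ?_, fun z p hz => by simp [hχ z hz],
      fun z p l hl => ?_⟩
    · rcases le_or_gt ‖q.1‖ 2 with hz | hz
      · have hV : q.1 ∈ V := mem_ball_zero_iff.2 (by linarith)
        have h1 : ContDiffAt ℝ ∞ (fun q : E4 × (ℝ × E4) => Q q.1) q :=
          (hQ.contDiffAt (isOpen_ball.mem_nhds hV)).comp q contDiffAt_fst
        have h2 : ContDiffAt ℝ ∞ (fun q : E4 × (ℝ × E4) => q.2.2) q := contDiffAt_snd.snd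
        exact (χ.contDiff.contDiffAt.comp q contDiffAt_fst).div
          ((contDiffAt_snd.fst.pow 2).add (contDiffAt_const.mul ((h1.clm_apply h2).clm_apply h2)))
          (hpos _ hV _ hq).ne'
      · refine (contDiffAt_const (c := (0 : ℝ))).congr_of_eventuallyEq ?_
        filter_upwards [(isOpen_lt continuous_const (continuous_fst.norm)).mem_nhds hz] with w hw
        simp [hχ w.1 hw]
    · simp only [Prod.smul_fst, Prod.smul_snd, map_smul, smul_eq_mul, ContinuousLinearMap.smul_apply]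
      rw [show (l * p.1) ^ 2 + 4 * Real.pi ^ 2 * (l * (l * Q z p.2 p.2)) =
        l ^ 2 * (p.1 ^ 2 + 4 * Real.pi ^ 2 * Q z p.2 p.2) by ring, mul_comm (l ^ 2), ← div_div,
        div_eq_inv_mul]
  refine ⟨_, χ, o3a_sy hH, fun z hz => χ.one_of_mem_closedBall (by simpa [χ] using hz),
    fun z hz ξ => ?_⟩
  have := hpos z hz (1, ξ) fun h => one_ne_zero (congrArg Prod.fst h)
  simp only [one_pow] at this ⊢
  exact div_mul_cancel₀ _ this.ne'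

theorem o3b_ext {F : (E4 → ℝ) → E4 → ℝ} (h1 : ∀ u v, Tst 1 u → Tst 1 v → F (u + v) = F u + F v)
    (h2 : ∀ (c : ℝ) u, Tst 1 u → F (c • u) = c • F u) :
    ∃ L : (E4 → ℝ) →ₗ[ℝ] (E4 → ℝ), ∀ u, Tst 1 u → L u = F u := by
  let T : Submodule ℝ (E4 → ℝ) :=
    { carrier := {u | Tst 1 u}
      add_mem' := fun hu hv => hu.add hv
      zero_mem' := Tst.zero 1
      smul_mem' := fun c u hu => Tst.smul hu c }
  let f : T →ₗ[ℝ] (E4 → ℝ) :=
    { toFun := fun u => F u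
      map_add' := fun u v => h1 u v u.2 v.2
      map_smul' := fun c u => h2 c u u.2 }
  obtain ⟨L, hL⟩ := f.exists_extend
  exact ⟨L, fun u hu => LinearMap.congr_fun hL ⟨u, hu⟩⟩

theorem o3b_Q (B : Bil E4) (ξ : E4) : ∑ ν, ∑ μ, B (ee ν) (ee μ) * (ξ ν * ξ μ) = B ξ ξ := by
  conv_rhs => rw [← sum_ee ξ]
  simp only [map_sum, map_smul, ContinuousLinearMap.sum_apply, ContinuousLinearMap.smul_apply, smul_eq_mul,
    Finset.mul_sum]
  rw [Finset.sum_comm]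
  exact Finset.sum_congr rfl fun ν _ => Finset.sum_congr rfl fun μ _ => by ring

open scoped FourierTransform in
theorem o3b_id {a : E4 → E4 → ℝ} (ha : Sy0 a) {u : E4 → ℝ} (hu : Tst 1 u) (z : E4) (B : Bil E4) {c : ℝ}
    (h : ∀ ξ, a z ξ * (1 + 4 * Real.pi ^ 2 * B ξ ξ) = c) :
    ∑ ν, ∑ μ, B (ee ν) (ee μ) * Op a (pd ν (pd μ u)) z = Op a u z - c * u z := by
  obtain ⟨h1, h2, -, -, h5⟩ := FT_props hu
  have i0 : Integrable fun ξ => ((𝐞 ⟪z, ξ⟫_ℝ : Circle) : ℂ) * FT u ξ := by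
    refine (h2 0).mono' (Continuous.aestronglyMeasurable (by fun_prop)) (Eventually.of_forall fun ξ => ?_)
    rw [norm_mul, Circle.norm_coe, pow_zero]
  have e0 : ∫ ξ, ((𝐞 ⟪z, ξ⟫_ℝ : Circle) : ℂ) * FT u ξ = u z := by
    rw [← h5 z, Real.fourierInv_eq]
    simp only [Circle.smul_def, smul_eq_mul, real_inner_comm z]
  have i1 := fun ν μ => (o1a_int ha ((hu.pd' μ).pd' ν) z).const_mul (B (ee ν) (ee μ) : ℂ)
  have e1 : ∑ ν, ∑ μ, (B (ee ν) (ee μ) : ℂ) *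
      ∫ ξ, ((𝐞 ⟪z, ξ⟫_ℝ : Circle) : ℂ) * (a z ξ : ℂ) * FT (pd ν (pd μ u)) ξ =
      (∫ ξ, ((𝐞 ⟪z, ξ⟫_ℝ : Circle) : ℂ) * (a z ξ : ℂ) * FT u ξ) - c * u z := by
    rw [← e0, ← integral_const_mul, ← integral_sub (o1a_int ha hu z) (i0.const_mul _)]
    simp only [← integral_const_mul]
    rw [Finset.sum_congr rfl fun ν _ => (integral_finsetSum _ fun μ _ => i1 ν μ).symm,
      ← integral_finsetSum _ fun ν _ => integrable_finsetSum _ fun μ _ => i1 ν μ]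
    refine integral_congr_ae (Eventually.of_forall fun ξ => ?_)
    have e2 := congrArg (fun t : ℝ => (t : ℂ)) (h ξ)
    have e3 := congrArg (fun t : ℝ => (t : ℂ)) (o3b_Q B ξ)
    simp only [FT_pd (hu.pd' _), FT_pd hu]
    push_cast at e2 e3
    rw [← e2, ← e3]
    simp only [Finset.mul_sum, mul_add, add_mul, Finset.sum_mul, mul_one, mul_assoc, mul_left_comm (a z ξ : ℂ),
      sub_add_cancel_left, ← Finset.sum_neg_distrib]
    refine Finset.sum_congr rfl fun ν _ => Finset.sum_congr rfl fun μ _ => ?_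
    linear_combination (4 * Real.pi ^ 2 * a z ξ * B (ee ν) (ee μ) * ((𝐞 ⟪z, ξ⟫_ℝ : Circle) : ℂ) * ξ ν * ξ μ *
      FT u ξ) * Complex.I_sq
  have := congrArg Complex.re e1
  simpa only [Complex.re_sum, Complex.re_ofReal_mul, Complex.sub_re, Complex.ofReal_re, Op] using this

/-- `Gm μ u = Op a (pd μ u)`, `Hm ν μ u = Op a (pd ν (pd μ u))`, `Km ν μ u = Op (da ν a) (pd μ u)`, `K₀ u = Op a u`, made into total linear
maps with `LinearMap.exists_extend` from the submodule of test functions; Fourier inversion for the last identity. -/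
theorem psi {Q : E4 → Bil E4} (hQ : ContDiffOn ℝ ∞ Q V) (hp : ∀ z ∈ V, ∀ ξ, ξ ≠ 0 → 0 < Q z ξ ξ) :
    ∃ (Gm : Fin 4 → (E4 → ℝ) →ₗ[ℝ] (E4 → ℝ)) (Hm Km : Fin 4 → Fin 4 → (E4 → ℝ) →ₗ[ℝ] (E4 → ℝ))
      (K₀ : (E4 → ℝ) →ₗ[ℝ] (E4 → ℝ)),
      (∀ u, Tst 1 u → (∀ μ, Tst 2 (Gm μ u)) ∧ (∀ ν μ, Tst 2 (Km ν μ u)) ∧ Tst 2 (K₀ u) ∧
        (∀ ν μ, pd ν (Gm μ u) = Hm ν μ u + Km ν μ u) ∧ (∀ ν μ, Hm ν μ u = Hm μ ν u) ∧
        ∀ z ∈ V, ∑ ν, ∑ μ, Q z (ee ν) (ee μ) * Hm ν μ u z = K₀ u z - u z) ∧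
      ∀ n, ∃ C : ℝ, 0 ≤ C ∧ ∀ u, Tst 1 u → (∀ μ, hs (n + 1) 1 (Gm μ u) ≤ C * hs n 1 u) ∧
        (∀ ν μ, hs (n + 1) 1 (Km ν μ u) ≤ C * hs n 1 u) ∧ hs (n + 1) 1 (K₀ u) ≤ C * hs n 1 u := by
  obtain ⟨a, χ, ha, hχ, h⟩ := exists_symbol hQ hp
  have hop : ∀ {b : E4 → E4 → ℝ}, Sy b → ∃ L : (E4 → ℝ) →ₗ[ℝ] (E4 → ℝ), ∀ u, Tst 1 u → L u = Op b u :=
    fun hb => o3b_ext (fun u v hu hv => Op_add hb.sy0 hu hv) fun c u _ => Op_smul _ c u
  obtain ⟨O, hO⟩ := hop ha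
  choose O' hO' using fun ν => hop (ha.da' ν)
  choose P hP using fun μ => o3b_ext (F := pd μ) (fun u v hu hv => pd_add hu hv μ) fun c u hu => pd_smul hu c μ
  refine ⟨fun μ => O ∘ₗ P μ, fun ν μ => O ∘ₗ P ν ∘ₗ P μ, fun ν μ => O' ν ∘ₗ P μ, O, fun u hu => ?_, fun n => ?_⟩
  · simp only [LinearMap.comp_apply, hP _ u hu, hP _ _ (hu.pd' _), hO _ hu, hO _ (hu.pd' _),
      hO _ ((hu.pd' _).pd' _), hO' _ _ (hu.pd' _)]
    refine ⟨fun μ => (Op_tst ha (hu.pd' μ)).1, fun ν μ => (Op_tst (ha.da' ν) (hu.pd' μ)).1, (Op_tst ha hu).1,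
      fun ν μ => by rw [(Op_tst ha (hu.pd' μ)).2 ν, add_comm], fun ν μ => by rw [pd_comm hu.1], fun z hz => ?_⟩
    rw [o3b_id ha.sy0 hu z (Q z) (h z hz)]
    rcases le_or_gt ‖z‖ 1 with h1 | h1
    · rw [hχ z h1, one_mul]
    · rw [hu.2 z h1, mul_zero]
  · obtain ⟨C, hC0, hC⟩ := Op_hs n ha
    choose C' hC0' hC' using fun ν => Op_hs n (ha.da' ν)
    have hS : 0 ≤ ∑ ν, C' ν := Finset.sum_nonneg fun ν _ => hC0' ν
    refine ⟨C + ∑ ν, C' ν, add_nonneg hC0 hS, fun u hu => ?_⟩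
    have h0 := hs_nonneg n zero_le_one u
    simp only [LinearMap.comp_apply, hP _ u hu, hO _ hu, hO _ (hu.pd' _), hO' _ _ (hu.pd' _)]
    refine ⟨fun μ => ((hC u hu).2 μ).trans (mul_le_mul_of_nonneg_right (le_add_of_nonneg_right hS) h0),
      fun ν μ => ((hC' ν u hu).2 μ).trans (mul_le_mul_of_nonneg_right ?_ h0),
      (hC u hu).1.trans (mul_le_mul_of_nonneg_right (le_add_of_nonneg_right hS) h0)⟩
    exact (Finset.single_le_sum (fun ν _ => hC0' ν) (Finset.mem_univ ν)).trans (le_add_of_nonneg_left hC0)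

end Crest.Agent.R240
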