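import Crest.Agent.R240.C3
import Crest.Agent.R240.O3
import Crest.Agent.R240.A4
import Crest.Agent.R240.A5

/-! Block K1: solving `(dγ)⁻ = τ` up to a finite dimensional error. -/

set_option autoImplicit false
set_option maxSynthPendingDepth 3
set_option linter.unusedSectionVars false
set_option linter.unusedVariables false
open MeasureTheory Filter Set Metric
open scoped ENNReal NNReal Topology ContDiff InnerProductSpace InnerProduct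

noncomputable section
namespace Crest.Agent.R240

namespace Atl
variable {M F ι : Type*} [MetricSpace M] [CompactSpace M] [NormedAddCommGroup F] [InnerProductSpace ℝ F]
  [FiniteDimensional ℝ F] [Fintype ι] (A : Atl M F ι)
  {G G' : Type*} [NormedAddCommGroup G] [NormedSpace ℝ G] [FiniteDimensional ℝ G]
  [NormedAddCommGroup G'] [NormedSpace ℝ G'] [FiniteDimensional ℝ G']

/-- The coordinate covectors as vectors. -/
def ep (k : ι) (z : E4) (a : E4) : F := ((A.Ip k z)†) a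

theorem k1a_adj : ContDiff ℝ ∞ fun L : F →L[ℝ] E4 => (L†) := by
  refine IsBoundedLinearMap.contDiff ⟨⟨fun L L' => map_add _ _ _, fun c L => ?_⟩, 1, one_pos, fun L => ?_⟩
  · simp
  · simp

theorem k1a_inner (k : ι) (z a : E4) (v : F) : ⟪A.ep k z a, v⟫_ℝ = ⟪a, A.Ip k z v⟫_ℝ :=
  ContinuousLinearMap.adjoint_inner_left _ _ _

theorem k1a_fderiv (g : E4 → ℝ) (z a : E4) : fderiv ℝ g z a = ∑ ν, pd ν g z * ⟪ee ν, a⟫_ℝ := by
  have e : a = ∑ ν, ⟪ee ν, a⟫_ℝ • ee ν := by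
    ext i
    simp [ee, Finset.sum_apply, Pi.single_apply, EuclideanSpace.inner_single_left]
  conv_lhs => rw [e]
  rw [map_sum]
  exact Finset.sum_congr rfl fun ν _ => by rw [map_smul, smul_eq_mul, mul_comm]; rfl

theorem ep_spec (k : ι) : (∀ a, ContDiffOn ℝ ∞ (fun z => A.ep k z a) V) ∧
    (∀ z ∈ V, ∀ a, A.Pr (A.ψ k z) (A.ep k z a) = A.ep k z a ∧ ∀ v, ⟪A.ep k z a, v⟫_ℝ = ⟪a, A.Ip k z v⟫_ℝ) ∧
    ∃ Q : E4 → Bil E4, ContDiffOn ℝ ∞ Q V ∧ (∀ z ∈ V, ∀ ξ, ξ ≠ 0 → 0 < Q z ξ ξ) ∧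
      ∀ z a b, Q z a b = ⟪A.ep k z a, A.ep k z b⟫_ℝ := by
  have hs : ContDiffOn ℝ ∞ (fun z => (A.Ip k z)†) V := k1a_adj.comp_contDiffOn (A.I_sm k).2.1
  refine ⟨fun a => hs.clm_apply contDiffOn_const, fun z hz a => ⟨?_, A.k1a_inner k z a⟩,
    fun z => pb ((A.Ip k z)†) (innerSL ℝ : Bil F),
    (contDiff_pb.comp_contDiffOn hs).clm_apply contDiffOn_const, fun z hz ξ hξ => ?_, fun z a b => rfl⟩
  · refine ext_inner_right ℝ fun v => ?_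
    rw [(A.fr k z hz).inner_P, k1a_inner, k1a_inner, A.Ip_Pr k hz]
  · change 0 < ⟪A.ep k z ξ, A.ep k z ξ⟫_ℝ
    refine real_inner_self_pos.2 fun h0 => hξ ?_
    have h1 := A.k1a_inner k z ξ (A.I k z ξ)
    rw [h0, inner_zero_left, A.Ip_I k hz] at h1
    exact inner_self_eq_zero.1 h1.symm

/-- The one-forms `θ η μ = (pM η) (ε_μ, I ·)`. -/
def tht (k : ι) (η : Bil F) (μ : Fin 4) (z : E4) : E4 →L[ℝ] ℝ :=
  (A.pM (A.ψ k z) η (A.ep k z (ee μ))).comp (A.I k z)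

/-- `d1_smul`, `fderiv g z = ∑ ν, pd ν g z • proj ν`, `pb (Ip) (wd (proj ν) θ) = wd (innerSL ε_ν) (pM η ε_μ)`. -/
theorem up_d1_smul (k : ι) (η : Bil F) (μ : Fin 4) : ContDiffOn ℝ ∞ (A.tht k η μ) V ∧
    ∀ g : E4 → ℝ, ContDiff ℝ ∞ g → ∀ z ∈ V, A.up k (d1 fun w => g w • A.tht k η μ w) z =
      g z • A.up k (d1 (A.tht k η μ)) z +
        ∑ ν, pd ν g z • wd (innerSL ℝ (A.ep k z (ee ν))) (A.pM (A.ψ k z) η (A.ep k z (ee μ))) := by
  have hs : ContDiffOn ℝ ∞ (A.tht k η μ) V :=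
    (((A.sm_basic.2.2.2.2.2.1 k).clm_apply contDiffOn_const).clm_apply ((A.ep_spec k).1 _)).clm_comp
      (A.I_sm k).1
  refine ⟨hs, fun g hg z hz => ?_⟩
  have hθ : DifferentiableAt ℝ (A.tht k η μ) z :=
    (hs.contDiffAt (V_open.mem_nhds hz)).differentiableAt (by simp)
  have hgd : DifferentiableAt ℝ g z := hg.contDiffAt.differentiableAt (by simp)
  have ht : ∀ v, A.tht k η μ z (A.Ip k z v) = A.pM (A.ψ k z) η (A.ep k z (ee μ)) v := fun v => by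
    have h1 := (((A.fr k z hz).piT_eq_iff _).1 ((A.fr k z hz).piT_piM η)).2 (A.ep k z (ee μ)) v
    rw [(((A.ep_spec k).2.1 z hz) _).1] at h1
    simp only [tht, ContinuousLinearMap.comp_apply, A.I_Ip k hz]
    exact h1
  simp only [up]
  rw [d1_smul hgd hθ, map_add, map_smul]
  congr 1
  ext u v
  simp only [pb_apply, wd_apply, ht, k1a_fderiv, ContinuousLinearMap.sum_apply,
    ContinuousLinearMap.smul_apply, innerSL_apply_apply, k1a_inner, smul_eq_mul, Finset.sum_mul,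
    Finset.mul_sum, ← Finset.sum_sub_distrib]
  exact Finset.sum_congr rfl fun ν _ => by ring

/-- Multiplication of a scalar function with a coefficient. -/
def k1b_mul (a : E4 → G) : (E4 → ℝ) →ₗ[ℝ] (E4 → G) where
  toFun g z := g z • a z
  map_add' u v := by funext z; simp [add_smul]
  map_smul' c u := by funext z; simp [mul_smul]

/-- Smoothing operators of order one. -/
def k1b_Gd (T : (E4 → ℝ) →ₗ[ℝ] (E4 → G)) : Prop :=
  (∀ u, Tst 1 u → Tst 2 (T u)) ∧ ∀ n, ∃ C : ℝ, 0 ≤ C ∧ ∀ u, Tst 1 u → hs (n + 1) 1 (T u) ≤ C * hs n 1 u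

theorem k1b_add {T S : (E4 → ℝ) →ₗ[ℝ] (E4 → G)} (hT : k1b_Gd T) (hS : k1b_Gd S) : k1b_Gd (T + S) := by
  refine ⟨fun u hu => (hT.1 u hu).add (hS.1 u hu), fun n => ?_⟩
  obtain ⟨C, hC, h⟩ := hT.2 n
  obtain ⟨C', hC', h'⟩ := hS.2 n
  refine ⟨C + C', add_nonneg hC hC', fun u hu => ?_⟩
  have := hs_add_le (n + 1) zero_le_one (hT.1 u hu) (hS.1 u hu)
  rw [LinearMap.add_apply]
  linarith [h u hu, h' u hu]

theorem k1b_smul {T : (E4 → ℝ) →ₗ[ℝ] (E4 → G)} (hT : k1b_Gd T) (c : ℝ) : k1b_Gd (c • T) := by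
  refine ⟨fun u hu => (hT.1 u hu).smul c, fun n => ?_⟩
  obtain ⟨C, hC, h⟩ := hT.2 n
  refine ⟨|c| * C, by positivity, fun u hu => ?_⟩
  rw [LinearMap.smul_apply, hs_smul _ _ (hT.1 u hu), mul_assoc]
  exact mul_le_mul_of_nonneg_left (h u hu) (abs_nonneg _)

theorem k1b_sum {κ : Type*} (s : Finset κ) {T : κ → (E4 → ℝ) →ₗ[ℝ] (E4 → G)} (hT : ∀ i, k1b_Gd (T i)) :
    k1b_Gd (∑ i ∈ s, T i) := by
  classical
  induction s using Finset.induction_on with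
  | empty =>
    refine ⟨fun u _ => by simpa using Tst.zero 2, fun n => ⟨0, le_rfl, fun u _ => ?_⟩⟩
    simp [hs_zero_fun]
  | insert i s hi ih =>
    rw [Finset.sum_insert hi]
    exact k1b_add (hT i) ih

theorem k1b_comp {a : E4 → G} (ha : ContDiffOn ℝ ∞ a V) {T : (E4 → ℝ) →ₗ[ℝ] (E4 → ℝ)} (hT : k1b_Gd T) :
    k1b_Gd (k1b_mul a ∘ₗ T) := by
  have hb : ContDiffOn ℝ ∞ (fun z => (1 : ℝ →L[ℝ] ℝ).smulRight (a z)) V :=
    (ContinuousLinearMap.smulRightL ℝ ℝ G (1 : ℝ →L[ℝ] ℝ)).contDiff.comp_contDiffOn ha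
  have e : ∀ g : E4 → ℝ, k1b_mul a g = fun z => (1 : ℝ →L[ℝ] ℝ).smulRight (a z) (g z) := fun g => by
    funext z; simp [k1b_mul]
  refine ⟨fun u hu => ?_, fun n => ?_⟩
  · rw [LinearMap.comp_apply, e]
    exact Tst.mul (by norm_num) hb (hT.1 u hu)
  · obtain ⟨C, hC, h⟩ := hT.2 n
    obtain ⟨C', hC', h'⟩ := hs_mul (n + 1) hb
    refine ⟨C' * C, by positivity, fun u hu => ?_⟩
    rw [LinearMap.comp_apply, e, mul_assoc]
    exact (h' 1 ⟨zero_le_one, le_rfl⟩ _ ((hT.1 u hu).mono (by norm_num))).trans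
      (mul_le_mul_of_nonneg_left (h u hu) hC')

theorem k1b_d1 (γ : E4 → E4 →L[ℝ] ℝ) (z : E4) :
    d1 γ z = (ContinuousLinearMap.id ℝ (Bil E4) - flp : Bil E4 →L[ℝ] Bil E4) (fderiv ℝ γ z) := rfl

theorem k1b_up_sm (k : ι) {γ : E4 → E4 →L[ℝ] ℝ} (hγ : ContDiffOn ℝ ∞ γ V) :
    ContDiffOn ℝ ∞ (A.up k (d1 γ)) V := by
  have h1 : ContDiffOn ℝ ∞ (fderiv ℝ γ) V := hγ.fderiv_of_isOpen V_open (by simp)
  have h2 : ContDiffOn ℝ ∞ (d1 γ) V :=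
    ((ContinuousLinearMap.id ℝ (Bil E4) - flp : Bil E4 →L[ℝ] Bil E4).contDiff.comp_contDiffOn h1).congr
      fun z _ => k1b_d1 γ z
  exact (contDiff_pb.comp_contDiffOn (A.I_sm k).2.1).clm_apply h2

theorem k1b_up_sum (k : ι) {γ : Fin 4 → E4 → E4 →L[ℝ] ℝ} (hγ : ∀ μ, Tst 2 (γ μ)) (z : E4) :
    A.up k (d1 (∑ μ, γ μ)) z = ∑ μ, A.up k (d1 (γ μ)) z := by
  simp only [up, k1b_d1]
  rw [fderiv_sum fun μ _ => ((hγ μ).1.differentiable (by simp)).differentiableAt, map_sum, map_sum]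

theorem k1b_alg (p : Bil F →L[ℝ] Bil F) (η : Bil F) (w : Fin 4 → Fin 4 → Bil F) (D : Fin 4 → Bil F)
    (q h κ : Fin 4 → Fin 4 → ℝ) (g : Fin 4 → ℝ) (k₀ u : ℝ)
    (hsym : ∀ ν μ, p (w ν μ) + p (w μ ν) = q ν μ • p η) (e2 : ∀ ν μ, h ν μ = h μ ν)
    (e3 : ∑ ν, ∑ μ, q ν μ * h ν μ = k₀ - u) :
    p (∑ μ, (-2 : ℝ) • (g μ • D μ + ∑ ν, h ν μ • w ν μ + ∑ ν, κ ν μ • w ν μ)) =
      p (u • η + ((-1 : ℝ) • k₀ • η + (-2 : ℝ) • ∑ μ, ∑ ν, κ ν μ • w ν μ + (-2 : ℝ) • ∑ μ, g μ • D μ)) := by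
  have hH : (2 : ℝ) • ∑ μ, ∑ ν, h ν μ • p (w ν μ) = (k₀ - u) • p η := by
    have s1 : ∑ μ, ∑ ν, h ν μ • p (w ν μ) = ∑ μ, ∑ ν, h ν μ • p (w μ ν) := by
      rw [Finset.sum_comm]
      exact Finset.sum_congr rfl fun μ _ => Finset.sum_congr rfl fun ν _ => by rw [e2]
    rw [two_smul]
    nth_rewrite 2 [s1]
    rw [← e3, Finset.sum_comm (f := fun ν μ => q ν μ * h ν μ), Finset.sum_smul, ← Finset.sum_add_distrib]
    refine Finset.sum_congr rfl fun μ _ => ?_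
    rw [Finset.sum_smul, ← Finset.sum_add_distrib]
    refine Finset.sum_congr rfl fun ν _ => ?_
    rw [← smul_add, hsym, smul_smul, mul_comm]
  simp only [← Finset.smul_sum, Finset.sum_add_distrib, map_add, map_smul, map_sum]
  rw [smul_add, smul_add, show (-2 : ℝ) • ∑ μ, ∑ ν, h ν μ • p (w ν μ) = -((k₀ - u) • p η) by
    rw [← hH, neg_smul]]
  module

/-- the coefficient forms -/
def k1b_w (k : ι) (η : Bil F) (ν μ : Fin 4) (z : E4) : Bil F :=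
  wd (innerSL ℝ (A.ep k z (ee ν))) (A.pM (A.ψ k z) η (A.ep k z (ee μ)))

theorem k1b_wd_sm {a c : E4 → F →L[ℝ] ℝ} (ha : ContDiffOn ℝ ∞ a V) (hc : ContDiffOn ℝ ∞ c V) :
    ContDiffOn ℝ ∞ (fun z => wd (a z) (c z)) V :=
  (contDiff_wd (E := F)).comp_contDiffOn (ha.prodMk hc)

theorem k1b_w_sm (k : ι) (η : Bil F) (ν μ : Fin 4) : ContDiffOn ℝ ∞ (A.k1b_w k η ν μ) V := by
  have hep := (A.ep_spec k).1
  have hpM : ContDiffOn ℝ ∞ (fun z => A.pM (A.ψ k z)) V := A.sm_basic.2.2.2.2.2.1 k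
  have a1 : ContDiffOn ℝ ∞ (fun z => innerSL ℝ (A.ep k z (ee ν))) V :=
    (innerSL ℝ (E := F)).contDiff.comp_contDiffOn (hep _)
  have a2 : ContDiffOn ℝ ∞ (fun z => A.pM (A.ψ k z) η (A.ep k z (ee μ))) V :=
    (hpM.clm_apply contDiffOn_const).clm_apply (hep _)
  exact k1b_wd_sm a1 a2

theorem k1b_one (k : ι) (η : Bil F) (μ : Fin 4) {g : E4 → ℝ} (hg : Tst 2 g) {H K : Fin 4 → E4 → ℝ}
    (e : ∀ ν, pd ν g = H ν + K ν) {z : E4} (hz : z ∈ V) :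
    A.up k (d1 (k1b_mul (A.tht k η μ) ((-2 : ℝ) • g))) z =
      (-2 : ℝ) • (g z • A.up k (d1 (A.tht k η μ)) z + ∑ ν, H ν z • A.k1b_w k η ν μ z +
        ∑ ν, K ν z • A.k1b_w k η ν μ z) := by
  have := (A.up_d1_smul k η μ).2 ((-2 : ℝ) • g) (hg.smul _).1 z hz
  refine this.trans ?_
  simp only [pd_smul hg, e, Pi.smul_apply, Pi.add_apply, smul_eq_mul, mul_smul, add_smul, smul_add,
    Finset.sum_add_distrib, Finset.smul_sum, k1b_w, add_assoc]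

/-- The scalar case.  `psi` with `Q` from `ep_spec`; `Γ u z = -2 ∑ μ, Gm μ u z • tht η μ z`,
`K u z = -K₀ u z • η - 2 ∑ ν μ, Km ν μ u z • wd (ε_ν) (pM η ε_μ) - 2 ∑ μ, Gm μ u z • up (d1 (tht η μ)) z`; symmetrise with `Hm ν μ = Hm μ ν`,
`Fr.symbol`; bounds by `hs_mul` (coefficients `ℝ →L[ℝ] _` given by `smulRight`/`toSpanSingleton`). -/
theorem loc_scalar (k : ι) (η : Bil F) :
    ∃ (Γ : (E4 → ℝ) →ₗ[ℝ] (E4 → E4 →L[ℝ] ℝ)) (K : (E4 → ℝ) →ₗ[ℝ] (E4 → Bil F)),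
      (∀ u, Tst 1 u → Tst 2 (Γ u) ∧ Tst 2 (K u) ∧ ∀ z ∈ V, A.pM (A.ψ k z) (A.up k (d1 (Γ u)) z) =
        A.pM (A.ψ k z) (u z • η + K u z)) ∧
      ∀ n, ∃ C : ℝ, 0 ≤ C ∧ ∀ u, Tst 1 u → hs (n + 1) 1 (Γ u) ≤ C * hs n 1 u ∧ hs (n + 1) 1 (K u) ≤ C * hs n 1 u := by
  obtain ⟨hep, hpr, Q, hQ, hQp, hQe⟩ := A.ep_spec k
  obtain ⟨Gm, Hm, Km, K₀, h1, h2⟩ := psi hQ hQp
  have gG : ∀ μ, k1b_Gd (Gm μ) := fun μ => ⟨fun u hu => (h1 u hu).1 μ, fun n => by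
    obtain ⟨C, hC, h⟩ := h2 n
    exact ⟨C, hC, fun u hu => (h u hu).1 μ⟩⟩
  have gK : ∀ ν μ, k1b_Gd (Km ν μ) := fun ν μ => ⟨fun u hu => (h1 u hu).2.1 ν μ, fun n => by
    obtain ⟨C, hC, h⟩ := h2 n
    exact ⟨C, hC, fun u hu => (h u hu).2.1 ν μ⟩⟩
  have g0 : k1b_Gd K₀ := ⟨fun u hu => (h1 u hu).2.2.1, fun n => by
    obtain ⟨C, hC, h⟩ := h2 n
    exact ⟨C, hC, fun u hu => (h u hu).2.2⟩⟩
  have sw := A.k1b_w_sm k η
  have st : ∀ μ, ContDiffOn ℝ ∞ (A.tht k η μ) V := fun μ => (A.up_d1_smul k η μ).1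
  have gΓ1 : ∀ μ, k1b_Gd (k1b_mul (A.tht k η μ) ∘ₗ ((-2 : ℝ) • Gm μ)) := fun μ =>
    k1b_comp (st μ) (k1b_smul (gG μ) _)
  have gΓ : k1b_Gd (∑ μ, k1b_mul (A.tht k η μ) ∘ₗ ((-2 : ℝ) • Gm μ)) := k1b_sum _ gΓ1
  have gKK : k1b_Gd ((-1 : ℝ) • (k1b_mul (fun _ => η) ∘ₗ K₀) +
      (-2 : ℝ) • (∑ μ, ∑ ν, k1b_mul (A.k1b_w k η ν μ) ∘ₗ Km ν μ) +
      (-2 : ℝ) • (∑ μ, k1b_mul (A.up k (d1 (A.tht k η μ))) ∘ₗ Gm μ)) :=
    k1b_add (k1b_add (k1b_smul (k1b_comp contDiffOn_const g0) _)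
      (k1b_smul (k1b_sum _ fun μ => k1b_sum _ fun ν => k1b_comp (sw ν μ) (gK ν μ)) _))
      (k1b_smul (k1b_sum _ fun μ => k1b_comp (A.k1b_up_sm k (st μ)) (gG μ)) _)
  refine ⟨_, _, fun u hu => ⟨gΓ.1 u hu, gKK.1 u hu, fun z hz => ?_⟩, fun n => ?_⟩
  · obtain ⟨t1, -, -, e1, e2, e3⟩ := h1 u hu
    have hfr := A.fr k z hz
    have hsym : ∀ ν μ, A.pM (A.ψ k z) (A.k1b_w k η ν μ z) + A.pM (A.ψ k z) (A.k1b_w k η μ ν z) =
        Q z (ee ν) (ee μ) • A.pM (A.ψ k z) η := fun ν μ => by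
      rw [hQe]
      exact hfr.symbol (hpr z hz _).1 (hpr z hz _).1 η
    have := k1b_alg (A.pM (A.ψ k z)) η (fun ν μ => A.k1b_w k η ν μ z)
      (fun μ => A.up k (d1 (A.tht k η μ)) z) (fun ν μ => Q z (ee ν) (ee μ)) (fun ν μ => Hm ν μ u z)
      (fun ν μ => Km ν μ u z) (fun μ => Gm μ u z) (K₀ u z) (u z) hsym (fun ν μ => by rw [e2]) (e3 z hz)
    rw [LinearMap.sum_apply, A.k1b_up_sum k fun μ => (gΓ1 μ).1 u hu]
    simp only [LinearMap.comp_apply, LinearMap.smul_apply]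
    rw [Finset.sum_congr rfl fun μ _ => A.k1b_one k η μ (t1 μ) (fun ν => e1 ν μ) hz]
    refine this.trans ?_
    simp only [LinearMap.add_apply, LinearMap.smul_apply, LinearMap.sum_apply, LinearMap.comp_apply,
      Pi.add_apply, Pi.smul_apply, Finset.sum_apply]
    rfl
  · obtain ⟨C, hC, h⟩ := gΓ.2 n
    obtain ⟨C', hC', h'⟩ := gKK.2 n
    refine ⟨C + C', add_nonneg hC hC', fun u hu => ?_⟩
    have := hs_nonneg n zero_le_one u
    exact ⟨(h u hu).trans (by nlinarith), (h' u hu).trans (by nlinarith)⟩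

theorem k1c_d1_sum {κ : Type*} (s : Finset κ) {ρ : ℝ} {γ : κ → E4 → E4 →L[ℝ] ℝ} (h : ∀ i ∈ s, Tst ρ (γ i))
    (z : E4) : d1 (∑ i ∈ s, γ i) z = ∑ i ∈ s, d1 (γ i) z := by
  have e : fderiv ℝ (∑ i ∈ s, γ i) z = ∑ i ∈ s, fderiv ℝ (γ i) z :=
    fderiv_sum fun i hi => ((h i hi).1.differentiable (by simp)).differentiableAt
  ext a c
  simp only [d1_apply, e, _root_.sum_apply, Finset.sum_sub_distrib]

/-- Sum `loc_scalar` over a basis of `Bil F` (`Module.finBasis`, `hs_clm`, additivity of `d1` on test forms). -/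
theorem loc_param (k : ι) :
    ∃ (Γ : (E4 → Bil F) →ₗ[ℝ] (E4 → E4 →L[ℝ] ℝ)) (K : (E4 → Bil F) →ₗ[ℝ] (E4 → Bil F)),
      (∀ u, Tst 1 u → Tst 2 (Γ u) ∧ Tst 2 (K u) ∧ ∀ z ∈ V, A.pM (A.ψ k z) (A.up k (d1 (Γ u)) z) =
        A.pM (A.ψ k z) (u z + K u z)) ∧
      ∀ n, ∃ C : ℝ, 0 ≤ C ∧ ∀ u, Tst 1 u → hs (n + 1) 1 (Γ u) ≤ C * hs n 1 u ∧ hs (n + 1) 1 (K u) ≤ C * hs n 1 u := by
  set b := Module.finBasis ℝ (Bil F) with hb
  choose Γ K h1 h2 using fun i => A.loc_scalar k (b i)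
  choose C hC h2 using h2
  let c : Fin (Module.finrank ℝ (Bil F)) → Bil F →L[ℝ] ℝ := fun i =>
    LinearMap.toContinuousLinearMap (b.coord i)
  let p : Fin (Module.finrank ℝ (Bil F)) → (E4 → Bil F) →ₗ[ℝ] (E4 → ℝ) := fun i =>
    (b.coord i).compLeft E4
  have hp : ∀ i u, Tst 1 u → Tst 1 (p i u) := fun i u hu => hu.clm (c i)
  have hp' : ∀ n i u, Tst 1 u → hs n 1 (p i u) ≤ ‖c i‖ * hs n 1 u := fun n i u hu =>
    hs_clm n zero_le_one hu (c i)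
  have eΓ : ∀ u, (∑ i, Γ i ∘ₗ p i) u = ∑ i, Γ i (p i u) := fun u => by
    rw [LinearMap.sum_apply]; rfl
  have eK : ∀ u, (∑ i, K i ∘ₗ p i) u = ∑ i, K i (p i u) := fun u => by
    rw [LinearMap.sum_apply]; rfl
  refine ⟨∑ i, Γ i ∘ₗ p i, ∑ i, K i ∘ₗ p i, fun u hu => ?_, fun n => ?_⟩
  · rw [eΓ, eK]
    refine ⟨Tst.sum _ fun i _ => (h1 i _ (hp i u hu)).1, Tst.sum _ fun i _ => (h1 i _ (hp i u hu)).2.1,
      fun z hz => ?_⟩
    have e1 : A.up k (d1 (∑ i, Γ i (p i u))) z = ∑ i, A.up k (d1 (Γ i (p i u))) z := by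
      unfold up
      rw [k1c_d1_sum _ (fun i _ => (h1 i _ (hp i u hu)).1), map_sum]
    have e2 : u z + (∑ i, K i (p i u)) z = ∑ i, (p i u z • b i + K i (p i u) z) := by
      rw [Finset.sum_add_distrib, Finset.sum_apply]
      congr 1
      exact (b.sum_repr (u z)).symm
    rw [e1, e2, map_sum, map_sum]
    exact Finset.sum_congr rfl fun i _ => (h1 i _ (hp i u hu)).2.2 z hz
  · refine ⟨∑ i, C i n * ‖c i‖, Finset.sum_nonneg fun i _ => mul_nonneg (hC i n) (norm_nonneg _),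
      fun u hu => ?_⟩
    rw [eΓ, eK, Finset.sum_mul]
    refine ⟨(hs_sum_le _ zero_le_one _ fun i _ => (h1 i _ (hp i u hu)).1).trans
      (Finset.sum_le_sum fun i _ => (h2 i n _ (hp i u hu)).1.trans ?_),
      (hs_sum_le _ zero_le_one _ fun i _ => (h1 i _ (hp i u hu)).2.1).trans
      (Finset.sum_le_sum fun i _ => (h2 i n _ (hp i u hu)).2.trans ?_)⟩ <;>
    · rw [mul_assoc]
      exact mul_le_mul_of_nonneg_left (hp' n i u hu) (hC i n)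

/-- Smooth anti-invariant forms. -/
def Anti (τ : M → Bil F) : Prop := A.Sm τ ∧ ∀ x, A.pM x (τ x) = τ x

theorem k1c_NS_sum (n : ℕ) {κ : Type*} (s : Finset κ) {f : κ → M → G} (hf : ∀ i ∈ s, A.Sm (f i)) :
    A.NS n (∑ i ∈ s, f i) ≤ ∑ i ∈ s, A.NS n (f i) := by
  unfold NS
  rw [Finset.sum_comm]
  refine Finset.sum_le_sum fun k _ => ?_
  rw [map_sum]
  exact hs_sum_le n zero_le_one s fun i hi => (hf i hi).lcz k

/-- `B τ = ∑ k, dform k (Γ_k (lcz k τ))`,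
`K τ = pM ∑ k, ext k (K_k (lcz k τ))`; `NS_ext`, `NS_app`, `hs_d1`, `hs_mul`, `sum_ext_lcz`. -/
theorem glob_param : ∃ (B : (M → Bil F) → M → Bil F) (K : (M → Bil F) →ₗ[ℝ] (M → Bil F)),
    (∀ τ, A.Anti τ → A.Form (B τ) ∧ A.Closed (B τ) ∧ A.Anti (K τ) ∧ ∀ x, A.pM x (B τ x) = τ x + K τ x) ∧
      ∀ n, ∃ C : ℝ, 0 ≤ C ∧ ∀ τ, A.Anti τ → A.NS n (B τ) ≤ C * A.NS n τ ∧ A.NS (n + 1) (K τ) ≤ C * A.NS n τ := by
  choose Γ K h1 h2 using A.loc_param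
  choose C hC h2 using h2
  let PM : (M → Bil F) →ₗ[ℝ] (M → Bil F) :=
    { toFun := fun f x => A.pM x (f x)
      map_add' := fun f g => funext fun x => map_add _ _ _
      map_smul' := fun c f => funext fun x => map_smul (A.pM x) c (f x) }
  have eK : ∀ τ, (PM ∘ₗ ∑ k, A.ext k ∘ₗ K k ∘ₗ A.lcz k) τ =
      fun x => A.pM x ((∑ k, A.ext k (K k (A.lcz k τ))) x) := fun τ => by
    rw [LinearMap.comp_apply, LinearMap.sum_apply]; rfl
  have hM := A.sm_basic.2.2.2.2.2.1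
  have hE : ∀ τ, A.Anti τ → ∀ k, A.Sm (A.ext k (K k (A.lcz k τ))) := fun τ hτ k =>
    sm_ext k (by norm_num) (h1 k _ (hτ.1.lcz k)).2.1
  have hD : ∀ τ, A.Anti τ → ∀ k, A.Form (A.dform k (Γ k (A.lcz k τ))) ∧
      A.Closed (A.dform k (Γ k (A.lcz k τ))) := fun τ hτ k => dform_spec k (h1 k _ (hτ.1.lcz k)).1
  refine ⟨fun τ => ∑ k, A.dform k (Γ k (A.lcz k τ)), PM ∘ₗ ∑ k, A.ext k ∘ₗ K k ∘ₗ A.lcz k,
    fun τ hτ => ?_, fun n => ?_⟩
  · rw [eK]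
    refine ⟨Form.sum _ fun k _ => (hD τ hτ k).1,
      Closed.sum _ (fun k _ => (hD τ hτ k).1.1) fun k _ => (hD τ hτ k).2,
      ⟨hM.app (Sm.sum _ fun k _ => hE τ hτ k), fun x => ?_⟩, fun x => ?_⟩
    · obtain ⟨L, hL⟩ := A.fr_at x
      exact hL.piM_piM _
    · have e : ∀ k, A.pM x (A.dform k (Γ k (A.lcz k τ)) x) =
          A.pM x (A.ext k (A.lcz k τ) x) + A.pM x (A.ext k (K k (A.lcz k τ)) x) := fun k => by
        unfold dform
        by_cases hx : x ∈ A.U k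
        · have h3 := (h1 k _ (hτ.1.lcz k)).2.2 _ (A.κ_mem k x hx)
          rw [A.ψκ k x hx] at h3
          rw [A.ext_of_mem k _ hx, A.ext_of_mem k _ hx, A.ext_of_mem k _ hx, h3, map_add]
        · rw [A.ext_of_notMem k _ hx, A.ext_of_notMem k _ hx, A.ext_of_notMem k _ hx, map_zero, add_zero]
      have e2 : ∑ k, A.pM x (A.ext k (A.lcz k τ) x) = τ x := by
        rw [← map_sum, ← Finset.sum_apply, A.sum_ext_lcz, hτ.2]
      simp only [Finset.sum_apply, map_sum, e, Finset.sum_add_distrib, e2]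
  · obtain ⟨C₁, p₁, q₁⟩ := A.NS_ext (G := Bil F) n
    choose C₂ p₂ q₂ using fun k => hs_mul n (contDiff_pb.comp_contDiffOn (A.I_sm k).2.1)
    obtain ⟨C₃, p₃, q₃⟩ := hs_d1 n
    obtain ⟨C₅, p₅, q₅⟩ := A.NS_app (n + 1) hM
    obtain ⟨C₆, p₆, q₆⟩ := A.NS_ext (G := Bil F) (n + 1)
    have n1 : 0 ≤ ∑ k, C₁ * (C₂ k * (C₃ * C k n)) := Finset.sum_nonneg fun k _ =>
      mul_nonneg p₁ (mul_nonneg (p₂ k) (mul_nonneg p₃ (hC k n)))
    have n2 : 0 ≤ C₅ * ∑ k, C₆ * C k n :=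
      mul_nonneg p₅ (Finset.sum_nonneg fun k _ => mul_nonneg p₆ (hC k n))
    refine ⟨∑ k, C₁ * (C₂ k * (C₃ * C k n)) + C₅ * ∑ k, C₆ * C k n, add_nonneg n1 n2, fun τ hτ => ?_⟩
    obtain ⟨n3, -, -, -, hl⟩ := A.NS_basic n hτ.1 hτ.1 0
    have hl' : ∀ k, C k n * hs n 1 (A.lcz k τ) ≤ C k n * A.NS n τ := fun k =>
      mul_le_mul_of_nonneg_left (hl k) (hC k n)
    rw [add_mul]
    constructor
    · refine le_trans ?_ (le_add_of_nonneg_right (mul_nonneg n2 n3))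
      rw [Finset.sum_mul]
      refine (A.k1c_NS_sum n _ fun k _ => (hD τ hτ k).1.1).trans (Finset.sum_le_sum fun k _ => ?_)
      have t1 := (h1 k _ (hτ.1.lcz k)).1
      refine (q₁ k _ (tst_up k (by norm_num) t1.d1')).trans ?_
      rw [mul_assoc]
      refine mul_le_mul_of_nonneg_left ?_ p₁
      refine (q₂ k 1 ⟨zero_le_one, le_rfl⟩ _ (t1.d1'.mono (by norm_num))).trans ?_
      rw [mul_assoc]
      refine mul_le_mul_of_nonneg_left ?_ (p₂ k)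
      refine (q₃ _ (t1.mono (by norm_num))).trans ?_
      rw [mul_assoc]
      exact mul_le_mul_of_nonneg_left ((h2 k n _ (hτ.1.lcz k)).1.trans (hl' k)) p₃
    · refine le_trans ?_ (le_add_of_nonneg_left (mul_nonneg n1 n3))
      rw [eK, mul_assoc]
      refine (q₅ _ (Sm.sum _ fun k _ => hE τ hτ k)).trans (mul_le_mul_of_nonneg_left ?_ p₅)
      rw [Finset.sum_mul]
      refine (A.k1c_NS_sum (n + 1) _ fun k _ => hE τ hτ k).trans (Finset.sum_le_sum fun k _ => ?_)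
      refine (q₆ k _ (h1 k _ (hτ.1.lcz k)).2.1).trans ?_
      rw [mul_assoc]
      exact mul_le_mul_of_nonneg_left ((h2 k n _ (hτ.1.lcz k)).2.trans (hl' k)) p₆

theorem k1d_anti {f : M → Bil F} (hf : A.Sm f) : A.Anti fun x => A.pM x (f x) :=
  ⟨A.sm_basic.2.2.2.2.2.1.app hf, fun x => by
    obtain ⟨L, hL⟩ := A.fr_at x
    exact hL.piM_piM _⟩

theorem k1d_sum (n : ℕ) {κ : Type*} (s : Finset κ) {f : κ → M → G} (hf : ∀ i ∈ s, A.Sm (f i)) :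
    A.NS n (∑ i ∈ s, f i) ≤ ∑ i ∈ s, A.NS n (f i) := by
  simp only [NS, map_sum]
  rw [Finset.sum_comm]
  exact Finset.sum_le_sum fun k _ => hs_sum_le n zero_le_one s fun i hi => (hf i hi).lcz k

theorem k1d_mono {n m : ℕ} (h : n ≤ m) (f : M → G) : A.NS n f ≤ A.NS m f :=
  Finset.sum_le_sum fun k _ => hs_mono h zero_le_one _

/-- The anti-invariant forms as a submodule. -/
def k1dSub : Submodule ℝ (M → Bil F) where
  carrier := {τ | A.Anti τ}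
  add_mem' ha hb := ⟨ha.1.add hb.1, fun x => by simp only [Pi.add_apply, map_add, ha.2, hb.2]⟩
  zero_mem' := ⟨A.sm_const 0, fun x => map_zero _⟩
  smul_mem' c a ha := ⟨ha.1.csmul c, fun x => by simp only [Pi.smul_apply, map_smul, ha.2]⟩

/-- `finite_rank 4`; `e (l, i) = pM (ext l (v i))`, `c (l, i) f = c i (lcz l f)`; `f - ∑ c • e = pM ∑ l, ext l (lcz l f - ∑ i, c i (lcz l f) • v i)`. -/
theorem fin_rank_glob {η : ℝ} (hη : 0 < η) : ∃ (m : ℕ) (e : ι × Fin m → M → Bil F)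
    (c : ι × Fin m → (M → Bil F) →ₗ[ℝ] ℝ) (C : ℝ), 0 ≤ C ∧ (∀ i, A.Anti (e i)) ∧ ∀ f, A.Anti f →
      (∀ i, |c i f| ≤ C * A.NS 0 f) ∧ A.NS 4 (f - ∑ i, c i f • e i) ≤ η * A.NS 5 f := by
  obtain ⟨C₁, hC₁, h1⟩ := A.NS_ext (G := Bil F) 4
  obtain ⟨C₂, hC₂, h2⟩ := A.NS_app 4 A.sm_basic.2.2.2.2.2.1
  obtain ⟨m, v, c, C, hC, hv, hc⟩ := finite_rank (G := Bil F) 4 (η := η / (C₂ * C₁ + 1)) (by positivity)
  refine ⟨m, fun i x => A.pM x (A.ext i.1 (v i.2) x), fun i => c i.2 ∘ₗ A.lcz i.1, C, hC,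
    fun i => A.k1d_anti (A.sm_ext _ (by norm_num) (hv _)), fun f hf => ⟨fun i => ?_, ?_⟩⟩
  · exact ((hc _ (hf.1.lcz i.1)).1 i.2).trans
      (mul_le_mul_of_nonneg_left ((A.NS_basic 0 hf.1 hf.1 0).2.2.2.2 i.1) hC)
  have hw : ∀ l, Tst 2 (A.lcz l f - ∑ i, c i (A.lcz l f) • v i) := fun l =>
    ((hf.1.lcz l).mono one_le_two).sub (Tst.sum _ fun i _ => (hv i).smul _)
  have hs' := fun l => A.sm_ext l (by norm_num) (hw l)
  have e : (f - ∑ i : ι × Fin m, (c i.2 ∘ₗ A.lcz i.1) f • fun x => A.pM x (A.ext i.1 (v i.2) x)) =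
      fun x => A.pM x ((∑ l, A.ext l (A.lcz l f - ∑ i, c i (A.lcz l f) • v i)) x) := by
    funext x
    simp only [map_sub, Finset.sum_sub_distrib, A.sum_ext_lcz]
    simp only [map_sub, map_sum, map_smul, Pi.sub_apply,
      Finset.sum_apply, Pi.smul_apply, hf.2 x, Fintype.sum_prod_type, LinearMap.comp_apply]
  rw [e]
  refine (h2 _ (Sm.sum _ fun l _ => hs' l)).trans ?_
  have h3 : A.NS 4 (∑ l, A.ext l (A.lcz l f - ∑ i, c i (A.lcz l f) • v i)) ≤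
      C₁ * (η / (C₂ * C₁ + 1) * A.NS 5 f) := by
    rw [NS, NS, Finset.mul_sum, Finset.mul_sum, ← NS]
    exact (A.k1d_sum 4 _ fun l _ => hs' l).trans (Finset.sum_le_sum fun l _ => (h1 l _ (hw l)).trans
      (mul_le_mul_of_nonneg_left (hc _ (hf.1.lcz l)).2 hC₁))
  refine (mul_le_mul_of_nonneg_left h3 hC₂).trans ?_
  rw [← mul_assoc, ← mul_assoc]
  refine mul_le_mul_of_nonneg_right ?_ (A.NS_basic 5 hf.1 hf.1 0).1
  rw [mul_div_assoc', div_le_iff₀ (by positivity)]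
  nlinarith

/-- `neumann` with `k = 4` on the submodule of `Anti` maps, `N = NS`, operator `τ ↦ K τ - ∑ c i (K τ) • e i` (`glob_param`, `fin_rank_glob` with
`η C ≤ 1/2`, `NS_complete`, `sup_le_NS`); `b = B σ`. -/
theorem solve_anti : ∃ (m : ℕ) (e : ι × Fin m → M → Bil F) (C : ℝ), 0 ≤ C ∧ ∀ τ, A.Anti τ →
    ∃ (b : M → Bil F) (c : ι × Fin m → ℝ), A.Form b ∧ A.Closed b ∧ ((fun x => A.pM x (b x)) = τ + ∑ i, c i • e i) ∧
      (∀ x, ‖b x‖ ≤ C * A.NS 4 τ) ∧ ∀ i, |c i| ≤ C * A.NS 4 τ := by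
  obtain ⟨B, K, hB, hn⟩ := A.glob_param
  choose Cn hCn hn using hn
  obtain ⟨m, e, c, C, hC, he, hc⟩ := A.fin_rank_glob (η := 1 / 2 / (Cn 4 + 1))
    (by have := hCn 4; positivity)
  obtain ⟨Cs, hCs, hsup⟩ := A.sup_le_NS (G := Bil F)
  let K' : A.k1dSub →ₗ[ℝ] A.k1dSub := (K - ∑ i, (c i ∘ₗ K).smulRight (e i)).restrict fun τ hτ => by
    simp only [LinearMap.sub_apply, LinearMap.sum_apply, LinearMap.smulRight_apply]
    exact A.k1dSub.sub_mem (hB τ hτ).2.2.1 (A.k1dSub.sum_mem fun i _ => A.k1dSub.smul_mem _ (he i))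
  have hK' : ∀ τ : A.k1dSub, (K' τ : M → Bil F) = K τ - ∑ i, c i (K τ) • e i := fun τ => by
    simp [K', LinearMap.restrict_apply]
  have h0 : ∀ s (x : A.k1dSub), 0 ≤ A.NS s (x : M → Bil F) := fun s x => (A.NS_basic s x.2.1 x.2.1 0).1
  have hneg : ∀ s {f : M → Bil F}, A.Sm f → A.NS s (-f) = A.NS s f := fun s f hf => by
    simpa using (A.NS_basic s hf hf (-1)).2.2.1
  refine ⟨m, e, 2 * (Cs + C) * Cn 4, by have := hCn 4; positivity, fun τ hτ => ?_⟩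
  obtain ⟨σ, h1, h2⟩ := neumann (fun s (x : A.k1dSub) => A.NS s (x : M → Bil F)) 4 h0
    (fun s x y => (A.NS_basic s x.2.1 y.2.1 0).2.1) (fun s x => hneg s x.2.1)
    (fun s x => A.k1d_mono s.le_succ _)
    (fun x hx => Subtype.ext (funext fun y => norm_le_zero_iff.1 (by simpa [hx] using hsup _ x.2.1 y)))
    (fun u hu => by
      obtain ⟨a1, a2, a3⟩ := A.NS_complete (fun i => (u i).2.1) hu
      exact ⟨⟨fun x => ∑' i, (u i : M → Bil F) x, a1, fun x => by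
        rw [ContinuousLinearMap.map_tsum _ (a2 x)]
        exact tsum_congr fun i => (u i).2.2 x⟩, fun s => by simpa using a3 s⟩)
    K' (fun x => by
      have a1 := (hc _ (hB _ x.2).2.2.1).2.trans
        (mul_le_mul_of_nonneg_left (hn 4 _ x.2).2 (by have := hCn 4; positivity))
      rw [hK']
      refine a1.trans ?_
      rw [← mul_assoc]
      refine mul_le_mul_of_nonneg_right ?_ (h0 4 x)
      rw [div_mul_eq_mul_div, div_le_iff₀ (by linarith [hCn 4])]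
      linarith)
    (fun s => ⟨(1 + ∑ i, C * A.NS (s + 1) (e i)) * Cn s, fun x => by
      have a0 := (hB _ x.2).2.2.1
      have a1 : A.Sm (∑ i, c i (K x) • e i) := Sm.sum _ fun i _ => (he i).1.csmul _
      have a2 := (A.NS_basic (s + 1) a0.1 (a1.csmul (-1)) 0).2.1
      have a3 : A.NS (s + 1) (∑ i, c i (K x) • e i) ≤
          (∑ i, C * A.NS (s + 1) (e i)) * A.NS (s + 1) (K x) := by
        rw [Finset.sum_mul]
        refine (A.k1d_sum _ _ fun i _ => (he i).1.csmul _).trans (Finset.sum_le_sum fun i _ => ?_)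
        rw [(A.NS_basic _ (he i).1 (he i).1 _).2.2.1, mul_right_comm]
        exact mul_le_mul_of_nonneg_right (((hc _ a0).1 i).trans (mul_le_mul_of_nonneg_left
          (A.k1d_mono (Nat.zero_le _) _) hC)) (A.NS_basic _ (he i).1 (he i).1 0).1
      have a4 := mul_le_mul_of_nonneg_left (hn s _ x.2).2 (add_nonneg zero_le_one
        (Finset.sum_nonneg fun i (_ : i ∈ Finset.univ) =>
          mul_nonneg hC (A.NS_basic (s + 1) (he i).1 (he i).1 0).1))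
      rw [neg_one_smul, hneg _ a1, ← sub_eq_add_neg] at a2
      rw [hK']
      linarith⟩) ⟨τ, hτ⟩
  obtain ⟨b1, b2, b3, b4⟩ := hB _ σ.2
  have b5 := mul_le_mul_of_nonneg_left h2 (hCn 4)
  have b6 := mul_nonneg (hCn 4) (A.NS_basic 4 hτ.1 hτ.1 0).1
  refine ⟨B σ, fun i => c i (K σ), b1, b2, ?_, fun x => ?_, fun i => ?_⟩
  · have := congrArg Subtype.val h1
    rw [Submodule.coe_add, hK'] at this
    rw [funext b4, ← show _ = τ from this]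
    funext x
    simp only [Pi.add_apply, Pi.sub_apply]
    abel
  · have := (hsup _ b1.1 x).trans (mul_le_mul_of_nonneg_left ((hn 4 _ σ.2).1.trans b5) hCs)
    nlinarith
  · have := ((hc _ b3).1 i).trans (mul_le_mul_of_nonneg_left
      ((A.k1d_mono (Nat.zero_le _) _).trans ((hn 4 _ σ.2).2.trans b5)) hC)
    nlinarith

end Atl
end Crest.Agent.R240
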