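import Crest.Agent.R240.K1
import Crest.Agent.R240.H1

/-! Block K2: duality and the core theorem. -/

set_option autoImplicit false
set_option maxSynthPendingDepth 3
set_option linter.unusedSectionVars false
set_option linter.unusedVariables false
open MeasureTheory Filter Set Metric
open scoped ENNReal NNReal Topology ContDiff InnerProductSpace InnerProduct

noncomputable section
namespace Crest.Agent.R240

namespace Atl
variable {M F ι : Type*} [MetricSpace M] [CompactSpace M] [NormedAddCommGroup F] [InnerProductSpace ℝ F]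
  [FiniteDimensional ℝ F] [Fintype ι] (A : Atl M F ι)
  {G G' : Type*} [NormedAddCommGroup G] [NormedSpace ℝ G] [FiniteDimensional ℝ G]
  [NormedAddCommGroup G'] [NormedSpace ℝ G'] [FiniteDimensional ℝ G']
  [MeasurableSpace M] [BorelSpace M] [MeasurableSpace F] [BorelSpace F]

/-- the fibrewise projection on anti-invariant forms, as a linear map -/
def k2aPM : (M → Bil F) →ₗ[ℝ] (M → Bil F) where
  toFun b x := A.pM x (b x)
  map_add' u v := by funext x; simp
  map_smul' c u := by funext x; simp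

/-- closed forms -/
def k2aD : Submodule ℝ (M → Bil F) where
  carrier := {b | A.Form b ∧ A.Closed b}
  add_mem' h h' := ⟨h.1.add h'.1, Closed.add h.1.1 h'.1.1 h.2 h'.2⟩
  zero_mem' := ⟨form_zero, closed_zero⟩
  smul_mem' c _ h := ⟨h.1.csmul c, Closed.csmul h.1.1 h.2 c⟩

theorem k2a_pM_pM (x : M) (b : Bil F) : A.pM x (A.pM x b) = A.pM x b := by
  obtain ⟨L, hL⟩ := A.fr_at x
  exact hL.piM_piM b

theorem k2a_ell {P : Cur M F} (h0 : ∀ b, A.Form b → A.Closed b → (∀ x, A.pM x (b x) = 0) → P b = 0) :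
    ∃ l : Cur M F, ∀ b, A.Form b → A.Closed b → l (fun x => A.pM x (b x)) = P b := by
  have h1 : P.domRestrict A.k2aD ∈ (LinearMap.ker (A.k2aPM.domRestrict A.k2aD)).dualAnnihilator := by
    rw [Submodule.mem_dualAnnihilator]
    intro b hb
    exact h0 b.1 b.2.1 b.2.2 fun x => congrFun (LinearMap.mem_ker.1 hb) x
  rw [← LinearMap.range_dualMap_eq_dualAnnihilator_ker] at h1
  obtain ⟨l, hl⟩ := h1
  exact ⟨l, fun b hb hc => LinearMap.congr_fun hl ⟨b, hb, hc⟩⟩

/-- On the submodule `D` of closed forms `P` factors through `b ↦ pM b`; extend to a total `ℓ` with `ℓ (pM b) = P b` on `D`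
(`Submodule.liftQ`/`LinearMap.quotKerEquivRange`, `LinearMap.exists_extend`); `T = -ℓ ∘ pM`; bound by `solve_anti`, `IsP.abs_le`, `NS_app`, `NS_ext`. -/
theorem exists_T {lam : Measure (M × F)} {P : Cur M F} (hP : A.IsP lam P)
    (h0 : ∀ b, A.Form b → A.Closed b → (∀ x, A.pM x (b x) = 0) → P b = 0) : ∃ T, A.Sit lam P T 4 := by
  obtain ⟨l, hl⟩ := A.k2a_ell h0
  obtain ⟨m, e, C, hC, hsol⟩ := A.solve_anti
  obtain ⟨C1, hC1, h1⟩ := A.NS_app 4 A.sm_basic.2.2.2.2.2.1
  obtain ⟨C2, hC2, h2⟩ := A.NS_ext (G := Bil F) 4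
  refine ⟨-(l ∘ₗ A.k2aPM), hP, ⟨fun b => ?_, fun k => ?_⟩, fun b hb hc => ?_⟩
  · show -l (fun x => A.pM x (b x)) = -l (fun x => A.pM x (A.pM x (b x)))
    simp only [k2a_pM_pM]
  · refine ⟨C * (lam.real univ + ∑ i, |l (e i)|) * (C1 * C2), fun u hu => ?_⟩
    have hs : A.Sm (A.ext k u) := sm_ext k (by norm_num) hu
    have hτ : A.Anti fun x => A.pM x (A.ext k u x) :=
      ⟨Sm.app A.sm_basic.2.2.2.2.2.1 hs, fun x => A.k2a_pM_pM x _⟩
    obtain ⟨b, c, hb, hc, he, hb1, hc1⟩ := hsol _ hτ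
    show |-l (fun x => A.pM x (A.ext k u x))| ≤ _
    have hN : A.NS 4 (fun x => A.pM x (A.ext k u x)) ≤ C1 * C2 * Crest.Agent.R240.hs 4 1 u := by
      refine (h1 _ hs).trans ?_
      rw [mul_assoc]
      exact mul_le_mul_of_nonneg_left (h2 k u hu) hC1
    set τ : M → Bil F := fun x => A.pM x (A.ext k u x) with hτd
    have e1 : l τ = P b - ∑ i, c i * l (e i) := by
      rw [← hl b hb hc, he, map_add, map_sum]
      simp
    have e2 : |P b| ≤ C * A.NS 4 τ * lam.real univ := hP.abs_le hb.1.continuous hb1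
    have e3 : |∑ i, c i * l (e i)| ≤ C * A.NS 4 τ * ∑ i, |l (e i)| := by
      rw [Finset.mul_sum]
      refine (Finset.abs_sum_le_sum_abs _ _).trans (Finset.sum_le_sum fun i _ => ?_)
      rw [abs_mul]
      exact mul_le_mul_of_nonneg_right (hc1 i) (abs_nonneg _)
    have e4 : 0 ≤ C * (lam.real univ + ∑ i, |l (e i)|) :=
      mul_nonneg hC (add_nonneg measureReal_nonneg (Finset.sum_nonneg fun i _ => abs_nonneg _))
    rw [abs_neg, e1]
    calc |P b - ∑ i, c i * l (e i)| ≤ |P b| + |∑ i, c i * l (e i)| := abs_sub _ _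
      _ ≤ C * (lam.real univ + ∑ i, |l (e i)|) * A.NS 4 τ := by linarith
      _ ≤ C * (lam.real univ + ∑ i, |l (e i)|) * (C1 * C2 * Crest.Agent.R240.hs 4 1 u) :=
          mul_le_mul_of_nonneg_left hN e4
      _ = _ := by ring
  · show P b + -l (fun x => A.pM x (b x)) = 0
    rw [hl b hb hc, add_neg_cancel]

/-- `exists_prob_annihilator` on the compact space `SM`, push forward by `Subtype.val`. -/
theorem exists_lam (h : ¬∃ b, A.Form b ∧ A.Closed b ∧ (∀ x, A.pM x (b x) = 0) ∧ A.Pos b) :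
    ∃ lam : Measure (M × F), IsProbabilityMeasure lam ∧ (∀ᵐ q ∂lam, q ∈ A.SM) ∧
      ∀ b, A.Form b → A.Closed b → (∀ x, A.pM x (b x) = 0) → ∫ q, b q.1 q.2 (A.J q.2) ∂lam = 0 := by
  have : CompactSpace A.SM := isCompact_iff_compactSpace.1 A.isCompact_SM
  let W : Submodule ℝ C(A.SM, ℝ) :=
    { carrier := {f | ∃ b, A.Form b ∧ A.Closed b ∧ (∀ x, A.pM x (b x) = 0) ∧
        ∀ q : A.SM, f q = b q.1.1 q.1.2 (A.J q.1.2)}
      add_mem' := by
        rintro f g ⟨b, h1, h2, h3, h4⟩ ⟨b', h1', h2', h3', h4'⟩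
        refine ⟨b + b', h1.add h1', Closed.add h1.1 h1'.1 h2 h2', fun x => ?_, fun q => ?_⟩
        · rw [Pi.add_apply, map_add, h3, h3', add_zero]
        · rw [ContinuousMap.add_apply, h4, h4']
          rfl
      zero_mem' := ⟨0, A.form_zero, A.closed_zero, fun x => map_zero _, fun q => rfl⟩
      smul_mem' := by
        rintro c f ⟨b, h1, h2, h3, h4⟩
        refine ⟨c • b, h1.csmul c, Closed.csmul h1.1 h2 c, fun x => ?_, fun q => ?_⟩
        · rw [Pi.smul_apply, map_smul, h3, smul_zero]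
        · rw [ContinuousMap.smul_apply, h4]
          rfl }
  obtain ⟨μ, hμ, h0⟩ := exists_prob_annihilator W (by
    rintro f ⟨b, h1, h2, h3, h4⟩ hpos
    refine h ⟨b, h1, h2, h3, fun x w hw hw0 => ?_⟩
    have hn : 0 < ‖w‖⁻¹ := inv_pos.2 (norm_pos_iff.2 hw0)
    have h5 := hpos ⟨(x, ‖w‖⁻¹ • w), by
      refine ⟨?_, norm_smul_inv_norm hw0⟩
      simp only [map_smul, hw]⟩
    rw [h4] at h5
    simp only [map_smul, smul_apply, smul_eq_mul] at h5
    exact (mul_pos_iff_of_pos_left hn).1 ((mul_pos_iff_of_pos_left hn).1 h5))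
  have hm : MeasurableSet A.SM := A.isCompact_SM.isClosed.measurableSet
  refine ⟨μ.map Subtype.val, Measure.isProbabilityMeasure_map measurable_subtype_coe.aemeasurable,
    (ae_map_iff measurable_subtype_coe.aemeasurable hm).2 (.of_forall fun q => q.2),
    fun b h1 h2 h3 => ?_⟩
  have hcont : Continuous fun q : M × F => b q.1 q.2 (A.J q.2) :=
    ((h1.1.continuous.comp continuous_fst).clm_apply continuous_snd).clm_apply
      (A.J.continuous.comp continuous_snd)
  rw [integral_map measurable_subtype_coe.aemeasurable hcont.aestronglyMeasurable]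
  exact h0 ⟨fun q => b q.1.1 q.1.2 (A.J q.1.2), hcont.comp continuous_subtype_val⟩
    ⟨b, h1, h2, h3, fun q => rfl⟩

theorem core' {Ω : M → Bil F} (hΩ : A.Form Ω) (hc : A.Closed Ω) (hp : A.Pos Ω) :
    ∃ b, A.Form b ∧ A.Closed b ∧ (∀ x, A.pM x (b x) = 0) ∧ A.Pos b := by
  by_contra hne
  obtain ⟨lam, hprob, hae, h0⟩ := A.exists_lam hne
  obtain ⟨P, hP⟩ := A.exists_P lam hae
  obtain ⟨T, hS⟩ := A.exists_T hP fun b hb hc hm => by rw [hP.2.2 b hb.1.continuous]; exact h0 b hb hc hm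
  have h1 := hS.ex Ω hΩ hc
  rw [LinearMap.add_apply, hS.T_zero hΩ.1, add_zero, hP.2.2 Ω hΩ.1.continuous] at h1
  have hcont : Continuous fun q : M × F => Ω q.1 q.2 (A.J q.2) :=
    ((hΩ.1.continuous.comp continuous_fst).clm_apply continuous_snd).clm_apply (A.J.continuous.comp continuous_snd)
  have hpos : ∀ᵐ q ∂lam, 0 < Ω q.1 q.2 (A.J q.2) := by
    filter_upwards [hae] with q hq
    refine hp q.1 q.2 hq.1 fun h => ?_
    have := hq.2
    rw [h, norm_zero] at this
    exact zero_ne_one this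
  have h2 := (integral_eq_zero_iff_of_nonneg_ae (hpos.mono fun q hq => hq.le) (hP.integrable hcont)).1 h1
  have h3 : ∀ᵐ q ∂lam, False := by
    filter_upwards [hpos, h2] with q a b
    exact a.ne' b
  exact (NeZero.ne lam) (by simpa using h3)

end Atl
end Crest.Agent.R240
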