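import Crest.Agent.R240.B2

/-! Block M1: closedness of the Mathai-Quillen form, abstract version.  Notation: `K_i = fderiv Pj p Y_i`,
`u_i = uu p Y_i`.  Differentiating `Pj² = Pj`, `Pj s = s`, symmetry of `Pj`: `P K P = 0`, `K = P K + K P`, `K` symmetric, `∂ s = K s + u`.
The derivative of `W (a, b, c, d)` for tangential fields is `∑ W (.., P ∂a, ..)` (`Fr.W_P` and the swaps). -/

set_option autoImplicit false
set_option maxSynthPendingDepth 3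
set_option linter.unusedSectionVars false
set_option linter.unusedVariables false
open MeasureTheory Filter Set Metric
open scoped ENNReal NNReal Topology ContDiff InnerProductSpace InnerProduct

noncomputable section
namespace Crest.Agent.R240

variable {F G : Type*} [NormedAddCommGroup F] [InnerProductSpace ℝ F] [FiniteDimensional ℝ F]
  [NormedAddCommGroup G] [NormedSpace ℝ G] [FiniteDimensional ℝ G]

namespace Cx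
variable (X : Cx F)

variable {H : Type*} [NormedAddCommGroup H] [NormedSpace ℝ H] (s : H → F) (Pj : H → F →L[ℝ] F)

def uu (s : H → F) (Pj : H → F →L[ℝ] F) (q Y : H) : F := Pj q (fderiv ℝ s q Y)
def kk (Pj : H → F →L[ℝ] F) (e : F) (q Y : H) : F := Pj q (fderiv ℝ Pj q Y e)

def al (q Y₁ Y₂ Y₃ Y₄ : H) : ℝ := X.W (uu s Pj q Y₁) (uu s Pj q Y₂) (uu s Pj q Y₃) (uu s Pj q Y₄)

def be (q Y₁ Y₂ Y₃ Y₄ : H) : ℝ := ∑ α,
  (X.W (kk Pj (eF α) q Y₁) (kk Pj (eF α) q Y₂) (uu s Pj q Y₃) (uu s Pj q Y₄) +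
    X.W (kk Pj (eF α) q Y₁) (uu s Pj q Y₂) (kk Pj (eF α) q Y₃) (uu s Pj q Y₄) +
    X.W (kk Pj (eF α) q Y₁) (uu s Pj q Y₂) (uu s Pj q Y₃) (kk Pj (eF α) q Y₄) +
    X.W (uu s Pj q Y₁) (kk Pj (eF α) q Y₂) (kk Pj (eF α) q Y₃) (uu s Pj q Y₄) +
    X.W (uu s Pj q Y₁) (kk Pj (eF α) q Y₂) (uu s Pj q Y₃) (kk Pj (eF α) q Y₄) +
    X.W (uu s Pj q Y₁) (uu s Pj q Y₂) (kk Pj (eF α) q Y₃) (kk Pj (eF α) q Y₄))

/-- Exterior derivative of a four-form on constant directions. -/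
def d5 (Φ : H → H → H → H → H → ℝ) (p Y₁ Y₂ Y₃ Y₄ Y₅ : H) : ℝ :=
  fderiv ℝ (fun q => Φ q Y₂ Y₃ Y₄ Y₅) p Y₁ - fderiv ℝ (fun q => Φ q Y₁ Y₃ Y₄ Y₅) p Y₂ +
    fderiv ℝ (fun q => Φ q Y₁ Y₂ Y₄ Y₅) p Y₃ - fderiv ℝ (fun q => Φ q Y₁ Y₂ Y₃ Y₅) p Y₄ +
    fderiv ℝ (fun q => Φ q Y₁ Y₂ Y₃ Y₄) p Y₅

/-- Wedge product of `⟪s, u⟫` with a four-form. -/
def w5 (Φ : H → H → H → H → H → ℝ) (p Y₁ Y₂ Y₃ Y₄ Y₅ : H) : ℝ :=
  ⟪s p, uu s Pj p Y₁⟫_ℝ * Φ p Y₂ Y₃ Y₄ Y₅ - ⟪s p, uu s Pj p Y₂⟫_ℝ * Φ p Y₁ Y₃ Y₄ Y₅ +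
    ⟪s p, uu s Pj p Y₃⟫_ℝ * Φ p Y₁ Y₂ Y₄ Y₅ - ⟪s p, uu s Pj p Y₄⟫_ℝ * Φ p Y₁ Y₂ Y₃ Y₅ +
    ⟪s p, uu s Pj p Y₅⟫_ℝ * Φ p Y₁ Y₂ Y₃ Y₄

/-- Curvature applied to the section. -/
def cu (s : H → F) (Pj : H → F →L[ℝ] F) (p Y Y' : H) : F :=
  Pj p (fderiv ℝ Pj p Y (fderiv ℝ Pj p Y' (s p)) - fderiv ℝ Pj p Y' (fderiv ℝ Pj p Y (s p)))

/-- Standing hypotheses. -/
structure MQ (O : Set H) : Prop where
  op : IsOpen O
  s_sm : ContDiffOn ℝ ∞ s O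
  P_sm : ContDiffOn ℝ ∞ Pj O
  fr : ∀ q ∈ O, ∃ L, X.Fr (Pj q) L
  Ps : ∀ q ∈ O, Pj q (s q) = s q

variable {X s Pj} {O : Set H} {p Y₁ Y₂ Y₃ Y₄ Y₅ : H}

theorem MQ.dP (h : X.MQ s Pj O) (hp : p ∈ O) : DifferentiableAt ℝ Pj p :=
  (h.P_sm.contDiffAt (h.op.mem_nhds hp)).differentiableAt (by simp)

theorem MQ.ds (h : X.MQ s Pj O) (hp : p ∈ O) : DifferentiableAt ℝ s p :=
  (h.s_sm.contDiffAt (h.op.mem_nhds hp)).differentiableAt (by simp)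

theorem MQ.K_facts (h : X.MQ s Pj O) (hp : p ∈ O) (Y : H) :
    (∀ v, Pj p (fderiv ℝ Pj p Y (Pj p v)) = 0) ∧
      (∀ v, fderiv ℝ Pj p Y v = Pj p (fderiv ℝ Pj p Y v) + fderiv ℝ Pj p Y (Pj p v)) ∧
      (∀ u v, ⟪fderiv ℝ Pj p Y u, v⟫_ℝ = ⟪u, fderiv ℝ Pj p Y v⟫_ℝ) ∧
      fderiv ℝ s p Y = fderiv ℝ Pj p Y (s p) + uu s Pj p Y := by
  have hn := h.op.mem_nhds hp
  have hP := h.dP hp
  have hs := h.ds hp
  obtain ⟨L, hL⟩ := h.fr p hp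
  have h2 : ∀ v, fderiv ℝ Pj p Y v = Pj p (fderiv ℝ Pj p Y v) + fderiv ℝ Pj p Y (Pj p v) := by
    intro v
    have e : (fun q => Pj q (Pj q v)) =ᶠ[𝓝 p] fun q => Pj q v := by
      filter_upwards [hn] with q hq
      obtain ⟨L', hL'⟩ := h.fr q hq
      exact hL'.P_P v
    have hv : HasFDerivAt (fun q => Pj q v) ((fderiv ℝ Pj p).flip v) p := by
      simpa using hP.hasFDerivAt.clm_apply (hasFDerivAt_const v p)
    have a1 := (hP.hasFDerivAt.clm_apply hv).fderiv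
    rw [e.fderiv_eq, hv.fderiv] at a1
    simpa using congrArg (fun T : H →L[ℝ] F => T Y) a1
  refine ⟨fun v => ?_, h2, fun u v => ?_, ?_⟩
  · have := h2 (Pj p v)
    rw [hL.P_P] at this
    simpa using this
  · have e : (fun q => ⟪Pj q u, v⟫_ℝ) =ᶠ[𝓝 p] fun q => ⟪u, Pj q v⟫_ℝ := by
      filter_upwards [hn] with q hq
      obtain ⟨L', hL'⟩ := h.fr q hq
      exact hL'.inner_P u v
    have hv : ∀ v, HasFDerivAt (fun q => Pj q v) ((fderiv ℝ Pj p).flip v) p := fun v => by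
      simpa using hP.hasFDerivAt.clm_apply (hasFDerivAt_const v p)
    have a1 := ((hv u).inner ℝ (hasFDerivAt_const v p)).fderiv
    have a2 := ((hasFDerivAt_const u p).inner ℝ (hv v)).fderiv
    rw [e.fderiv_eq, a2] at a1
    simpa [fderivInnerCLM_apply] using (congrArg (fun T : H →L[ℝ] ℝ => T Y) a1).symm
  · have e : (fun q => Pj q (s q)) =ᶠ[𝓝 p] s := by
      filter_upwards [hn] with q hq using h.Ps q hq
    have a1 := (hP.hasFDerivAt.clm_apply hs.hasFDerivAt).fderiv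
    rw [e.fderiv_eq] at a1
    have := congrArg (fun T : H →L[ℝ] F => T Y) a1
    simp only [add_apply, ContinuousLinearMap.comp_apply, ContinuousLinearMap.flip_apply] at this
    rw [this, uu, add_comm]

theorem MQ.smooth (h : X.MQ s Pj O) (Y : H) (e : F) :
    ContDiffOn ℝ ∞ (fun q => uu s Pj q Y) O ∧ ContDiffOn ℝ ∞ (fun q => kk Pj e q Y) O := by
  exact ⟨h.P_sm.clm_apply ((h.s_sm.fderiv_of_isOpen h.op (by simp)).clm_apply contDiffOn_const),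
    h.P_sm.clm_apply (((h.P_sm.fderiv_of_isOpen h.op (by simp)).clm_apply contDiffOn_const).clm_apply
      contDiffOn_const)⟩

theorem contDiffOn_W {a b c d : H → F} (ha : ContDiffOn ℝ ∞ a O) (hb : ContDiffOn ℝ ∞ b O) (hc : ContDiffOn ℝ ∞ c O)
    (hd : ContDiffOn ℝ ∞ d O) : ContDiffOn ℝ ∞ (fun q => X.W (a q) (b q) (c q) (d q)) O := by
  simp only [← stW_apply]
  exact ((((contDiffOn_const (c := X.stW)).clm_apply ha).clm_apply hb).clm_apply hc).clm_apply hd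

theorem MQ.smooth' (h : X.MQ s Pj O) (Y₁ Y₂ Y₃ Y₄ : H) :
    ContDiffOn ℝ ∞ (fun q => X.al s Pj q Y₁ Y₂ Y₃ Y₄) O ∧ ContDiffOn ℝ ∞ (fun q => X.be s Pj q Y₁ Y₂ Y₃ Y₄) O := by
  have hu := fun Y => (h.smooth Y 0).1
  have hk := fun Y e => (h.smooth Y e).2
  refine ⟨contDiffOn_W (hu _) (hu _) (hu _) (hu _), ContDiffOn.sum fun α _ => ?_⟩
  exact (((((contDiffOn_W (hk _ _) (hk _ _) (hu _) (hu _)).add (contDiffOn_W (hk _ _) (hu _) (hk _ _) (hu _))).add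
    (contDiffOn_W (hk _ _) (hu _) (hu _) (hk _ _))).add (contDiffOn_W (hu _) (hk _ _) (hk _ _) (hu _))).add
    (contDiffOn_W (hu _) (hk _ _) (hu _) (hk _ _))).add (contDiffOn_W (hu _) (hu _) (hk _ _) (hk _ _))

/-- Covariant exterior derivatives of `u` and `k` (symmetry of second derivatives). -/
theorem MQ.curv (h : X.MQ s Pj O) (hp : p ∈ O) (Y Y' : H) (e : F) :
    Pj p (fderiv ℝ (fun q => uu s Pj q Y') p Y - fderiv ℝ (fun q => uu s Pj q Y) p Y') = cu s Pj p Y Y' ∧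
      Pj p (fderiv ℝ (fun q => kk Pj e q Y') p Y - fderiv ℝ (fun q => kk Pj e q Y) p Y') =
        Pj p (fderiv ℝ Pj p Y (fderiv ℝ Pj p Y' e) - fderiv ℝ Pj p Y' (fderiv ℝ Pj p Y e)) := by
  have hn := h.op.mem_nhds hp
  have hP := h.dP hp
  have hK := h.K_facts hp
  obtain ⟨L, hL⟩ := h.fr p hp
  have hs2 : DifferentiableAt ℝ (fderiv ℝ s) p :=
    ((h.s_sm.fderiv_of_isOpen (m := ∞) h.op (by simp)).contDiffAt hn).differentiableAt (by simp)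
  have hP2 : DifferentiableAt ℝ (fderiv ℝ Pj) p :=
    ((h.P_sm.fderiv_of_isOpen (m := ∞) h.op (by simp)).contDiffAt hn).differentiableAt (by simp)
  have ss : IsSymmSndFDerivAt ℝ s p := (h.s_sm.contDiffAt hn).isSymmSndFDerivAt (by
    simp only [minSmoothness_of_isRCLikeNormedField]; exact WithTop.coe_le_coe.2 le_top)
  have sP : IsSymmSndFDerivAt ℝ Pj p := (h.P_sm.contDiffAt hn).isSymmSndFDerivAt (by
    simp only [minSmoothness_of_isRCLikeNormedField]; exact WithTop.coe_le_coe.2 le_top)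
  have du : ∀ Z Z', fderiv ℝ (fun q => uu s Pj q Z') p Z =
      Pj p (fderiv ℝ (fderiv ℝ s) p Z Z') + fderiv ℝ Pj p Z (fderiv ℝ s p Z') := by
    intro Z Z'
    have a1 := (hP.hasFDerivAt.clm_apply (hs2.hasFDerivAt.clm_apply (hasFDerivAt_const Z' p))).fderiv
    simpa [uu] using congrArg (fun T : H →L[ℝ] F => T Z) a1
  have dk : ∀ Z Z', fderiv ℝ (fun q => kk Pj e q Z') p Z =
      Pj p (fderiv ℝ (fderiv ℝ Pj) p Z Z' e) + fderiv ℝ Pj p Z (fderiv ℝ Pj p Z' e) := by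
    intro Z Z'
    have a1 := (hP.hasFDerivAt.clm_apply ((hP2.hasFDerivAt.clm_apply (hasFDerivAt_const Z' p)).clm_apply
      (hasFDerivAt_const e p))).fderiv
    simpa [kk] using congrArg (fun T : H →L[ℝ] F => T Z) a1
  constructor
  · rw [du, du, ss.eq Y Y', (hK Y).2.2.2, (hK Y').2.2.2]
    simp only [cu, uu, map_add, map_sub, (hK Y).1, (hK Y').1]
    abel
  · rw [dk, dk, sP.eq Y Y']
    congr 1
    abel

/-- Product rule for `W` on tangential fields. -/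
theorem MQ.fderiv_W (h : X.MQ s Pj O) (hp : p ∈ O) {a b c d : H → F} (ha : DifferentiableAt ℝ a p)
    (hb : DifferentiableAt ℝ b p) (hc : DifferentiableAt ℝ c p) (hd : DifferentiableAt ℝ d p)
    (ta : Pj p (a p) = a p) (tb : Pj p (b p) = b p) (tc : Pj p (c p) = c p) (td : Pj p (d p) = d p) (Y : H) :
    fderiv ℝ (fun q => X.W (a q) (b q) (c q) (d q)) p Y =
      X.W (Pj p (fderiv ℝ a p Y)) (b p) (c p) (d p) + X.W (a p) (Pj p (fderiv ℝ b p Y)) (c p) (d p) +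
        X.W (a p) (b p) (Pj p (fderiv ℝ c p Y)) (d p) + X.W (a p) (b p) (c p) (Pj p (fderiv ℝ d p Y)) := by
  obtain ⟨L, hL⟩ := h.fr p hp
  have a1 := (((((hasFDerivAt_const X.stW p).clm_apply ha.hasFDerivAt).clm_apply hb.hasFDerivAt).clm_apply
    hc.hasFDerivAt).clm_apply hd.hasFDerivAt).fderiv
  have a2 := congrArg (fun T : H →L[ℝ] ℝ => T Y) a1
  simp only [stW_apply, add_apply, ContinuousLinearMap.comp_apply, ContinuousLinearMap.flip_apply, zero_apply,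
    add_zero, map_add, ContinuousLinearMap.flip_zero] at a2
  rw [a2, hL.W_P _ _ _ _ tb tc td]
  have e2 : X.W (a p) (Pj p (fderiv ℝ b p Y)) (c p) (d p) = X.W (a p) (fderiv ℝ b p Y) (c p) (d p) := by
    rw [X.W_swap12, hL.W_P _ _ _ _ ta tc td, ← X.W_swap12]
  have e3 : X.W (a p) (b p) (Pj p (fderiv ℝ c p Y)) (d p) = X.W (a p) (b p) (fderiv ℝ c p Y) (d p) := by
    rw [X.W_comm, hL.W_P _ _ _ _ td ta tb, X.W_comm]
  have e4 : X.W (a p) (b p) (c p) (Pj p (fderiv ℝ d p Y)) = X.W (a p) (b p) (c p) (fderiv ℝ d p Y) := by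
    rw [X.W_comm, X.W_swap12, hL.W_P _ _ _ _ tc ta tb, ← X.W_swap12, X.W_comm]
  rw [e2, e3, e4]
  ring

theorem W_half (u v c d : F) : X.W u v c d =
    ((X.om u v - X.om v u) * (X.om c d - X.om d c) - (X.om u c - X.om c u) * (X.om v d - X.om d v) +
      (X.om u d - X.om d u) * (X.om v c - X.om c v)) / 4 := by
  rw [W, X.om_skew v u, X.om_skew d c, X.om_skew c u, X.om_skew d v, X.om_skew d u, X.om_skew c v]
  ring

theorem MQ.du (h : X.MQ s Pj O) (hp : p ∈ O) (Y : H) : DifferentiableAt ℝ (fun q => uu s Pj q Y) p :=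
  ((h.smooth Y 0).1.contDiffAt (h.op.mem_nhds hp)).differentiableAt (by simp)

theorem MQ.dk (h : X.MQ s Pj O) (hp : p ∈ O) (e : F) (Y : H) : DifferentiableAt ℝ (fun q => kk Pj e q Y) p :=
  ((h.smooth Y e).2.contDiffAt (h.op.mem_nhds hp)).differentiableAt (by simp)

theorem MQ.tang (h : X.MQ s Pj O) (hp : p ∈ O) (Y : H) (e : F) :
    Pj p (uu s Pj p Y) = uu s Pj p Y ∧ Pj p (kk Pj e p Y) = kk Pj e p Y := by
  obtain ⟨L, hL⟩ := h.fr p hp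
  exact ⟨hL.P_P _, hL.P_P _⟩

theorem MQ.d_al (h : X.MQ s Pj O) (hp : p ∈ O) (h₄ : fderiv ℝ Pj p Y₄ = 0) (h₅ : fderiv ℝ Pj p Y₅ = 0) :
    d5 (X.al s Pj) p Y₁ Y₂ Y₃ Y₄ Y₅ =
      X.W (cu s Pj p Y₁ Y₂) (uu s Pj p Y₃) (uu s Pj p Y₄) (uu s Pj p Y₅) -
        X.W (cu s Pj p Y₁ Y₃) (uu s Pj p Y₂) (uu s Pj p Y₄) (uu s Pj p Y₅) +
        X.W (cu s Pj p Y₂ Y₃) (uu s Pj p Y₁) (uu s Pj p Y₄) (uu s Pj p Y₅) := by
  have hd : ∀ Y, DifferentiableAt ℝ (fun q => uu s Pj q Y) p := h.du hp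
  have ht : ∀ Y, Pj p (uu s Pj p Y) = uu s Pj p Y := fun Y => (h.tang hp Y 0).1
  have hc : ∀ Y Y', Pj p (fderiv ℝ (fun q => uu s Pj q Y') p Y) =
      cu s Pj p Y Y' + Pj p (fderiv ℝ (fun q => uu s Pj q Y) p Y') := fun Y Y' => by
    rw [← (h.curv hp Y Y' 0).1, map_sub]; abel
  have c4 : ∀ Y, cu s Pj p Y Y₄ = 0 := fun Y => by simp [cu, h₄]
  have c5 : ∀ Y, cu s Pj p Y Y₅ = 0 := fun Y => by simp [cu, h₅]
  simp only [d5, al, h.fderiv_W hp (hd _) (hd _) (hd _) (hd _) (ht _) (ht _) (ht _) (ht _)]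
  rw [hc Y₁ Y₂, hc Y₁ Y₃, hc Y₁ Y₄, hc Y₁ Y₅, hc Y₂ Y₃, hc Y₂ Y₄, hc Y₂ Y₅, hc Y₃ Y₄, hc Y₃ Y₅, hc Y₄ Y₅]
  simp only [c4, c5, zero_add, W_half, map_add, add_apply]
  ring

/-- `Fr.cramer` for `(k_i, k_j, u, u, u)` and `∑ α, ⟪s, P K_j e_α⟫ P K_i e_α = P K_i K_j s` (`sum_eF`). -/
theorem MQ.w_be (h : X.MQ s Pj O) (hp : p ∈ O) (h₄ : fderiv ℝ Pj p Y₄ = 0) (h₅ : fderiv ℝ Pj p Y₅ = 0) :
    w5 s Pj (X.be s Pj) p Y₁ Y₂ Y₃ Y₄ Y₅ =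
      X.W (cu s Pj p Y₁ Y₂) (uu s Pj p Y₃) (uu s Pj p Y₄) (uu s Pj p Y₅) -
        X.W (cu s Pj p Y₁ Y₃) (uu s Pj p Y₂) (uu s Pj p Y₄) (uu s Pj p Y₅) +
        X.W (cu s Pj p Y₂ Y₃) (uu s Pj p Y₁) (uu s Pj p Y₄) (uu s Pj p Y₅) := by
  obtain ⟨L, hL⟩ := h.fr p hp
  have tu : ∀ Y, Pj p (uu s Pj p Y) = uu s Pj p Y := fun Y => (h.tang hp Y 0).1
  have tk : ∀ e Y, Pj p (kk Pj e p Y) = kk Pj e p Y := fun e Y => (h.tang hp Y e).2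
  have k4 : ∀ e, kk Pj e p Y₄ = 0 := fun e => by simp [kk, h₄]
  have k5 : ∀ e, kk Pj e p Y₅ = 0 := fun e => by simp [kk, h₅]
  have key : ∀ Y Y' (b c d : F), ∑ α, ⟪s p, kk Pj (eF α) p Y'⟫_ℝ * X.W (kk Pj (eF α) p Y) b c d =
      X.W (Pj p (fderiv ℝ Pj p Y (fderiv ℝ Pj p Y' (s p)))) b c d := by
    intro Y Y' b c d
    conv_rhs => rw [← sum_eF (fderiv ℝ Pj p Y' (s p))]
    simp only [← stW_apply, map_sum, map_smul, sum_apply, smul_apply, smul_eq_mul]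
    refine Finset.sum_congr rfl fun α _ => ?_
    congr 1
    rw [kk, ← hL.inner_P, h.Ps p hp, ← (h.K_facts hp Y').2.2.1, real_inner_comm]
  simp only [cu, map_sub, ← stW_apply, sub_apply]
  simp only [stW_apply, ← key, w5, be, Finset.mul_sum, ← Finset.sum_sub_distrib, ← Finset.sum_add_distrib]
  refine Finset.sum_congr rfl fun α _ => ?_
  have c1 := hL.cramer (s p) (tk (eF α) Y₁) (tk (eF α) Y₂) (tu Y₃) (tu Y₄) (tu Y₅)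
  have c2 := hL.cramer (s p) (tk (eF α) Y₁) (tu Y₂) (tk (eF α) Y₃) (tu Y₄) (tu Y₅)
  have c3 := hL.cramer (s p) (tu Y₁) (tk (eF α) Y₂) (tk (eF α) Y₃) (tu Y₄) (tu Y₅)
  rw [X.W_swap12 (kk Pj (eF α) p Y₃) (uu s Pj p Y₂)] at c2
  rw [X.W_swap12 (kk Pj (eF α) p Y₃) (uu s Pj p Y₁), X.W_swap12 (kk Pj (eF α) p Y₂) (uu s Pj p Y₁)] at c3
  have z : ∀ a b c : F, X.W 0 a b c = 0 ∧ X.W a 0 b c = 0 ∧ X.W a b 0 c = 0 ∧ X.W a b c 0 = 0 := fun a b c => by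
    simp [W]
  simp only [k4, k5, z, add_zero]
  linear_combination c1 + c2 + c3

/-- Terms with `k₄`, `k₅` vanish identically on `O`.  What remains are terms `W (k_i, k_j, cu (l, m), u)` with `m ∈ {4,5}`, which vanish, and
`∑ α, W (P [K_i, K_j] e_α, P K_l e_α, u, u) = 0` because `P [K_i,K_j]` kills the normal space and `P K_l` kills the tangent space
(`∑ α, B (P e_α) ((1 - P) e_α) = 0` for every bilinear `B`). -/
theorem MQ.d_be (h : X.MQ s Pj O) (hp : p ∈ O) (h₄ : ∀ q ∈ O, fderiv ℝ Pj q Y₄ = 0)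
    (h₅ : ∀ q ∈ O, fderiv ℝ Pj q Y₅ = 0) : d5 (X.be s Pj) p Y₁ Y₂ Y₃ Y₄ Y₅ = 0 := by
  obtain ⟨L, hL⟩ := h.fr p hp
  have hn := h.op.mem_nhds hp
  have du := h.du hp
  have dk := h.dk hp
  have tu : ∀ Y, Pj p (uu s Pj p Y) = uu s Pj p Y := fun Y => (h.tang hp Y 0).1
  have tk : ∀ e Y, Pj p (kk Pj e p Y) = kk Pj e p Y := fun e Y => (h.tang hp Y e).2
  have hK := h.K_facts hp
  have hc : ∀ Y Y', Pj p (fderiv ℝ (fun q => uu s Pj q Y') p Y) =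
      cu s Pj p Y Y' + Pj p (fderiv ℝ (fun q => uu s Pj q Y) p Y') := fun Y Y' => by
    rw [← (h.curv hp Y Y' 0).1, map_sub]; abel
  have hr : ∀ e Y Y', Pj p (fderiv ℝ (fun q => kk Pj e q Y') p Y) =
      Pj p (fderiv ℝ Pj p Y (fderiv ℝ Pj p Y' e) - fderiv ℝ Pj p Y' (fderiv ℝ Pj p Y e)) +
        Pj p (fderiv ℝ (fun q => kk Pj e q Y) p Y') := fun e Y Y' => by
    rw [← (h.curv hp Y Y' e).2, map_sub]; abel
  have z1 : ∀ Z, (∀ q ∈ O, fderiv ℝ Pj q Z = 0) → (∀ Y, cu s Pj p Y Z = 0) ∧ (∀ e, kk Pj e p Z = 0) ∧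
      (∀ e Y, Pj p (fderiv ℝ (fun q => kk Pj e q Z) p Y) = 0) ∧
      ∀ e Y, Pj p (fderiv ℝ (fun q => kk Pj e q Y) p Z) = 0 := by
    intro Z hZ
    have a : ∀ e Y, Pj p (fderiv ℝ (fun q => kk Pj e q Z) p Y) = 0 := by
      intro e Y
      have : (fun q => kk Pj e q Z) =ᶠ[𝓝 p] fun _ => 0 := by
        filter_upwards [hn] with q hq
        simp [kk, hZ q hq]
      rw [this.fderiv_eq]; simp
    refine ⟨fun Y => by simp [cu, hZ p hp], fun e => by simp [kk, hZ p hp], a, fun e Y => ?_⟩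
    have := hr e Y Z
    rw [a, hZ p hp] at this
    simpa using this.symm
  obtain ⟨c4, k4, d4, d4'⟩ := z1 Y₄ h₄
  obtain ⟨c5, k5, d5', d5''⟩ := z1 Y₅ h₅
  have dW : ∀ {a b c d : H → F}, DifferentiableAt ℝ a p → DifferentiableAt ℝ b p → DifferentiableAt ℝ c p →
      DifferentiableAt ℝ d p → DifferentiableAt ℝ (fun q => X.W (a q) (b q) (c q) (d q)) p := by
    intro a b c d ha hb hc hd
    simp only [← stW_apply]
    exact ((((differentiableAt_const X.stW).clm_apply ha).clm_apply hb).clm_apply hc).clm_apply hd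
  have fb : ∀ Z Z₁ Z₂ Z₃ Z₄, fderiv ℝ (fun q => X.be s Pj q Z₁ Z₂ Z₃ Z₄) p Z = ∑ α,
      (fderiv ℝ (fun q => X.W (kk Pj (eF α) q Z₁) (kk Pj (eF α) q Z₂) (uu s Pj q Z₃) (uu s Pj q Z₄)) p Z +
      fderiv ℝ (fun q => X.W (kk Pj (eF α) q Z₁) (uu s Pj q Z₂) (kk Pj (eF α) q Z₃) (uu s Pj q Z₄)) p Z +
      fderiv ℝ (fun q => X.W (kk Pj (eF α) q Z₁) (uu s Pj q Z₂) (uu s Pj q Z₃) (kk Pj (eF α) q Z₄)) p Z +
      fderiv ℝ (fun q => X.W (uu s Pj q Z₁) (kk Pj (eF α) q Z₂) (kk Pj (eF α) q Z₃) (uu s Pj q Z₄)) p Z +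
      fderiv ℝ (fun q => X.W (uu s Pj q Z₁) (kk Pj (eF α) q Z₂) (uu s Pj q Z₃) (kk Pj (eF α) q Z₄)) p Z +
      fderiv ℝ (fun q => X.W (uu s Pj q Z₁) (uu s Pj q Z₂) (kk Pj (eF α) q Z₃) (kk Pj (eF α) q Z₄)) p Z) := by
    intro Z Z₁ Z₂ Z₃ Z₄
    have := (HasFDerivAt.fun_sum (u := Finset.univ) fun α _ =>
      (((((dW (dk (eF α) Z₁) (dk (eF α) Z₂) (du Z₃) (du Z₄)).hasFDerivAt.fun_add
        (dW (dk (eF α) Z₁) (du Z₂) (dk (eF α) Z₃) (du Z₄)).hasFDerivAt).fun_add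
        (dW (dk (eF α) Z₁) (du Z₂) (du Z₃) (dk (eF α) Z₄)).hasFDerivAt).fun_add
        (dW (du Z₁) (dk (eF α) Z₂) (dk (eF α) Z₃) (du Z₄)).hasFDerivAt).fun_add
        (dW (du Z₁) (dk (eF α) Z₂) (du Z₃) (dk (eF α) Z₄)).hasFDerivAt).fun_add
        (dW (du Z₁) (du Z₂) (dk (eF α) Z₃) (dk (eF α) Z₄)).hasFDerivAt).fderiv
    simp only [be]
    rw [this]
    simp only [sum_apply, add_apply]
  have sw : ∀ Φ : F →L[ℝ] F →L[ℝ] ℝ, ∑ α, Φ (Pj p (eF α)) (eF α) = ∑ α, Φ (eF α) (Pj p (eF α)) := by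
    intro Φ
    have e1 : ∀ α, Φ (Pj p (eF α)) (eF α) = ∑ β, ⟪eF β, Pj p (eF α)⟫_ℝ * Φ (eF β) (eF α) := fun α => by
      conv_lhs => rw [← sum_eF (Pj p (eF α))]
      simp only [map_sum, map_smul, sum_apply, smul_apply, smul_eq_mul]
    have e2 : ∀ β, Φ (eF β) (Pj p (eF β)) = ∑ α, ⟪eF β, Pj p (eF α)⟫_ℝ * Φ (eF β) (eF α) := fun β => by
      conv_lhs => rw [← sum_eF (Pj p (eF β))]
      simp only [map_sum, map_smul, smul_eq_mul]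
      refine Finset.sum_congr rfl fun α _ => ?_
      rw [← hL.inner_P, real_inner_comm]
    simp only [e1, e2]
    exact Finset.sum_comm
  have key : ∀ Y Y' Y'' (c d : F), ∑ α, X.W (Pj p (fderiv ℝ Pj p Y (fderiv ℝ Pj p Y' (eF α)))) (kk Pj (eF α) p Y'') c d = 0 := by
    intro Y Y' Y'' c d
    have e : ∀ v, Pj p (fderiv ℝ Pj p Y (fderiv ℝ Pj p Y' v)) =
        Pj p (fderiv ℝ Pj p Y (fderiv ℝ Pj p Y' (Pj p v))) := fun v => by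
      rw [(hK Y').2.1 v, map_add, map_add, (hK Y).1, zero_add]
    have := sw ((ContinuousLinearMap.compL ℝ F (Bil F) ℝ (evB c d)).comp (X.stW.bilinearComp
      ((Pj p).comp ((fderiv ℝ Pj p Y).comp (fderiv ℝ Pj p Y'))) ((Pj p).comp (fderiv ℝ Pj p Y''))))
    simp only [ContinuousLinearMap.comp_apply, ContinuousLinearMap.compL_apply, ContinuousLinearMap.bilinearComp_apply,
      evB_apply, stW_apply, (hK Y'').1, ← e] at this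
    simpa [kk, W] using this
  have z : ∀ a b c : F, X.W 0 a b c = 0 ∧ X.W a 0 b c = 0 ∧ X.W a b 0 c = 0 ∧ X.W a b c 0 = 0 := fun a b c => by
    simp [W]
  set u₄ := uu s Pj p Y₄ with hu₄
  set u₅ := uu s Pj p Y₅ with hu₅
  have fin : d5 (X.be s Pj) p Y₁ Y₂ Y₃ Y₄ Y₅ = 2 * ∑ α,
      (X.W (Pj p (fderiv ℝ Pj p Y₁ (fderiv ℝ Pj p Y₂ (eF α)))) (kk Pj (eF α) p Y₃) u₄ u₅ -
        X.W (Pj p (fderiv ℝ Pj p Y₂ (fderiv ℝ Pj p Y₁ (eF α)))) (kk Pj (eF α) p Y₃) u₄ u₅ -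
        X.W (Pj p (fderiv ℝ Pj p Y₁ (fderiv ℝ Pj p Y₃ (eF α)))) (kk Pj (eF α) p Y₂) u₄ u₅ +
        X.W (Pj p (fderiv ℝ Pj p Y₃ (fderiv ℝ Pj p Y₁ (eF α)))) (kk Pj (eF α) p Y₂) u₄ u₅ +
        X.W (Pj p (fderiv ℝ Pj p Y₂ (fderiv ℝ Pj p Y₃ (eF α)))) (kk Pj (eF α) p Y₁) u₄ u₅ -
        X.W (Pj p (fderiv ℝ Pj p Y₃ (fderiv ℝ Pj p Y₂ (eF α)))) (kk Pj (eF α) p Y₁) u₄ u₅) * (1 / 2) := by
    simp only [d5, fb, Finset.mul_sum, ← Finset.sum_sub_distrib, ← Finset.sum_add_distrib]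
    refine Finset.sum_congr rfl fun α _ => ?_
    simp only [h.fderiv_W hp (dk _ _) (dk _ _) (du _) (du _) (tk _ _) (tk _ _) (tu _) (tu _),
      h.fderiv_W hp (dk _ _) (du _) (dk _ _) (du _) (tk _ _) (tu _) (tk _ _) (tu _),
      h.fderiv_W hp (dk _ _) (du _) (du _) (dk _ _) (tk _ _) (tu _) (tu _) (tk _ _),
      h.fderiv_W hp (du _) (dk _ _) (dk _ _) (du _) (tu _) (tk _ _) (tk _ _) (tu _),
      h.fderiv_W hp (du _) (dk _ _) (du _) (dk _ _) (tu _) (tk _ _) (tu _) (tk _ _),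
      h.fderiv_W hp (du _) (du _) (dk _ _) (dk _ _) (tu _) (tu _) (tk _ _) (tk _ _),
      k4, k5, d4, d4', d5', d5'', z, add_zero, zero_add]
    rw [hc Y₁ Y₄, hc Y₁ Y₅, hc Y₂ Y₄, hc Y₂ Y₅, hc Y₃ Y₄, hc Y₃ Y₅, hc Y₄ Y₅, hr _ Y₁ Y₂, hr _ Y₁ Y₃, hr _ Y₂ Y₃]
    simp only [c4, c5, zero_add, W_half, map_add, add_apply, map_sub, sub_apply, ← hu₄, ← hu₅]
    ring
  rw [fin, ← Finset.sum_mul]
  simp only [Finset.sum_sub_distrib, Finset.sum_add_distrib, key]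
  simp

/-- `∂_Y ‖s‖² = 2 ⟪s, u⟫`; `w5 al = 0` by `Fr.cramer`. -/
theorem MQ.closed (h : X.MQ s Pj O) (hp : p ∈ O) (h₄ : ∀ q ∈ O, fderiv ℝ Pj q Y₄ = 0)
    (h₅ : ∀ q ∈ O, fderiv ℝ Pj q Y₅ = 0) {a b : ℝ → ℝ} (ha : Differentiable ℝ a)
    (hb : ∀ t, HasDerivAt b (-(a t) / 2) t) :
    d5 (fun q Z₁ Z₂ Z₃ Z₄ => a (‖s q‖ ^ 2) * X.al s Pj q Z₁ Z₂ Z₃ Z₄ + b (‖s q‖ ^ 2) * X.be s Pj q Z₁ Z₂ Z₃ Z₄)
      p Y₁ Y₂ Y₃ Y₄ Y₅ = 0 := by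
  obtain ⟨L, hL⟩ := h.fr p hp
  have hn := h.op.mem_nhds hp
  have tu : ∀ Y, Pj p (uu s Pj p Y) = uu s Pj p Y := fun Y => (h.tang hp Y 0).1
  have hs := (h.ds hp).hasFDerivAt.norm_sq
  have ha' := (ha (‖s p‖ ^ 2)).hasDerivAt.comp_hasFDerivAt p hs
  have hb' := (hb (‖s p‖ ^ 2)).comp_hasFDerivAt p hs
  have su : ∀ Y, ⟪s p, fderiv ℝ s p Y⟫_ℝ = ⟪s p, uu s Pj p Y⟫_ℝ := fun Y => by
    rw [uu, ← hL.inner_P, h.Ps p hp]
  have fd : ∀ Z Z₁ Z₂ Z₃ Z₄, fderiv ℝ (fun q => a (‖s q‖ ^ 2) * X.al s Pj q Z₁ Z₂ Z₃ Z₄ +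
      b (‖s q‖ ^ 2) * X.be s Pj q Z₁ Z₂ Z₃ Z₄) p Z =
      a (‖s p‖ ^ 2) * fderiv ℝ (fun q => X.al s Pj q Z₁ Z₂ Z₃ Z₄) p Z +
        X.al s Pj p Z₁ Z₂ Z₃ Z₄ * (deriv a (‖s p‖ ^ 2) * (2 * ⟪s p, uu s Pj p Z⟫_ℝ)) +
        (b (‖s p‖ ^ 2) * fderiv ℝ (fun q => X.be s Pj q Z₁ Z₂ Z₃ Z₄) p Z +
          X.be s Pj p Z₁ Z₂ Z₃ Z₄ * (-(a (‖s p‖ ^ 2)) / 2 * (2 * ⟪s p, uu s Pj p Z⟫_ℝ))) := by
    intro Z Z₁ Z₂ Z₃ Z₄
    have d1 := (((h.smooth' Z₁ Z₂ Z₃ Z₄).1.contDiffAt hn).differentiableAt (by simp)).hasFDerivAt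
    have d2 := (((h.smooth' Z₁ Z₂ Z₃ Z₄).2.contDiffAt hn).differentiableAt (by simp)).hasFDerivAt
    have := ((ha'.fun_mul d1).fun_add (hb'.fun_mul d2)).fderiv
    simp only [Function.comp_def] at this
    rw [this]
    simp [su, two_smul, two_mul]
    ring
  have e1 := h.d_al (Y₁ := Y₁) (Y₂ := Y₂) (Y₃ := Y₃) hp (h₄ p hp) (h₅ p hp)
  have e2 := h.w_be (Y₁ := Y₁) (Y₂ := Y₂) (Y₃ := Y₃) hp (h₄ p hp) (h₅ p hp)
  have e3 := h.d_be (Y₁ := Y₁) (Y₂ := Y₂) (Y₃ := Y₃) hp h₄ h₅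
  have e4 := hL.cramer (s p) (tu Y₁) (tu Y₂) (tu Y₃) (tu Y₄) (tu Y₅)
  rw [← e2] at e1
  simp only [d5, w5] at e1 e3
  simp only [d5, fd]
  simp only [al] at e1 ⊢
  linear_combination a (‖s p‖ ^ 2) * e1 + b (‖s p‖ ^ 2) * e3 + 2 * deriv a (‖s p‖ ^ 2) * e4

end Cx
end Crest.Agent.R240
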