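import Crest.Agent.R240.M1
import Crest.Agent.R240.C5

/-! Block M2: closedness of the kernel in a chart. -/

set_option autoImplicit false
set_option maxSynthPendingDepth 3
set_option linter.unusedSectionVars false
set_option linter.unusedVariables false
open MeasureTheory Filter Set Metric
open scoped ENNReal NNReal Topology ContDiff InnerProductSpace InnerProduct

noncomputable section
namespace Crest.Agent.R240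

namespace Atl
variable {M F ι : Type*} [MetricSpace M] [CompactSpace M] [NormedAddCommGroup F] [InnerProductSpace ℝ F]
  [FiniteDimensional ℝ F] [Fintype ι] (A : Atl M F ι)
  {G G' : Type*} [NormedAddCommGroup G] [NormedSpace ℝ G] [FiniteDimensional ℝ G]
  [NormedAddCommGroup G'] [NormedSpace ℝ G'] [FiniteDimensional ℝ G']

def s2 (k : ι) (p : E4 × E4) : F := A.sv (A.ψ k p.1) (A.ψ k p.2)
def P2 (k : ι) (p : E4 × E4) : F →L[ℝ] F := A.Pr (A.ψ k p.1)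

/-- The full Mathai-Quillen form in a chart (without the term quadratic in the curvature). -/
def Uc (k : ι) (δ : ℝ) (p Y₁ Y₂ Y₃ Y₄ : E4 × E4) : ℝ :=
  (δ ^ 4)⁻¹ * A.cf f0 δ (A.ψ k p.1) (A.ψ k p.2) * A.al (A.s2 k) (A.P2 k) p Y₁ Y₂ Y₃ Y₄ +
    (δ ^ 2)⁻¹ * A.cf f1 δ (A.ψ k p.1) (A.ψ k p.2) * A.be (A.s2 k) (A.P2 k) p Y₁ Y₂ Y₃ Y₄

theorem mq (k : ι) : A.MQ (A.s2 k) (A.P2 k) (V ×ˢ V) ∧
    ∀ q ∈ V ×ˢ V, ∀ c : E4, fderiv ℝ (A.P2 k) q (0, c) = 0 := by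
  have hP : ContDiffOn ℝ ∞ (A.P2 k) (V ×ˢ V) := (A.sm_basic.2.1.fst (A := A)) k k
  refine ⟨⟨V_open.prod V_open, A.sm2_geo.1 k k, hP, fun q _ => A.fr_at _, fun q _ => (A.geo_tang _ _ 0 0).1⟩,
    fun q hq c => ?_⟩
  have hd : DifferentiableAt ℝ (A.Pr ∘ A.ψ k) q.1 :=
    ((A.sm_basic.2.1 k).contDiffAt (V_open.mem_nhds hq.1)).differentiableAt (by simp)
  have := (hd.hasFDerivAt.comp q hasFDerivAt_fst).fderiv
  change fderiv ℝ ((A.Pr ∘ A.ψ k) ∘ Prod.fst) q (0, c) = 0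
  rw [this]; simp

theorem Uc_eq_thc (k : ι) (δ : ℝ) {p : E4 × E4} (hp : p ∈ V ×ˢ V) (a b c d : E4) :
    A.Uc k δ p (a, 0) (b, 0) (0, c) (0, d) = A.thc k δ a b c d p := by
  have u1 : ∀ a, Cx.uu (A.s2 k) (A.P2 k) p (a, 0) = -A.Ah (A.ψ k p.1) (A.ψ k p.2) (A.I k p.1 a) :=
    fun a => (A.fderiv_sv k hp a).2.1
  have u2 : ∀ a, Cx.uu (A.s2 k) (A.P2 k) p (0, a) = A.Bh (A.ψ k p.1) (A.ψ k p.2) (A.I k p.2 a) := fun a => by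
    change A.Pr _ (fderiv ℝ (fun q : E4 × E4 => A.sv (A.ψ k q.1) (A.ψ k q.2)) p (0, a)) = _
    rw [(A.fderiv_sv k hp a).1, (A.geo_tang _ _ _ 0).2.2.2.1]
  have k2 : ∀ e a, Cx.kk (A.P2 k) e p (0, a) = 0 := fun e a => by simp [Cx.kk, (A.mq k).2 p hp a]
  have k1 : ∀ e a, Cx.kk (A.P2 k) e p (a, 0) = A.Kh (A.ψ k p.1) e (A.I k p.1 a) := fun e a => by
    have hd : DifferentiableAt ℝ (A.Pr ∘ A.ψ k) p.1 :=
      ((A.sm_basic.2.1 k).contDiffAt (V_open.mem_nhds hp.1)).differentiableAt (by simp)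
    have := (hd.hasFDerivAt.comp p hasFDerivAt_fst).fderiv
    change A.Pr _ (fderiv ℝ ((A.Pr ∘ A.ψ k) ∘ Prod.fst) p (a, 0) e) = _
    rw [this]
    simp [Kh, A.sm_basic.2.1.fderiv_eq k hp.1]
  have z : ∀ a b c : F, A.W 0 a b c = 0 ∧ A.W a 0 b c = 0 ∧ A.W a b 0 c = 0 ∧ A.W a b c 0 = 0 := fun a b c => by
    simp [Cx.W]
  have ng : ∀ a b c d : F, A.W (-a) (-b) c d = A.W a b c d := fun a b c d => by simp [Cx.W]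
  simp only [Uc, thc, th, Cx.al, Cx.be, u1, u2, k1, k2, z, ng, add_zero, add_apply, smul_apply, sum_apply, Cx.q4_apply,
    smul_eq_mul]

/-- On `dist < c0`: `MQ.closed` (on the open set `V ×ˢ V ∩ {dist < c0}` or by `EventuallyEq.fderiv_eq`) with `a t = δ⁻⁴ f0 (t/δ²)`,
`b t = δ⁻² f1 (t/δ²)`; on `C δ < dist` the form vanishes near `p` (`cf_near`). -/
theorem Uc_closed : ∀ᶠ δ in 𝓝[>] (0 : ℝ), ∀ k, ∀ p ∈ V ×ˢ V, ∀ (Y₁ Y₂ Y₃ : E4 × E4) (d e : E4),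
    Cx.d5 (A.Uc k δ) p Y₁ Y₂ Y₃ (0, d) (0, e) = 0 := by
  obtain ⟨C, hC, hn⟩ := A.cf_near
  obtain ⟨hc0, -⟩ := A.c0_spec
  have ev : ∀ᶠ δ in 𝓝[>] (0 : ℝ), C * δ < A.c0 := by
    have : Tendsto (fun δ : ℝ => C * δ) (𝓝[>] 0) (𝓝 (C * 0)) :=
      (continuous_const.mul continuous_id).continuousAt.mono_left nhdsWithin_le_nhds
    exact this.eventually (gt_mem_nhds (by simpa using hc0))
  filter_upwards [ev, self_mem_nhdsWithin] with δ h1 h2 k p hp Y₁ Y₂ Y₃ d e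
  have h2 : 0 < δ := h2
  obtain ⟨s0, s1, -, -, z, hd, -⟩ := prof
  have hn' := (V_open.prod V_open).mem_nhds hp
  have hc : ContinuousAt (fun q : E4 × E4 => dist (A.ψ k q.1) (A.ψ k q.2)) p :=
    (((A.ψ_cont k).continuousAt (V_open.mem_nhds hp.1)).comp continuousAt_fst).dist
      (((A.ψ_cont k).continuousAt (V_open.mem_nhds hp.2)).comp continuousAt_snd)
  have cong : ∀ Φ Ψ : E4 × E4 → E4 × E4 → E4 × E4 → E4 × E4 → E4 × E4 → ℝ, (∀ᶠ q in 𝓝 p, Φ q = Ψ q) →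
      ∀ Y₁ Y₂ Y₃ Y₄ Y₅, Cx.d5 Φ p Y₁ Y₂ Y₃ Y₄ Y₅ = Cx.d5 Ψ p Y₁ Y₂ Y₃ Y₄ Y₅ := by
    intro Φ Ψ h Y₁ Y₂ Y₃ Y₄ Y₅
    have : ∀ Z₁ Z₂ Z₃ Z₄, fderiv ℝ (fun q => Φ q Z₁ Z₂ Z₃ Z₄) p = fderiv ℝ (fun q => Ψ q Z₁ Z₂ Z₃ Z₄) p :=
      fun Z₁ Z₂ Z₃ Z₄ => EventuallyEq.fderiv_eq (h.mono fun q hq => by simp only [hq])
    simp only [Cx.d5, this]
  by_cases h : dist (A.ψ k p.1) (A.ψ k p.2) < A.c0
  · rw [cong _ (fun q Z₁ Z₂ Z₃ Z₄ => (δ ^ 4)⁻¹ * f0 (‖A.s2 k q‖ ^ 2 / δ ^ 2) * A.al (A.s2 k) (A.P2 k) q Z₁ Z₂ Z₃ Z₄ +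
      (δ ^ 2)⁻¹ * f1 (‖A.s2 k q‖ ^ 2 / δ ^ 2) * A.be (A.s2 k) (A.P2 k) q Z₁ Z₂ Z₃ Z₄)]
    · refine (A.mq k).1.closed (a := fun t => (δ ^ 4)⁻¹ * f0 (t / δ ^ 2)) (b := fun t => (δ ^ 2)⁻¹ * f1 (t / δ ^ 2)) hp
        (fun q hq => (A.mq k).2 q hq d) (fun q hq => (A.mq k).2 q hq e) ?_ fun t => ?_
      · exact (differentiable_const _).mul ((s0.differentiable (by simp)).comp (differentiable_id.div_const _))
      · have := ((hd (t / δ ^ 2)).comp t ((hasDerivAt_id t).div_const (δ ^ 2))).const_mul (δ ^ 2)⁻¹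
        refine HasDerivAt.congr_deriv this ?_
        simp only
        field_simp
    · filter_upwards [hc.eventually (gt_mem_nhds h)] with q hq
      funext Z₁ Z₂ Z₃ Z₄
      simp only [Uc, cf, if_pos hq, s2]
  · rw [cong _ (fun _ _ _ _ _ => 0)]
    · simp [Cx.d5]
    · filter_upwards [hc.eventually (lt_mem_nhds (lt_of_lt_of_le h1 (not_lt.1 h)))] with q hq
      funext Z₁ Z₂ Z₃ Z₄
      simp only [Uc, hn f0 (fun t ht => (z t ht).1) δ h2 _ _ hq, hn f1 (fun t ht => (z t ht).2) δ h2 _ _ hq]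
      simp

theorem Uc_alg (k : ι) (δ : ℝ) (p Y₁ Y₂ Y₃ Y₄ : E4 × E4) :
    A.Uc k δ p Y₂ Y₁ Y₃ Y₄ = -A.Uc k δ p Y₁ Y₂ Y₃ Y₄ ∧ A.Uc k δ p Y₁ Y₂ Y₄ Y₃ = -A.Uc k δ p Y₁ Y₂ Y₃ Y₄ ∧
      IsLinearMap ℝ (fun Y => A.Uc k δ p Y Y₂ Y₃ Y₄) ∧ IsLinearMap ℝ fun Y => A.Uc k δ p Y₁ Y₂ Y₃ Y := by
  refine ⟨?_, ?_, ⟨fun Y Y' => ?_, fun c Y => ?_⟩, ⟨fun Y Y' => ?_, fun c Y => ?_⟩⟩
  · have : A.be (A.s2 k) (A.P2 k) p Y₂ Y₁ Y₃ Y₄ = -A.be (A.s2 k) (A.P2 k) p Y₁ Y₂ Y₃ Y₄ := by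
      simp only [Cx.be, ← Finset.sum_neg_distrib]
      refine Finset.sum_congr rfl fun α _ => ?_
      simp only [Cx.W_half]; ring
    rw [Uc, Uc, this, Cx.al, Cx.al, A.W_swap12]; ring
  · have : A.be (A.s2 k) (A.P2 k) p Y₁ Y₂ Y₄ Y₃ = -A.be (A.s2 k) (A.P2 k) p Y₁ Y₂ Y₃ Y₄ := by
      simp only [Cx.be, ← Finset.sum_neg_distrib]
      refine Finset.sum_congr rfl fun α _ => ?_
      simp only [Cx.W_half]; ring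
    rw [Uc, Uc, this, Cx.al, Cx.al, A.W_swap34]; ring
  all_goals
    simp only [Uc, Cx.al, Cx.be, Cx.uu, Cx.kk, ← Cx.stW_apply, map_add, map_smul, add_apply, smul_apply, smul_eq_mul,
      Finset.sum_add_distrib, ← Finset.mul_sum]
    ring

theorem Uc_sm : ∃ C₀ : ℝ, 0 ≤ C₀ ∧ ∀ᶠ δ in 𝓝[>] (0 : ℝ), ∀ k (Y₁ Y₂ Y₃ Y₄ : E4 × E4),
    ContDiffOn ℝ ∞ (fun p => A.Uc k δ p Y₁ Y₂ Y₃ Y₄) (V ×ˢ V) ∧
      ∀ p ∈ V ×ˢ V, C₀ * δ < ‖p.1 - p.2‖ → A.Uc k δ p Y₁ Y₂ Y₃ Y₄ = 0 := by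
  obtain ⟨C, hC, hn⟩ := A.cf_near
  obtain ⟨L, hL, hl⟩ := A.lip
  obtain ⟨s0, s1, -, -, z, -⟩ := prof
  refine ⟨L * C, by positivity, ?_⟩
  filter_upwards [A.sm2_cf s0 fun t ht => (z t ht).1, A.sm2_cf s1 fun t ht => (z t ht).2, self_mem_nhdsWithin]
    with δ h0 h1 h2 k Y₁ Y₂ Y₃ Y₄
  have hs := (A.mq k).1.smooth' Y₁ Y₂ Y₃ Y₄
  refine ⟨((contDiffOn_const.mul (h0 k k)).mul hs.1).add ((contDiffOn_const.mul (h1 k k)).mul hs.2), fun p hp h => ?_⟩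
  have h3 := (hl k _ (A.ψ_mem k _ hp.1) _ (A.ψ_mem k _ hp.2)).1
  rw [A.κψ k _ hp.1, A.κψ k _ hp.2] at h3
  have h4 : C * δ < dist (A.ψ k p.1) (A.ψ k p.2) := by
    refine lt_of_mul_lt_mul_left ?_ (by linarith : 0 ≤ L)
    linarith
  simp only [Uc, hn f0 (fun t ht => (z t ht).1) δ h2 _ _ h4, hn f1 (fun t ht => (z t ht).2) δ h2 _ _ h4]
  simp

theorem _root_.Crest.Agent.R240.isLin_comp {E₁ E₂ E₃ : Type*} [AddCommGroup E₁] [Module ℝ E₁] [AddCommGroup E₂] [Module ℝ E₂]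
    [AddCommGroup E₃] [Module ℝ E₃] {f : E₂ → E₃} (h : IsLinearMap ℝ f) (g : E₁ →ₗ[ℝ] E₂) :
    IsLinearMap ℝ fun x => f (g x) :=
  ⟨fun x y => by rw [map_add, h.map_add], fun c x => by rw [map_smul, h.map_smul]⟩

theorem _root_.Crest.Agent.R240.exists_form_of_lin {U : E4 × E4 → E4 → ℝ}
    (h1 : ∀ e, ContDiffOn ℝ ∞ (fun p => U p e) (V ×ˢ V)) (h2 : ∀ p, IsLinearMap ℝ (U p)) :
    ∃ Γ : E4 × E4 → E4 →L[ℝ] ℝ, ContDiffOn ℝ ∞ Γ (V ×ˢ V) ∧ (∀ p e, Γ p e = U p e) ∧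
      ∀ p ∈ V ×ˢ V, ∀ Y e, fderiv ℝ Γ p Y e = fderiv ℝ (fun q => U q e) p Y := by
  let Γ : E4 × E4 → E4 →L[ℝ] ℝ := fun p => LinearMap.toContinuousLinearMap ((h2 p).mk' _)
  have hs : ContDiffOn ℝ ∞ Γ (V ×ˢ V) := contDiffOn_clm_apply.2 h1
  refine ⟨Γ, hs, fun p e => rfl, fun p hp Y e => ?_⟩
  have hd : DifferentiableAt ℝ Γ p := (hs.contDiffAt ((V_open.prod V_open).mem_nhds hp)).differentiableAt (by simp)
  have := (hd.hasFDerivAt.clm_apply (hasFDerivAt_const e p)).fderiv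
  change _ = fderiv ℝ (fun q => Γ q e) p Y
  rw [this]; simp

/-- `Γ p = ∑ μ, Uc p (a,0) (b,0) (c,0) (0, ee μ) • proj μ`. -/
theorem mq1 : ∃ C₀ : ℝ, 0 ≤ C₀ ∧ ∀ᶠ δ in 𝓝[>] (0 : ℝ), ∀ k (a b c : E4), ∃ Γ : E4 × E4 → E4 →L[ℝ] ℝ,
    ContDiffOn ℝ ∞ Γ (V ×ˢ V) ∧ (∀ p ∈ V ×ˢ V, C₀ * δ < ‖p.1 - p.2‖ → Γ p = 0) ∧ ∀ p ∈ V ×ˢ V, ∀ d e : E4,
      fderiv ℝ (A.thc k δ b c d e) p (a, 0) + fderiv ℝ (A.thc k δ c a d e) p (b, 0) +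
        fderiv ℝ (A.thc k δ a b d e) p (c, 0) = fderiv ℝ Γ p (0, d) e - fderiv ℝ Γ p (0, e) d := by
  obtain ⟨C₀, hC, hs⟩ := A.Uc_sm
  refine ⟨C₀, hC, ?_⟩
  filter_upwards [hs, A.Uc_closed] with δ h1 h2 k a b c
  obtain ⟨Γ, g1, g2, g3⟩ := exists_form_of_lin (U := fun p e => A.Uc k δ p (a, 0) (b, 0) (c, 0) (0, e))
    (fun e => (h1 k _ _ _ _).1) fun p =>
      isLin_comp (A.Uc_alg k δ p (a, 0) (b, 0) (c, 0) 0).2.2.2 (LinearMap.inr ℝ E4 E4)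
  refine ⟨Γ, g1, fun p hp h => ?_, fun p hp d e => ?_⟩
  · ext e
    rw [g2, (h1 k _ _ _ _).2 p hp h]; rfl
  · have hn := (V_open.prod V_open).mem_nhds hp
    have t : ∀ a b d e, fderiv ℝ (A.thc k δ a b d e) p = fderiv ℝ (fun q => A.Uc k δ q (a, 0) (b, 0) (0, d) (0, e)) p :=
      fun a b d e => EventuallyEq.fderiv_eq (by
        filter_upwards [hn] with q hq using (A.Uc_eq_thc k δ hq a b d e).symm)
    have sw : (fun q => A.Uc k δ q (c, 0) (a, 0) (0, d) (0, e)) = -fun q => A.Uc k δ q (a, 0) (c, 0) (0, d) (0, e) := by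
      funext q; exact (A.Uc_alg k δ q _ _ _ _).1
    have := h2 k p hp (a, 0) (b, 0) (c, 0) d e
    rw [t, t, t, g3 p hp, g3 p hp, sw, fderiv_neg]
    simp only [Cx.d5] at this
    simp only [neg_apply]
    linarith

/-- `Γ p = -∑ μ, Uc p (ee μ, 0) (0,c) (0,d) (0,e) • proj μ`. -/
theorem mq2 : ∃ C₀ : ℝ, 0 ≤ C₀ ∧ ∀ᶠ δ in 𝓝[>] (0 : ℝ), ∀ k (c d e : E4), ∃ Γ : E4 × E4 → E4 →L[ℝ] ℝ,
    ContDiffOn ℝ ∞ Γ (V ×ˢ V) ∧ (∀ p ∈ V ×ˢ V, C₀ * δ < ‖p.1 - p.2‖ → Γ p = 0) ∧ ∀ p ∈ V ×ˢ V, ∀ a b : E4,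
      fderiv ℝ (A.thc k δ a b d e) p (0, c) + fderiv ℝ (A.thc k δ a b e c) p (0, d) +
        fderiv ℝ (A.thc k δ a b c d) p (0, e) = fderiv ℝ Γ p (a, 0) b - fderiv ℝ Γ p (b, 0) a := by
  obtain ⟨C₀, hC, hs⟩ := A.Uc_sm
  refine ⟨C₀, hC, ?_⟩
  filter_upwards [hs, A.Uc_closed] with δ h1 h2 k c d e
  obtain ⟨Γ, g1, g2, g3⟩ := exists_form_of_lin (U := fun p b => A.Uc k δ p (b, 0) (0, c) (0, d) (0, e))
    (fun b => (h1 k _ _ _ _).1) fun p =>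
      isLin_comp (A.Uc_alg k δ p 0 (0, c) (0, d) (0, e)).2.2.1 (LinearMap.inl ℝ E4 E4)
  refine ⟨-Γ, g1.neg, fun p hp h => ?_, fun p hp a b => ?_⟩
  · ext b
    rw [Pi.neg_apply, neg_apply, g2, (h1 k _ _ _ _).2 p hp h]; simp
  · have hn := (V_open.prod V_open).mem_nhds hp
    have t : ∀ a b d e, fderiv ℝ (A.thc k δ a b d e) p = fderiv ℝ (fun q => A.Uc k δ q (a, 0) (b, 0) (0, d) (0, e)) p :=
      fun a b d e => EventuallyEq.fderiv_eq (by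
        filter_upwards [hn] with q hq using (A.Uc_eq_thc k δ hq a b d e).symm)
    have sw : (fun q => A.Uc k δ q (a, 0) (b, 0) (0, e) (0, c)) = -fun q => A.Uc k δ q (a, 0) (b, 0) (0, c) (0, e) := by
      funext q; exact (A.Uc_alg k δ q _ _ _ _).2.1
    have := h2 k p hp (a, 0) (b, 0) (0, c) d e
    rw [t, t, t, fderiv_neg, sw, fderiv_neg]
    simp only [Cx.d5] at this
    simp only [neg_apply, g3 p hp]
    linarith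

end Atl
end Crest.Agent.R240
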