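import Crest.Agent.R240.K2
import Crest.Agent.R240.Br3

/-! Row 240: from the core theorem on an atlas to the statement on a manifold. -/

set_option autoImplicit false
set_option maxSynthPendingDepth 3
set_option linter.unusedSectionVars false
set_option linter.unusedVariables false
open MeasureTheory Filter Set Metric
open scoped ENNReal NNReal Topology ContDiff InnerProductSpace InnerProduct Manifold
open Crest.GeometryTopology.TwoForm

noncomputable section
namespace Crest.Agent.R240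

theorem Atl.core {M F ι : Type*} [MetricSpace M] [CompactSpace M] [NormedAddCommGroup F] [InnerProductSpace ℝ F]
    [FiniteDimensional ℝ F] [Fintype ι] (A : Atl M F ι) {Ω : M → Bil F} (hΩ : A.Form Ω) (hc : A.Closed Ω)
    (hp : A.Pos Ω) : ∃ b, A.Form b ∧ A.Closed b ∧ (∀ x, A.pM x (b x) = 0) ∧ A.Pos b := by
  letI : MeasurableSpace M := borel M
  haveI : BorelSpace M := ⟨rfl⟩
  letI : MeasurableSpace F := borel F
  haveI : BorelSpace F := ⟨rfl⟩
  exact A.core' hΩ hc hp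

theorem dcyc_congr {β β' : E4 → Bil E4} (h : ∀ z ∈ V, β z = β' z) {z : E4} (hz : z ∈ V) (a c e : E4) :
    dcyc β z a c e = dcyc β' z a c e := by
  have : β =ᶠ[𝓝 z] β' := by
    filter_upwards [V_open.mem_nhds hz] with w hw using h w hw
  unfold dcyc
  rw [this.fderiv_eq]

theorem skew_of_alt {β : Bil E4} (h : ∀ v, β v v = 0) (u v : E4) : β u v = -β v u := by
  have := h (u + v)
  simp only [map_add, add_apply, h u, h v] at this
  linarith

theorem main_metric {M : Type*} [MetricSpace M] [CompactSpace M] [ChartedSpace E4 M] [IsManifold (𝓡 4) ∞ M]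
    {α : TF M} {J : TE M} (hJ : IsAlmostComplexStructure (𝓡 4) M J) (hα : IsSmoothTwoForm (𝓡 4) M α)
    (hc : IsClosedTwoForm (𝓡 4) M α) (ht : Tames (𝓡 4) M α J)
    (h : ∀ x₀ : M, ∃ c : LC α J, x₀ ∈ c.U ∧ c.κ x₀ = 0) :
    ∃ α' : TF M, IsSmoothTwoForm (𝓡 4) M α' ∧ IsClosedTwoForm (𝓡 4) M α' ∧ IsCompatible (𝓡 4) M α' J := by
  obtain ⟨m, A, Ix, Ipx, hch, hI, hpi, hip, hJx⟩ := exists_atl hJ h
  have hIp : ∀ k, ∀ z ∈ V, ∀ v, Ipx (A.ψ k z) v = mD (A.ψ k) z (A.Ip k z v) := by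
    intro k z hz v
    have h1 : Ix (A.ψ k z) (Ipx (A.ψ k z) v) = Ix (A.ψ k z) (mD (A.ψ k) z (A.Ip k z v)) := by
      rw [hip, ← hI k z hz, A.I_Ip k hz]
    have h2 := congrArg (Ipx (A.ψ k z)) h1
    rwa [hpi, hpi] at h2
  set Ω : M → Bil (PiLp 2 fun _ : Fin m => E4) := fun x => pb (Ipx x) (toB α x) with hΩ
  have hloc : ∀ k, ∀ z ∈ V, A.loc k Ω z = lf α (A.ψ k) z := by
    intro k z hz
    ext a c
    simp only [Atl.loc, lf, hΩ, pb_apply, hI k z hz, hpi]
  have hsk : ∀ x u v, toB α x u v = -toB α x v u := fun x => skew_of_alt (hα.alternating x)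
  have hsm : A.Sm Ω := by
    intro k
    have h1 : ContDiffOn ℝ ∞ (fun z => pb (A.Ip k z) (lf α (A.ψ k) z)) V :=
      (contDiff_pb.comp_contDiffOn (A.I_sm k).2.1).clm_apply ((hch k).lf_sm hα)
    refine h1.congr fun z hz => ?_
    ext a c
    simp only [Function.comp, hΩ, lf, pb_apply, hIp k z hz]
  have hform : A.Form Ω := by
    refine Atl.form_of hsm (fun x u v => hsk x _ _) fun x u v => ?_
    simp only [hΩ, pb_apply, ← hip, hpi]
  have hclosed : A.Closed Ω := by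
    intro k z hz a c e
    rw [dcyc_congr (hloc k) hz]
    obtain ⟨X, hX, eX⟩ := exists_field (A.ψ k z) (mD (A.ψ k) z a)
    obtain ⟨Y, hY, eY⟩ := exists_field (A.ψ k z) (mD (A.ψ k) z c)
    obtain ⟨Z, hZ, eZ⟩ := exists_field (A.ψ k z) (mD (A.ψ k) z e)
    have h1 := (hch k).extDeriv_eq hα hX hY hZ (A.ψ_mem k z hz)
    rw [hc X Y Z hX hY hZ, eX, eY, eZ, (hch k).mK_mD hz, (hch k).mK_mD hz, (hch k).mK_mD hz, A.κψ k z hz] at h1
    exact h1.symm
  have hpos : A.Pos Ω := by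
    intro x w hw h0
    have h1 : Ix x (Ipx x w) = w := by rw [hip, hw]
    have h2 : Ipx x (A.J w) = toE J x (Ipx x w) := by
      conv_lhs => rw [← h1, ← hJx, hpi]
    have h3 : Ipx x w ≠ 0 := fun h => h0 (by rw [← h1, h, map_zero])
    simp only [hΩ, pb_apply, h2]
    exact ht x (Ipx x w) h3
  obtain ⟨b, hb, hbc, hbm, hbp⟩ := A.core hform hclosed hpos
  set α' : TF M := ofB fun x => pb (Ix x) (b x) with hα'
  have hα'B : ∀ x, toB α' x = pb (Ix x) (b x) := fun x => rfl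
  have hloc' : ∀ k, ∀ z ∈ V, lf α' (A.ψ k) z = A.loc k b z := by
    intro k z hz
    ext a c
    simp only [Atl.loc, lf, hα'B, pb_apply, hI k z hz]
  have hsm' : IsSmoothTwoForm (𝓡 4) M α' := by
    refine smooth_of_charts (fun x v => ?_) fun x => ⟨_, _, _, _, hch (A.ch x), (A.ch_spec x).1, ?_⟩
    · have := hb.skew x (Ix x v) (Ix x v)
      change b x (Ix x v) (Ix x v) = 0
      linarith
    · exact (hb.1.loc (A.ch x)).congr (hloc' _)
  refine ⟨α', hsm', fun X Y Z hX hY hZ x => ?_, fun x v hv => ?_, fun x u v => ?_⟩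
  · rw [(hch (A.ch x)).extDeriv_eq hsm' hX hY hZ (A.ch_spec x).1, dcyc_congr (hloc' _) (A.ch_spec x).2.2.1]
    exact hbc _ _ (A.ch_spec x).2.2.1 _ _ _
  · change 0 < b x (Ix x v) (Ix x (toE J x v))
    rw [hJx]
    refine hbp x _ (by rw [← hip, hpi]) fun h => hv ?_
    have := hpi x v
    rw [h, map_zero] at this
    exact this.symm
  · change b x (Ix x (toE J x u)) (Ix x (toE J x v)) = b x (Ix x u) (Ix x v)
    obtain ⟨L, hL⟩ := A.fr_at x
    have := hL.inv_of_piM (hb.2 x) (hbm x)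
    rw [hJx, hJx]
    exact congrArg (fun β : Bil _ => β (Ix x u) (Ix x v)) this

theorem main {M : Type*} [TopologicalSpace M] [T2Space M] [CompactSpace M] [ChartedSpace E4 M]
    [IsManifold (𝓡 4) ∞ M] {α : TF M} {J : TE M} (hJ : IsAlmostComplexStructure (𝓡 4) M J)
    (hα : IsSmoothTwoForm (𝓡 4) M α) (hc : IsClosedTwoForm (𝓡 4) M α) (ht : Tames (𝓡 4) M α J) :
    ∃ α' : TF M, IsSmoothTwoForm (𝓡 4) M α' ∧ IsClosedTwoForm (𝓡 4) M α' ∧ IsCompatible (𝓡 4) M α' J := by
  obtain ⟨n, e, he, hemb, hi⟩ := exists_embedding_euclidean_of_compact (I := 𝓡 4) (M := M)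
  letI : MetricSpace M := hemb.isEmbedding.comapMetricSpace e
  exact main_metric hJ hα hc ht (exists_LC hα hJ ht he hi fun x y => dist_eq_norm (e x) (e y))

end Crest.Agent.R240
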