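import Crest.Agent.R240.A2

/-! Block O1: pseudodifferential operators with symbols of order `-2` (Kohn-Nirenberg quantisation). -/

set_option autoImplicit false
set_option maxSynthPendingDepth 3
set_option linter.unusedSectionVars false
set_option linter.unusedVariables false
open MeasureTheory Filter Set Metric
open scoped ENNReal NNReal Topology ContDiff InnerProductSpace InnerProduct

noncomputable section
namespace Crest.Agent.R240


open scoped FourierTransform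

/-- Fourier transform of a real function. -/
def FT (u : E4 → ℝ) : E4 → ℂ := 𝓕 fun x => (u x : ℂ)

def Op (a : E4 → E4 → ℝ) (u : E4 → ℝ) (z : E4) : ℝ :=
  (∫ ξ, ((𝐞 ⟪z, ξ⟫_ℝ : Circle) : ℂ) * (a z ξ : ℂ) * FT u ξ).re

/-- Derivative of a symbol in the space variable. -/
def da (μ : Fin 4) (a : E4 → E4 → ℝ) : E4 → E4 → ℝ := fun z ξ => pd μ (fun w => a w ξ) z

def Sy0 (a : E4 → E4 → ℝ) : Prop :=
  Continuous (Function.uncurry a) ∧ (∀ ξ, Tst 2 fun z => a z ξ) ∧ ∃ C : ℝ, ∀ z ξ, |a z ξ| ≤ C / (1 + ‖ξ‖ ^ 2)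

def SyN : ℕ → (E4 → E4 → ℝ) → Prop
  | 0, a => Sy0 a
  | n + 1, a => Sy0 a ∧ ∀ μ, SyN n (da μ a)

def Sy (a : E4 → E4 → ℝ) : Prop := ∀ n, SyN n a

theorem Sy.sy0 {a : E4 → E4 → ℝ} (h : Sy a) : Sy0 a := h 0

theorem Sy.da' {a : E4 → E4 → ℝ} (h : Sy a) (μ : Fin 4) : Sy (da μ a) := fun n => (h (n + 1)).2 μ

theorem o1a_cont {f : E4 → ℂ} (h1 : Integrable f) : Continuous (𝓕 f) :=
  VectorFourier.fourierIntegral_continuous Real.continuous_fourierChar (innerSL ℝ).continuous₂ h1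

open scoped SchwartzMap in
theorem o1a_toLp {f : E4 → ℂ} (h1 : Integrable f) (h2 : MemLp f 2 volume) :
    ((𝓕 (h2.toLp f) : Lp ℂ 2 (volume : Measure E4)) : E4 → ℂ) =ᵐ[volume] 𝓕 f := by
  refine ae_eq_of_integral_contDiff_smul_eq ((Lp.memLp _).locallyIntegrable (by norm_num))
    (o1a_cont h1).locallyIntegrable fun g hg hs => ?_
  let G : 𝓢(E4, ℂ) := (hs.comp_left (g := Complex.ofReal) Complex.ofReal_zero).toSchwartzMap
    (Complex.ofRealCLM.contDiff.comp hg)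
  have h := congrArg (· G) (Lp.fourier_toTemperedDistribution_eq (h2.toLp f))
  simp only [TemperedDistribution.fourier_apply, Lp.toTemperedDistribution_apply] at h
  have h3 : ∫ ξ, 𝓕 G ξ • f ξ = ∫ x, G x • 𝓕 f x := by
    simpa using! VectorFourier.integral_fourierIntegral_smul_eq_flip (L := innerₗ E4)
      Real.continuous_fourierChar continuous_inner G.integrable h1
  refine h.symm.trans (Eq.trans (integral_congr_ae ?_) h3)
  filter_upwards [h2.coeFn_toLp] with x hx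
  rw [hx]

theorem o1a_planch {f : E4 → ℂ} (h1 : Integrable f) (h2 : MemLp f 2 volume) :
    MemLp (𝓕 f) 2 volume ∧ lpNorm (𝓕 f) 2 volume = lpNorm f 2 volume := by
  have h3 : MemLp (𝓕 f) 2 volume := (Lp.memLp _).ae_eq (o1a_toLp h1 h2)
  refine ⟨h3, ?_⟩
  rw [← toReal_eLpNorm h3.1, ← toReal_eLpNorm h2.1, ← eLpNorm_congr_ae (o1a_toLp h1 h2),
    ← eLpNorm_congr_ae h2.coeFn_toLp, ← Lp.norm_def, ← Lp.norm_def, Lp.norm_fourier_eq]

/-- See `Fourier_plancherel`, `fourier_toLp_ae` in `Crest/Agent/R338/Fourier.lean` (copy the proof, do not import). -/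
theorem plancherel_inv {f : E4 → ℂ} (h1 : Integrable f) (h2 : MemLp f 2 volume) :
    MemLp (𝓕⁻ f) 2 volume ∧ lpNorm (𝓕⁻ f) 2 volume = lpNorm f 2 volume := by
  obtain ⟨h3, h4⟩ := o1a_planch h1 h2
  have h5 : 𝓕⁻ f = 𝓕 f ∘ fun x => -x := funext fun x => Real.fourierInv_eq_fourier_neg f x
  have h6 := h3.comp_measurePreserving (Measure.measurePreserving_neg (volume : Measure E4))
  rw [h5]
  refine ⟨h6, ?_⟩
  rw [← h4, ← toReal_eLpNorm h6.1, ← toReal_eLpNorm h3.1,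
    eLpNorm_comp_measurePreserving h3.1 (Measure.measurePreserving_neg _)]

theorem o1a_tst {ρ : ℝ} {u : E4 → ℝ} (hu : Tst ρ u) : Tst ρ fun x => (u x : ℂ) :=
  hu.clm Complex.ofRealCLM

/-- `u` is a Schwartz function (`HasCompactSupport.toSchwartzMap`). -/
theorem FT_props {ρ : ℝ} {u : E4 → ℝ} (hu : Tst ρ u) :
    Continuous (FT u) ∧ (∀ N : ℕ, Integrable fun ξ => (1 + ‖ξ‖ ^ 2) ^ N * ‖FT u ξ‖) ∧ MemLp (FT u) 2 volume ∧
      lpNorm (FT u) 2 volume = lpNorm u 2 volume ∧ ∀ z, 𝓕⁻ (FT u) z = (u z : ℂ) := by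
  have h := o1a_tst hu
  let U : SchwartzMap E4 ℂ := h.hcs.toSchwartzMap h.1
  have hF : FT u = (𝓕 U : SchwartzMap E4 ℂ) := rfl
  obtain ⟨h1, h2⟩ := o1a_planch h.integrable (h.memLp 2)
  refine ⟨o1a_cont h.integrable, fun N => ?_, h1, ?_, fun z => ?_⟩
  · simp only [add_comm (1 : ℝ), add_pow, one_pow, mul_one, Finset.sum_mul, ← pow_mul, hF]
    refine integrable_finsetSum _ fun m _ => ?_
    simp only [mul_right_comm _ ((N.choose m : ℕ) : ℝ)]
    exact ((𝓕 U).integrable_pow_mul volume (2 * m)).mul_const _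
  · rw [FT, h2, ← lpNorm_norm h.integrable.1, ← lpNorm_norm hu.integrable.1]
    simp
  · exact congrFun (h.1.continuous.fourierInv_fourier_eq h.integrable (𝓕 U).integrable) z

/-- `Real.fourier_fderiv`. -/
theorem FT_pd {ρ : ℝ} {u : E4 → ℝ} (hu : Tst ρ u) (μ : Fin 4) (ξ : E4) :
    FT (pd μ u) ξ = (2 * Real.pi * Complex.I * (ξ μ : ℂ)) * FT u ξ := by
  have h := o1a_tst hu
  have hd := h.1.differentiable (by simp)
  have h3 : Integrable (fderiv ℝ fun x => (u x : ℂ)) :=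
    (h.1.continuous_fderiv (by simp)).integrable_of_hasCompactSupport (h.hcs.fderiv ℝ)
  have h4 : (fun x => ((pd μ u x : ℝ) : ℂ)) = fun x => fderiv ℝ (fun x => (u x : ℂ)) x (ee μ) := by
    funext x
    rw [show fderiv ℝ (fun x => (u x : ℂ)) x = _ from (Complex.ofRealCLM.hasFDerivAt.comp x
      (hu.1.differentiable (by simp) x).hasFDerivAt).fderiv]
    simp [pd]
  have e : innerSL ℝ ξ (ee μ) = ξ μ :=
    (EuclideanSpace.inner_single_right μ (1 : ℝ) ξ).trans (by simp)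
  rw [FT, FT, h4, ← Real.fourier_continuousLinearMap_apply h3, Real.fourier_fderiv h.integrable hd h3]
  simp only [VectorFourier.fourierSMulRight_apply, neg_apply, e, neg_smul,
    smul_eq_mul, Complex.real_smul]
  ring

theorem o1a_int {a : E4 → E4 → ℝ} (ha : Sy0 a) {u : E4 → ℝ} (hu : Tst 1 u) (z : E4) :
    Integrable fun ξ => ((𝐞 ⟪z, ξ⟫_ℝ : Circle) : ℂ) * (a z ξ : ℂ) * FT u ξ := by
  obtain ⟨hc, -, C, hC⟩ := ha
  obtain ⟨h1, h2, -⟩ := FT_props hu
  have h3 : Continuous fun ξ => a z ξ := hc.comp (Continuous.prodMk_right z)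
  refine ((h2 0).const_mul |C|).mono' (Continuous.aestronglyMeasurable (by fun_prop))
    (Eventually.of_forall fun ξ => ?_)
  rw [norm_mul, norm_mul, Circle.norm_coe, one_mul, pow_zero, one_mul, Complex.norm_real]
  refine mul_le_mul_of_nonneg_right ((hC z ξ).trans ?_) (norm_nonneg _)
  exact (div_le_div_of_nonneg_right (le_abs_self C) (by positivity)).trans
    (div_le_self (abs_nonneg C) (le_add_of_nonneg_right (sq_nonneg _)))

theorem Op_add {a : E4 → E4 → ℝ} (ha : Sy0 a) {u v : E4 → ℝ} (hu : Tst 1 u) (hv : Tst 1 v) :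
    Op a (u + v) = Op a u + Op a v := by
  have h : ∀ ξ, FT (u + v) ξ = FT u ξ + FT v ξ := fun ξ => by
    simp only [FT, Real.fourier_eq, Pi.add_apply, Complex.ofReal_add, smul_add]
    exact integral_add ((Real.fourierIntegral_convergent_iff ξ).2 (o1a_tst hu).integrable)
      ((Real.fourierIntegral_convergent_iff ξ).2 (o1a_tst hv).integrable)
  funext z
  simp only [Op, Pi.add_apply, h, mul_add]
  rw [integral_add (o1a_int ha hu z) (o1a_int ha hv z), Complex.add_re]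

theorem Op_smul (a : E4 → E4 → ℝ) (c : ℝ) (u : E4 → ℝ) : Op a (c • u) = c • Op a u := by
  have h : ∀ ξ, FT (c • u) ξ = c * FT u ξ := fun ξ => by
    simp only [FT, Real.fourier_eq, Pi.smul_apply, smul_eq_mul, Complex.ofReal_mul,
      ← integral_const_mul, mul_smul_comm]
  funext z
  simp only [Op, Pi.smul_apply, h, mul_left_comm _ (c : ℂ), integral_const_mul, smul_eq_mul,
    Complex.re_ofReal_mul]

/-- the integrand of `Op` -/
def o1bG (a : E4 → E4 → ℝ) (u : E4 → ℝ) (z ξ : E4) : ℂ :=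
  ((𝐞 ⟪z, ξ⟫_ℝ : Circle) : ℂ) * (a z ξ : ℂ) * FT u ξ

theorem o1b_bd {a : E4 → E4 → ℝ} (ha : Sy0 a) (u : E4 → ℝ) :
    ∃ C : ℝ, ∀ z ξ, ‖o1bG a u z ξ‖ ≤ C * ‖FT u ξ‖ := by
  obtain ⟨C, hC⟩ := ha.2.2
  refine ⟨|C|, fun z ξ => ?_⟩
  rw [o1bG, norm_mul, norm_mul, Circle.norm_coe, one_mul, Complex.norm_real, Real.norm_eq_abs]
  refine mul_le_mul_of_nonneg_right ?_ (norm_nonneg _)
  refine (hC z ξ).trans ((div_le_div_of_nonneg_right (le_abs_self C) (by positivity)).trans ?_)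
  exact div_le_self (abs_nonneg _) (by nlinarith [sq_nonneg ‖ξ‖])

theorem o1b_cont {a : E4 → E4 → ℝ} (ha : Sy0 a) {u : E4 → ℝ} (hu : Tst 1 u) (z : E4) :
    Continuous (o1bG a u z) := by
  have h1 : Continuous fun ξ => a z ξ := ha.1.comp (Continuous.prodMk_right z)
  have h2 : Continuous fun ξ : E4 => ((𝐞 ⟪z, ξ⟫_ℝ : Circle) : ℂ) :=
    continuous_subtype_val.comp (Real.continuous_fourierChar.comp (continuous_const.inner continuous_id))
  exact (h2.mul (Complex.continuous_ofReal.comp h1)).mul (FT_props hu).1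

theorem o1b_intFT {u : E4 → ℝ} (hu : Tst 1 u) : Integrable fun ξ => ‖FT u ξ‖ := by
  simpa using (FT_props hu).2.1 0

theorem o1b_int {a : E4 → E4 → ℝ} (ha : Sy0 a) {u : E4 → ℝ} (hu : Tst 1 u) (z : E4) :
    Integrable (o1bG a u z) := by
  obtain ⟨C, hC⟩ := o1b_bd ha u
  exact ((o1b_intFT hu).const_mul C).mono' (o1b_cont ha hu z).aestronglyMeasurable
    (ae_of_all _ (hC z))

/-- the linear map with prescribed values on the basis -/
def o1bL (c : Fin 4 → ℂ) : E4 →L[ℝ] ℂ :=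
  ∑ μ : Fin 4, (EuclideanSpace.proj μ : E4 →L[ℝ] ℝ).smulRight (c μ)

theorem o1bL_ee (c : Fin 4 → ℂ) (μ : Fin 4) : o1bL c (ee μ) = c μ := by
  simp [o1bL, ee]

theorem o1b_ext {B B' : E4 →L[ℝ] ℂ} (h : ∀ μ, B (ee μ) = B' (ee μ)) : B = B' := by
  ext a
  rw [← sum_ee a]
  simp only [map_sum, map_smul, h]

theorem o1b_deriv {a : E4 → E4 → ℝ} (ha : Sy0 a) {u : E4 → ℝ} (hu : Tst 1 u) (z ξ : E4) :
    HasFDerivAt (fun z => o1bG a u z ξ)
      (o1bL fun μ => o1bG (da μ a) u z ξ + o1bG a (pd μ u) z ξ) z := by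
  have h1 : HasFDerivAt (fun z : E4 => ⟪z, ξ⟫_ℝ) (innerSL ℝ ξ) z := by
    have : (fun z : E4 => ⟪z, ξ⟫_ℝ) = innerSL ℝ ξ := funext fun w => real_inner_comm _ _
    rw [this]
    exact (innerSL ℝ ξ).hasFDerivAt
  have h2 := (Real.hasDerivAt_fourierChar ⟪z, ξ⟫_ℝ).hasFDerivAt.comp z h1
  have h3 := Complex.ofRealCLM.hasFDerivAt.comp z
    ((ha.2.1 ξ).1.differentiable (by simp) z).hasFDerivAt
  have h4 := (h2.mul h3).mul_const (FT u ξ)
  refine HasFDerivAt.congr_fderiv h4 (o1b_ext fun μ => ?_)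
  rw [o1bL_ee]
  simp only [o1bG, FT_pd hu, da, pd]
  simp [ee, EuclideanSpace.inner_single_right]
  ring

theorem o1b_main {a : E4 → E4 → ℝ} (ha : Sy a) {u : E4 → ℝ} (hu : Tst 1 u) :
    Differentiable ℝ (Op a u) ∧ ∀ μ, pd μ (Op a u) = Op (da μ a) u + Op a (pd μ u) := by
  have h0 := ha.sy0
  have h1 := fun μ => (ha.da' μ).sy0
  choose C hC using fun μ => o1b_bd (h1 μ) u
  choose C' hC' using fun μ => o1b_bd h0 (pd μ u)
  set F' : E4 → E4 → E4 →L[ℝ] ℂ := fun z ξ =>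
    o1bL fun μ => o1bG (da μ a) u z ξ + o1bG a (pd μ u) z ξ with hF'
  have hc : ∀ z, Continuous (F' z) := fun z => continuous_finsetSum _ fun μ _ =>
    (ContinuousLinearMap.smulRightL ℝ E4 ℂ (EuclideanSpace.proj μ)).continuous.comp
      ((o1b_cont (h1 μ) hu z).add (o1b_cont h0 (hu.pd' μ) z))
  have hb : ∀ z ξ, ‖F' z ξ‖ ≤ ∑ μ, (C μ * ‖FT u ξ‖ + C' μ * ‖FT (pd μ u) ξ‖) := fun z ξ => by
    refine (norm_le_sum_ee _).trans (Finset.sum_le_sum fun μ _ => ?_)
    simp only [hF', o1bL_ee]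
    exact (norm_add_le _ _).trans (add_le_add (hC μ z ξ) (hC' μ z ξ))
  have hbi : Integrable fun ξ => ∑ μ, (C μ * ‖FT u ξ‖ + C' μ * ‖FT (pd μ u) ξ‖) :=
    integrable_finsetSum _ fun μ _ =>
      ((o1b_intFT hu).const_mul _).add ((o1b_intFT (hu.pd' μ)).const_mul _)
  have key : ∀ z, HasFDerivAt (Op a u) (Complex.reCLM.comp (∫ ξ, F' z ξ)) z := fun z =>
    Complex.reCLM.hasFDerivAt.comp z (hasFDerivAt_integral_of_dominated_of_fderiv_le
      (F := o1bG a u) (F' := F') univ_mem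
      (Eventually.of_forall fun w => (o1b_cont h0 hu w).aestronglyMeasurable) (o1b_int h0 hu z)
      (hc z).aestronglyMeasurable (ae_of_all _ fun ξ w _ => hb w ξ) hbi
      (ae_of_all _ fun ξ w _ => o1b_deriv h0 hu w ξ))
  refine ⟨fun z => (key z).differentiableAt, fun μ => funext fun z => ?_⟩
  have hi : Integrable (F' z) := hbi.mono' (hc z).aestronglyMeasurable (ae_of_all _ (hb z))
  rw [pd, (key z).fderiv, ContinuousLinearMap.comp_apply, ContinuousLinearMap.integral_apply hi]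
  simp only [hF', o1bL_ee]
  rw [integral_add (o1b_int (h1 μ) hu z) (o1b_int h0 (hu.pd' μ) z), map_add]
  rfl

theorem o1b_contDiff (n : ℕ) : ∀ {a : E4 → E4 → ℝ}, Sy a → ∀ {u : E4 → ℝ}, Tst 1 u →
    ContDiff ℝ n (Op a u) := by
  induction n with
  | zero => exact fun ha u hu => by simpa using (o1b_main ha hu).1.continuous
  | succ n ih =>
    intro a ha u hu
    obtain ⟨h1, h2⟩ := o1b_main ha hu
    rw [Nat.cast_succ, contDiff_succ_iff_fderiv_apply]
    refine ⟨h1, by simp, fun y => ?_⟩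
    have : (fun x => fderiv ℝ (Op a u) x y) = fun x => ∑ μ, y μ • pd μ (Op a u) x := by
      funext x
      conv_lhs => rw [← sum_ee y]
      simp only [map_sum, map_smul, pd]
    rw [this]
    refine ContDiff.sum fun μ _ => ContDiff.const_smul _ ?_
    rw [h2]
    exact (ih (ha.da' μ) hu).add (ih ha (hu.pd' μ))

/-- Differentiate under the integral sign (`hasFDerivAt_integral_of_dominated_of_fderiv_le`), `FT_pd`; smoothness by
induction on the order over all symbols and all `u` (`contDiff_succ_iff_fderiv_apply`, `sum_ee`). -/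
theorem Op_tst {a : E4 → E4 → ℝ} (ha : Sy a) {u : E4 → ℝ} (hu : Tst 1 u) :
    Tst 2 (Op a u) ∧ ∀ μ, pd μ (Op a u) = Op (da μ a) u + Op a (pd μ u) := by
  refine ⟨⟨contDiff_infty.2 fun n => o1b_contDiff n ha hu, fun z hz => ?_⟩, (o1b_main ha hu).2⟩
  simp [Op, fun ξ => (ha.sy0.2.1 ξ).2 z hz]

end Crest.Agent.R240
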