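import Crest.Agent.R240.O1

/-! Block O2: `L²` and Sobolev bounds for `Op`. -/

set_option autoImplicit false
set_option maxSynthPendingDepth 3
set_option linter.unusedSectionVars false
set_option linter.unusedVariables false
open MeasureTheory Filter Set Metric
open scoped ENNReal NNReal Topology ContDiff InnerProductSpace InnerProduct

noncomputable section
namespace Crest.Agent.R240


open scoped FourierTransform

def o2aP (a : E4 → E4 → ℝ) (g : E4 → ℂ) (z : E4) : ℂ := ∫ ξ, (a z ξ : ℂ) * g ξ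

theorem o2a_bd {a : E4 → E4 → ℝ} (ha : Sy0 a) :
    ∃ C : ℝ, 0 ≤ C ∧ ∀ z ξ, ‖(a z ξ : ℂ)‖ ≤ C / (1 + ‖ξ‖ ^ 2) := by
  obtain ⟨C, hC⟩ := ha.2.2
  refine ⟨|C|, abs_nonneg _, fun z ξ => ?_⟩
  rw [Complex.norm_real, Real.norm_eq_abs]
  exact (hC z ξ).trans (div_le_div_of_nonneg_right (le_abs_self C) (by positivity))

theorem o2a_bd' {a : E4 → E4 → ℝ} (ha : Sy0 a) (g : E4 → ℂ) :
    ∃ C : ℝ, ∀ z ξ, ‖(a z ξ : ℂ) * g ξ‖ ≤ C * ‖g ξ‖ := by
  obtain ⟨C, h0, hC⟩ := o2a_bd ha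
  refine ⟨C, fun z ξ => ?_⟩
  rw [norm_mul]
  refine mul_le_mul_of_nonneg_right ((hC z ξ).trans ?_) (norm_nonneg _)
  exact div_le_self h0 (by nlinarith [sq_nonneg ‖ξ‖])

theorem o2a_cont {a : E4 → E4 → ℝ} (ha : Sy0 a) {g : E4 → ℂ} (hg : Continuous g) (z : E4) :
    Continuous fun ξ => (a z ξ : ℂ) * g ξ :=
  (Complex.continuous_ofReal.comp (ha.1.comp (Continuous.prodMk_right z))).mul hg

theorem o2a_main {a : E4 → E4 → ℝ} (ha : Sy a) {g : E4 → ℂ} (hg : Continuous g) (hi : Integrable g) :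
    Differentiable ℝ (o2aP a g) ∧ ∀ μ, pd μ (o2aP a g) = o2aP (da μ a) g := by
  have h0 := ha.sy0
  have h1 := fun μ => (ha.da' μ).sy0
  choose C hC using fun μ => o2a_bd' (h1 μ) g
  obtain ⟨C', hC'⟩ := o2a_bd' h0 g
  set F' : E4 → E4 → E4 →L[ℝ] ℂ := fun z ξ => o1bL fun μ => (da μ a z ξ : ℂ) * g ξ with hF'
  have hc : ∀ z, Continuous (F' z) := fun z => continuous_finsetSum _ fun μ _ =>
    (ContinuousLinearMap.smulRightL ℝ E4 ℂ (EuclideanSpace.proj μ)).continuous.comp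
      (o2a_cont (h1 μ) hg z)
  have hb : ∀ z ξ, ‖F' z ξ‖ ≤ ∑ μ, C μ * ‖g ξ‖ := fun z ξ => by
    refine (norm_le_sum_ee _).trans (Finset.sum_le_sum fun μ _ => ?_)
    simp only [hF', o1bL_ee]
    exact hC μ z ξ
  have hbi : Integrable fun ξ => ∑ μ, C μ * ‖g ξ‖ :=
    integrable_finsetSum _ fun μ _ => hi.norm.const_mul _
  have hd : ∀ z ξ, HasFDerivAt (fun z => (a z ξ : ℂ) * g ξ) (F' z ξ) z := fun z ξ => by
    have h3 := Complex.ofRealCLM.hasFDerivAt.comp z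
      ((h0.2.1 ξ).1.differentiable (by simp) z).hasFDerivAt
    refine HasFDerivAt.congr_fderiv (h3.mul_const (g ξ)) (o1b_ext fun μ => ?_)
    simp only [hF', o1bL_ee, da, pd]
    simp [mul_comm]
  have key : ∀ z, HasFDerivAt (o2aP a g) (∫ ξ, F' z ξ) z := fun z =>
    hasFDerivAt_integral_of_dominated_of_fderiv_le
      (F := fun z ξ => (a z ξ : ℂ) * g ξ) (F' := F') univ_mem
      (Eventually.of_forall fun w => (o2a_cont h0 hg w).aestronglyMeasurable)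
      ((hi.norm.const_mul C').mono' (o2a_cont h0 hg z).aestronglyMeasurable (ae_of_all _ (hC' z)))
      (hc z).aestronglyMeasurable (ae_of_all _ fun ξ w _ => hb w ξ) hbi
      (ae_of_all _ fun ξ w _ => hd w ξ)
  refine ⟨fun z => (key z).differentiableAt, fun μ => funext fun z => ?_⟩
  have hi' : Integrable (F' z) := hbi.mono' (hc z).aestronglyMeasurable (ae_of_all _ (hb z))
  rw [pd, (key z).fderiv, ContinuousLinearMap.integral_apply hi']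
  simp only [hF', o1bL_ee]
  rfl

theorem o2a_contDiff {g : E4 → ℂ} (hg : Continuous g) (hi : Integrable g) (n : ℕ) :
    ∀ {a : E4 → E4 → ℝ}, Sy a → ContDiff ℝ n (o2aP a g) := by
  induction n with
  | zero => exact fun ha => by simpa using (o2a_main ha hg hi).1.continuous
  | succ n ih =>
    intro a ha
    obtain ⟨h1, h2⟩ := o2a_main ha hg hi
    rw [Nat.cast_succ, contDiff_succ_iff_fderiv_apply]
    refine ⟨h1, by simp, fun y => ?_⟩
    have : (fun x => fderiv ℝ (o2aP a g) x y) = fun x => ∑ μ, y μ • pd μ (o2aP a g) x := by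
      funext x
      conv_lhs => rw [← sum_ee y]
      simp only [map_sum, map_smul, pd]
    rw [this]
    refine ContDiff.sum fun μ _ => ContDiff.const_smul _ ?_
    rw [h2]
    exact ih (ha.da' μ)

theorem o2a_tst {a : E4 → E4 → ℝ} (ha : Sy a) {g : E4 → ℂ} (hg : Continuous g) (hi : Integrable g) :
    Tst 2 (o2aP a g) :=
  ⟨contDiff_infty.2 fun n => o2a_contDiff hg hi n ha, fun z hz => by
    simp [o2aP, fun ξ => (ha.sy0.2.1 ξ).2 z hz]⟩

theorem o2a_sq (f : E4 → ℂ) : eLpNorm f 2 volume ^ 2 = ∫⁻ x, ‖f x‖ₑ ^ 2 := by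
  have := eLpNorm_nnreal_pow_eq_lintegral (μ := (volume : Measure E4)) (f := f) (p := 2) two_ne_zero
  simpa using this

def o2aG (q : E4 → ℂ) (u : E4 → ℝ) (x ξ : E4) : ℂ := ((𝐞 ⟪x, ξ⟫_ℝ : Circle) : ℂ) * (q ξ * FT u ξ)

theorem o2a_Gc {q : E4 → ℂ} (hq : Continuous q) {u : E4 → ℝ} (hu : Tst 1 u) {X : Type}
    [TopologicalSpace X] {f g : X → E4} (hf : Continuous f) (hg : Continuous g) :
    Continuous fun p : X => o2aG q u (f p) (g p) := by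
  have h1 : Continuous fun p : X => ((𝐞 ⟪f p, g p⟫_ℝ : Circle) : ℂ) :=
    continuous_subtype_val.comp (Real.continuous_fourierChar.comp (hf.inner hg))
  exact h1.mul ((hq.comp hg).mul ((FT_props hu).1.comp hg))

theorem o2a_Gi {q : E4 → ℂ} (hq : Continuous q) {B : ℝ} (hB : ∀ ξ, ‖q ξ‖ ≤ B * (1 + ‖ξ‖ ^ 2))
    {u : E4 → ℝ} (hu : Tst 1 u) (x : E4) : Integrable (o2aG q u x) :=
  (((FT_props hu).2.1 1).const_mul B).mono'
    (o2a_Gc hq hu continuous_const continuous_id').aestronglyMeasurable (ae_of_all _ fun ξ => by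
      simp only [o2aG, norm_mul, Circle.norm_coe, one_mul, pow_one, ← mul_assoc]
      exact mul_le_mul_of_nonneg_right (hB ξ) (norm_nonneg _))

theorem o2a_meas {b : E4 → E4 → ℝ} (hb : Sy0 b) {q : E4 → ℂ} (hq : Continuous q) {u : E4 → ℝ}
    (hu : Tst 1 u) : Measurable fun p : E4 × E4 => ‖o2aP b (o2aG q u p.1) p.2‖ₑ ^ 2 := by
  have h1 : Continuous fun r : (E4 × E4) × E4 => b r.1.2 r.2 :=
    hb.1.comp (continuous_fst.snd.prodMk continuous_snd)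
  have h2 : Continuous fun r : (E4 × E4) × E4 => o2aG q u r.1.1 r.2 :=
    o2a_Gc hq hu continuous_fst.fst continuous_snd
  have hc : Continuous fun r : (E4 × E4) × E4 => (b r.1.2 r.2 : ℂ) * o2aG q u r.1.1 r.2 :=
    (Complex.continuous_ofReal.comp h1).mul h2
  have h3 : StronglyMeasurable fun p : E4 × E4 => o2aP b (o2aG q u p.1) p.2 :=
    hc.stronglyMeasurable.integral_prod_right' (ν := volume)
  exact h3.measurable.enorm.pow_const 2

theorem o2a_pl {b : E4 → E4 → ℝ} (hb : Sy0 b) {q : E4 → ℂ} (hq : Continuous q) {B Cb : ℝ}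
    (hB : ∀ ξ, ‖q ξ‖ ≤ B * (1 + ‖ξ‖ ^ 2)) (hCb : 0 ≤ Cb)
    (hbb : ∀ z ξ, ‖(b z ξ : ℂ)‖ ≤ Cb / (1 + ‖ξ‖ ^ 2)) {u : E4 → ℝ} (hu : Tst 1 u) (z : E4) :
    ∫⁻ x, ‖o2aP b (o2aG q u x) z‖ₑ ^ 2 ≤ (closedBall (0 : E4) 2).indicator
      (fun _ => ENNReal.ofReal (Cb * B * lpNorm u 2 volume) ^ 2) z := by
  have hB0 : 0 ≤ B := by simpa using (norm_nonneg _).trans (hB 0)
  obtain ⟨hFc, hFi, hF2, hFn, -⟩ := FT_props hu
  by_cases hz : z ∈ closedBall (0 : E4) 2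
  · rw [indicator_of_mem hz]
    obtain ⟨f, hf⟩ : ∃ f : E4 → ℂ, f = fun ξ => (b z ξ : ℂ) * (q ξ * FT u ξ) := ⟨_, rfl⟩
    have hfc : Continuous f := hf ▸ o2a_cont hb (hq.mul hFc) z
    have hfb : ∀ ξ, ‖f ξ‖ ≤ Cb * B * ‖FT u ξ‖ := fun ξ => by
      have h0 : 0 < 1 + ‖ξ‖ ^ 2 := by positivity
      simp only [hf, norm_mul]
      calc _ ≤ Cb / (1 + ‖ξ‖ ^ 2) * (B * (1 + ‖ξ‖ ^ 2) * ‖FT u ξ‖) := by
            gcongr
            exacts [hbb z ξ, hB ξ]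
        _ = _ := by field_simp
    have hf1 : Integrable f := ((o1b_intFT hu).const_mul _).mono' hfc.aestronglyMeasurable
      (ae_of_all _ hfb)
    have hf2 : MemLp f 2 volume := (hF2.norm.const_mul (Cb * B)).mono' hfc.aestronglyMeasurable
      (ae_of_all _ hfb)
    obtain ⟨p1, p2⟩ := plancherel_inv hf1 hf2
    have e3 : (fun x => o2aP b (o2aG q u x) z) = 𝓕⁻ f := by
      funext x
      rw [Real.fourierInv_eq]
      refine integral_congr_ae (ae_of_all _ fun ξ => ?_)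
      simp only [o2aG, hf, Circle.smul_def, smul_eq_mul, real_inner_comm ξ x]
      ring
    rw [← o2a_sq (fun x => o2aP b (o2aG q u x) z), e3, ← ofReal_lpNorm p1, p2]
    gcongr
    refine (lpNorm_mono_real (hF2.norm.const_mul (Cb * B)) hfb).trans (le_of_eq ?_)
    have := lpNorm_const_smul (Cb * B) (fun ξ => ‖FT u ξ‖) volume (p := 2)
    rw [lpNorm_norm hF2.1, hFn] at this
    rw [show (fun ξ => Cb * B * ‖FT u ξ‖) = (Cb * B) • fun ξ => ‖FT u ξ‖ from rfl, this]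
    simp [abs_of_nonneg hCb, abs_of_nonneg hB0]
  · rw [indicator_of_notMem hz]
    simp [o2aP, fun ξ => (hb.2.1 ξ).2 z (by simpa using hz)]

/-- Freeze the first variable: for fixed `x`, `Φ x z' = ∫ 𝐞⟪x,ξ⟫ a z' ξ q ξ û ξ` is a test function of `z'` whose derivatives are
obtained by replacing `a` with `da μ a`; `sup_le_mixed` gives `‖Φ x x‖² ≤ C ∫ ‖∂₀₁₂₃ Φ x z'‖² dz'`; integrate in `x`, Tonelli,
`plancherel_inv` for each `z' ∈ closedBall 0 2`. -/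
theorem op_L2_core {a : E4 → E4 → ℝ} (ha : Sy a) {q : E4 → ℂ} (hq : Continuous q) {B : ℝ}
    (hB : ∀ ξ, ‖q ξ‖ ≤ B * (1 + ‖ξ‖ ^ 2)) : ∃ C : ℝ, 0 ≤ C ∧ ∀ u : E4 → ℝ, Tst 1 u →
      eLpNorm (fun z : E4 => ∫ ξ, ((𝐞 ⟪z, ξ⟫_ℝ : Circle) : ℂ) * (a z ξ : ℂ) * (q ξ * FT u ξ)) 2 volume ≤
        ENNReal.ofReal (C * lpNorm u 2 volume) := by
  obtain ⟨C₀, hC₀, hsup⟩ := sup_le_mixed (G := ℂ)
  have h3 := ha.da' 3
  have h2 := h3.da' 2
  have h1 := h2.da' 1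
  have hbS := h1.da' 0
  obtain ⟨Cb, hCb, hbb⟩ := o2a_bd hbS.sy0
  have hB0 : 0 ≤ B := by simpa using (norm_nonneg _).trans (hB 0)
  obtain ⟨W, hW⟩ : ∃ W : ℝ, W = (volume : Measure E4).real (closedBall 0 2) := ⟨_, rfl⟩
  have hW0 : 0 ≤ W := hW ▸ measureReal_nonneg
  refine ⟨C₀ * (√W * (Cb * B)), by positivity, fun u hu => ?_⟩
  have hL0 : 0 ≤ lpNorm u 2 volume := lpNorm_nonneg
  have hgc : ∀ x, Continuous (o2aG q u x) := fun x => o2a_Gc hq hu continuous_const continuous_id'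
  have hgi := o2a_Gi hq hB hu
  have e0 : (fun z : E4 => ∫ ξ, ((𝐞 ⟪z, ξ⟫_ℝ : Circle) : ℂ) * (a z ξ : ℂ) * (q ξ * FT u ξ)) =
      fun z => o2aP a (o2aG q u z) z := by
    funext z
    exact integral_congr_ae (ae_of_all _ fun ξ => by simp only [o2aG]; ring)
  have e1 : ∀ x, ‖o2aP a (o2aG q u x) x‖ₑ ^ 2 ≤ ENNReal.ofReal C₀ ^ 2 *
      ∫⁻ z, ‖o2aP (da 0 (da 1 (da 2 (da 3 a)))) (o2aG q u x) z‖ₑ ^ 2 := by
    intro x
    have := hsup _ ((o2a_tst ha (hgc x) (hgi x)).mono (by norm_num)) x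
    rw [(o2a_main ha (hgc x) (hgi x)).2, (o2a_main h3 (hgc x) (hgi x)).2,
      (o2a_main h2 (hgc x) (hgi x)).2, (o2a_main h1 (hgc x) (hgi x)).2] at this
    rw [← o2a_sq, ← mul_pow, ← ofReal_lpNorm ((o2a_tst hbS (hgc x) (hgi x)).memLp 2),
      ← ENNReal.ofReal_mul hC₀, ← ofReal_norm]
    gcongr
  have hm := o2a_meas hbS.sy0 hq hu
  have e2 := o2a_pl hbS.sy0 hq hB hCb hbb hu
  rw [e0, ← ENNReal.pow_le_pow_left_iff two_ne_zero, o2a_sq]
  refine (lintegral_mono e1).trans ?_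
  rw [lintegral_const_mul' _ _ (by finiteness), lintegral_lintegral_swap hm.aemeasurable]
  refine (mul_le_mul_right (lintegral_mono e2) _).trans (le_of_eq ?_)
  rw [lintegral_indicator_const measurableSet_closedBall,
    ← ofReal_measureReal measure_closedBall_lt_top.ne, ← hW, ← Real.sq_sqrt hW0,
    ENNReal.ofReal_pow (Real.sqrt_nonneg _), ← mul_pow, ← mul_pow,
    ← ENNReal.ofReal_mul (by positivity), ← ENNReal.ofReal_mul hC₀, Real.sq_sqrt hW0]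
  congr 2
  ring

theorem o2b_core {a : E4 → E4 → ℝ} (ha : Sy a) {q : E4 → ℂ} (hq : Continuous q) {B : ℝ}
    (hB : ∀ ξ, ‖q ξ‖ ≤ B * (1 + ‖ξ‖ ^ 2)) : ∃ C : ℝ, 0 ≤ C ∧ ∀ u w : E4 → ℝ, Tst 1 u → Tst 1 w →
      (∀ ξ, FT w ξ = q ξ * FT u ξ) → lpNorm (Op a w) 2 volume ≤ C * lpNorm u 2 volume := by
  obtain ⟨C, hC, H⟩ := op_L2_core ha hq hB
  refine ⟨C, hC, fun u w hu hw h => ?_⟩
  rw [← toReal_eLpNorm (Op_tst ha hw).1.1.continuous.aestronglyMeasurable]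
  refine ENNReal.toReal_le_of_le_ofReal (mul_nonneg hC lpNorm_nonneg)
    (le_trans (eLpNorm_mono fun z => ?_) (H u hu))
  simp only [Op, h]
  exact Complex.abs_re_le_norm _

theorem Op_L2 {a : E4 → E4 → ℝ} (ha : Sy a) : ∃ C : ℝ, 0 ≤ C ∧ ∀ u : E4 → ℝ, Tst 1 u →
    lpNorm (Op a u) 2 volume ≤ C * lpNorm u 2 volume ∧
      (∀ μ, lpNorm (Op a (pd μ u)) 2 volume ≤ C * lpNorm u 2 volume) ∧
      ∀ μ ν, lpNorm (Op a (pd ν (pd μ u))) 2 volume ≤ C * lpNorm u 2 volume := by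
  have hn : ∀ (μ : Fin 4) (ξ : E4), ‖2 * Real.pi * Complex.I * (ξ μ : ℂ)‖ ≤ 2 * Real.pi * ‖ξ‖ := fun μ ξ => by
    simp only [norm_mul, Complex.norm_ofNat, Complex.norm_real, Complex.norm_I, mul_one,
      Real.norm_of_nonneg Real.pi_pos.le]
    exact mul_le_mul_of_nonneg_left (PiLp.norm_apply_le ξ μ) (by positivity)
  obtain ⟨C₀, h₀, H₀⟩ := o2b_core ha (q := fun _ => 1) continuous_const (B := 1) fun ξ => by simp
  have h₁ := fun μ : Fin 4 => o2b_core ha (q := fun ξ => 2 * Real.pi * Complex.I * (ξ μ : ℂ)) (by fun_prop)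
    (B := 2 * Real.pi) fun ξ => (hn μ ξ).trans (by gcongr; nlinarith [sq_nonneg (‖ξ‖ - 1)])
  have h₂ := fun μ ν : Fin 4 => o2b_core ha (q := fun ξ => 2 * Real.pi * Complex.I * (ξ ν : ℂ) *
      (2 * Real.pi * Complex.I * (ξ μ : ℂ))) (by fun_prop) (B := (2 * Real.pi) ^ 2) fun ξ => by
    rw [norm_mul]
    refine (mul_le_mul (hn ν ξ) (hn μ ξ) (norm_nonneg _) (by positivity)).trans ?_
    nlinarith [sq_nonneg (2 * Real.pi)]
  choose C₁ h₁ H₁ using h₁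
  choose C₂ h₂ H₂ using h₂
  have s₁ : 0 ≤ ∑ μ, C₁ μ := Finset.sum_nonneg fun μ _ => h₁ μ
  have s₂ : 0 ≤ ∑ μ, ∑ ν, C₂ μ ν := Finset.sum_nonneg fun μ _ => Finset.sum_nonneg fun ν _ => h₂ μ ν
  refine ⟨C₀ + ∑ μ, C₁ μ + ∑ μ, ∑ ν, C₂ μ ν, by positivity, fun u hu => ⟨?_, fun μ => ?_, fun μ ν => ?_⟩⟩
  · exact (H₀ u u hu hu fun ξ => (one_mul _).symm).trans
      (mul_le_mul_of_nonneg_right (by linarith) lpNorm_nonneg)
  · have := Finset.single_le_sum (fun μ _ => h₁ μ) (Finset.mem_univ μ)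
    exact (H₁ μ u _ hu (hu.pd' μ) (FT_pd hu μ)).trans (mul_le_mul_of_nonneg_right (by linarith) lpNorm_nonneg)
  · have := (Finset.single_le_sum (fun ν _ => h₂ μ ν) (Finset.mem_univ ν)).trans
      (Finset.single_le_sum (f := fun μ => ∑ ν, C₂ μ ν) (fun μ _ => Finset.sum_nonneg fun ν _ => h₂ μ ν)
        (Finset.mem_univ μ))
    exact (H₂ μ ν u _ hu ((hu.pd' μ).pd' ν) fun ξ => by rw [FT_pd (hu.pd' μ), FT_pd hu]; ring).trans
      (mul_le_mul_of_nonneg_right (by linarith) lpNorm_nonneg)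

theorem o2b_tst {u : E4 → ℝ} (hu : Tst 1 u) (l : List (Fin 4)) : Tst 1 (l.foldr pd u) := by
  induction l with
  | nil => exact hu
  | cons μ l ih => exact ih.pd' μ

theorem o2b_comm {u : E4 → ℝ} (hu : Tst 1 u) (κ : Fin 4) (l : List (Fin 4)) :
    pd κ (l.foldr pd u) = l.foldr pd (pd κ u) := by
  induction l with
  | nil => rfl
  | cons μ l ih => rw [List.foldr_cons, List.foldr_cons, pd_comm (o2b_tst hu l).1, ih]

theorem o2b_step (n : ℕ) {a : E4 → E4 → ℝ} (ha : Sy a) {w : E4 → ℝ} (hw : Tst 1 w) :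
    hs (n + 1) 1 (Op a w) ≤ hs 0 1 (Op a w) +
      ∑ κ, (hs n 1 (Op (da κ a) w) + hs n 1 (Op a (pd κ w))) := by
  simp only [hs, one_mul, add_le_add_iff_left]
  refine Finset.sum_le_sum fun κ _ => ?_
  rw [(Op_tst ha hw).2 κ]
  exact hs_add_le n zero_le_one (Op_tst (ha.da' κ) hw).1 (Op_tst ha (hw.pd' κ)).1

theorem o2b_hs (n : ℕ) : ∀ {a : E4 → E4 → ℝ}, Sy a → ∃ C : ℝ, 0 ≤ C ∧ ∀ u : E4 → ℝ, Tst 1 u →
    ∀ l : List (Fin 4), l.length ≤ 2 → hs n 1 (Op a (l.foldr pd u)) ≤ C * hs n 1 u := by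
  have h0 : ∀ {a : E4 → E4 → ℝ}, Sy a → ∃ C : ℝ, 0 ≤ C ∧ ∀ u : E4 → ℝ, Tst 1 u →
      ∀ l : List (Fin 4), l.length ≤ 2 → hs 0 1 (Op a (l.foldr pd u)) ≤ C * hs 0 1 u := by
    intro a ha
    obtain ⟨C, hC, H⟩ := Op_L2 ha
    refine ⟨C, hC, fun u hu l hl => ?_⟩
    match l, hl with
    | [], _ => exact (H u hu).1
    | [μ], _ => exact (H u hu).2.1 μ
    | [ν, μ], _ => exact (H u hu).2.2 μ ν
  induction n with
  | zero => exact h0
  | succ n ih =>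
    intro a ha
    obtain ⟨C₀, hC₀, H₀⟩ := h0 ha
    obtain ⟨C, hC, H⟩ := ih ha
    choose D hD HD using fun κ => ih (ha.da' κ)
    refine ⟨C₀ + ∑ κ, (D κ + C), add_nonneg hC₀ (Finset.sum_nonneg fun κ _ => add_nonneg (hD κ) hC),
      fun u hu l hl => (o2b_step n ha (o2b_tst hu l)).trans ?_⟩
    rw [add_mul, Finset.sum_mul]
    refine add_le_add ((H₀ u hu l hl).trans (mul_le_mul_of_nonneg_left
      (hs_mono (Nat.zero_le _) zero_le_one u) hC₀)) (Finset.sum_le_sum fun κ _ => ?_)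
    rw [add_mul, o2b_comm hu]
    refine add_le_add ((HD κ u hu l hl).trans (mul_le_mul_of_nonneg_left
      (hs_mono (Nat.le_succ _) zero_le_one u) (hD κ))) ((H _ (hu.pd' κ) l hl).trans
        (mul_le_mul_of_nonneg_left ?_ hC))
    simpa using hs_pd_le n zero_le_one u κ

/-- First `hs n 1 (Op a w) ≤ C hs n 1 u` for `w = u, pd μ u, pd ν (pd μ u)` by induction on `n` over all symbols (`Op_tst`, `pd_comm`). -/
theorem Op_hs (n : ℕ) {a : E4 → E4 → ℝ} (ha : Sy a) : ∃ C : ℝ, 0 ≤ C ∧ ∀ u : E4 → ℝ, Tst 1 u →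
    hs (n + 1) 1 (Op a u) ≤ C * hs n 1 u ∧ ∀ μ, hs (n + 1) 1 (Op a (pd μ u)) ≤ C * hs n 1 u := by
  obtain ⟨C₀, hC₀, H₀⟩ := o2b_hs 0 ha
  obtain ⟨C, hC, H⟩ := o2b_hs n ha
  choose D hD HD using fun κ => o2b_hs n (ha.da' κ)
  have key : ∀ u : E4 → ℝ, Tst 1 u → ∀ l : List (Fin 4), l.length ≤ 1 →
      hs (n + 1) 1 (Op a (l.foldr pd u)) ≤ (C₀ + ∑ κ, (D κ + C)) * hs n 1 u := fun u hu l hl => by
    refine (o2b_step n ha (o2b_tst hu l)).trans ?_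
    rw [add_mul, Finset.sum_mul]
    refine add_le_add ((H₀ u hu l (by omega)).trans (mul_le_mul_of_nonneg_left
      (hs_mono (Nat.zero_le _) zero_le_one u) hC₀)) (Finset.sum_le_sum fun κ _ => ?_)
    rw [add_mul]
    exact add_le_add (HD κ u hu l (by omega)) (H u hu (κ :: l) (by simpa using hl))
  exact ⟨_, add_nonneg hC₀ (Finset.sum_nonneg fun κ _ => add_nonneg (hD κ) hC), fun u hu =>
    ⟨key u hu [] (by simp), fun μ => key u hu [μ] (by simp)⟩⟩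

end Crest.Agent.R240
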