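import Crest.Agent.R240.R1
import Crest.Agent.R240.A11

/-! Block P1: positive currents. -/

set_option autoImplicit false
set_option maxSynthPendingDepth 3
set_option linter.unusedSectionVars false
set_option linter.unusedVariables false
open MeasureTheory Filter Set Metric
open scoped ENNReal NNReal Topology ContDiff InnerProductSpace InnerProduct

noncomputable section
namespace Crest.Agent.R240

namespace Atl
variable {M F ι : Type*} [MetricSpace M] [CompactSpace M] [NormedAddCommGroup F] [InnerProductSpace ℝ F]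
  [FiniteDimensional ℝ F] [Fintype ι] (A : Atl M F ι)
  {G G' : Type*} [NormedAddCommGroup G] [NormedSpace ℝ G] [FiniteDimensional ℝ G]
  [NormedAddCommGroup G'] [NormedSpace ℝ G'] [FiniteDimensional ℝ G']
  [MeasurableSpace M] [BorelSpace M] [MeasurableSpace F] [BorelSpace F]

/-- The unit sphere bundle. -/
def SM : Set (M × F) := {q | A.Pr q.1 q.2 = q.2 ∧ ‖q.2‖ = 1}

theorem p1a_int {Y : Type*} [TopologicalSpace Y] [SecondCountableTopology Y] [MeasurableSpace Y]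
    [OpensMeasurableSpace Y] {μ : Measure Y} [IsFiniteMeasure μ] {K : Set Y} (hK : IsCompact K)
    (h : ∀ᵐ y ∂μ, y ∈ K) {f : Y → G} (hf : Continuous f) : Integrable f μ := by
  obtain ⟨C, hC⟩ := hK.exists_bound_of_continuousOn hf.continuousOn
  exact Integrable.of_bound hf.aestronglyMeasurable C (h.mono hC)

theorem p1a_cont {b : M → Bil F} (hb : Continuous b) : Continuous fun q : M × F => b q.1 q.2 (A.J q.2) :=
  ((hb.comp continuous_fst).clm_apply continuous_snd).clm_apply (A.J.continuous.comp continuous_snd)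


theorem isCompact_SM : IsCompact A.SM := by
  refine ((isCompact_univ (X := M)).prod (isCompact_sphere (0 : F) 1)).of_isClosed_subset ?_
    fun q hq => ⟨mem_univ _, mem_sphere_zero_iff_norm.2 hq.2⟩
  exact (isClosed_eq ((A.sm_basic.2.1.continuous.comp continuous_fst).clm_apply continuous_snd)
    continuous_snd).inter (isClosed_eq continuous_snd.norm continuous_const)
/-- `LinearMap.exists_extend` from the submodule of continuous maps. -/
theorem exists_P (lam : Measure (M × F)) [IsFiniteMeasure lam] (h : ∀ᵐ q ∂lam, q ∈ A.SM) : ∃ P, A.IsP lam P := by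
  let S : Submodule ℝ (M → Bil F) :=
    { carrier := {b | Continuous b}
      add_mem' := Continuous.add
      zero_mem' := continuous_zero
      smul_mem' := fun c _ hb => Continuous.const_smul hb c }
  let ℓ : S →ₗ[ℝ] ℝ :=
    { toFun := fun b => ∫ q, b.1 q.1 q.2 (A.J q.2) ∂lam
      map_add' := fun b c => integral_add (p1a_int A.isCompact_SM h (A.p1a_cont b.2))
        (p1a_int A.isCompact_SM h (A.p1a_cont c.2))
      map_smul' := fun c b => integral_smul c fun q : M × F => b.1 q.1 q.2 (A.J q.2) }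
  obtain ⟨P, hP⟩ := ℓ.exists_extend
  exact ⟨P, inferInstance, h, fun b hb => LinearMap.congr_fun hP ⟨b, hb⟩⟩
variable {A} {lam lam' : Measure (M × F)} {P P' : Cur M F}

theorem IsP.ae (h : A.IsP lam P) : ∀ᵐ q ∂lam, q ∈ A.SM := h.2.1

theorem p1a_ae2 (h : A.IsP lam P) (h' : A.IsP lam' P') : ∀ᵐ p ∂lam.prod lam', p ∈ A.SM ×ˢ A.SM := by
  have := h'.1
  exact (Measure.quasiMeasurePreserving_fst.ae h.ae).and (Measure.quasiMeasurePreserving_snd.ae h'.ae)


theorem IsP.integrable (h : A.IsP lam P) {f : M × F → G} (hf : Continuous f) : Integrable f lam := by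
  have := h.1
  exact p1a_int A.isCompact_SM h.ae hf
theorem IsP.integrable2 (h : A.IsP lam P) (h' : A.IsP lam' P') {f : (M × F) × (M × F) → G} (hf : Continuous f) :
    Integrable f (lam.prod lam') := by
  have := h.1
  have := h'.1
  exact p1a_int (A.isCompact_SM.prod A.isCompact_SM) (p1a_ae2 h h') hf
theorem IsP.integrable3 (h : A.IsP lam P) (h' : A.IsP lam' P') (ϖ : Measure M) [IsFiniteMeasure ϖ]
    {f : M × (M × F) × (M × F) → G} (hf : Continuous f) : Integrable f (ϖ.prod (lam.prod lam')) := by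
  have := h.1
  have := h'.1
  exact p1a_int (isCompact_univ.prod (A.isCompact_SM.prod A.isCompact_SM))
    ((Measure.quasiMeasurePreserving_snd.ae (p1a_ae2 h h')).mono fun p hp => ⟨mem_univ _, hp⟩) hf
/-- `continuous_of_dominated`, bound on the compact set `univ ×ˢ SM`. -/
theorem IsP.cont_int (h : A.IsP lam P) {f : M × (M × F) → G} (hf : Continuous f) :
    Continuous (fun x => ∫ q, f (x, q) ∂lam) ∧
      ∀ (ϖ : Measure M) [IsFiniteMeasure ϖ], Integrable f (ϖ.prod lam) := by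
  have := h.1
  have hK := (isCompact_univ (X := M)).prod A.isCompact_SM
  obtain ⟨C, hC⟩ := hK.exists_bound_of_continuousOn hf.continuousOn
  refine ⟨continuous_of_dominated (bound := fun _ => C)
    (fun x => (hf.comp (Continuous.prodMk_right x)).aestronglyMeasurable)
    (fun x => h.ae.mono fun q hq => hC _ ⟨mem_univ _, hq⟩) (integrable_const C)
    (Eventually.of_forall fun q => hf.comp (Continuous.prodMk_left q)), fun ϖ _ => ?_⟩
  exact p1a_int hK ((Measure.quasiMeasurePreserving_snd.ae h.ae).mono fun p hp => ⟨mem_univ _, hp⟩) hf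
theorem IsP.integral_fst (h : A.IsP lam P) {g : M → ℝ} (hg : Measurable g) :
    ∫ x, g x ∂lam.fst = ∫ q, g q.1 ∂lam := by
  exact integral_map measurable_fst.aemeasurable hg.aestronglyMeasurable
theorem IsP.norm_int_le (h : A.IsP lam P) {f : M × F → G} {x : M} {r B : ℝ} (hB : 0 ≤ B)
    (h1 : ∀ q ∈ A.SM, ‖f q‖ ≤ B) (h0 : ∀ q ∈ A.SM, r < dist x q.1 → f q = 0) :
    ‖∫ q, f q ∂lam‖ ≤ B * lam.fst.real (closedBall x r) := by
  have := h.1
  have hm : MeasurableSet (Prod.fst ⁻¹' closedBall x r : Set (M × F)) := measurable_fst measurableSet_closedBall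
  rw [← setIntegral_eq_integral_of_ae_compl_eq_zero (s := Prod.fst ⁻¹' closedBall x r)
    (h.ae.mono fun q hq hn => h0 q hq (by simpa [dist_comm] using hn)), measureReal_def,
    Measure.fst_apply measurableSet_closedBall]
  exact norm_setIntegral_le_of_norm_le_const_ae (measure_lt_top _ _) (ae_restrict_of_ae (h.ae.mono h1))
theorem IsP.abs_le (h : A.IsP lam P) {b : M → Bil F} (hb : Continuous b) {B : ℝ} (h1 : ∀ x, ‖b x‖ ≤ B) :
    |P b| ≤ B * lam.real univ := by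
  have := h.1
  rw [h.2.2 b hb, ← Real.norm_eq_abs]
  refine norm_integral_le_of_norm_le_const (h.ae.mono fun q hq => ?_)
  have := (b q.1).le_opNorm₂ q.2 (A.J q.2)
  rw [A.norm_J, hq.2, mul_one, mul_one] at this
  exact this.trans (h1 _)
/-- `sup_le_hs`. -/
theorem IsP.bdd (h : A.IsP lam P) : A.Bdd P := by
  obtain ⟨C, hC, hu⟩ := sup_le_hs (G := Bil F)
  refine ⟨4, fun k => ⟨C * lam.real univ, fun u hu' => ?_⟩⟩
  rw [mul_right_comm]
  refine h.abs_le (sm_ext k (by norm_num) hu').continuous fun x => ?_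
  by_cases hx : x ∈ A.U k
  · rw [A.ext_of_mem k _ hx]
    exact hu _ (hu'.mono (by norm_num)) _
  · rw [A.ext_of_notMem k _ hx, norm_zero]
    exact mul_nonneg hC (hs_nonneg _ zero_le_one _)
theorem IsP.restrict (h : A.IsP lam P) {Z : Set M} (hZ : MeasurableSet Z) :
    (∃ PZ, A.IsP (lam.restrict (Prod.fst ⁻¹' Z)) PZ) ∧ (lam.restrict (Prod.fst ⁻¹' Z)).fst = lam.fst.restrict Z := by
  have := h.1
  exact ⟨A.exists_P _ (ae_restrict_of_ae h.ae), (Measure.restrict_map measurable_fst hZ).symm⟩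
variable (A)

theorem thv_eq (δ : ℝ) (z x : M) (w : F) : A.thv δ z x w =
    ((δ ^ 4)⁻¹ * A.cf f0 δ z x) • pb (A.Ah z x) (A.stW (A.Bh z x w) (A.Bh z x (A.J w))) +
      ((δ ^ 2)⁻¹ * A.cf f1 δ z x) • ∑ α, pb (A.Kh z (eF α)) (A.stW (A.Bh z x w) (A.Bh z x (A.J w))) := by
  ext a b
  simp [thv, th, A.W_comm (A.Bh z x w)]

theorem p1b_cont {K : M → M → F →L[ℝ] F →L[ℝ] Bil F} (h0 : Continuous (Function.uncurry K)) (J : F →L[ℝ] F) :
    (Continuous fun p : M × (M × F) =>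
      (ContinuousLinearMap.compL ℝ F (Bil F) ℝ (evB p.2.2 (J p.2.2))).comp (K p.1 p.2.1)) ∧
      ∀ z a b, Continuous fun y => K z y a b := by
  have h3 : Continuous fun p : M × (M × F) => K p.1 p.2.1 :=
    h0.comp (continuous_fst.prodMk (continuous_fst.comp continuous_snd))
  refine ⟨continuous_clm_apply.2 fun a => continuous_clm_apply.2 fun b => ?_, fun z a b =>
    ((h0.comp (continuous_const.prodMk continuous_id)).clm_apply continuous_const).clm_apply continuous_const⟩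
  exact (((h3.clm_apply continuous_const).clm_apply continuous_const).clm_apply
    (continuous_snd.comp continuous_snd)).clm_apply (J.continuous.comp (continuous_snd.comp continuous_snd))

theorem R_P : ∀ᶠ δ in 𝓝[>] (0 : ℝ), Continuous (fun p : M × (M × F) => A.thv δ p.1 p.2.1 p.2.2) ∧
    ∀ (lam : Measure (M × F)) (P : Cur M F), A.IsP lam P → ∀ z, A.R P δ z = ∫ q, A.thv δ z q.1 q.2 ∂lam := by
  filter_upwards [A.sm2_ker] with δ hδ
  obtain ⟨h1, h0⟩ := p1b_cont hδ.1.continuous A.J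
  refine ⟨h1, fun lam P hP z => ?_⟩
  have h2 : Continuous fun q : M × F => A.thv δ z q.1 q.2 := (Continuous.uncurry_left z
    (f := fun z (q : M × F) => A.thv δ z q.1 q.2) h1 :)
  ext a b
  rw [A.R_apply, ContinuousLinearMap.integral_apply (hP.integrable h2),
    ContinuousLinearMap.integral_apply (hP.integrable (h2.clm_apply continuous_const))]
  exact hP.2.2 _ (h0 z a b)

/-- `thv_eq`, `near_inv`, `geo_bound` (for `(x, w) ∈ SM`: `‖Bh z x w - w‖ ≤ C dist z x`, also for `J w`), `cf_near`, `cf_bound`. -/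
theorem thv_bound : ∃ C : ℝ, 1 ≤ C ∧ ∀ᶠ δ in 𝓝[>] (0 : ℝ), ∀ z, ∀ q ∈ A.SM,
    ‖A.thv δ z q.1 q.2‖ ≤ C * (δ ^ 4)⁻¹ ∧ ‖A.pM z (A.thv δ z q.1 q.2)‖ ≤ C * (δ ^ 3)⁻¹ ∧
      (C * δ < dist z q.1 → A.thv δ z q.1 q.2 = 0) := by
  obtain ⟨C₁, h1, H1⟩ := A.ker_bound
  obtain ⟨C₂, h2, H2⟩ := A.near_ker
  obtain ⟨C₃, h3, H3⟩ := A.geo_bound
  obtain ⟨C₄, h4, H4⟩ := A.cf_bound
  obtain ⟨C₅, h5, H5⟩ := A.near_inv
  set K := C₄ * (C₅ * (C₃ * C₂)) + C₄ * (Module.finrank ℝ F * (C₃ ^ 2 * (3 * (C₃ * C₃)))) with hK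
  have hK0 : 0 ≤ K := by positivity
  have l : Tendsto (fun δ : ℝ => C₃ * (C₂ * δ)) (𝓝[>] 0) (𝓝 0) :=
    Tendsto.mono_left (Continuous.tendsto' (by fun_prop) _ _ (by simp)) nhdsWithin_le_nhds
  refine ⟨C₁ + C₂ + K, by linarith, ?_⟩
  filter_upwards [Ioc_mem_nhdsGT one_pos, l.eventually (ge_mem_nhds (show (0 : ℝ) < 1 / 4 by norm_num))]
    with δ hδ hδ' z q hq
  have hδ0 := hδ.1
  have hJ : ‖A.J q.2‖ = 1 := by rw [A.norm_J, hq.2]
  have a0 : C₂ * δ < dist z q.1 → A.thv δ z q.1 q.2 = 0 := fun h => by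
    rw [thv, (H2 δ hδ0).1 z q.1 h, ContinuousLinearMap.comp_zero]
  refine ⟨?_, ?_, fun h => a0 (lt_of_le_of_lt (by gcongr; linarith) h)⟩
  · refine le_trans (ContinuousLinearMap.opNorm_le_bound₂ _ (norm_nonneg (A.th δ z q.1)) fun a b => ?_)
      ((H1 δ hδ z q.1).1.trans (by gcongr; linarith))
    refine ((A.th δ z q.1 a b).le_opNorm₂ q.2 (A.J q.2)).trans ?_
    rw [hJ, hq.2, mul_one, mul_one]
    exact (A.th δ z q.1).le_opNorm₂ a b
  rcases lt_or_ge (C₂ * δ) (dist z q.1) with h | h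
  · rw [a0 h, map_zero, norm_zero]
    positivity
  obtain ⟨L, hL⟩ := A.fr_at z
  obtain ⟨L', hL'⟩ := A.fr_at q.1
  obtain ⟨-, b1, -, b2, -, b3, b4⟩ := H3 z q.1
  have b5 : C₃ * dist z q.1 ≤ C₃ * (C₂ * δ) := by gcongr
  have b6 : ∀ v, A.Pr q.1 v = v → ‖v‖ = 1 → ‖A.Bh z q.1 v - v‖ ≤ C₃ * (C₂ * δ) ∧ ‖A.Bh z q.1 v‖ ≤ C₃ := fun v hv h1 =>
    ⟨by simpa only [sub_apply, hv, h1, mul_one] using (A.Bh z q.1 - A.Pr q.1).le_of_opNorm_le (b2.trans b5) v,
      by simpa only [h1, mul_one] using (A.Bh z q.1).le_of_opNorm_le b3 v⟩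
  have b7 := b6 q.2 hq.1 hq.2
  have b8 := b6 (A.J q.2) (by rw [hL'.P_J, hq.1]) hJ
  have c1 := H5 _ L hL _ _ _ _ _ hδ' (b1.trans b5) hq.2 b7.1 b8.1
  have c2 : ‖A.pM z (∑ α, pb (A.Kh z (eF α)) (A.stW (A.Bh z q.1 q.2) (A.Bh z q.1 (A.J q.2))))‖ ≤
      Module.finrank ℝ F * (C₃ ^ 2 * (3 * (C₃ * C₃))) := by
    refine (hL.norm_pi_le _).2.1.trans ((norm_sum_le_of_le _ (n := fun _ => C₃ ^ 2 * (3 * (C₃ * C₃)))
      fun α _ => (norm_pb_le _ _).trans ?_).trans (by simp))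
    have := b4 (eF α)
    rw [b2a_norm_eF, mul_one] at this
    exact mul_le_mul (by gcongr) ((A.norm_stW_le _ _).trans (by gcongr; exacts [b7.2, b8.2])) (norm_nonneg _)
      (by positivity)
  obtain ⟨d1, d2, d3, d4⟩ := H4 δ z q.1
  have e1 : (δ ^ 2)⁻¹ ≤ (δ ^ 3)⁻¹ := inv_anti₀ (by positivity) (pow_le_pow_of_le_one hδ0.le hδ.2 (by norm_num))
  rw [thv_eq, map_add, map_smul, map_smul]
  refine (norm_add_le _ _).trans ?_
  rw [norm_smul, norm_smul, Real.norm_of_nonneg (by positivity), Real.norm_of_nonneg (by positivity)]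
  calc _ ≤ (δ ^ 4)⁻¹ * C₄ * (C₅ * (C₃ * (C₂ * δ))) +
        (δ ^ 3)⁻¹ * C₄ * (Module.finrank ℝ F * (C₃ ^ 2 * (3 * (C₃ * C₃)))) := by gcongr; exact c1
    _ = K * (δ ^ 3)⁻¹ := by rw [hK]; field_simp
    _ ≤ _ := by gcongr; linarith

theorem p1c_cont (t : M → M → F → G) (h : Continuous fun p : M × (M × F) => t p.1 p.2.1 p.2.2) (z : M) :
    Continuous fun q : M × F => t z q.1 q.2 := h.comp (Continuous.prodMk_right z)

theorem RP_bound : ∃ C : ℝ, 1 ≤ C ∧ ∀ᶠ δ in 𝓝[>] (0 : ℝ), ∀ (lam : Measure (M × F)) (P : Cur M F), A.IsP lam P → ∀ z,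
    ‖A.R P δ z‖ ≤ C * (δ ^ 4)⁻¹ * lam.fst.real (closedBall z (C * δ)) ∧
      ‖A.pM z (A.R P δ z)‖ ≤ C * (δ ^ 3)⁻¹ * lam.fst.real (closedBall z (C * δ)) := by
  obtain ⟨C, hC, h⟩ := A.thv_bound
  refine ⟨C, hC, ?_⟩
  filter_upwards [h, A.R_P, self_mem_nhdsWithin] with δ h hR hδ lam P hP z
  have hδ0 : 0 < δ := hδ
  have hc : Continuous fun q : M × F => A.thv δ z q.1 q.2 :=
    p1c_cont (fun z x w => A.thv δ z x w) hR.1 z
  have h4 : 0 ≤ C * (δ ^ 4)⁻¹ := by positivity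
  have h3 : 0 ≤ C * (δ ^ 3)⁻¹ := by positivity
  rw [hR.2 lam P hP z]
  refine ⟨hP.norm_int_le (f := fun q : M × F => A.thv δ z q.1 q.2) h4 (fun q hq => (h z q hq).1)
    (fun q hq => (h z q hq).2.2), ?_⟩
  rw [← (A.pM z).integral_comp_comm (hP.integrable hc)]
  refine hP.norm_int_le (f := fun q : M × F => A.pM z (A.thv δ z q.1 q.2)) h3 (fun q hq => (h z q hq).2.1)
    (fun q hq hd => ?_)
  rw [(h z q hq).2.2 hd, map_zero]

theorem p1c_L2 {c r K : ℝ} (hc : 0 ≤ c) (hr : 0 < r) (hK : 0 ≤ K)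
    (hν : ∀ x, A.vol (closedBall x r) ≤ ENNReal.ofReal (c * r ^ 4)) (ϖ : Measure M) [IsFiniteMeasure ϖ]
    {f : M → G} (hf : ∀ z, ‖f z‖ ≤ K * ϖ.real (closedBall z r)) :
    lpNorm f 2 A.vol ≤ K * (Real.sqrt c * r ^ 2 * Real.sqrt (mm ϖ ϖ (2 * r))) := by
  have := A.vol_finite
  obtain ⟨h1, h2⟩ := lpNorm_ball_le hc hr hν ϖ
  have h3 : lpNorm f 2 A.vol ≤ lpNorm (K • fun y => ϖ.real (closedBall y r)) 2 A.vol :=
    lpNorm_mono_real (h1.const_smul K) hf
  rw [lpNorm_const_smul, coe_nnnorm, Real.norm_of_nonneg hK] at h3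
  exact h3.trans (mul_le_mul_of_nonneg_left h2 hK)

/-- `RP_bound`, `lpNorm_ball_le`, `vol_ball_le`. -/
theorem RP_L2 : ∃ C : ℝ, 1 ≤ C ∧ ∀ᶠ δ in 𝓝[>] (0 : ℝ), ∀ (lam : Measure (M × F)) (P : Cur M F), A.IsP lam P →
    lpNorm (A.R P δ) 2 A.vol ≤ C * (δ ^ 2)⁻¹ * Real.sqrt (mm lam.fst lam.fst (C * δ)) ∧
      lpNorm (fun z => A.pM z (A.R P δ z)) 2 A.vol ≤ C * δ⁻¹ * Real.sqrt (mm lam.fst lam.fst (C * δ)) := by
  obtain ⟨C, hC, h⟩ := A.RP_bound
  obtain ⟨c, hc, hν⟩ := A.vol_ball_le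
  have hs := Real.sqrt_nonneg c
  have h3 : 0 ≤ C ^ 3 * Real.sqrt c := by positivity
  refine ⟨2 * C + C ^ 3 * Real.sqrt c, by linarith, ?_⟩
  filter_upwards [h, self_mem_nhdsWithin] with δ h hδ lam P hP
  have hδ0 : 0 < δ := hδ
  have := hP.1
  have hr : 0 < C * δ := by positivity
  have hm : Real.sqrt (mm lam.fst lam.fst (2 * (C * δ))) ≤
      Real.sqrt (mm lam.fst lam.fst ((2 * C + C ^ 3 * Real.sqrt c) * δ)) :=
    Real.sqrt_le_sqrt ((mm_mono _ _).1 (by nlinarith))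
  have hm0 := Real.sqrt_nonneg (mm lam.fst lam.fst (2 * (C * δ)))
  constructor
  · refine (A.p1c_L2 hc hr (by positivity) (fun x => hν x _ hr) lam.fst fun z => (h lam P hP z).1).trans ?_
    calc _ = (C ^ 3 * Real.sqrt c) * (δ ^ 2)⁻¹ * Real.sqrt (mm lam.fst lam.fst (2 * (C * δ))) := by
          field_simp
      _ ≤ _ := by gcongr; linarith
  · refine (A.p1c_L2 hc hr (by positivity) (fun x => hν x _ hr) lam.fst fun z => (h lam P hP z).2).trans ?_
    calc _ = (C ^ 3 * Real.sqrt c) * δ⁻¹ * Real.sqrt (mm lam.fst lam.fst (2 * (C * δ))) := by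
          field_simp
      _ ≤ _ := by gcongr; linarith

end Atl
end Crest.Agent.R240
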