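import Crest.Agent.R240.P1

/-! Block P2: almost positivity of the intersection of regularised positive currents. -/

set_option autoImplicit false
set_option maxSynthPendingDepth 3
set_option linter.unusedSectionVars false
set_option linter.unusedVariables false
open MeasureTheory Filter Set Metric
open scoped ENNReal NNReal Topology ContDiff InnerProductSpace InnerProduct

noncomputable section
namespace Crest.Agent.R240

namespace Atl
variable {M F ι : Type*} [MetricSpace M] [CompactSpace M] [NormedAddCommGroup F] [InnerProductSpace ℝ F]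
  [FiniteDimensional ℝ F] [Fintype ι] (A : Atl M F ι)
  {G G' : Type*} [NormedAddCommGroup G] [NormedSpace ℝ G] [FiniteDimensional ℝ G]
  [NormedAddCommGroup G'] [NormedSpace ℝ G'] [FiniteDimensional ℝ G']
  [MeasurableSpace M] [BorelSpace M] [MeasurableSpace F] [BorelSpace F]

theorem p2a_alg {a a' b b' x₁ x₂ x₃ x₄ g e N K t : ℝ} (ha : 0 ≤ a) (ha' : 0 ≤ a') (hb : 0 ≤ b) (hb' : 0 ≤ b')
    (hN : 0 ≤ N) (h1 : g - e ≤ x₁) (h2 : |x₂| ≤ N) (h3 : |x₃| ≤ N) (h4 : |x₄| ≤ N)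
    (k1 : a * a' * e ≤ K * t) (k2 : a * b' ≤ t) (k3 : b * a' ≤ t) (k4 : b * b' ≤ t) :
    a * a' * g - (K + 3 * N) * t ≤ a' * (a * x₁ + b * x₃) + b' * (a * x₂ + b * x₄) := by
  have e1 := mul_le_mul_of_nonneg_left h1 (mul_nonneg ha ha')
  have e2 := mul_le_mul_of_nonneg_left (abs_le.1 h2).1 (mul_nonneg ha hb')
  have e3 := mul_le_mul_of_nonneg_left (abs_le.1 h3).1 (mul_nonneg hb ha')
  have e4 := mul_le_mul_of_nonneg_left (abs_le.1 h4).1 (mul_nonneg hb hb')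
  have f2 := mul_le_mul_of_nonneg_right k2 hN
  have f3 := mul_le_mul_of_nonneg_right k3 hN
  have f4 := mul_le_mul_of_nonneg_right k4 hN
  nlinarith

/-- `thv_eq`, bilinearity, `near_pos` for the main terms, `pair_bound` for the others. -/
theorem thv_pos : ∃ C : ℝ, 1 ≤ C ∧ ∀ᶠ δ in 𝓝[>] (0 : ℝ), ∀ z, ∀ q ∈ A.SM, ∀ q' ∈ A.SM,
    (δ ^ 8)⁻¹ * (A.cf f0 δ z q.1 * A.cf f0 δ z q'.1) * (1 / 2 * A.gam q.2 q'.2) -
        C * (δ ^ 6)⁻¹ * ((closedBall q.1 (C * δ)).indicator 1 z * (closedBall q'.1 (C * δ)).indicator 1 z) ≤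
      A.wG (A.thv δ z q.1 q.2) (A.thv δ z q'.1 q'.2) := by
  obtain ⟨Cg, hCg, hg⟩ := A.geo_bound
  obtain ⟨Cn, hCn, hn⟩ := A.cf_near
  obtain ⟨Cb, hCb, hb⟩ := A.cf_bound
  obtain ⟨Cp, hCp, hp⟩ := A.toCx.near_pos
  obtain ⟨Cw, hCw, hw⟩ := A.toCx.pair_bound (G := ℝ)
  have hf := prof.2.2.2.2.1
  set n : ℝ := (Module.finrank ℝ F : ℝ) with hnn
  have hn0 : 0 ≤ n := Nat.cast_nonneg _
  set N : ℝ := (n + 1) * (Cg ^ 2 * (3 * (Cg * Cg))) with hN
  have hN0 : 0 ≤ N := by positivity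
  set C : ℝ := Cn + (Cp * (Cg * Cn) ^ 2 + 3 * (Cw * N * N)) * Cb ^ 2 with hC
  have hC0 : 0 ≤ (Cp * (Cg * Cn) ^ 2 + 3 * (Cw * N * N)) * Cb ^ 2 := by positivity
  refine ⟨C, by linarith, ?_⟩
  have hev : ∀ᶠ δ in 𝓝[>] (0 : ℝ), δ ∈ Ioo 0 (1 / (4 * (Cg * Cn))) := Ioo_mem_nhdsGT (by positivity)
  filter_upwards [hev] with δ hδ z q hq q' hq'
  have hδ0 : 0 < δ := hδ.1
  have hε : Cg * Cn * δ ≤ 1 / 4 := by
    have := hδ.2
    rw [lt_div_iff₀ (by positivity)] at this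
    linarith
  have hδ1 : δ ≤ 1 := by nlinarith [mul_le_mul hCg hCn zero_le_one (by linarith)]
  have hind : ∀ x : M, (0 : ℝ) ≤ (closedBall x (C * δ)).indicator 1 z := fun x =>
    indicator_nonneg (fun _ _ => zero_le_one) _
  have hneg : 0 ≤ C * (δ ^ 6)⁻¹ *
      ((closedBall q.1 (C * δ)).indicator 1 z * (closedBall q'.1 (C * δ)).indicator 1 z) :=
    mul_nonneg (mul_nonneg (by linarith) (by positivity)) (mul_nonneg (hind _) (hind _))
  have hfar : ∀ x, Cn * δ < dist z x → A.cf f0 δ z x = 0 ∧ A.cf f1 δ z x = 0 := fun x hx =>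
    ⟨hn f0 (fun t ht => (hf t ht).1) δ hδ0 z x hx, hn f1 (fun t ht => (hf t ht).2) δ hδ0 z x hx⟩
  rw [A.thv_eq, A.thv_eq, A.toCx.wG_add, A.toCx.wG_smul, A.toCx.wG_smul]
  simp only [add_apply, smul_apply, map_add, map_smul, smul_eq_mul]
  by_cases h1 : Cn * δ < dist z q.1
  · rw [(hfar _ h1).1, (hfar _ h1).2]
    linarith
  by_cases h2 : Cn * δ < dist z q'.1
  · rw [(hfar _ h2).1, (hfar _ h2).2]
    linarith
  push Not at h1 h2
  have hmem : ∀ x, dist z x ≤ Cn * δ → z ∈ closedBall x (C * δ) := fun x hx =>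
    hx.trans (mul_le_mul_of_nonneg_right (by linarith) hδ0.le)
  rw [indicator_of_mem (hmem _ h1), indicator_of_mem (hmem _ h2), Pi.one_apply, mul_one, mul_one]
  have hd : ∀ x, dist z x ≤ Cn * δ → Cg * dist z x ≤ Cg * Cn * δ := fun x hx => by
    rw [mul_assoc]; exact mul_le_mul_of_nonneg_left hx (by linarith)
  have hB : ∀ x v, dist z x ≤ Cn * δ → A.Pr x v = v → ‖v‖ = 1 → ‖A.Bh z x v - v‖ ≤ Cg * Cn * δ :=
    fun x v hx hv hv1 => by
      have e := (A.Bh z x - A.Pr x).le_opNorm v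
      rw [sub_apply, hv, hv1, mul_one] at e
      exact e.trans ((hg z x).2.2.2.1.trans (hd x hx))
  have hJ : ∀ q ∈ A.SM, A.Pr q.1 (A.J q.2) = A.J q.2 ∧ ‖A.J q.2‖ = 1 := fun q hq => by
    obtain ⟨L, hL⟩ := A.fr_at q.1
    exact ⟨by rw [hL.P_J, hq.1], by rw [A.toCx.norm_J, hq.2]⟩
  obtain ⟨L, hL⟩ := A.fr_at z
  have hmain := hp (A.Pr z) L hL (Cg * Cn * δ) (A.Ah z q.1) (A.Ah z q'.1) q.2 q'.2 _ _ _ _ hε
    (fun v => ⟨(A.geo_tang z q.1 v v).2.1, (A.geo_tang z q.1 v v).2.2.1⟩)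
    (fun v => ⟨(A.geo_tang z q'.1 v v).2.1, (A.geo_tang z q'.1 v v).2.2.1⟩)
    ((hg z q.1).2.1.trans (hd _ h1)) ((hg z q'.1).2.1.trans (hd _ h2)) hq.2 hq'.2
    (A.geo_tang z q.1 q.2 q.2).2.2.2.1 (A.geo_tang z q.1 (A.J q.2) q.2).2.2.2.1
    (A.geo_tang z q'.1 q'.2 q.2).2.2.2.1 (A.geo_tang z q'.1 (A.J q'.2) q.2).2.2.2.1
    (hB _ _ h1 hq.1 hq.2) (hB _ _ h1 (hJ q hq).1 (hJ q hq).2)
    (hB _ _ h2 hq'.1 hq'.2) (hB _ _ h2 (hJ q' hq').1 (hJ q' hq').2)
  have hpb : ∀ q ∈ A.SM, ∀ T : F →L[ℝ] F, ‖T‖ ≤ Cg →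
      ‖pb T (A.stW (A.Bh z q.1 q.2) (A.Bh z q.1 (A.J q.2)))‖ ≤ Cg ^ 2 * (3 * (Cg * Cg)) := fun q hq T hT => by
    have e1 : ∀ v : F, ‖v‖ = 1 → ‖A.Bh z q.1 v‖ ≤ Cg := fun v hv => by
      have e := (A.Bh z q.1).le_opNorm v
      rw [hv, mul_one] at e
      exact e.trans (hg z q.1).2.2.2.2.2.1
    refine (norm_pb_le _ _).trans ?_
    have e2 := A.toCx.norm_stW_le (A.Bh z q.1 q.2) (A.Bh z q.1 (A.J q.2))
    have e3 := e1 _ hq.2
    have e4 := e1 _ (hJ q hq).2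
    gcongr
    exact e2.trans (by gcongr)
  have hN1 : 0 ≤ Cg ^ 2 * (3 * (Cg * Cg)) := by positivity
  have hη : ∀ q ∈ A.SM, ‖pb (A.Ah z q.1) (A.stW (A.Bh z q.1 q.2) (A.Bh z q.1 (A.J q.2)))‖ ≤ N :=
    fun q hq => (hpb q hq _ (hg z q.1).2.2.2.2.1).trans (by nlinarith)
  have hζ : ∀ q ∈ A.SM,
      ‖∑ α, pb (A.Kh z (eF α)) (A.stW (A.Bh z q.1 q.2) (A.Bh z q.1 (A.J q.2)))‖ ≤ N := fun q hq => by
    refine (norm_sum_le _ _).trans ?_
    refine (Finset.sum_le_sum fun α _ => hpb q hq _ (by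
      simpa [b2a_norm_eF] using (hg z z).2.2.2.2.2.2 (eF α))).trans ?_
    rw [Finset.sum_const, Finset.card_univ, Fintype.card_fin, nsmul_eq_mul]
    nlinarith
  have hW : ∀ θ η : Bil F, ‖θ‖ ≤ N → ‖η‖ ≤ N → |A.wG θ η| ≤ Cw * N * N := fun θ η e1 e2 =>
    (hw θ η).2.trans (by gcongr)
  obtain ⟨a0, a1, b0, b1⟩ := hb δ z q.1
  obtain ⟨a0', a1', b0', b1'⟩ := hb δ z q'.1
  have hprod : ∀ x y : ℝ, 0 ≤ y → x ≤ Cb → y ≤ Cb → x * y ≤ Cb ^ 2 := fun x y hy e1 e2 => by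
    rw [sq]; exact mul_le_mul e1 e2 hy (by linarith)
  have h6 : 0 < (δ ^ 6)⁻¹ := by positivity
  have key := p2a_alg (K := Cp * (Cg * Cn) ^ 2) (t := Cb ^ 2 * (δ ^ 6)⁻¹)
    (mul_nonneg (by positivity : 0 ≤ (δ ^ 4)⁻¹) a0) (mul_nonneg (by positivity : 0 ≤ (δ ^ 4)⁻¹) a0')
    (mul_nonneg (by positivity : 0 ≤ (δ ^ 2)⁻¹) b0) (mul_nonneg (by positivity : 0 ≤ (δ ^ 2)⁻¹) b0')
    (by positivity) hmain (hW _ _ (hη q hq) (hζ q' hq')) (hW _ _ (hζ q hq) (hη q' hq'))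
    (hW _ _ (hζ q hq) (hζ q' hq'))
    (by
      calc _ = Cp * (Cg * Cn) ^ 2 * ((A.cf f0 δ z q.1 * A.cf f0 δ z q'.1) * (δ ^ 6)⁻¹) := by field_simp
        _ ≤ _ := by gcongr; exact hprod _ _ a0' a1 a1')
    (by
      calc _ = (A.cf f0 δ z q.1 * A.cf f1 δ z q'.1) * (δ ^ 6)⁻¹ := by field_simp
        _ ≤ _ := by gcongr; exact hprod _ _ b0' a1 b1')
    (by
      calc _ = (A.cf f1 δ z q.1 * A.cf f0 δ z q'.1) * (δ ^ 6)⁻¹ := by field_simp
        _ ≤ _ := by gcongr; exact hprod _ _ a0' b1 a1')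
    (by
      calc _ = (A.cf f1 δ z q.1 * A.cf f1 δ z q'.1) * (δ ^ 4)⁻¹ := by field_simp
        _ ≤ _ := mul_le_mul (hprod _ _ b0' b1 b1')
            (inv_anti₀ (by positivity) (pow_le_pow_of_le_one hδ0.le hδ1 (by norm_num)))
            (by positivity) (by positivity))
  refine le_trans ?_ key
  have e8 : (δ ^ 8)⁻¹ * (A.cf f0 δ z q.1 * A.cf f0 δ z q'.1) =
      (δ ^ 4)⁻¹ * A.cf f0 δ z q.1 * ((δ ^ 4)⁻¹ * A.cf f0 δ z q'.1) := by field_simp
  rw [e8, hC]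
  nlinarith [mul_nonneg (by linarith : 0 ≤ Cn) h6.le]

theorem p2b_cont {Z : Type*} [TopologicalSpace Z] (X : Cx F) {u v : Z → Bil F} (hu : Continuous u)
    (hv : Continuous v) : Continuous fun z => X.wG (u z) (v z) := by
  simp only [Cx.wG_apply, ipG_apply, Cx.trG, pb_apply]
  fun_prop

/-- Integrate `thv_pos` in `z`: `cf_lower` on `closedBall q.1 (c δ / 2)`, `vol_ball_ge`, `vol_ball_le`. -/
theorem thv_pos_int : ∃ c C : ℝ, 0 < c ∧ 1 ≤ C ∧ ∀ᶠ δ in 𝓝[>] (0 : ℝ), ∀ q ∈ A.SM, ∀ q' ∈ A.SM,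
    c * (δ ^ 4)⁻¹ * ((closedBall q.1 (c * δ)).indicator 1 q'.1 * A.gam q.2 q'.2) -
        C * (δ ^ 2)⁻¹ * (closedBall q.1 (C * δ)).indicator 1 q'.1 ≤
      ∫ z, A.wG (A.thv δ z q.1 q.2) (A.thv δ z q'.1 q'.2) ∂A.vol := by
  obtain ⟨C₁, hC₁, h1⟩ := A.thv_pos
  obtain ⟨c₁, hc₁, -, h2⟩ := A.cf_lower
  obtain ⟨c₂, r₀, hc₂, hr₀, h3⟩ := A.vol_ball_ge
  obtain ⟨c₃, hc₃, h4⟩ := A.vol_ball_le
  obtain ⟨C₅, -, h5⟩ := A.cf_bound
  have := A.vol_finite
  refine ⟨min (c₁ / 2) (c₁ ^ 6 * c₂ / 32), max (2 * C₁) (C₁ ^ 5 * c₃), by positivity,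
    le_max_of_le_left (by linarith), ?_⟩
  set c := min (c₁ / 2) (c₁ ^ 6 * c₂ / 32) with hc
  set C := max (2 * C₁) (C₁ ^ 5 * c₃) with hC
  have hsmall : ∀ᶠ δ in 𝓝[>] (0 : ℝ), δ ∈ Ioo 0 (2 * r₀ / c₁) := Ioo_mem_nhdsGT (by positivity)
  filter_upwards [h1, h2, A.R_P, hsmall] with δ h1 h2 hRP hδ q hq q' hq'
  have hδ0 := hδ.1
  have hC0 : 0 < C₁ := by linarith
  have hg := A.gam_nonneg q.2 q'.2
  set I := (closedBall q.1 (c * δ)).indicator (1 : M → ℝ) q'.1 with hI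
  set I' := (closedBall q.1 (C * δ)).indicator (1 : M → ℝ) q'.1 with hI'
  have hI0 : 0 ≤ I := indicator_nonneg (fun _ _ => zero_le_one) _
  have hI0' : 0 ≤ I' := indicator_nonneg (fun _ _ => zero_le_one) _
  have hcont : Continuous fun z => A.wG (A.thv δ z q.1 q.2) (A.thv δ z q'.1 q'.2) :=
    p2b_cont A.toCx (hRP.1.comp (f := fun z => (z, q)) (by fun_prop))
      (hRP.1.comp (f := fun z => (z, q')) (by fun_prop))
  have i1 : Integrable ((closedBall q.1 (c₁ * δ / 2)).indicator (1 : M → ℝ)) A.vol :=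
    (integrable_const 1).indicator measurableSet_closedBall
  have i2 : Integrable ((closedBall q.1 (C₁ * δ)).indicator (1 : M → ℝ)) A.vol :=
    (integrable_const 1).indicator measurableSet_closedBall
  set a := (δ ^ 8)⁻¹ * (c₁ ^ 2 * I) * (1 / 2 * A.gam q.2 q'.2) with ha
  set b := C₁ * (δ ^ 6)⁻¹ * I' with hb
  have ha0 : 0 ≤ a := by positivity
  have hb0 : 0 ≤ b := by positivity
  have hpt : ∀ z, a * (closedBall q.1 (c₁ * δ / 2)).indicator (1 : M → ℝ) z -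
      b * (closedBall q.1 (C₁ * δ)).indicator (1 : M → ℝ) z ≤
      A.wG (A.thv δ z q.1 q.2) (A.thv δ z q'.1 q'.2) := by
    intro z
    refine le_trans (sub_le_sub ?_ ?_) (h1 z q hq q' hq')
    · have e1 : c₁ ^ 2 * I * (closedBall q.1 (c₁ * δ / 2)).indicator (1 : M → ℝ) z ≤
          A.cf f0 δ z q.1 * A.cf f0 δ z q'.1 := by
        have e0 := mul_nonneg (h5 δ z q.1).1 (h5 δ z q'.1).1
        by_cases hz : z ∈ closedBall q.1 (c₁ * δ / 2)
        · by_cases hq1 : q'.1 ∈ closedBall q.1 (c * δ)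
          · rw [hI, indicator_of_mem hz, indicator_of_mem hq1]
            have d1 : dist z q.1 ≤ c₁ * δ / 2 := hz
            have d2 : dist q'.1 q.1 ≤ c * δ := hq1
            have d3 : c * δ ≤ c₁ / 2 * δ := mul_le_mul_of_nonneg_right (min_le_left _ _) hδ0.le
            have d4 := dist_triangle_right z q'.1 q.1
            have d5 : 0 < c₁ * δ := by positivity
            have := mul_le_mul (h2 z q.1 (by linarith)).1 (h2 z q'.1 (by linarith)).1 hc₁.le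
              (h5 δ z q.1).1
            simp only [Pi.one_apply, mul_one]
            rwa [sq]
          · rw [hI, indicator_of_notMem hq1, mul_zero, zero_mul]; exact e0
        · rw [indicator_of_notMem hz, mul_zero]; exact e0
      calc a * (closedBall q.1 (c₁ * δ / 2)).indicator (1 : M → ℝ) z
          = (δ ^ 8)⁻¹ * (c₁ ^ 2 * I * (closedBall q.1 (c₁ * δ / 2)).indicator (1 : M → ℝ) z) *
              (1 / 2 * A.gam q.2 q'.2) := by rw [ha]; ring
        _ ≤ _ := by gcongr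
    · rw [hb, mul_assoc (C₁ * (δ ^ 6)⁻¹)]
      refine mul_le_mul_of_nonneg_left ?_ (by positivity)
      by_cases hz : z ∈ closedBall q.1 (C₁ * δ)
      · rw [indicator_of_mem hz]
        simp only [Pi.one_apply, mul_one, one_mul]
        by_cases hz' : z ∈ closedBall q'.1 (C₁ * δ)
        · have d1 : dist z q.1 ≤ C₁ * δ := hz
          have d2 : dist z q'.1 ≤ C₁ * δ := hz'
          have d3 : 2 * C₁ * δ ≤ C * δ := mul_le_mul_of_nonneg_right (le_max_left _ _) hδ0.le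
          have d4 := dist_triangle_left q'.1 q.1 z
          have hq1 : q'.1 ∈ closedBall q.1 (C * δ) := by
            rw [mem_closedBall]; linarith
          rw [hI', indicator_of_mem hz', indicator_of_mem hq1]
          exact le_rfl
        · rw [indicator_of_notMem hz']; exact hI0'
      · rw [indicator_of_notMem hz, zero_mul, mul_zero]
  refine le_trans ?_ (integral_mono ((i1.const_mul a).sub (i2.const_mul b))
    (hcont.integrable_of_hasCompactSupport (HasCompactSupport.of_compactSpace _)) hpt)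
  simp only [Pi.sub_apply]
  rw [integral_sub (i1.const_mul a) (i2.const_mul b), integral_const_mul, integral_const_mul,
    integral_indicator_one measurableSet_closedBall, integral_indicator_one measurableSet_closedBall]
  have v1 := h3 q.1 (c₁ * δ / 2) ⟨by positivity, by
    have := hδ.2
    rw [lt_div_iff₀ hc₁] at this
    linarith⟩
  have v2 : A.vol.real (closedBall q.1 (C₁ * δ)) ≤ c₃ * (C₁ * δ) ^ 4 :=
    ENNReal.toReal_le_of_le_ofReal (by positivity) (h4 q.1 _ (by positivity))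
  refine sub_le_sub ?_ ?_
  · calc c * (δ ^ 4)⁻¹ * (I * A.gam q.2 q'.2)
        ≤ c₁ ^ 6 * c₂ / 32 * (δ ^ 4)⁻¹ * (I * A.gam q.2 q'.2) := by
          gcongr; exact min_le_right _ _
      _ = a * (c₂ * (c₁ * δ / 2) ^ 4) := by rw [ha]; field_simp; ring
      _ ≤ _ := mul_le_mul_of_nonneg_left v1 ha0
  · calc b * A.vol.real (closedBall q.1 (C₁ * δ)) ≤ b * (c₃ * (C₁ * δ) ^ 4) :=
          mul_le_mul_of_nonneg_left v2 hb0
      _ = C₁ ^ 5 * c₃ * (δ ^ 2)⁻¹ * I' := by rw [hb]; field_simp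
      _ ≤ _ := by gcongr; exact le_max_right _ _

theorem p2c_mm_fst (lam lam' : Measure (M × F)) [IsFiniteMeasure lam] [IsFiniteMeasure lam'] (r : ℝ) :
    mm lam.fst lam'.fst r = (lam.prod lam').real {p | dist p.1.1 p.2.1 ≤ r} := by
  rw [mm, Measure.fst, Measure.fst, Measure.map_prod_map _ _ measurable_fst measurable_fst,
    map_measureReal_apply (measurable_fst.prodMap measurable_fst)
      (measurableSet_le measurable_dist measurable_const)]
  rfl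

/-- the wedge pairing as a continuous bilinear map -/
def p2c_B : Bil F →L[ℝ] Bil F →L[ℝ] ℝ :=
  LinearMap.toContinuousLinearMap ⟨⟨fun θ => A.wG θ, A.wG_add⟩, A.wG_smul⟩

/-- `R_P`, Fubini (`IsP.integrable3`, `integral_prod_bilin`/`ContinuousLinearMap.integral_comp_comm`), `thv_pos_int`;
`mm lam.fst lam'.fst r = (lam.prod lam').real {p | dist p.1.1 p.2.1 ≤ r}` (`Measure.map_prod_map`). -/
theorem RP_pos : ∃ c C : ℝ, 0 < c ∧ 1 ≤ C ∧ ∀ᶠ δ in 𝓝[>] (0 : ℝ), ∀ (lam lam' : Measure (M × F)) (P P' : Cur M F),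
    A.IsP lam P → A.IsP lam' P' →
      c * (δ ^ 4)⁻¹ * A.angE lam lam' (c * δ) - C * (δ ^ 2)⁻¹ * mm lam.fst lam'.fst (C * δ) ≤
        ∫ z, A.wG (A.R P δ z) (A.R P' δ z) ∂A.vol := by
  obtain ⟨c, C, hc, hC, h⟩ := A.thv_pos_int
  refine ⟨c, C, hc, hC, ?_⟩
  filter_upwards [h, A.R_P] with δ h1 ⟨h2, h3⟩ lam lam' P P' hP hP'
  have := hP.1
  have := hP'.1
  have := A.vol_finite
  have c3 : Continuous fun p : M × (M × F) × (M × F) =>
      A.p2c_B (A.thv δ p.1 p.2.1.1 p.2.1.2) (A.thv δ p.1 p.2.2.1 p.2.2.2) :=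
    (A.p2c_B.continuous.comp (h2.comp (f := fun p : M × (M × F) × (M × F) => (p.1, p.2.1))
      (by fun_prop))).clm_apply (h2.comp (f := fun p : M × (M × F) × (M × F) => (p.1, p.2.2)) (by fun_prop))
  have i3 := hP.integrable3 hP' A.vol c3
  have e1 : ∀ z, A.wG (A.R P δ z) (A.R P' δ z) = ∫ p : (M × F) × (M × F),
      A.p2c_B (A.thv δ z p.1.1 p.1.2) (A.thv δ z p.2.1 p.2.2) ∂lam.prod lam' := fun z => by
    have cz : Continuous fun q : M × F => A.thv δ z q.1 q.2 :=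
      h2.comp (f := fun q : M × F => (z, q)) (by fun_prop)
    rw [integral_prod_bilin A.p2c_B (hP.integrable cz) (hP'.integrable cz), h3 lam P hP, h3 lam' P' hP']
    rfl
  simp only [e1]
  rw [integral_integral_swap i3]
  have ms : ∀ r : ℝ, MeasurableSet {p : (M × F) × (M × F) | dist p.1.1 p.2.1 ≤ r} := fun r =>
    measurableSet_le (by fun_prop) measurable_const
  have ig : Integrable (fun p : (M × F) × (M × F) => A.gam p.1.2 p.2.2) (lam.prod lam') :=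
    hP.integrable2 hP' (A.continuous_gam.comp (f := fun p : (M × F) × (M × F) => (p.1.2, p.2.2)) (by fun_prop))
  have j1 := (ig.indicator (ms (c * δ))).const_mul (c * (δ ^ 4)⁻¹)
  have j2 := ((integrable_const (μ := lam.prod lam') (1 : ℝ)).indicator (ms (C * δ))).const_mul (C * (δ ^ 2)⁻¹)
  rw [p2c_mm_fst, angE, ← integral_indicator (ms _), ← integral_indicator_one (ms _), ← integral_const_mul,
    ← integral_const_mul]
  refine (integral_sub j1 j2).symm.trans_le (integral_mono_ae (j1.sub j2) i3.integral_prod_right ?_)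
  filter_upwards [Measure.quasiMeasurePreserving_fst.ae hP.ae, Measure.quasiMeasurePreserving_snd.ae hP'.ae]
    with p a1 a2
  refine le_trans (le_of_eq ?_) (h1 _ a1 _ a2)
  simp only [indicator, mem_closedBall', mem_ofPred_eq, Pi.one_apply]
  split_ifs <;> simp

theorem mm_fst (lam lam' : Measure (M × F)) [IsFiniteMeasure lam] [IsFiniteMeasure lam'] (r : ℝ) :
    mm lam.fst lam'.fst r = (lam.prod lam').real {p | dist p.1.1 p.2.1 ≤ r} :=
  p2c_mm_fst lam lam' r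

theorem angE_props {lam lam' : Measure (M × F)} {P P' : Cur M F} (h : A.IsP lam P) (h' : A.IsP lam' P') :
    (∀ r, 0 ≤ A.angE lam lam' r) ∧ Monotone (A.angE lam lam') := by
  refine ⟨fun r => integral_nonneg fun p => A.gam_nonneg _ _, fun r r' hr => ?_⟩
  exact setIntegral_mono_set (h.integrable2 h' (A.continuous_gam.comp
    (f := fun p : (M × F) × (M × F) => (p.1.2, p.2.2)) (by fun_prop))).integrableOn
    (Eventually.of_forall fun p => A.gam_nonneg _ _) (Eventually.of_forall fun p hp => le_trans hp hr)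

end Atl
end Crest.Agent.R240
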