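import Crest.Agent.R240.C4
import Crest.Agent.R240.C5
import Crest.Agent.R240.A6

/-! Block R0: kernels supported near the diagonal; interchange of currents with derivatives and integrals. -/

set_option autoImplicit false
set_option maxSynthPendingDepth 3
set_option linter.unusedSectionVars false
set_option linter.unusedVariables false
open MeasureTheory Filter Set Metric
open scoped ENNReal NNReal Topology ContDiff InnerProductSpace InnerProduct

noncomputable section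
namespace Crest.Agent.R240

namespace Atl
variable {M F ι : Type*} [MetricSpace M] [CompactSpace M] [NormedAddCommGroup F] [InnerProductSpace ℝ F]
  [FiniteDimensional ℝ F] [Fintype ι] (A : Atl M F ι)
  {G G' : Type*} [NormedAddCommGroup G] [NormedSpace ℝ G] [FiniteDimensional ℝ G]
  [NormedAddCommGroup G'] [NormedSpace ℝ G'] [FiniteDimensional ℝ G']
  [MeasurableSpace M] [BorelSpace M] [MeasurableSpace F] [BorelSpace F]

/-- Radii so small that neighbourhoods of the diagonal are seen in single charts. -/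
def Small (r : ℝ) : Prop :=
  ∀ k (z : E4), ‖z‖ ≤ 5 / 2 → ∀ y, dist (A.ψ k z) y ≤ r → y ∈ A.U k ∧ ‖A.κ k y - z‖ ≤ 1 / 4

/-- `exists_r0`, `lip`. -/
theorem small_ev (C : ℝ) : ∀ᶠ δ in 𝓝[>] (0 : ℝ), A.Small (C * δ) := by
  obtain ⟨r₀, h0, hr⟩ := A.exists_r0
  obtain ⟨Cl, hCl, hl⟩ := A.lip
  have ht : Tendsto (fun δ : ℝ => C * δ) (𝓝[>] 0) (𝓝 0) := by
    have : Tendsto (fun δ : ℝ => C * δ) (𝓝 0) (𝓝 (C * 0)) := (continuous_const.mul continuous_id).tendsto 0
    rw [mul_zero] at this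
    exact this.mono_left nhdsWithin_le_nhds
  filter_upwards [ht.eventually (gt_mem_nhds h0),
    ht.eventually (gt_mem_nhds (show (0 : ℝ) < 1 / (4 * Cl) by positivity))] with δ h1 h2 k z hz y hy
  have hy' := hr k z (by linarith) y (hy.trans_lt h1)
  have hzV : z ∈ V := mem_V.2 (by linarith)
  refine ⟨hy', ?_⟩
  have h3 := (hl k y hy' _ (A.ψ_mem k z hzV)).1
  rw [A.κψ k z hzV, dist_comm] at h3
  rw [lt_div_iff₀ (by positivity)] at h2
  nlinarith [mul_le_mul_of_nonneg_left hy (show 0 ≤ Cl by linarith)]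

open Classical in
/-- Chart coordinate on the support of `φ k`. -/
def pk (k : ι) (x : M) : E4 := if A.φ k x ≠ 0 then A.κ k x else 0

theorem pk_spec (k : ι) : Measurable (A.pk k) ∧ (∀ x, ‖A.pk k x‖ ≤ 1) ∧
    ∀ x, A.φ k x ≠ 0 → A.pk k x = A.κ k x ∧ x ∈ A.U k ∧ A.ψ k (A.pk k x) = x := by
  classical
  refine ⟨?_, fun x => ?_, fun x hx => ?_⟩
  · have ho : IsOpen {x | A.φ k x ≠ 0} := isOpen_ne_fun (A.sm_basic.1 k).continuous continuous_const
    have h := ContinuousOn.measurable_piecewise (s := {x | A.φ k x ≠ 0}) (g := fun _ => (0 : E4))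
      ((A.κ_cont k).mono fun x hx => (A.φ_supp k x hx).1) continuousOn_const ho.measurableSet
    convert h using 1
    funext x
    simp only [pk, Set.piecewise, mem_ofPred_eq]
  · unfold pk
    split_ifs with h
    · exact (A.φ_supp k x h).2
    · simp
  · have h : A.pk k x = A.κ k x := if_pos hx
    exact ⟨h, (A.φ_supp k x hx).1, by rw [h, A.ψκ k x (A.φ_supp k x hx).1]⟩

variable {A}

theorem r0a_out {r : ℝ} (hr : A.Small r) {K : M → M → G} (hn : Near r K) (k : ι) {z : E4} (hz : ‖z‖ ≤ 5 / 2)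
    {y : M} (hy : y ∉ A.U k) : K (A.ψ k z) y = 0 :=
  hn _ _ (not_le.1 fun h => hy (hr k z hz y h).1)

theorem r0a_far {r : ℝ} (hr : A.Small r) {K : M → M → G} (hn : Near r K) (k : ι) {z y : E4} (hz : ‖z‖ < 3 / 2)
    (hy : 7 / 4 < ‖y‖) : A.ck k (fun _ => K) 0 (z, y) = 0 := by
  unfold ck
  split_ifs with h
  · refine hn _ _ (not_le.1 fun h' => ?_)
    have h1 := (hr k z (by linarith) _ h').2
    rw [A.κψ k y h] at h1
    linarith [norm_sub_norm_le y z]
  · rfl

/-- For `‖z‖ < 3/2` the function `ck (z, ·)` vanishes for `7/4 < ‖y‖`. -/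
theorem ker_chart {r : ℝ} (hr : A.Small r) {K : M → M → G} (hK : A.Sm2 K) (hn : Near r K) (k : ι) :
    Fam (ball 0 (3 / 2)) (A.ck k (fun _ => K) 0) ∧
      ∀ z : E4, ‖z‖ ≤ 5 / 2 → K (A.ψ k z) = A.ext k fun y => A.ck k (fun _ => K) 0 (z, y) := by
  refine ⟨⟨fun p hp => ContDiffAt.contDiffWithinAt ?_, fun z hz y hy =>
    r0a_far hr hn k (mem_ball_zero_iff.1 hz) (by linarith)⟩, fun z hz =>
      A.eq_ext k (fun y hy => r0a_out hr hn k hz hy) fun y hy => if_pos hy⟩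
  have hz : ‖p.1‖ < 3 / 2 := mem_ball_zero_iff.1 hp.1
  by_cases hy : p.2 ∈ V
  · have hm : V ×ˢ V ∈ 𝓝 p := (V_open.prod V_open).mem_nhds ⟨mem_V.2 (by linarith), hy⟩
    refine ((hK k k).contDiffAt hm).congr_of_eventuallyEq ?_
    filter_upwards [hm] with q hq
    exact if_pos hq.2
  · have hm : ball (0 : E4) (3 / 2) ×ˢ {y : E4 | 7 / 4 < ‖y‖} ∈ 𝓝 p :=
      (isOpen_ball.prod (isOpen_lt continuous_const continuous_norm)).mem_nhds
        ⟨hp.1, by have := not_lt.1 (mt mem_V.2 hy); simp only [mem_ofPred_eq]; linarith⟩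
    refine (contDiffAt_const (c := (0 : G))).congr_of_eventuallyEq ?_
    filter_upwards [hm] with q hq
    exact r0a_far hr hn k (mem_ball_zero_iff.1 hq.1) hq.2

/-- `HB.contDiffOn` for `S ∘ₗ ext k` and the family of `ker_chart`, `sm_of_local` with the chart `ch x`; for `y ∉ U k` the function
`z ↦ K (ψ z) y` vanishes near `κ x`. -/
theorem glob_der {r : ℝ} (hr : A.Small r) {K : M → M → Bil F} (hK : A.Sm2 K) (hn : Near r K) {S : Cur M F}
    (hS : A.Bdd S) : A.Sm (fun x => S (K x)) ∧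
      ∀ x a, A.dF (fun x => S (K x)) x a = S fun y => A.dF (fun x' => K x' y) x a := by
  obtain ⟨n, hS⟩ := hS
  have hmem : ∀ x, A.κ (A.ch x) x ∈ ball (0 : E4) (3 / 2) := fun x =>
    mem_ball_zero_iff.2 (by linarith [(A.ch_spec x).2.1])
  have hev : ∀ x, (fun x => S (K x)) ∘ A.ψ (A.ch x) =ᶠ[𝓝 (A.κ (A.ch x) x)] fun z =>
      (S ∘ₗ A.ext (G := Bil F) (A.ch x)) fun y => A.ck (A.ch x) (fun _ => K) 0 (z, y) := fun x => by
    filter_upwards [isOpen_ball.mem_nhds (hmem x)] with z hz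
    exact congrArg S ((ker_chart hr hK hn (A.ch x)).2 z (by linarith [mem_ball_zero_iff.1 hz]))
  refine ⟨sm_of_local fun x => ⟨A.ch x, (A.ch_spec x).1, ?_⟩, fun x a => ?_⟩
  · exact (((hS _).contDiffOn isOpen_ball (ker_chart hr hK hn (A.ch x)).1).1.contDiffAt
      (isOpen_ball.mem_nhds (hmem x))).congr_of_eventuallyEq (hev x)
  · have hF := (ker_chart hr hK hn (A.ch x)).1
    rw [dF, ContinuousLinearMap.comp_apply, (hev x).fderiv_eq,
      ((hS _).contDiffOn isOpen_ball hF).2 _ (hmem x), LinearMap.comp_apply]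
    congr 1
    symm
    refine A.eq_ext _ (fun y hy => ?_) fun y hy => ?_
    · have h1 : (fun x' => K x' y) ∘ A.ψ (A.ch x) =ᶠ[𝓝 (A.κ (A.ch x) x)] fun _ => 0 := by
        filter_upwards [isOpen_ball.mem_nhds (hmem x)] with z hz
        exact r0a_out hr hn _ (by linarith [mem_ball_zero_iff.1 hz]) hy
      rw [dF, h1.fderiv_eq]
      simp
    · have h1 : (fun x' => K x' (A.ψ (A.ch x) y)) ∘ A.ψ (A.ch x) =
          A.ck (A.ch x) (fun _ => K) 0 ∘ fun z => (z, y) := funext fun z => (if_pos hy).symm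
      have h2 := HasFDerivAt.comp (f := fun z : E4 => (z, y)) (A.κ (A.ch x) x)
        ((a6b_at isOpen_ball hF (hmem x) y).differentiableAt (by simp)).hasFDerivAt
        (hasFDerivAt_prodMk_left (𝕜 := ℝ) (A.κ (A.ch x) x) y)
      rw [dF, h1, h2.fderiv]
      rfl

theorem r0b_fam {r : ℝ} (hr : A.Small r) {K : M → M → G' →L[ℝ] G} (hK : A.Sm2 K) (hn : Near r K) (k : ι) :
    Fam (ball (0 : E4) (3 / 2) ×ˢ (univ : Set G'))
      fun q : (E4 × G') × E4 => A.ck k (fun _ => K) 0 (q.1.1, q.2) q.1.2 := by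
  obtain ⟨h1, h2⟩ := (ker_chart hr hK hn k).1
  refine ⟨ContDiffOn.clm_apply (h1.comp (f := fun q : (E4 × G') × E4 => (q.1.1, q.2)) (by fun_prop)
    fun q hq => ⟨hq.1.1, mem_univ _⟩) (by fun_prop), fun x hx y hy => ?_⟩
  simp only [h2 x.1 hx.1 y hy, zero_apply]

theorem r0b_par (ϖ : Measure M) {f : M → G'} (hf : Continuous f) (k : ι) :
    ∃ S : Set (E4 × G'), IsCompact S ∧ S ⊆ ball (0 : E4) (3 / 2) ×ˢ (univ : Set G') ∧
      AEStronglyMeasurable (fun ξ => (A.pk k ξ, A.φ k ξ ^ 2 • f ξ)) ϖ ∧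
      ∀ ξ, (A.pk k ξ, A.φ k ξ ^ 2 • f ξ) ∈ S := by
  have hc : Continuous fun ξ => A.φ k ξ ^ 2 • f ξ := (((A.sm_basic.1 k).continuous).pow 2).smul hf
  obtain ⟨h1, h2, -⟩ := A.pk_spec k
  refine ⟨closedBall 0 1 ×ˢ range fun ξ => A.φ k ξ ^ 2 • f ξ,
    (isCompact_closedBall _ _).prod (isCompact_range hc),
    prod_mono (closedBall_subset_ball (by norm_num)) (subset_univ _),
    h1.aestronglyMeasurable.prodMk hc.aestronglyMeasurable,
    fun ξ => ⟨mem_closedBall_zero_iff.2 (h2 ξ), mem_range_self ξ⟩⟩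

theorem r0b_sum {r : ℝ} (hr : A.Small r) {K : M → M → G' →L[ℝ] G} (hK : A.Sm2 K) (hn : Near r K)
    (f : M → G') (x : M) : (fun y => K x y (f x)) =
      ∑ k, A.ext k fun y => A.ck k (fun _ => K) 0 (A.pk k x, y) (A.φ k x ^ 2 • f x) := by
  funext y
  have e0 : f x = ∑ k, A.φ k x ^ 2 • f x := by rw [← Finset.sum_smul, A.φ_sum x, one_smul]
  rw [Finset.sum_apply]
  refine (congrArg (K x y) e0).trans ((map_sum _ _ _).trans (Finset.sum_congr rfl fun k _ => ?_))
  by_cases h0 : A.φ k x = 0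
  · by_cases hy : y ∈ A.U k
    · simp [A.ext_of_mem k _ hy, h0]
    · simp [A.ext_of_notMem k _ hy, h0]
  · obtain ⟨-, h2, h3⟩ := A.pk_spec k
    have e := (ker_chart hr hK hn k).2 (A.pk k x) ((h2 x).trans (by norm_num))
    rw [(h3 x h0).2.2] at e
    by_cases hy : y ∈ A.U k
    · rw [A.ext_of_mem k _ hy, congrFun e y, A.ext_of_mem k _ hy]
    · rw [A.ext_of_notMem k _ hy, congrFun e y, A.ext_of_notMem k _ hy, zero_apply]

/-- The part of a kernel operator coming from `φ k ^ 2 • f`, in the chart `k`: `Fam.integral` with parameter space `E4 × G'`,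
`O = ball 0 (3/2) ×ˢ univ`, compact set `closedBall 0 1 ×ˢ closedBall 0 B`, `p ξ = (pk k ξ, φ k ξ ^ 2 • f ξ)`. -/
theorem int_chart {r : ℝ} (hr : A.Small r) {K : M → M → G' →L[ℝ] G} (hK : A.Sm2 K) (hn : Near r K)
    (ϖ : Measure M) [IsFiniteMeasure ϖ] {f : M → G'} (hf : Continuous f) :
    (∀ k, Tst 2 fun y => ∫ ξ, A.ck k (fun _ => K) 0 (A.pk k ξ, y) (A.φ k ξ ^ 2 • f ξ) ∂ϖ) ∧
      (fun y => ∫ x, K x y (f x) ∂ϖ) =
        ∑ k, A.ext k fun y => ∫ ξ, A.ck k (fun _ => K) 0 (A.pk k ξ, y) (A.φ k ξ ^ 2 • f ξ) ∂ϖ := by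
  have hO : IsOpen (ball (0 : E4) (3 / 2) ×ˢ (univ : Set G')) := isOpen_ball.prod isOpen_univ
  refine ⟨fun k => ?_, funext fun y => ?_⟩
  · obtain ⟨S, h1, h2, h3, h4⟩ := r0b_par (A := A) ϖ hf k
    exact ((r0b_fam hr hK hn k).integral hO h1 h2 h3 (Eventually.of_forall h4)).1
  · have hi : ∀ k, Integrable (fun x => A.ext k
        (fun y => A.ck k (fun _ => K) 0 (A.pk k x, y) (A.φ k x ^ 2 • f x)) y) ϖ := fun k => by
      by_cases hy : y ∈ A.U k
      · obtain ⟨S, h1, h2, h3, h4⟩ := r0b_par (A := A) ϖ hf k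
        simp only [A.ext_of_mem k _ hy]
        exact a6c_int hO h1 h2 (r0b_fam hr hK hn k).1.continuousOn h3 (Eventually.of_forall h4) _
      · simp only [A.ext_of_notMem k _ hy]
        exact integrable_zero _ _ _
    have e := fun x => congrFun (r0b_sum hr hK hn f x) y
    simp only [Finset.sum_apply] at e
    simp only [e, Finset.sum_apply]
    rw [integral_finsetSum _ fun k _ => hi k]
    refine Finset.sum_congr rfl fun k _ => ?_
    by_cases hy : y ∈ A.U k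
    · simp only [A.ext_of_mem k _ hy]
    · simp only [A.ext_of_notMem k _ hy, integral_zero]

/-- `int_chart`, `sm_ext`, `HB.integral`. -/
theorem glob_int {r : ℝ} (hr : A.Small r) {K : M → M → G' →L[ℝ] Bil F} (hK : A.Sm2 K) (hn : Near r K)
    (ϖ : Measure M) [IsFiniteMeasure ϖ] {f : M → G'} (hf : Continuous f) :
    A.Sm (fun y => ∫ x, K x y (f x) ∂ϖ) ∧ ∀ S : Cur M F, A.Bdd S →
      Integrable (fun x => S fun y => K x y (f x)) ϖ ∧
        S (fun y => ∫ x, K x y (f x) ∂ϖ) = ∫ x, S (fun y => K x y (f x)) ∂ϖ := by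
  have hO : IsOpen (ball (0 : E4) (3 / 2) ×ˢ (univ : Set G')) := isOpen_ball.prod isOpen_univ
  obtain ⟨h1, h2⟩ := int_chart hr hK hn ϖ hf
  rw [h2]
  refine ⟨Sm.sum _ fun k _ => sm_ext k (by norm_num) (h1 k), fun S ⟨n, hS⟩ => ?_⟩
  have h3 := fun k => (r0b_par (A := A) ϖ hf k).elim fun T hT =>
    (hS k).integral hO hT.1 hT.2.1 (r0b_fam hr hK hn k) hT.2.2.1 (Eventually.of_forall hT.2.2.2)
  simp only [LinearMap.comp_apply] at h3
  simp only [r0b_sum hr hK hn f, map_sum]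
  refine ⟨integrable_finsetSum _ fun k _ => (h3 k).1, ?_⟩
  rw [integral_finsetSum _ fun k _ => (h3 k).1]
  exact Finset.sum_congr rfl fun k _ => (h3 k).2

theorem IsT.bdd {n : ℕ} {T : Cur M F} (h : A.IsT n T) : A.Bdd T := ⟨n, h.2⟩

end Atl
end Crest.Agent.R240
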