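import Crest.Agent.R240.R0
import Crest.Agent.R240.M2

/-! Block R1: the regularisation `R` and its transpose `Rt`. -/

set_option autoImplicit false
set_option maxSynthPendingDepth 3
set_option linter.unusedSectionVars false
set_option linter.unusedVariables false
open MeasureTheory Filter Set Metric
open scoped ENNReal NNReal Topology ContDiff InnerProductSpace InnerProduct

noncomputable section
namespace Crest.Agent.R240

namespace Atl
variable {M F ι : Type*} [MetricSpace M] [CompactSpace M] [NormedAddCommGroup F] [InnerProductSpace ℝ F]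
  [FiniteDimensional ℝ F] [Fintype ι] (A : Atl M F ι)
  {G G' : Type*} [NormedAddCommGroup G] [NormedSpace ℝ G] [FiniteDimensional ℝ G]
  [NormedAddCommGroup G'] [NormedSpace ℝ G'] [FiniteDimensional ℝ G']
  [MeasurableSpace M] [BorelSpace M] [MeasurableSpace F] [BorelSpace F]

/-- `sum_eF`, linearity of `S`. -/
theorem R_apply (S : Cur M F) (δ : ℝ) (x : M) (a b : F) : A.R S δ x a b = S fun y => A.th δ x y a b := by
  have h : (fun y => A.th δ x y a b) =
      ∑ i, ∑ j, (⟪eF i, a⟫_ℝ * ⟪eF j, b⟫_ℝ) • fun y => A.th δ x y (eF i) (eF j) := by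
    funext y
    conv_lhs => rw [← sum_eF a, ← sum_eF b]
    simp only [map_sum, map_smul, Finset.sum_apply, Pi.smul_apply, ContinuousLinearMap.sum_apply,
      ContinuousLinearMap.smul_apply, smul_smul]
    rw [Finset.sum_comm]
    simp only [Finset.smul_sum, smul_smul, mul_comm]
  rw [h]
  simp [R, mul_comm]

theorem R_add (S S' : Cur M F) (δ : ℝ) (x : M) : A.R (S + S') δ x = A.R S δ x + A.R S' δ x := by
  ext a b
  simp [R_apply]

theorem ipG_R (S : Cur M F) (δ : ℝ) (x : M) (η : Bil F) : ipG (A.R S δ x) η = S fun y => ipG (A.th δ x y) η := by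
  have h : (fun y => ipG (A.th δ x y) η) =
      (1 / 2 : ℝ) • ∑ i, ∑ j, η (eF i) (eF j) • fun y => A.th δ x y (eF i) (eF j) := by
    funext y
    simp only [ipG_apply, Finset.sum_apply, Pi.smul_apply]
  rw [h]
  simp only [ipG_apply, R_apply, map_smul, map_sum]

theorem wG_R (S : Cur M F) (δ : ℝ) (x : M) (η : Bil F) : A.wG (A.R S δ x) η = S fun y => A.wG (A.th δ x y) η := by
  have h : (fun y => A.wG (A.th δ x y) η) =
      A.trG η • ((1 / 2 : ℝ) • ∑ i, fun y => A.th δ x y (eF i) (A.J (eF i))) -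
        fun y => ipG (A.th δ x y) (pb A.J η) := by
    funext y
    simp only [Cx.wG_apply, Cx.trG, Finset.sum_apply, Pi.smul_apply, Pi.sub_apply]
  rw [h, map_sub, ← ipG_R]
  simp only [Cx.wG_apply, Cx.trG, R_apply, map_smul, map_sum]

/-- Evaluation commutes with the pairing. -/
theorem wG_eval (θ : F →L[ℝ] F →L[ℝ] Bil F) (η : Bil F) (c d : F) :
    A.wG θ η c d = A.wG ((ContinuousLinearMap.compL ℝ F (Bil F) ℝ (evB c d)).comp θ) η := by
  simp [Cx.wG_apply, Cx.trG, ipG_apply]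

/-- `glob_der`, `sm_of_apply`, `th_alg`. -/
theorem form_R : ∀ᶠ δ in 𝓝[>] (0 : ℝ), ∀ S : Cur M F, A.Bdd S → A.Form (A.R S δ) := by
  obtain ⟨C, -, hC⟩ := A.near_ker
  filter_upwards [A.small_ev C, A.sm2_ker, self_mem_nhdsWithin] with δ h1 h2 h3 S hS
  refine form_of (sm_of_apply fun a => sm_of_apply fun b => ?_) (fun x a b => ?_) fun x a b => ?_
  · simp only [R_apply]
    exact (glob_der h1 (K := fun x y => A.th δ x y a b) (h2.1.comp (Φ := fun θ => θ a b) (by fun_prop))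
      (fun x y h => by simp [(hC δ h3).1 x y h]) hS).1
  · rw [R_apply, R_apply, ← map_neg]
    congr 1
    funext y
    exact (A.th_alg δ x y a b).2.1
  · rw [R_apply, R_apply]
    congr 1
    funext y
    exact (A.th_alg δ x y a b).2.2

open Classical in
/-- Cut-off of a kernel given on `V ×ˢ V`. -/
def r1b_cut (Φ : E4 × E4 → G) (p : E4 × E4) : G := if p.2 ∈ V then Φ p else 0

theorem r1b_cut_ev (Φ : E4 × E4 → G) {p : E4 × E4} (hp : p.2 ∈ V) : r1b_cut Φ =ᶠ[𝓝 p] Φ := by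
  filter_upwards [(V_open.preimage continuous_snd).mem_nhds hp] with q hq
  exact if_pos hq

theorem r1b_cut_zero {Φ : E4 × E4 → G} (h0 : ∀ p ∈ V ×ˢ V, ‖p.1‖ < 3 / 2 → 7 / 4 < ‖p.2‖ → Φ p = 0)
    {p : E4 × E4} (h1 : ‖p.1‖ < 3 / 2) (h2 : 7 / 4 < ‖p.2‖) : r1b_cut Φ p = 0 := by
  unfold r1b_cut
  split_ifs with h
  · exact h0 p ⟨mem_V.2 (by linarith), h⟩ h1 h2
  · rfl

theorem r1b_cut_fam {Φ : E4 × E4 → G} (h : ContDiffOn ℝ ∞ Φ (V ×ˢ V))
    (h0 : ∀ p ∈ V ×ˢ V, ‖p.1‖ < 3 / 2 → 7 / 4 < ‖p.2‖ → Φ p = 0) : Fam (ball 0 (3 / 2)) (r1b_cut Φ) := by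
  refine ⟨fun p hp => ContDiffAt.contDiffWithinAt ?_, fun z hz y hy =>
    r1b_cut_zero h0 (mem_ball_zero_iff.1 hz) (by linarith)⟩
  have hz : ‖p.1‖ < 3 / 2 := mem_ball_zero_iff.1 hp.1
  by_cases hy : p.2 ∈ V
  · exact (h.contDiffAt ((V_open.prod V_open).mem_nhds ⟨mem_V.2 (by linarith), hy⟩)).congr_of_eventuallyEq
      (r1b_cut_ev Φ hy)
  · have hm : ball (0 : E4) (3 / 2) ×ˢ {y : E4 | 7 / 4 < ‖y‖} ∈ 𝓝 p :=
      (isOpen_ball.prod (isOpen_lt continuous_const continuous_norm)).mem_nhds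
        ⟨hp.1, by have := not_lt.1 (mt mem_V.2 hy); simp only [mem_ofPred_eq]; linarith⟩
    refine (contDiffAt_const (c := (0 : G))).congr_of_eventuallyEq ?_
    filter_upwards [hm] with q hq
    exact r1b_cut_zero h0 (mem_ball_zero_iff.1 hq.1) hq.2

/-- The kernel of `R` read in a chart. -/
def r1b_ker (k : ι) (δ : ℝ) (a b : E4) (p : E4 × E4) : Bil E4 :=
  pb (A.I k p.2) (A.th δ (A.ψ k p.1) (A.ψ k p.2) (A.I k p.1 a) (A.I k p.1 b))

theorem r1b_ker_sm {δ : ℝ} (h : A.Sm2 (A.th δ)) (k : ι) (a b : E4) :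
    ContDiffOn ℝ ∞ (A.r1b_ker k δ a b) (V ×ˢ V) := by
  have h1 : ContDiffOn ℝ ∞ (fun p : E4 × E4 => A.I k p.1) (V ×ˢ V) :=
    (A.I_sm k).1.comp contDiffOn_fst fun p hp => hp.1
  have h2 : ContDiffOn ℝ ∞ (fun p : E4 × E4 => A.I k p.2) (V ×ˢ V) :=
    (A.I_sm k).1.comp contDiffOn_snd fun p hp => hp.2
  exact (contDiff_pb.comp_contDiffOn h2).clm_apply
    (((h k k).clm_apply (h1.clm_apply contDiffOn_const)).clm_apply (h1.clm_apply contDiffOn_const))

theorem r1b_app2 {β : E4 × E4 → Bil E4} {p : E4 × E4} (h : DifferentiableAt ℝ β p) (Y : E4 × E4) (c e : E4) :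
    fderiv ℝ β p Y c e = fderiv ℝ (fun q => β q c e) p Y := by
  have := ((h.hasFDerivAt.clm_apply (hasFDerivAt_const c p)).clm_apply (hasFDerivAt_const e p)).fderiv
  rw [this]
  simp

/-- `up k` as a linear map. -/
def r1b_up (k : ι) : (E4 → Bil E4) →ₗ[ℝ] (E4 → Bil F) where
  toFun := A.up k
  map_add' u v := funext fun z => map_add _ _ _
  map_smul' c u := funext fun z => (pb (A.Ip k z)).map_smul c (u z)

/-- `closed_of_local` with `ch x`, `closed_of_kernel` with `T η = S (ext k (up k η))` (`HB.comp_mul`), `O = ball 0 (3/2)`,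
`Ψ a b p = if p.2 ∈ V then pb (I k p.2) (th δ (ψ p.1) (ψ p.2) (I p.1 a) (I p.1 b)) else 0` (so `Ψ a b p c d = thc k δ a b c d p` on `V ×ˢ V`), and
`Γ` from `mq1`, cut off by `if p.2 ∈ V`. -/
theorem closed_R : ∀ᶠ δ in 𝓝[>] (0 : ℝ), ∀ S : Cur M F, A.Bdd S → A.Cl S → A.Closed (A.R S δ) := by
  obtain ⟨C, hC, hn⟩ := A.near_ker
  obtain ⟨C₀, hC₀, hm⟩ := A.mq1
  have ht : Tendsto (fun δ : ℝ => C₀ * δ) (𝓝[>] 0) (𝓝 0) := by
    have : Tendsto (fun δ : ℝ => C₀ * δ) (𝓝 0) (𝓝 (C₀ * 0)) := (continuous_const.mul continuous_id).tendsto 0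
    rw [mul_zero] at this
    exact this.mono_left nhdsWithin_le_nhds
  filter_upwards [A.form_R, hm, A.sm2_ker, A.small_ev C, self_mem_nhdsWithin,
    ht.eventually (gt_mem_nhds (show (0 : ℝ) < 1 / 4 by norm_num))] with δ hf hm hs hr hδ h4 S hS hc
  have hn := (hn δ hδ).1
  obtain ⟨n, hS'⟩ := id hS
  refine closed_of_local (hf S hS) fun x => ⟨A.ch x, (A.ch_spec x).1, ?_⟩
  have hx : A.κ (A.ch x) x ∈ ball (0 : E4) (3 / 2) := mem_ball_zero_iff.2 (by linarith [(A.ch_spec x).2.1])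
  generalize A.κ (A.ch x) x = z at hx
  generalize A.ch x = k
  have hT : HB n ((S ∘ₗ A.ext (G := Bil F) k) ∘ₗ A.r1b_up k) :=
    (hS' k).comp_mul (a := fun z => pb (A.Ip k z)) (contDiff_pb.comp_contDiffOn (A.I_sm k).2.1) fun u _ => rfl
  have h0 : ∀ a b, ∀ p ∈ V ×ˢ V, ‖p.1‖ < 3 / 2 → 7 / 4 < ‖p.2‖ → A.r1b_ker k δ a b p = 0 := by
    intro a b p hp h1 h2
    have := r0a_far hr hn k h1 h2
    rw [ck, if_pos hp.2] at this
    simp only [r1b_ker, this, zero_apply, map_zero]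
  have hΨ := fun a b => r1b_cut_fam (A.r1b_ker_sm hs.1 k a b) (h0 a b)
  refine (closed_of_kernel hT (fun γ hγ => hc k γ hγ) isOpen_ball hΨ (fun x hx a b => ?_)
    fun a b c => ?_).2 z hx
  · have hx' : ‖x‖ < 3 / 2 := mem_ball_zero_iff.1 hx
    rw [loc, pb_apply, A.R_apply]
    refine congrArg S (A.eq_ext k (fun y hy => ?_) fun y hy => ?_)
    · rw [r0a_out hr hn k (by linarith) hy]
      rfl
    · obtain ⟨L, hL⟩ := A.fr_at (A.ψ k y)
      ext u v
      change pb (A.Ip k y) (r1b_cut (A.r1b_ker k δ a b) (x, y)) u v = _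
      rw [r1b_cut, if_pos hy, r1b_ker, pb_apply, pb_apply, A.I_Ip k hy, A.I_Ip k hy]
      exact ((hL.piT_eq_iff _).1 (A.th_alg δ _ _ _ _).1).2 u v
  · obtain ⟨Γ, g1, g2, g3⟩ := hm k a b c
    have hΓ : Fam (ball 0 (3 / 2)) (r1b_cut Γ) := r1b_cut_fam g1 fun p hp h1 h2 => g2 p hp (by
      have := norm_sub_norm_le p.2 p.1
      rw [norm_sub_rev] at this
      linarith)
    refine ⟨_, hΓ, fun x hx y => ?_⟩
    have hd : fderiv ℝ (fun y' => r1b_cut Γ (x, y')) y =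
        (fderiv ℝ (r1b_cut Γ) (x, y)).comp (ContinuousLinearMap.inr ℝ E4 E4) :=
      (HasFDerivAt.comp (f := fun y' : E4 => (x, y')) y
        ((a6b_at isOpen_ball hΓ hx y).differentiableAt (by simp)).hasFDerivAt
        (hasFDerivAt_prodMk_right (𝕜 := ℝ) x y)).fderiv
    ext d e
    rw [d1_apply, hd]
    by_cases hy : y ∈ V
    · have hp : (x, y) ∈ V ×ˢ V := ⟨mem_V.2 (by linarith [mem_ball_zero_iff.1 hx]), hy⟩
      have hk : ∀ a b (Y : E4 × E4), fderiv ℝ (r1b_cut (A.r1b_ker k δ a b)) (x, y) Y d e =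
          fderiv ℝ (A.thc k δ a b d e) (x, y) Y := fun a b Y => by
        rw [(r1b_cut_ev _ (p := (x, y)) hy).fderiv_eq, r1b_app2 (((A.r1b_ker_sm hs.1 k a b).contDiffAt
          ((V_open.prod V_open).mem_nhds hp)).differentiableAt (by simp))]
        rfl
      simp only [add_apply, hk, ContinuousLinearMap.comp_apply, ContinuousLinearMap.inr_apply,
        (r1b_cut_ev Γ (p := (x, y)) hy).fderiv_eq]
      exact g3 _ hp d e
    · have hy' : 2 < ‖y‖ := by have := not_lt.1 (mt mem_V.2 hy); linarith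
      simp [a6b_zero isOpen_ball hΓ hx hy', a6b_zero isOpen_ball (hΨ _ _) hx hy']

/-- `glob_int` with `K x y = wG (th δ x y)`; `pT y` commutes with the integral. -/
theorem form_Rt : ∀ᶠ δ in 𝓝[>] (0 : ℝ), ∀ σ : M → Bil F, Continuous σ → A.Form (A.Rt δ σ) ∧
    ∀ S : Cur M F, A.Bdd S → S (A.Rt δ σ) = ∫ x, A.wG (A.R S δ x) (σ x) ∂A.vol := by
  obtain ⟨C, -, hC⟩ := A.near_ker
  filter_upwards [A.small_ev C, A.sm2_ker, self_mem_nhdsWithin] with δ h1 h2 h3 σ hσ
  have := A.vol_finite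
  have hK : A.Sm2 fun x y => A.wG (A.th δ x y) := h2.1.comp A.contDiff_pair.2
  obtain ⟨h4, h5⟩ := glob_int h1 hK (fun x y h => by
    have := A.wG_smul 0 (A.th δ x y)
    rwa [zero_smul, zero_smul, ← (hC δ h3).1 x y h] at this) A.vol hσ
  refine ⟨⟨h4, fun y => ?_⟩, fun S hS => ?_⟩
  · rw [Rt, ← ContinuousLinearMap.integral_comp_comm _
      (((hK.left y).continuous.clm_apply hσ).integrable_of_hasCompactSupport (HasCompactSupport.of_compactSpace _))]
    congr 1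
    funext x
    simp only [Cx.wG_apply, Cx.trG, ipG_apply, map_sub, map_smul, map_sum, (A.th_alg δ x y _ _).1]
  · simp only [wG_R]
    exact (h5 S hS).2

/-- `wedge4` as a continuous bilinear map (second argument first). -/
def r1cW : Bil E4 →L[ℝ] Bil E4 →L[ℝ] ℝ :=
  (evB (ee 2) (ee 3)).smulRight (evB (ee 0) (ee 1)) - (evB (ee 1) (ee 3)).smulRight (evB (ee 0) (ee 2)) +
    (evB (ee 1) (ee 2)).smulRight (evB (ee 0) (ee 3)) + (evB (ee 0) (ee 3)).smulRight (evB (ee 1) (ee 2)) -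
    (evB (ee 0) (ee 2)).smulRight (evB (ee 1) (ee 3)) + (evB (ee 0) (ee 1)).smulRight (evB (ee 2) (ee 3))

theorem r1cW_apply (β' η : Bil E4) : r1cW β' η = wedge4 η β' := by
  simp [r1cW, wedge4, mul_comm]

/-- The order zero distribution defined by a closed form (`LinearMap.exists_extend` from the test functions, `stokes`). -/
theorem exists_wedge_dist {σ : M → Bil F} (hσ : A.Form σ) (hc : A.Closed σ) (k : ι) :
    ∃ T : (E4 → Bil E4) →ₗ[ℝ] ℝ, HB 0 T ∧ (∀ γ, Tst 2 γ → T (d1 γ) = 0) ∧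
      ∀ η, Tst 2 η → T η = ∫ z, wedge4 (η z) (A.loc k σ z) := by
  have hβ : ContDiffOn ℝ ∞ (A.loc k σ) V := hσ.1.loc k
  have ha : ContDiffOn ℝ ∞ (fun z => r1cW (A.loc k σ z)) V := r1cW.contDiff.comp_contDiffOn hβ
  have ht : ∀ η : E4 → Bil E4, Tst 2 η → Tst 2 fun z => r1cW (A.loc k σ z) (η z) := fun η hη =>
    Tst.mul (by norm_num) ha hη
  let T₀ : a6aD (Bil E4) 2 →ₗ[ℝ] ℝ :=
    { toFun := fun η => ∫ z, r1cW (A.loc k σ z) (η.1 z)
      map_add' := fun η η' => by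
        rw [← integral_add (ht _ η.2).integrable (ht _ η'.2).integrable]
        simp
      map_smul' := fun c η => by
        simp only [SetLike.val_smul, Pi.smul_apply, map_smul, RingHom.id_apply]
        rw [integral_smul] }
  obtain ⟨T, hT⟩ := T₀.exists_extend
  have hT' : ∀ η, Tst 2 η → T η = ∫ z, r1cW (A.loc k σ z) (η z) := fun η hη =>
    LinearMap.congr_fun hT ⟨η, hη⟩
  have hT'' : ∀ η, Tst 2 η → T η = ∫ z, wedge4 (η z) (A.loc k σ z) := fun η hη => by
    rw [hT' η hη]; simp only [r1cW_apply]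
  refine ⟨T, ?_, fun γ hγ => ?_, hT''⟩
  · obtain ⟨C, hC0, hC⟩ := a3a_zero ha
    refine ⟨lpNorm ((closedBall (0 : E4) 3).indicator fun _ => (1 : ℝ)) 2 volume * C, fun η hη => ?_⟩
    rw [hT' η hη]
    have h1 := integral_mul_le_lpNorm a2_memLp_ind ((ht η hη).memLp 2)
    have h2 := hC η (hη.mono (by norm_num))
    have h3 : ∀ z, |(closedBall (0 : E4) 3).indicator (fun _ => (1 : ℝ)) z * r1cW (A.loc k σ z) (η z)| =
        |r1cW (A.loc k σ z) (η z)| := fun z => by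
      by_cases hz : z ∈ closedBall (0 : E4) 3
      · rw [indicator_of_mem hz, one_mul]
      · have hz' : (2 : ℝ) < ‖z‖ := by
          rw [mem_closedBall_zero_iff, not_le] at hz; linarith
        simp [hη.2 z hz']
    simp only [h3] at h1
    calc |∫ z, r1cW (A.loc k σ z) (η z)| ≤ ∫ z, |r1cW (A.loc k σ z) (η z)| := abs_integral_le_integral_abs
      _ ≤ _ := h1
      _ ≤ lpNorm ((closedBall (0 : E4) 3).indicator fun _ => (1 : ℝ)) 2 volume * (C * lpNorm η 2 volume) :=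
          mul_le_mul_of_nonneg_left h2 lpNorm_nonneg
      _ = _ := by rw [hs, mul_assoc]
  · rw [hT'' _ hγ.d1']
    exact stokes (hγ.mono (by norm_num)) hβ (fun z hz a c => hσ.skew _ _ _) (hc k)

theorem r1c_fam {O : Set E4} (hO : IsOpen O) {Ψ : E4 × E4 → G} (h : ContDiffOn ℝ ∞ Ψ (O ×ˢ V))
    (h0 : ∀ x ∈ O, ∀ y : E4, 2 < ‖y‖ → Ψ (x, y) = 0) : Fam O Ψ := by
  refine ⟨fun p hp => ContDiffAt.contDiffWithinAt ?_, h0⟩
  by_cases hV : p.2 ∈ V
  · exact h.contDiffAt ((hO.prod V_open).mem_nhds ⟨hp.1, hV⟩)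
  · have hp2 : (2 : ℝ) < ‖p.2‖ := by
      rw [mem_V, not_lt] at hV; linarith
    have hn : O ×ˢ {y : E4 | 2 < ‖y‖} ∈ 𝓝 p :=
      (hO.prod (isOpen_lt continuous_const continuous_norm)).mem_nhds ⟨hp.1, hp2⟩
    refine (contDiffAt_const (c := (0 : G))).congr_of_eventuallyEq ?_
    filter_upwards [hn] with q hq using h0 q.1 hq.1 q.2 hq.2

theorem r1c_swap (f : E4 × E4 → G) (p v : E4 × E4) :
    fderiv ℝ (fun q : E4 × E4 => f q.swap) p v = fderiv ℝ f p.swap v.swap := by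
  have := (ContinuousLinearEquiv.prodComm ℝ E4 E4).comp_right_fderiv (f := f) (x := p)
  exact congrArg (· v) this

theorem r1c_app2 {β : E4 × E4 → Bil E4} {p : E4 × E4} (h : DifferentiableAt ℝ β p) (v : E4 × E4) (a b : E4) :
    fderiv ℝ β p v a b = fderiv ℝ (fun q => β q a b) p v := by
  rw [fderiv_clm_apply (h.clm_apply (differentiableAt_const a)) (differentiableAt_const b),
    fderiv_clm_apply h (differentiableAt_const a)]
  simp

open Classical in
/-- The kernel with the roles of the two variables exchanged. -/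
def r1cPsi (k : ι) (δ : ℝ) (c d : E4) (p : E4 × E4) : Bil E4 :=
  if p.2 ∈ V then pb (A.I k p.2) ((ContinuousLinearMap.compL ℝ F (Bil F) ℝ
    (evB (A.I k p.1 c) (A.I k p.1 d))).comp (A.th δ (A.ψ k p.2) (A.ψ k p.1))) else 0

theorem r1cPsi_apply (k : ι) (δ : ℝ) (c d : E4) {p : E4 × E4} (hp : p.2 ∈ V) (a b : E4) :
    A.r1cPsi k δ c d p a b = A.thc k δ a b c d p.swap := by
  simp [r1cPsi, hp, thc]

theorem r1c_thc_sm {δ : ℝ} (h : A.Sm2 (A.th δ)) (k : ι) (a b c d : E4) :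
    ContDiffOn ℝ ∞ (A.thc k δ a b c d) (V ×ˢ V) := by
  have h1 : ∀ v : E4, ContDiffOn ℝ ∞ (fun p : E4 × E4 => A.I k p.1 v) (V ×ˢ V) := fun v =>
    ((A.I_sm k).1.comp contDiffOn_fst fun p hp => hp.1).clm_apply contDiffOn_const
  have h2 : ∀ v : E4, ContDiffOn ℝ ∞ (fun p : E4 × E4 => A.I k p.2 v) (V ×ˢ V) := fun v =>
    ((A.I_sm k).1.comp contDiffOn_snd fun p hp => hp.2).clm_apply contDiffOn_const
  exact ((((h k k).clm_apply (h1 a)).clm_apply (h1 b)).clm_apply (h2 c)).clm_apply (h2 d)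

theorem r1c_sub : ball (0 : E4) (3 / 2) ⊆ V := ball_subset_ball (by norm_num)

/-- The kernel vanishes unless the first point is close to the second one. -/
theorem r1c_van {r δ : ℝ} (hr : A.Small r) (hn : Near r (A.th δ)) (k : ι) {w : E4} (hw : w ∈ ball (0 : E4) (3 / 2))
    {x : M} (hx : x ∈ A.U k → 2 < ‖A.κ k x‖) : A.th δ x (A.ψ k w) = 0 := by
  rw [mem_ball_zero_iff] at hw
  refine hn _ _ (lt_of_not_ge fun hle => ?_)
  obtain ⟨h1, h2⟩ := hr k w (by linarith) x (by rwa [dist_comm])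
  have h3 := hx h1
  have h4 : ‖A.κ k x‖ ≤ ‖A.κ k x - w‖ + ‖w‖ := by
    simpa using norm_add_le (A.κ k x - w) w
  linarith

theorem r1c_Psi_fam {r δ : ℝ} (hr : A.Small r) (hn : Near r (A.th δ)) (h : A.Sm2 (A.th δ)) (k : ι) (c d : E4) :
    Fam (ball 0 (3 / 2)) (A.r1cPsi k δ c d) := by
  refine r1c_fam isOpen_ball (contDiffOn_clm_apply.2 fun a => contDiffOn_clm_apply.2 fun b => ?_)
    fun w hw z hz => ?_
  · refine ContDiffOn.congr (f := fun p : E4 × E4 => A.thc k δ a b c d p.swap) ?_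
      fun p hp => A.r1cPsi_apply k δ c d hp.2 a b
    exact (A.r1c_thc_sm h k a b c d).comp (contDiff_snd.prodMk contDiff_fst).contDiffOn
      fun p hp => ⟨hp.2, r1c_sub hp.1⟩
  · by_cases hV : z ∈ V
    · have h0 : A.th δ (A.ψ k z) (A.ψ k w) = 0 :=
        A.r1c_van hr hn k hw fun _ => by rwa [A.κψ k z hV]
      simp [r1cPsi, h0]
    · simp [r1cPsi, hV]

/-- The transposed regularisation in a chart. -/
theorem r1c_rep {r δ : ℝ} (hr : A.Small r) (hn : Near r (A.th δ)) (h : A.Sm2 (A.th δ)) {σ : M → Bil F}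
    (hσ : A.Form σ) (k : ι) {w : E4} (hw : w ∈ ball (0 : E4) (3 / 2)) (c d : E4) :
    A.loc k (A.Rt δ σ) w c d = ∫ z, wedge4 (A.r1cPsi k δ c d (w, z)) (A.loc k σ z) := by
  classical
  have := A.vol_finite
  have hg : A.Sm fun x => A.wG (A.th δ x (A.ψ k w)) (σ x) :=
    Sm.app ((h.left (A.ψ k w)).comp (A.contDiff_pair (G := Bil F)).2) hσ.1
  have hgi : Integrable (fun x => A.wG (A.th δ x (A.ψ k w)) (σ x)) A.vol :=
    hg.continuous.integrable_of_hasCompactSupport (HasCompactSupport.of_compactSpace _)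
  set f : M → ℝ := fun x => evB (A.I k w c) (A.I k w d) (A.wG (A.th δ x (A.ψ k w)) (σ x)) with hf
  have hfs : A.Sm f := hg.comp (evB (A.I k w c) (A.I k w d)).contDiff
  have h1 : A.loc k (A.Rt δ σ) w c d = ∫ x, f x ∂A.vol := by
    rw [hf, (evB (A.I k w c) (A.I k w d)).integral_comp_comm hgi]
    rfl
  set u : E4 → ℝ := fun z => if z ∈ V then f (A.ψ k z) else 0 with hu
  have hu0 : ∀ z, 2 < ‖z‖ → u z = 0 := fun z hz => by
    by_cases hV : z ∈ V
    · have h0 : A.th δ (A.ψ k z) (A.ψ k w) = 0 :=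
        A.r1c_van hr hn k hw fun _ => by rwa [A.κψ k z hV]
      have h00 : A.wG (0 : F →L[ℝ] F →L[ℝ] Bil F) = 0 := by
        simpa using A.wG_smul (0 : ℝ) (0 : F →L[ℝ] F →L[ℝ] Bil F)
      simp [hu, hV, hf, h0, h00]
    · simp [hu, hV]
  have hut : Tst 2 u := tst_of_contDiffOn (by norm_num)
    ((hfs k).congr fun z hz => by simp [hu, hz]) hu0
  have hfe : f = A.ext k u := by
    refine A.eq_ext k (fun x hx => ?_) fun z hz => by simp [hu, hz]
    have h0 : A.th δ x (A.ψ k w) = 0 := A.r1c_van hr hn k hw fun h' => absurd h' hx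
    have h00 : A.wG (0 : F →L[ℝ] F →L[ℝ] Bil F) = 0 := by
      simpa using A.wG_smul (0 : ℝ) (0 : F →L[ℝ] F →L[ℝ] Bil F)
    simp [hf, h0, h00]
  rw [h1, hfe, (A.integral_ext k hut.1.continuous fun z hz => hu0 z (by linarith)).2]
  refine integral_congr_ae (Eventually.of_forall fun z => ?_)
  by_cases hV : z ∈ V
  · obtain ⟨L, hL⟩ := A.fr_at (A.ψ k z)
    have ht : A.pT (A.ψ k z) ((ContinuousLinearMap.compL ℝ F (Bil F) ℝ
        (evB (A.I k w c) (A.I k w d))).comp (A.th δ (A.ψ k z) (A.ψ k w))) =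
        (ContinuousLinearMap.compL ℝ F (Bil F) ℝ
          (evB (A.I k w c) (A.I k w d))).comp (A.th δ (A.ψ k z) (A.ψ k w)) := by
      refine (hL.piT_eq_iff _).2 ⟨fun a b => ?_, fun a b => ?_⟩
      · simp only [ContinuousLinearMap.comp_apply, ContinuousLinearMap.compL_apply, evB_apply]
        rw [(A.th_alg δ _ _ a b).2.1]
        simp
      · simp only [ContinuousLinearMap.comp_apply, ContinuousLinearMap.compL_apply, evB_apply]
        rw [(A.th_alg δ _ _ a b).2.2]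
    have h2 := wedge4_loc k hV ht (hσ.2 (A.ψ k z))
    simp only [hu, hV, if_true, r1cPsi, smul_eq_mul, hf, evB_apply]
    rw [A.wG_eval, ← h2]
    rfl
  · simp [hu, hV, r1cPsi, wedge4]

/-- `closed_of_kernel` with the distribution of `exists_wedge_dist` and the roles of the two variables exchanged:
`Ψ c d (w, z) = if z ∈ V then pb (I k z) (th δ (ψ z) (ψ w) · · (I w c) (I w d)) else 0`; for `‖w‖ < 3/2`
`loc k (Rt δ σ) w c d = ∫ z, wedge4 (Ψ c d (w, z)) (loc k σ z)` by `wG_eval`, `integral_ext`, `wedge4_loc`; `Γ` from `mq2`. -/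
theorem closed_Rt : ∀ᶠ δ in 𝓝[>] (0 : ℝ), ∀ σ : M → Bil F, A.Form σ → A.Closed σ → A.Closed (A.Rt δ σ) := by
  classical
  obtain ⟨C, hC1, hC⟩ := A.near_ker
  obtain ⟨C₀, hC₀, hmq⟩ := A.mq2
  filter_upwards [A.form_Rt, A.sm2_ker, A.small_ev C, hmq, a7a_small C₀ (c := 1 / 2) (by norm_num),
    self_mem_nhdsWithin] with δ hF hS hr hq hδ' hδ σ hσ hc
  have hn : Near (C * δ) (A.th δ) := (hC δ hδ).1
  refine closed_of_local (hF σ hσ.1.continuous).1 fun x => ⟨A.ch x, (A.ch_spec x).1, ?_⟩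
  set k := A.ch x
  obtain ⟨T, hT, hTc, hTe⟩ := A.exists_wedge_dist hσ hc k
  have hΨ : ∀ c d, Fam (ball 0 (3 / 2)) (A.r1cPsi k δ c d) := A.r1c_Psi_fam hr hn hS.1 k
  have key := closed_of_kernel hT hTc (O := ball 0 (3 / 2)) isOpen_ball hΨ (σ := A.loc k (A.Rt δ σ))
    (fun w hw c d => by
      rw [hTe _ ((hΨ c d).tst isOpen_ball hw)]
      exact A.r1c_rep hr hn hS.1 hσ k hw c d) ?_
  · refine key.2 _ ?_
    rw [mem_ball_zero_iff]
    linarith [(A.ch_spec x).2.1]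
  · intro c d e
    obtain ⟨Γ, hΓ, hΓ0, hΓe⟩ := hq k c d e
    have hfam : Fam (ball 0 (3 / 2)) fun p : E4 × E4 => if p.2 ∈ V then Γ p.swap else 0 := by
      refine r1c_fam isOpen_ball ?_ fun w hw z hz => ?_
      · refine ContDiffOn.congr (f := fun p : E4 × E4 => Γ p.swap) ?_ fun p hp => by simp [hp.2]
        exact hΓ.comp (contDiff_snd.prodMk contDiff_fst).contDiffOn fun p hp => ⟨hp.2, r1c_sub hp.1⟩
      · by_cases hV : z ∈ V
        · simp only [hV, if_true, Prod.swap_prod_mk]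
          refine hΓ0 (z, w) ⟨hV, r1c_sub hw⟩ ?_
          rw [mem_ball_zero_iff] at hw
          have h4 : ‖z‖ ≤ ‖z - w‖ + ‖w‖ := by simpa using norm_add_le (z - w) w
          simp only
          linarith
        · simp [hV]
    refine ⟨_, hfam, fun w hw z => ?_⟩
    by_cases hV : z ∈ V
    · have hzw : (z, w) ∈ V ×ˢ V := ⟨hV, r1c_sub hw⟩
      have h1 : ∀ c d e a b : E4, fderiv ℝ (A.r1cPsi k δ d e) (w, z) (c, 0) a b =
          fderiv ℝ (A.thc k δ a b d e) (z, w) (0, c) := fun c d e a b => by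
        rw [r1c_app2 ((a6b_at isOpen_ball (hΨ d e) hw z).differentiableAt (by simp))]
        have he : (fun q => A.r1cPsi k δ d e q a b) =ᶠ[𝓝 (w, z)] fun q => A.thc k δ a b d e q.swap := by
          filter_upwards [(isOpen_univ.prod V_open).mem_nhds (show (w, z) ∈ univ ×ˢ V from ⟨trivial, hV⟩)]
            with q hq using A.r1cPsi_apply k δ d e hq.2 a b
        rw [he.fderiv_eq, r1c_swap]
        rfl
      have h2 : ∀ a : E4, fderiv ℝ (fun y' : E4 => if y' ∈ V then Γ (y', w) else 0) z a =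
          fderiv ℝ Γ (z, w) (a, 0) := fun a => by
        have he : (fun y' : E4 => if y' ∈ V then Γ (y', w) else 0) =ᶠ[𝓝 z] fun y' => Γ (y', w) := by
          filter_upwards [V_open.mem_nhds hV] with y hy using by simp [hy]
        have hd := HasFDerivAt.comp (f := fun y' : E4 => (y', w)) z (a7a_diff hΓ hzw).hasFDerivAt
          (hasFDerivAt_prodMk_left (𝕜 := ℝ) z w)
        rw [he.fderiv_eq]
        exact congrArg (· a) hd.fderiv
      ext a b
      simp only [add_apply, d1_apply, h1, Prod.swap_prod_mk, h2]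
      exact hΓe (z, w) hzw a b
    · have hz : (2 : ℝ) < ‖z‖ := by
        rw [mem_V, not_lt] at hV; linarith
      rw [a6b_zero isOpen_ball (hΨ d e) hw hz, a6b_zero isOpen_ball (hΨ e c) hw hz,
        a6b_zero isOpen_ball (hΨ c d) hw hz, (hfam.tst isOpen_ball hw).d1'.2 z hz]
      simp

theorem pair_zero : ∀ᶠ δ in 𝓝[>] (0 : ℝ), ∀ S S' : Cur M F, A.Bdd S → A.Bdd S' → A.Ex S → A.Cl S' →
    ∫ x, A.wG (A.R S δ x) (A.R S' δ x) ∂A.vol = 0 := by
  filter_upwards [A.form_R, A.closed_R, A.form_Rt, A.closed_Rt] with δ h1 h2 h3 h4 S S' hS hS' he hc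
  have f := h1 S' hS'
  rw [← (h3 _ f.1.continuous).2 S hS]
  exact he _ (h3 _ f.1.continuous).1 (h4 _ f (h2 S' hS' hc))

end Atl
end Crest.Agent.R240
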