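import Crest.Agent.R240.R0
import Crest.Agent.R240.C6
import Crest.Agent.R240.A11

/-! Block T0: kernel estimates against a current that is bounded at scale `δ`. -/

set_option autoImplicit false
set_option maxSynthPendingDepth 3
set_option linter.unusedSectionVars false
set_option linter.unusedVariables false
open MeasureTheory Filter Set Metric
open scoped ENNReal NNReal Topology ContDiff InnerProductSpace InnerProduct

noncomputable section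
namespace Crest.Agent.R240

namespace Atl
variable {M F ι : Type*} [MetricSpace M] [CompactSpace M] [NormedAddCommGroup F] [InnerProductSpace ℝ F]
  [FiniteDimensional ℝ F] [Fintype ι] (A : Atl M F ι)
  {G G' : Type*} [NormedAddCommGroup G] [NormedSpace ℝ G] [FiniteDimensional ℝ G]
  [NormedAddCommGroup G'] [NormedSpace ℝ G'] [FiniteDimensional ℝ G']
  [MeasurableSpace M] [BorelSpace M] [MeasurableSpace F] [BorelSpace F]

variable {A}

/-- `glob_int`/`int_chart` for the kernel `δ⁻⁴ • K δ`: the integral is `∑ k, T (ext k (KM (ck k K) δ ϖ (pk k) (φ k ^ 2 • f)))`; `KM_hs` with `ρ = 1`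
(`KB.sup`), `AB`, `lpNorm_push_le` with `g = ‖φ k ^ 2 • f‖`, `g' = ‖f‖`, `A.lip`. -/
theorem KT_core (s : ℕ) {C₀ : ℝ} (hC : 0 ≤ C₀) {K : ℝ → M → M → G →L[ℝ] Bil F} (hK : A.KB C₀ K) :
    ∃ C : ℝ, 1 ≤ C ∧ ∀ᶠ δ in 𝓝[>] (0 : ℝ), ∀ (T : Cur M F) (c : ℝ), A.Bdd T → 0 ≤ c → A.AB T s δ c →
      ∀ (ϖ : Measure M) [IsFiniteMeasure ϖ] (f : M → G), Continuous f →
        |∫ x, T (fun y => (δ ^ 4)⁻¹ • K δ x y (f x)) ∂ϖ| ≤
          C * c * (δ ^ 2)⁻¹ * Real.sqrt (m2 ϖ (fun x => ‖f x‖) (C * δ)) := by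
  obtain ⟨C₁, h0, h1⟩ := hK.sup hC
  have h2 : ∀ k, Sup (C₁ + 1) (A.ck k K) := fun k => by
    filter_upwards [h1 k, self_mem_nhdsWithin] with δ h hδ p hp hq
    exact h p hp (by linarith [mem_Ioi.1 hδ])
  choose Ck hk0 hk using fun k => KM_hs s (by linarith : 0 ≤ C₁ + 1) (hK.2 k) (h2 k) M
  obtain ⟨Cp, hp0, hp⟩ := lpNorm_push_le (X := M)
  obtain ⟨L, hL, hl⟩ := A.lip
  have h3 : 0 ≤ ∑ k, Ck k * Cp * (C₁ + 1) ^ 2 := Finset.sum_nonneg fun k _ => by have := hk0 k; positivity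
  have h4 : 0 ≤ 2 * L * (C₁ + 1) := by positivity
  refine ⟨1 + ∑ k, Ck k * Cp * (C₁ + 1) ^ 2 + 2 * L * (C₁ + 1), by linarith, ?_⟩
  filter_upwards [hK.1, A.small_ev C₀, eventually_all.2 hk, a8d_small (C₀ := C₁ + 2), self_mem_nhdsWithin]
    with δ k1 k2 k3 k4 hδ T c hT hc hA ϖ _ f hf
  have hδ : 0 < δ := hδ
  have s2 : A.Sm2 fun x y => (δ ^ 4)⁻¹ • K δ x y := k1.1.comp (contDiff_id.const_smul _)
  have n2 : Near (C₀ * δ) fun x y => (δ ^ 4)⁻¹ • K δ x y := fun x y h =>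
    ContinuousLinearMap.ext fun v => by simp [k1.2 x y h]
  have e1 := ((glob_int k2 s2 n2 ϖ hf).2 T hT).2
  have e2 : ∀ k, (fun y => ∫ ξ, A.ck k (fun _ x y => (δ ^ 4)⁻¹ • K δ x y) 0 (A.pk k ξ, y) (A.φ k ξ ^ 2 • f ξ) ∂ϖ) =
      KM (A.ck k K) δ ϖ (A.pk k) fun ξ => A.φ k ξ ^ 2 • f ξ := fun k => by
    funext y
    by_cases h : y ∈ V
    · simp only [KM, ck, h, if_true, ContinuousLinearMap.smul_apply]
    · simp [KM, ck, h]
  rw [(int_chart k2 s2 n2 ϖ hf).2, map_sum] at e1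
  simp only [e2] at e1
  obtain ⟨B, hB⟩ := isBounded_iff_forall_norm_le.1 (isCompact_range hf).isBounded
  have hφ : ∀ k x, ‖A.φ k x ^ 2 • f x‖ ≤ ‖f x‖ := fun k x => by
    rw [norm_smul, Real.norm_of_nonneg (sq_nonneg _)]
    exact mul_le_of_le_one_left (norm_nonneg _) ((Finset.single_le_sum (f := fun k => A.φ k x ^ 2)
      (fun _ _ => sq_nonneg _) (Finset.mem_univ k)).trans_eq (A.φ_sum x))
  have hc' : ∀ k, Continuous fun x => A.φ k x ^ 2 • f x := fun k => ((A.sm_basic.1 k).continuous.pow 2).smul hf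
  have hm : m2 ϖ (fun x => ‖f x‖) (2 * L * ((C₁ + 1) * δ)) ≤ m2 ϖ (fun x => ‖f x‖)
      ((1 + ∑ k, Ck k * Cp * (C₁ + 1) ^ 2 + 2 * L * (C₁ + 1)) * δ) :=
    setIntegral_mono_set (Continuous.integrable_of_hasCompactSupport (by fun_prop)
      (HasCompactSupport.of_compactSpace _)).integrableOn (.of_forall fun p => by positivity)
      (LE.le.eventuallyLE fun p hp => le_trans (a := dist p.1 p.2) hp (by nlinarith))
  refine (congrArg abs e1).symm.trans_le ((Finset.abs_sum_le_sum_abs _ _).trans ?_)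
  calc _ ≤ ∑ k, Ck k * Cp * (C₁ + 1) ^ 2 * (c * (δ ^ 2)⁻¹ *
        √(m2 ϖ (fun x => ‖f x‖) (2 * L * ((C₁ + 1) * δ)))) := Finset.sum_le_sum fun k _ => ?_
    _ ≤ _ := ?_
  · obtain ⟨p1, p2, p3⟩ := A.pk_spec k
    obtain ⟨t1, t2⟩ := k3 k ϖ (A.pk k) _ 1 B one_le_two p1 (hc' k).aestronglyMeasurable
      fun ξ => ⟨p2 ξ, (hφ k ξ).trans (hB _ ⟨ξ, rfl⟩)⟩
    have t3 := hp ϖ (A.pk k) (fun ξ => ‖A.φ k ξ ^ 2 • f ξ‖) (fun ξ => ‖f ξ‖) L B ((C₁ + 1) * δ) (by positivity)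
      p1 (hc' k).norm.measurable hf.norm.measurable (fun ξ => ⟨norm_nonneg _, hφ k ξ, hB _ ⟨ξ, rfl⟩⟩)
      (fun x y hx hy => by
        obtain ⟨a1, a2, -⟩ := p3 x fun h => hx (by simp [h])
        obtain ⟨b1, b2, -⟩ := p3 y fun h => hy (by simp [h])
        rw [a1, b1]
        exact (hl k x a2 y b2).2) (by linarith)
    refine (hA k _ ⟨t1.1, fun z hz => t1.2 z (by linarith)⟩).trans ((mul_le_mul_of_nonneg_left
      (t2.trans (mul_le_mul_of_nonneg_left t3 (by have := hk0 k; positivity))) hc).trans_eq ?_)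
    field_simp
  · rw [← Finset.sum_mul, mul_assoc _ c, mul_assoc _ (c * _)]
    exact mul_le_mul (by linarith) (mul_le_mul_of_nonneg_left (Real.sqrt_le_sqrt hm) (by positivity))
      (by positivity) (by linarith)

/-- `m2_le`, `vol_ball_le`. -/
theorem KT_vol (s : ℕ) {C₀ : ℝ} (hC : 0 ≤ C₀) {K : ℝ → M → M → G →L[ℝ] Bil F} (hK : A.KB C₀ K) :
    ∃ C : ℝ, 1 ≤ C ∧ ∀ᶠ δ in 𝓝[>] (0 : ℝ), ∀ (T : Cur M F) (c : ℝ), A.Bdd T → 0 ≤ c → A.AB T s δ c →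
      ∀ f : M → G, Continuous f →
        |∫ x, T (fun y => (δ ^ 4)⁻¹ • K δ x y (f x)) ∂A.vol| ≤ C * c * lpNorm f 2 A.vol := by
  obtain ⟨C, hC1, h⟩ := KT_core s hC hK
  obtain ⟨v, v0, hv⟩ := A.vol_ball_le
  have := A.vol_finite
  refine ⟨C ^ 3 * (Real.sqrt v + 1), one_le_mul_of_one_le_of_one_le (one_le_pow₀ hC1)
    (by linarith [Real.sqrt_nonneg v]), ?_⟩
  filter_upwards [h, self_mem_nhdsWithin] with δ hδ δ0 T c hT c0 hAB f hf
  have δ0' : (0 : ℝ) < δ := δ0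
  have C0 : 0 < C := by linarith
  have hm : MemLp (fun x => ‖f x‖) 2 A.vol :=
    hf.norm.memLp_of_hasCompactSupport (HasCompactSupport.of_compactSpace _)
  have h1 := m2_le v0 hv (fun x => norm_nonneg (f x)) hm (mul_pos C0 δ0')
  rw [lpNorm_norm hf.aestronglyMeasurable] at h1
  have l0 : 0 ≤ lpNorm f 2 A.vol := lpNorm_nonneg
  have h2 : Real.sqrt (m2 A.vol (fun x => ‖f x‖) (C * δ)) ≤
      Real.sqrt v * (C * δ) ^ 2 * lpNorm f 2 A.vol := by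
    refine Real.sqrt_le_iff.2 ⟨by positivity, h1.trans (le_of_eq ?_)⟩
    rw [mul_pow (_ * _), mul_pow (Real.sqrt v), Real.sq_sqrt v0]
    ring
  refine (hδ T c hT c0 hAB A.vol f hf).trans ((mul_le_mul_of_nonneg_left h2 (by positivity)).trans ?_)
  have e : C * c * (δ ^ 2)⁻¹ * (Real.sqrt v * (C * δ) ^ 2 * lpNorm f 2 A.vol) =
      C ^ 3 * Real.sqrt v * c * lpNorm f 2 A.vol := by field_simp
  rw [e]
  gcongr
  linarith

variable (A)

/-- `T (dk r x) = r³ * T (y ↦ r⁻⁴ • kD r x y 1)`; `kb_dk`, `KT_core`, `m2_one`. -/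
theorem T_dk_meas (s : ℕ) : ∃ C : ℝ, 1 ≤ C ∧ ∀ᶠ r in 𝓝[>] (0 : ℝ), ∀ (T : Cur M F) (n : ℕ) (c : ℝ), A.IsT n T → 0 ≤ c →
    A.AB T s r c → ∀ (ϖ : Measure M) [IsFiniteMeasure ϖ],
      |∫ x, T (A.dk r x) ∂ϖ| ≤ C * c * r * Real.sqrt (mm ϖ ϖ (C * r)) := by
  obtain ⟨C₀, h0, hK⟩ := A.kb_dk
  obtain ⟨C, hC1, h⟩ := KT_core s (zero_le_one.trans h0) hK
  refine ⟨C, hC1, ?_⟩
  filter_upwards [h, self_mem_nhdsWithin] with r hr r0 T n c hT c0 hAB ϖ _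
  have r0' : (0 : ℝ) < r := r0
  have h1 := hr T c ⟨n, hT.2⟩ c0 hAB ϖ (fun _ => (1 : ℝ)) continuous_const
  simp only [norm_one] at h1
  rw [m2_one] at h1
  have e : ∀ x, T (A.dk r x) = r ^ 3 * T (fun y => (r ^ 4)⁻¹ • A.kD r x y 1) := fun x => by
    rw [hT.1, ← smul_eq_mul, ← map_smul]
    congr 1
    funext y
    rw [Pi.smul_apply, kD, ContinuousLinearMap.smulRight_apply, one_apply_eq_self, one_smul,
      smul_smul, smul_smul, show r ^ 3 * (r ^ 4)⁻¹ * r = 1 by field_simp, one_smul]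
  simp only [e]
  rw [integral_const_mul, abs_mul, abs_of_pos (pow_pos r0' 3)]
  refine (mul_le_mul_of_nonneg_left h1 (pow_pos r0' 3).le).trans (le_of_eq ?_)
  field_simp

end Atl
end Crest.Agent.R240
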