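import Crest.Agent.R240.T0
import Crest.Agent.R240.P2

/-! Block T1: `L²` bounds for `R T` and the master inequality. -/

set_option autoImplicit false
set_option maxSynthPendingDepth 3
set_option linter.unusedSectionVars false
set_option linter.unusedVariables false
open MeasureTheory Filter Set Metric
open scoped ENNReal NNReal Topology ContDiff InnerProductSpace InnerProduct

noncomputable section
namespace Crest.Agent.R240

namespace Atl
variable {M F ι : Type*} [MetricSpace M] [CompactSpace M] [NormedAddCommGroup F] [InnerProductSpace ℝ F]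
  [FiniteDimensional ℝ F] [Fintype ι] (A : Atl M F ι)
  {G G' : Type*} [NormedAddCommGroup G] [NormedSpace ℝ G] [FiniteDimensional ℝ G]
  [NormedAddCommGroup G'] [NormedSpace ℝ G'] [FiniteDimensional ℝ G']
  [MeasurableSpace M] [BorelSpace M] [MeasurableSpace F] [BorelSpace F]

/-- The standing situation: `P` positive, `T` anti-invariant, `P + T` kills closed forms. -/
structure Sit (lam : Measure (M × F)) (P T : Cur M F) (n : ℕ) : Prop where
  hP : A.IsP lam P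
  hT : A.IsT n T
  ex : A.Ex (P + T)

theorem memLp_cont {f : M → G} (hf : Continuous f) : MemLp f 2 A.vol ∧ Integrable f A.vol := by
  have := A.vol_finite
  obtain ⟨C, hC⟩ := isCompact_univ.exists_bound_of_continuousOn hf.continuousOn
  have h : MemLp f 2 A.vol := MemLp.of_bound hf.aestronglyMeasurable C (ae_of_all _ fun x => hC x (mem_univ x))
  exact ⟨h, h.integrable one_le_two⟩

theorem t1a_le {g : M → Bil F} (hg : Continuous g) {B : ℝ} (hB : 0 ≤ B)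
    (h : ∫ x, ipG (g x) (g x) ∂A.vol ≤ B * lpNorm g 2 A.vol) : lpNorm g 2 A.vol ≤ 2 * B := by
  have h1 : Continuous fun x => ipG (g x) (g x) := by
    simp only [ipG_apply]
    fun_prop
  have h2 := integral_mono (A.memLp_cont (hg.norm.fun_pow 2)).2 ((A.memLp_cont h1).2.const_mul 2) fun x =>
    norm_sq_le_ipG (g x)
  rw [integral_const_mul, ← lpNorm_sq (A.memLp_cont hg).1] at h2
  nlinarith [lpNorm_nonneg (f := g) (p := 2) (μ := A.vol)]

/-- With `f = R T δ`: `‖f‖₂² ≤ 2 ∫ ipG f f = 2 ∫ T (y ↦ δ⁻⁴ • kI δ x y (f x))` (`norm_sq_le_ipG`, `ipG_R`, `IsT`), `KT_vol`.  With `g = pP f`: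
`ipG g g = ipG f (pP g) = δ * T (y ↦ δ⁻⁴ • kP δ x y (g x))` (`Fr.ipG_piP`, `Fr.piP_piP`). -/
theorem RT_L2 (s : ℕ) : ∃ C : ℝ, 1 ≤ C ∧ ∀ᶠ δ in 𝓝[>] (0 : ℝ), ∀ (T : Cur M F) (n : ℕ) (c : ℝ), A.IsT n T → 0 ≤ c →
    A.AB T s δ c → lpNorm (A.R T δ) 2 A.vol ≤ C * c ∧
      lpNorm (fun x => A.pP x (A.R T δ x)) 2 A.vol ≤ C * δ * c := by
  obtain ⟨C₀, hC₀, hI, hP, -⟩ := A.kb_th
  obtain ⟨C₁, hC₁, H₁⟩ := KT_vol s (zero_le_one.trans hC₀) hI
  obtain ⟨C₂, hC₂, H₂⟩ := KT_vol s (zero_le_one.trans hC₀) hP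
  refine ⟨2 * (C₁ + C₂), by linarith, ?_⟩
  filter_upwards [H₁, H₂, A.form_R, self_mem_nhdsWithin] with δ H₁ H₂ hR (hδ : 0 < δ) T n c hT hc hA
  have hf := (hR T hT.bdd).1
  have hg := (A.sm_basic.2.2.2.2.2.2.app hf).continuous
  have h₁ := (le_abs_self _).trans (H₁ T c hT.bdd hc hA _ hf.continuous)
  have h₂ := mul_le_mul_of_nonneg_left ((le_abs_self _).trans (H₂ T c hT.bdd hc hA _ hg)) hδ.le
  rw [← integral_const_mul, ← mul_assoc] at h₂
  constructor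
  · refine (A.t1a_le hf.continuous (by positivity) ((integral_congr_ae (ae_of_all _ fun x => ?_)).trans_le h₁)).trans
      (by nlinarith)
    rw [ipG_R, hT.1]
    congr 1
    funext y
    simp [kI, smul_smul, hδ.ne']
  · refine (A.t1a_le hg (by positivity) ((integral_congr_ae (ae_of_all _ fun x => ?_)).trans_le h₂)).trans
      (by nlinarith [mul_nonneg hδ.le hc])
    obtain ⟨L, hL⟩ := A.fr_at x
    rw [pP, hL.ipG_piP, ipG_R, hT.1, ← smul_eq_mul, ← map_smul]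
    congr 1
    funext y
    simp only [kP, pP, Pi.smul_apply, smul_apply, ContinuousLinearMap.comp_apply, smul_smul]
    rw [show δ * ((δ ^ 4)⁻¹ * δ ^ 3) = 1 by field_simp, one_smul]

theorem t1b_cs {f g : M → Bil F} (hf : Continuous f) (hg : Continuous g) :
    Integrable (fun x => ‖f x‖ * ‖g x‖) A.vol ∧
      ∫ x, ‖f x‖ * ‖g x‖ ∂A.vol ≤ lpNorm f 2 A.vol * lpNorm g 2 A.vol := by
  refine ⟨(A.memLp_cont (hf.norm.mul hg.norm)).2, ?_⟩
  have h := integral_mul_le_lpNorm (A.memLp_cont hf.norm).1 (A.memLp_cont hg.norm).1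
  rw [lpNorm_norm (A.memLp_cont hf).1.1, lpNorm_norm (A.memLp_cont hg).1.1] at h
  simpa only [abs_mul, abs_norm] using h

theorem t1b_cont {f g : M → Bil F} (hf : Continuous f) (hg : Continuous g) :
    Integrable (fun x => A.wG (f x) (g x)) A.vol :=
  (A.memLp_cont (((A.contDiff_pair (G := ℝ)).2.continuous.comp hf).clm_apply hg)).2

/-- `Fr.wG_split`, `norm_sq_le_ipG`, `pair_bound`, `Fr.norm_pi_le`, Cauchy-Schwarz. -/
theorem wG_int_bounds : ∃ C : ℝ, 1 ≤ C ∧ ∀ b b' : M → Bil F, A.Form b → A.Form b' →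
    1 / 2 * lpNorm (fun x => A.pM x (b x)) 2 A.vol ^ 2 - C * lpNorm (fun x => A.pP x (b x)) 2 A.vol ^ 2 ≤
        ∫ x, A.wG (b x) (b x) ∂A.vol ∧
      |∫ x, A.wG (b x) (b' x) ∂A.vol| ≤ C * (lpNorm b 2 A.vol * lpNorm (fun x => A.pP x (b' x)) 2 A.vol +
        lpNorm (fun x => A.pM x (b x)) 2 A.vol * lpNorm (fun x => A.pM x (b' x)) 2 A.vol) := by
  obtain ⟨C, hC, hb⟩ := A.pair_bound (G := ℝ)
  refine ⟨2 * C, by linarith, fun b b' h h' => ?_⟩
  obtain ⟨-, -, -, -, -, sM, sP⟩ := A.sm_basic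
  have c := h.1.continuous
  have c' := h'.1.continuous
  have cM := (sM.app h.1).continuous
  have cM' := (sM.app h'.1).continuous
  have cP := (sP.app h.1).continuous
  have cP' := (sP.app h'.1).continuous
  constructor
  · rw [lpNorm_sq (A.memLp_cont cM).1, lpNorm_sq (A.memLp_cont cP).1, ← integral_const_mul,
      ← integral_const_mul]
    have i1 : Integrable (fun x => 1 / 2 * ‖A.pM x (b x)‖ ^ 2) A.vol :=
      (A.memLp_cont (cM.norm.pow 2)).2.const_mul (1 / 2)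
    have i2 : Integrable (fun x => 2 * C * ‖A.pP x (b x)‖ ^ 2) A.vol :=
      (A.memLp_cont (cP.norm.pow 2)).2.const_mul (2 * C)
    rw [← integral_sub i1 i2]
    refine integral_mono (i1.sub i2) (A.t1b_cont c c) fun x => ?_
    obtain ⟨L, hL⟩ := A.fr_at x
    have e := hL.wG_split (h.2 x) (h.2 x)
    have e1 := norm_sq_le_ipG (A.pM x (b x))
    have e2 := (abs_le.1 (hb (A.pP x (b x)) (A.pP x (b x))).2).1
    have e3 : 0 ≤ C * ‖A.pP x (b x)‖ * ‖A.pP x (b x)‖ := by positivity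
    simp only [pM, pP] at e1 e2 e3 ⊢
    rw [e]
    nlinarith
  · obtain ⟨i1, j1⟩ := A.t1b_cs c cP'
    obtain ⟨i2, j2⟩ := A.t1b_cs cM cM'
    calc _ ≤ ∫ x, |A.wG (b x) (b' x)| ∂A.vol := abs_integral_le_integral_abs
      _ ≤ ∫ x, 2 * C * (‖b x‖ * ‖A.pP x (b' x)‖ + ‖A.pM x (b x)‖ * ‖A.pM x (b' x)‖) ∂A.vol := by
        refine integral_mono (A.t1b_cont c c').abs ((i1.add i2).const_mul _) fun x => ?_
        obtain ⟨L, hL⟩ := A.fr_at x
        have e := hL.wG_split (h.2 x) (h'.2 x)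
        have e1 := (hb (A.pM x (b x)) (A.pM x (b' x))).1
        have e2 := (hb (A.pP x (b x)) (A.pP x (b' x))).2
        have e3 := mul_le_mul_of_nonneg_right (mul_le_mul_of_nonneg_left (hL.norm_pi_le (b x)).2.2
          (show 0 ≤ C by linarith)) (norm_nonneg (A.pP x (b' x)))
        have e4 : 0 ≤ C * ‖A.pM x (b x)‖ * ‖A.pM x (b' x)‖ := by positivity
        simp only [pM, pP, Real.norm_eq_abs] at e1 e2 e3 e4 ⊢
        rw [e]
        refine (abs_add_le _ _).trans ?_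
        nlinarith
      _ ≤ _ := by
        rw [integral_const_mul, integral_add i1 i2]
        gcongr

/-- Bilinear expansion of `pair_zero`. -/
theorem pair_expand : ∀ᶠ δ in 𝓝[>] (0 : ℝ), ∀ P P' T : Cur M F, A.Bdd P → A.Bdd P' → A.Bdd T → A.Ex (P + T) →
    A.Cl (P' + T) → ∫ x, A.wG (A.R P δ x) (A.R P' δ x) ∂A.vol + ∫ x, A.wG (A.R P δ x) (A.R T δ x) ∂A.vol +
      ∫ x, A.wG (A.R P' δ x) (A.R T δ x) ∂A.vol + ∫ x, A.wG (A.R T δ x) (A.R T δ x) ∂A.vol = 0 := by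
  filter_upwards [A.pair_zero, A.form_R] with δ h0 hf P P' T hP hP' hT hE hC
  have h := h0 (P + T) (P' + T) (hP.add hT) (hP'.add hT) hE hC
  have c1 := (hf P hP).1.continuous
  have c2 := (hf P' hP').1.continuous
  have c3 := (hf T hT).1.continuous
  have i1 := A.t1b_cont c1 c2
  have i2 := A.t1b_cont c1 c3
  have i3 := A.t1b_cont c2 c3
  have i4 := A.t1b_cont c3 c3
  rw [← h, ← integral_add i1 i2, ← integral_add (i1.fun_add i2) i3,
    ← integral_add ((i1.fun_add i2).fun_add i3) i4]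
  refine integral_congr_ae (Eventually.of_forall fun x => ?_)
  simp only [A.R_add, A.wG_add, add_apply, map_add,
    A.wG_comm (A.R T δ x) (A.R P' δ x)]
  ring

variable {A} {lam : Measure (M × F)} {P T : Cur M F} {n : ℕ}

theorem t1c_arith {C1 C2 C3 C4 C δ c p X Y a m E PP PT TT : ℝ} (h1 : 1 ≤ C1) (h2 : 1 ≤ C2) (h3 : 1 ≤ C3)
    (h4 : 1 ≤ C4) (hC : C = 4 * (C1 + 4 * (C4 * C3) ^ 2 + 2 * (C4 * C3 * C2) + C4 * C2 ^ 2) + C3) (hδ : 0 < δ)
    (hc : 0 ≤ c) (hp : 0 ≤ p) (hX : 0 ≤ X) (hY0 : 0 ≤ Y) (hE : 0 ≤ E) (hY : Y ≤ C2 * δ * c)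
    (ha : a ≤ C3 * δ⁻¹ * p) (hm : m ≤ C3 * p) (hPP : E - C1 * p ^ 2 ≤ PP)
    (hTT : 1 / 2 * X ^ 2 - C4 * Y ^ 2 ≤ TT) (hPT : |PT| ≤ C4 * (a * Y + m * X)) (h : PP + PT + PT + TT = 0) :
    X ^ 2 + E ≤ C * (p ^ 2 + p * c + δ ^ 2 * c ^ 2) := by
  have hC4 : 0 ≤ C4 := by linarith
  have b1 : a * Y ≤ C3 * C2 * (p * c) := by
    refine (mul_le_mul ha hY hY0 (by positivity)).trans (le_of_eq ?_)
    field_simp
  have b2 := mul_le_mul_of_nonneg_left b1 hC4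
  have b3 := mul_le_mul_of_nonneg_left (mul_le_mul_of_nonneg_right hm hX) hC4
  have b4 := mul_le_mul_of_nonneg_left (pow_le_pow_left₀ hY0 hY 2) hC4
  have b5 := (abs_le.1 hPT).1
  have b6 := sq_nonneg (X - 4 * (C4 * C3) * p)
  have c1 : 4 * (C1 + 4 * (C4 * C3) ^ 2) ≤ C := by rw [hC]; have : 0 ≤ 2 * (C4 * C3 * C2) + C4 * C2 ^ 2 := by positivity
                                                   linarith
  have c2 : 8 * (C4 * C3 * C2) ≤ C := by rw [hC]; have : 0 ≤ 4 * (C4 * C3) ^ 2 + C4 * C2 ^ 2 := by positivity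
                                         linarith
  have c3 : 4 * (C4 * C2 ^ 2) ≤ C := by rw [hC]; have : 0 ≤ 4 * (C4 * C3) ^ 2 + 2 * (C4 * C3 * C2) := by positivity
                                        linarith
  have d1 := mul_le_mul_of_nonneg_right c1 (sq_nonneg p)
  have d2 := mul_le_mul_of_nonneg_right c2 (mul_nonneg hp hc)
  have d3 := mul_le_mul_of_nonneg_right c3 (mul_nonneg (sq_nonneg δ) (sq_nonneg c))
  linarith

/-- `pair_expand` with `P' = P`, `RP_pos`, `wG_int_bounds`, `RP_L2`, `RT_L2`; absorb `C p X ≤ X²/4 + C² p²`; `mm_mono`. -/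
theorem Sit.master (h : A.Sit lam P T n) (s : ℕ) : ∃ c₀ C : ℝ, 0 < c₀ ∧ 1 ≤ C ∧ ∀ᶠ δ in 𝓝[>] (0 : ℝ), ∀ c p : ℝ, 0 ≤ c →
    A.AB T s δ c → p = δ⁻¹ * Real.sqrt (mm lam.fst lam.fst (C * δ)) →
      lpNorm (fun x => A.pM x (A.R T δ x)) 2 A.vol ^ 2 + c₀ * (δ ^ 4)⁻¹ * A.angE lam lam (c₀ * δ) ≤
        C * (p ^ 2 + p * c + δ ^ 2 * c ^ 2) := by
  obtain ⟨c1, C1, hc1, hC1, e1⟩ := A.RP_pos
  obtain ⟨C2, hC2, e2⟩ := A.RT_L2 s
  obtain ⟨C3, hC3, e3⟩ := A.RP_L2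
  obtain ⟨C4, hC4, e4⟩ := A.wG_int_bounds
  obtain ⟨C, hC⟩ : ∃ C, C = 4 * (C1 + 4 * (C4 * C3) ^ 2 + 2 * (C4 * C3 * C2) + C4 * C2 ^ 2) + C3 := ⟨_, rfl⟩
  have g0 : 0 ≤ 4 * (C4 * C3) ^ 2 + 2 * (C4 * C3 * C2) + C4 * C2 ^ 2 := by positivity
  have g1 : C1 ≤ C := by linarith
  have g3 : C3 ≤ C := by linarith
  refine ⟨c1, C, hc1, by linarith, ?_⟩
  filter_upwards [e1, e2, e3, A.pair_expand, A.form_R, self_mem_nhdsWithin] with δ a1 a2 a3 a4 a5 hδ c p hc hAB hp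
  have hδ : 0 < δ := hδ
  have := h.hP.1
  have hmm := mm_mono lam.fst lam.fst
  have fP := a5 P h.hP.bdd
  have fT := a5 T h.hT.bdd
  have b3 := Real.sqrt_le_sqrt (hmm.1 (mul_le_mul_of_nonneg_right g3 hδ.le))
  have b1 := hmm.1 (mul_le_mul_of_nonneg_right g1 hδ.le)
  have hp2 : p ^ 2 = (δ ^ 2)⁻¹ * mm lam.fst lam.fst (C * δ) := by
    rw [hp, mul_pow, Real.sq_sqrt (hmm.2 _).1, inv_pow]
  refine t1c_arith hC1 hC2 hC3 hC4 hC hδ hc (by rw [hp]; positivity) lpNorm_nonneg lpNorm_nonneg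
    (mul_nonneg (by positivity) ((A.angE_props h.hP h.hP).1 _)) (a2 T n c h.hT hc hAB).2
    ((a3 lam P h.hP).1.trans ?_) ((a3 lam P h.hP).2.trans ?_) (le_trans ?_ (a1 lam lam P P h.hP h.hP))
    (e4 _ _ fT fT).1 (e4 _ _ fP fT).2 (a4 P P T h.hP.bdd h.hP.bdd h.hT.bdd h.ex h.ex.cl)
  · rw [hp]
    refine (mul_le_mul_of_nonneg_left b3 (by positivity)).trans (le_of_eq (by ring))
  · rw [hp]
    refine (mul_le_mul_of_nonneg_left b3 (by positivity)).trans (le_of_eq (by ring))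
  · rw [hp2]
    have := mul_le_mul_of_nonneg_left b1 (show 0 ≤ C1 * (δ ^ 2)⁻¹ by positivity)
    linarith

theorem Sit.RT_q (h : A.Sit lam P T n) (s : ℕ) : ∃ C₀ : ℝ, 1 ≤ C₀ ∧ ∀ η : ℝ, 0 < η → ∃ C : ℝ, 0 ≤ C ∧
    ∀ᶠ δ in 𝓝[>] (0 : ℝ), ∀ c : ℝ, 0 ≤ c → A.AB T s δ c →
      lpNorm (fun x => A.pM x (A.R T δ x)) 2 A.vol ≤ C * (δ⁻¹ * Real.sqrt (mm lam.fst lam.fst (C₀ * δ))) + η * c := by
  obtain ⟨c₀, C, hc₀, hC, e⟩ := h.master s
  refine ⟨C, hC, fun η hη => ⟨C + C / η, by positivity, ?_⟩⟩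
  have hsm : ∀ᶠ δ in 𝓝[>] (0 : ℝ), C * δ ^ 2 < η ^ 2 :=
    nhdsWithin_le_nhds ((show Continuous fun δ : ℝ => C * δ ^ 2 by fun_prop).continuousAt.eventually_lt
      continuousAt_const (by simpa using pow_pos hη 2))
  filter_upwards [e, hsm, self_mem_nhdsWithin] with δ a1 a2 hδ c hc hAB
  have hδ : 0 < δ := hδ
  have b1 := a1 c _ hc hAB rfl
  set p := δ⁻¹ * Real.sqrt (mm lam.fst lam.fst (C * δ)) with hp
  have hp0 : 0 ≤ p := by positivity
  have b2 : 0 ≤ c₀ * (δ ^ 4)⁻¹ * A.angE lam lam (c₀ * δ) :=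
    mul_nonneg (by positivity) ((A.angE_props h.hP h.hP).1 _)
  refine (abs_le_of_sq_le_sq' ?_ (by positivity)).2
  have b3 : 0 ≤ C / η := by positivity
  have b4 : C ≤ (C + C / η) ^ 2 := by nlinarith
  have b5 : C ≤ 2 * ((C + C / η) * η) := by
    rw [add_mul, div_mul_cancel₀ _ hη.ne']
    nlinarith
  have b6 := mul_le_mul_of_nonneg_right b4 (sq_nonneg p)
  have b7 := mul_le_mul_of_nonneg_right b5 (mul_nonneg hp0 hc)
  have b8 := mul_le_mul_of_nonneg_right a2.le (sq_nonneg c)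
  linarith

end Atl
end Crest.Agent.R240
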